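import Mathlib

namespace Vale.Agent.P067

open Classical

variable {V : Type} {G : Type} [Group G] [MulAction G V]

/-- Chains with coefficients in `ZMod 2` on unordered simplices (the empty simplex included). -/
abbrev Chain (V : Type) : Type := Finset V →₀ ZMod 2

/-- The augmented boundary. -/
noncomputable def bd : Chain V →ₗ[ZMod 2] Chain V :=
  Finsupp.linearCombination (ZMod 2) fun s => ∑ v ∈ s, Finsupp.single (s.erase v) 1

/-- A set of finite sets closed under subsets and containing the empty set. -/
def IsCx (K : Set (Finset V)) : Prop := ∅ ∈ K ∧ ∀ s ∈ K, ∀ t ⊆ s, t ∈ K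

/-- Chains supported on the faces of `K` with `n` vertices. -/
noncomputable def chainsOf (K : Set (Finset V)) (n : ℕ) : Submodule (ZMod 2) (Chain V) :=
  Finsupp.supported (ZMod 2) (ZMod 2) {s | s ∈ K ∧ s.card = n}

/-- The vertices occurring in a chain. -/
noncomputable def vertsOf (c : Chain V) : Finset V := c.support.biUnion id

/-- Every cycle on faces with `n` vertices bounds. -/
def AcycAt (K : Set (Finset V)) (n : ℕ) : Prop :=
  ∀ z ∈ chainsOf K n, bd z = 0 → ∃ b ∈ chainsOf K (n + 1), bd b = z

/-- Cycles with at most `M` vertices bound with at most `B` vertices. -/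
def FillAt (K : Set (Finset V)) (n M B : ℕ) : Prop :=
  ∀ z ∈ chainsOf K n, bd z = 0 → (vertsOf z).card ≤ M →
    ∃ b ∈ chainsOf K (n + 1), bd b = z ∧ (vertsOf b).card ≤ B

/-- The link of a vertex. -/
def lkV (K : Set (Finset V)) (x : V) : Set (Finset V) := {s | x ∉ s ∧ insert x s ∈ K}

/-- The action of a group element on chains. -/
noncomputable def act (g : G) : Chain V →ₗ[ZMod 2] Chain V :=
  Finsupp.lmapDomain (ZMod 2) (ZMod 2) fun s => s.image (fun v => g • v)

/-- The kernel of the projection to coinvariants. -/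
noncomputable def relI (H : Subgroup G) : Submodule (ZMod 2) (Chain V) :=
  Submodule.span (ZMod 2) {c | ∃ h ∈ H, ∃ b : Chain V, c = act h b + b}

/-- `K` is invariant under `H`. -/
def InvCx (H : Subgroup G) (K : Set (Finset V)) : Prop :=
  ∀ h ∈ H, ∀ s ∈ K, s.image (fun v => h • v) ∈ K

/-- Nonempty faces have finite stabilisers of odd order. -/
def OddStab (H : Subgroup G) (K : Set (Finset V)) : Prop :=
  ∀ s ∈ K, s.Nonempty →
    {h : G | h ∈ H ∧ s.image (fun v => h • v) = s}.Finite ∧
    Odd (Nat.card {h : G | h ∈ H ∧ s.image (fun v => h • v) = s})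

/-- Every `H`-cycle on faces with `n` vertices bounds modulo `relI H`. -/
def GAC (H : Subgroup G) (K : Set (Finset V)) (n : ℕ) : Prop :=
  ∀ z ∈ chainsOf K n, bd z ∈ relI (V := V) H →
    ∃ b ∈ chainsOf K (n + 1), z + bd b ∈ relI (V := V) H

end Vale.Agent.P067
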