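import Mathlib
import Vale.Agent.P067.Chains

namespace Vale.Agent.P067

open Classical Polynomial

/-- `SL_N` over `(ZMod p)[t]`. -/
abbrev SLP (p N : ℕ) : Type :=
  Matrix.SpecialLinearGroup (Fin N) (Polynomial (ZMod p))

/-- The principal congruence subgroup of level `t^m`. -/
noncomputable def Gam (p N m : ℕ) : Subgroup (SLP p N) :=
  MonoidHom.ker (Matrix.SpecialLinearGroup.map (n := Fin N)
    (Ideal.Quotient.mk (Ideal.span {(Polynomial.X : Polynomial (ZMod p)) ^ m})))

/-- Vanishing of mod 2 group homology of `Gam p N m` in degree `n - 1`, computed on the full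
simplex over the group. -/
def Vanish (p N m n : ℕ) : Prop :=
  GAC (V := SLP p N) (Gam p N m) Set.univ n

end Vale.Agent.P067
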