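import Mathlib
import Vale.Agent.P067.Chains

namespace Vale.Agent.P067

open Classical Polynomial

/-- The ring `(ZMod p)[t]`. -/
abbrev PR (p : ℕ) : Type := Polynomial (ZMod p)

/-- Vectors over `(ZMod p)[t]`. -/
abbrev PV (p N : ℕ) : Type := Fin N → PR p

/-- The standard norm: the largest degree of a coordinate, `⊥` for the zero vector. -/
noncomputable def std (p N : ℕ) (x : PV p N) : WithBot ℤ :=
  Finset.univ.sup fun i => (x i).degree.map (fun n : ℕ => (n : ℤ))

/-- A normalised norm on `(ZMod p)[t]^N`. -/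
structure IsNrm (p N : ℕ) (δ : PV p N → WithBot ℤ) : Prop where
  add_le : ∀ x y, δ (x + y) ≤ max (δ x) (δ y)
  smul_eq : ∀ (c : PR p) x, δ (c • x) = c.degree.map (fun n : ℕ => (n : ℤ)) + δ x
  le_std : ∀ x, δ x ≤ std p N x
  bounded : ∃ K : ℕ, ∀ x, std p N x ≤ δ x + ((K : ℤ) : WithBot ℤ)
  touch : ∃ x, x ≠ 0 ∧ δ x = std p N x

/-- Vertices of the building. -/
abbrev Nrm (p N : ℕ) : Type := {δ : PV p N → WithBot ℤ // IsNrm p N δ}

/-- Adjacency between normalised norms: comparable and at distance at most one. -/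
def Near {p N : ℕ} (u v : Nrm p N) : Prop :=
  (∀ x, u.1 x ≤ v.1 x) ∧ ∀ x, v.1 x ≤ u.1 x + ((1 : ℤ) : WithBot ℤ)

/-- The building as a flag complex. -/
def Bld (p N : ℕ) : Set (Finset (Nrm p N)) :=
  {s | ∀ u ∈ s, ∀ v ∈ s, Near u v ∨ Near v u}

/-- `δ` is given by the basis `f` with exponents `b`. -/
def HasType {p N : ℕ} (δ : PV p N → WithBot ℤ) (f : Module.Basis (Fin N) (PR p) (PV p N))
    (b : Fin N → ℤ) : Prop :=
  ∀ x, δ x = Finset.univ.sup fun i =>
    (f.repr x i).degree.map (fun n : ℕ => (n : ℤ) - b i)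

/-- Vertices whose exponents have spread at most one. -/
def Thin {p N : ℕ} (u : Nrm p N) : Prop :=
  ∃ f b, HasType u.1 f b ∧ ∀ i j, b i ≤ b j + 1

/-- The thin subcomplex. -/
def Xinf (p N : ℕ) : Set (Finset (Nrm p N)) := {s | s ∈ Bld p N ∧ ∀ u ∈ s, Thin u}

end Vale.Agent.P067
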