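import Mathlib
import Vale.Agent.P067.NormDefs
import Vale.Agent.P067.CongrDefs

namespace Vale.Agent.P067

open Classical Polynomial

variable {p N : ℕ}

/-- Degree with values in `WithBot ℤ`. -/
noncomputable abbrev degZ (c : PR p) : WithBot ℤ := c.degree.map (fun n : ℕ => (n : ℤ))

/-- A norm, not necessarily normalised. -/
structure IsPre (δ : PV p N → WithBot ℤ) : Prop where
  add_le : ∀ x y, δ (x + y) ≤ max (δ x) (δ y)
  smul_eq : ∀ (c : PR p) x, δ (c • x) = degZ c + δ x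
  below : ∃ K : ℤ, ∀ x, δ x ≤ std p N x + (K : WithBot ℤ)
  above : ∃ K : ℤ, ∀ x, std p N x ≤ δ x + (K : WithBot ℤ)

lemma degZ_eq_bot {c : PR p} : degZ c = ⊥ ↔ c = 0 := by
  simp [degZ]

lemma std_eq_bot {x : PV p N} : std p N x = ⊥ ↔ x = 0 := by
  simp [std, Finset.sup_eq_bot_iff, funext_iff]

lemma le_std_coord (x : PV p N) (i : Fin N) : degZ (x i) ≤ std p N x :=
  Finset.le_sup (f := fun i => degZ (x i)) (Finset.mem_univ i)

lemma std_le_iff {x : PV p N} {a : WithBot ℤ} : std p N x ≤ a ↔ ∀ i, degZ (x i) ≤ a := by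
  simp [std, degZ]

lemma wb_add_assoc (a : WithBot ℤ) (b c : ℤ) :
    a + (b : WithBot ℤ) + (c : WithBot ℤ) = a + ((b + c : ℤ) : WithBot ℤ) := by
  rw [add_assoc, ← WithBot.coe_add]

lemma wb_add_zero (a : WithBot ℤ) : a + ((0 : ℤ) : WithBot ℤ) = a := by simp

lemma wb_add_le_iff {a b : WithBot ℤ} (c : ℤ) : a + (c : WithBot ℤ) ≤ b + (c : WithBot ℤ) ↔ a ≤ b :=
  WithBot.add_le_add_iff_right WithBot.coe_ne_bot

lemma le_add_neg {a b : WithBot ℤ} {c : ℤ} (h : a + (c : WithBot ℤ) ≤ b) :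
    a ≤ b + ((-c : ℤ) : WithBot ℤ) := by
  have := (wb_add_le_iff (-c)).2 h
  rwa [wb_add_assoc, add_neg_cancel, wb_add_zero] at this

lemma IsNrm.isPre {δ : PV p N → WithBot ℤ} (h : IsNrm p N δ) : IsPre δ := by
  obtain ⟨K, hK⟩ := h.bounded
  exact ⟨h.add_le, h.smul_eq, ⟨0, fun x => by rw [wb_add_zero]; exact h.le_std x⟩, ⟨K, hK⟩⟩

lemma exists_normalise {δ : PV p N → WithBot ℤ} (h : IsPre δ) (hne : ∃ x : PV p N, x ≠ 0) :
    ∃ u : Nrm p N, ∃ c : ℤ, ∀ x, u.1 x = δ x + (c : WithBot ℤ) := by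
  obtain ⟨K₁, hK₁⟩ := h.below
  obtain ⟨K₂, hK₂⟩ := h.above
  obtain ⟨x₀, hx₀⟩ := hne
  have hstd : std p N x₀ ≠ ⊥ := fun e => hx₀ (std_eq_bot.1 e)
  obtain ⟨s₀, hs₀⟩ := WithBot.ne_bot_iff_exists.1 hstd
  have hδ : δ x₀ ≠ ⊥ := fun e => hstd (by simpa [e] using hK₂ x₀)
  obtain ⟨e₀, he₀⟩ := WithBot.ne_bot_iff_exists.1 hδ
  obtain ⟨s, hs, hmax⟩ := Int.exists_greatest_of_bdd
    (P := fun s : ℤ => ∀ x, δ x + (s : WithBot ℤ) ≤ std p N x)
    ⟨s₀ - e₀, fun z hz => by
      have := hz x₀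
      rw [← hs₀, ← he₀, ← WithBot.coe_add, WithBot.coe_le_coe] at this
      omega⟩
    ⟨-K₁, fun x => by
      have := (wb_add_le_iff (-K₁)).2 (hK₁ x)
      rwa [wb_add_assoc, add_neg_cancel, wb_add_zero] at this⟩
  refine ⟨⟨fun x => δ x + (s : WithBot ℤ), ?_⟩, s, fun x => rfl⟩
  refine ⟨fun x y => ?_, fun c x => ?_, hs, ?_, ?_⟩
  · show δ (x + y) + _ ≤ _
    rcases le_max_iff.1 (h.add_le x y) with e | e
    · exact le_max_of_le_left ((wb_add_le_iff s).2 e)
    · exact le_max_of_le_right ((wb_add_le_iff s).2 e)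
  · show δ (c • x) + _ = _
    rw [h.smul_eq, add_assoc]
  · refine ⟨(K₂ - s).toNat, fun x => (hK₂ x).trans ?_⟩
    rw [add_assoc, ← WithBot.coe_add]
    gcongr
    rw [WithBot.coe_le_coe]
    omega
  · by_contra hc
    push Not at hc
    have : ∀ x, δ x + ((s + 1 : ℤ) : WithBot ℤ) ≤ std p N x := by
      intro x
      by_cases hx : x = 0
      · subst hx
        have : δ 0 = ⊥ := by simpa [degZ] using h.smul_eq 0 0
        simp [this]
      · have hlt : δ x + (s : WithBot ℤ) < std p N x := lt_of_le_of_ne (hs x) (hc x hx)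
        obtain ⟨a, ha⟩ := WithBot.ne_bot_iff_exists.1 (fun e => hx (std_eq_bot.1 e))
        rw [← ha] at hlt ⊢
        rcases eq_or_ne (δ x) ⊥ with e | e
        · simp [e]
        · obtain ⟨b, hb⟩ := WithBot.ne_bot_iff_exists.1 e
          rw [← hb, ← WithBot.coe_add, WithBot.coe_lt_coe] at hlt
          rw [← hb, ← WithBot.coe_add, WithBot.coe_le_coe]
          omega
    have := hmax _ this
    omega

lemma nrm_eq_of_shift {u v : Nrm p N} {c : ℤ}
    (h : ∀ x, v.1 x = u.1 x + (c : WithBot ℤ)) : u = v := by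
  obtain ⟨x, hx, hxe⟩ := u.2.touch
  obtain ⟨y, hy, hye⟩ := v.2.touch
  obtain ⟨a, ha⟩ := WithBot.ne_bot_iff_exists.1 (fun e => hx (std_eq_bot.1 e))
  obtain ⟨b, hb⟩ := WithBot.ne_bot_iff_exists.1 (fun e => hy (std_eq_bot.1 e))
  have h1 : c ≤ 0 := by
    have := v.2.le_std x
    rw [h, hxe, ← ha, ← WithBot.coe_add, WithBot.coe_le_coe] at this
    omega
  have h2 : 0 ≤ c := by
    have := u.2.le_std y
    have e := le_add_neg (le_of_eq (h y).symm)
    rw [hye] at e
    have e2 := le_trans (le_of_eq hye.symm) (le_of_eq (h y))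
    have e3 : std p N y ≤ std p N y + (c : WithBot ℤ) :=
      e2.trans ((wb_add_le_iff c).2 this)
    rw [← hb, ← WithBot.coe_add, WithBot.coe_le_coe] at e3
    omega
  have hc : c = 0 := le_antisymm h1 h2
  refine Subtype.ext (funext fun z => ?_)
  rw [h z, hc, wb_add_zero]

/-- The linear map given by an element of `SL_N`. -/
noncomputable def mv (g : SLP p N) : PV p N →ₗ[PR p] PV p N :=
  Matrix.toLin' (g : Matrix (Fin N) (Fin N) (PR p))

lemma mv_mul (g h : SLP p N) (x : PV p N) : mv (g * h) x = mv g (mv h x) := by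
  simp [mv, Matrix.SpecialLinearGroup.coe_mul, Matrix.toLin'_mul]

lemma mv_one (x : PV p N) : mv (1 : SLP p N) x = x := by simp [mv]

lemma mv_inv_mv (g : SLP p N) (x : PV p N) : mv g⁻¹ (mv g x) = x := by
  rw [← mv_mul, inv_mul_cancel, mv_one]

lemma mv_mv_inv (g : SLP p N) (x : PV p N) : mv g (mv g⁻¹ x) = x := by
  rw [← mv_mul, mul_inv_cancel, mv_one]

lemma std_mv_le [Fact p.Prime] (g : SLP p N) :
    ∃ K : ℤ, ∀ x, std p N (mv g x) ≤ std p N x + (K : WithBot ℤ) := by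
  refine ⟨((Finset.univ.sup fun e : Fin N × Fin N => (g.1 e.1 e.2).natDegree : ℕ) : ℤ),
    fun x => ?_⟩
  rw [std_le_iff]
  intro i
  simp only [mv, Matrix.toLin'_apply, Matrix.mulVec, dotProduct, degZ]
  rcases eq_or_ne (∑ j, g.1 i j * x j) 0 with h | h
  · simp [h]
  · obtain ⟨j, -, hj⟩ : ∃ j ∈ Finset.univ,
        (∑ j, g.1 i j * x j).degree ≤ (g.1 i j * x j).degree := by
      have := Polynomial.degree_sum_le Finset.univ (fun j => g.1 i j * x j)
      have hne : (Finset.univ : Finset (Fin N)).Nonempty := ⟨i, Finset.mem_univ i⟩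
      obtain ⟨j, hj, he⟩ := Finset.exists_mem_eq_sup Finset.univ hne
        (fun j => (g.1 i j * x j).degree)
      exact ⟨j, hj, this.trans he.le⟩
    have hne : g.1 i j * x j ≠ 0 := fun e => by
      rw [e, Polynomial.degree_zero, le_bot_iff, Polynomial.degree_eq_bot] at hj
      exact h hj
    refine le_trans ?_ (add_le_add_left (le_std_coord x j) _)
    rw [Polynomial.degree_eq_natDegree h, Polynomial.degree_eq_natDegree hne] at hj
    rw [degZ, Polynomial.degree_eq_natDegree h,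
      Polynomial.degree_eq_natDegree (right_ne_zero_of_mul hne)]
    have h2 : (g.1 i j * x j).natDegree = (g.1 i j).natDegree + (x j).natDegree :=
      Polynomial.natDegree_mul (left_ne_zero_of_mul hne) (right_ne_zero_of_mul hne)
    have h3 : (g.1 i j).natDegree ≤
        Finset.univ.sup fun e : Fin N × Fin N => (g.1 e.1 e.2).natDegree :=
      Finset.le_sup (f := fun e : Fin N × Fin N => (g.1 e.1 e.2).natDegree)
        (Finset.mem_univ (i, j))
    have hj' : (∑ j, g.1 i j * x j).natDegree ≤ (g.1 i j * x j).natDegree := by exact_mod_cast hj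
    have key : ((∑ j, g.1 i j * x j).natDegree : ℤ) ≤ ((x j).natDegree : ℤ) +
        ((Finset.univ.sup fun e : Fin N × Fin N => (g.1 e.1 e.2).natDegree : ℕ) : ℤ) := by omega
    exact WithBot.coe_le_coe.2 key

lemma isPre_comp (g : SLP p N) [Fact p.Prime] (u : Nrm p N) :
    IsPre (fun x => u.1 (mv g x)) := by
  obtain ⟨K, hK⟩ := std_mv_le g
  obtain ⟨K', hK'⟩ := std_mv_le g⁻¹
  obtain ⟨K₀, hK₀⟩ := u.2.bounded
  refine ⟨fun x y => ?_, fun c x => ?_, ⟨K, fun x => (u.2.le_std _).trans (hK x)⟩,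
    ⟨(K₀ : ℤ) + K', fun x => ?_⟩⟩
  · simp only [map_add]; exact u.2.add_le _ _
  · simp only [map_smul]; exact u.2.smul_eq _ _
  · have := hK' (mv g x)
    rw [mv_inv_mv] at this
    refine this.trans ?_
    rw [← wb_add_assoc]
    exact add_le_add_left (hK₀ _) _

variable [Fact p.Prime]

lemma pv_nontrivial (hN : 0 < N) : ∃ x : PV p N, x ≠ 0 :=
  ⟨Pi.single ⟨0, hN⟩ 1, by simp⟩

/-- Translate of a normalised norm. -/
noncomputable def actN (g : SLP p N) (u : Nrm p N) : Nrm p N :=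
  if h : ∃ x : PV p N, x ≠ 0 then Classical.choose (exists_normalise (isPre_comp g⁻¹ u) h) else u

lemma actN_spec (g : SLP p N) (u : Nrm p N) :
    ∃ c : ℤ, ∀ x, (actN g u).1 x = u.1 (mv g⁻¹ x) + (c : WithBot ℤ) := by
  have h : ∃ x : PV p N, x ≠ 0 := by
    obtain ⟨x, hx, -⟩ := u.2.touch
    exact ⟨x, hx⟩
  rw [actN, dif_pos h]
  exact Classical.choose_spec (exists_normalise (isPre_comp g⁻¹ u) h)

lemma actN_eq {g : SLP p N} {u w : Nrm p N} {c : ℤ}
    (h : ∀ x, w.1 x = u.1 (mv g⁻¹ x) + (c : WithBot ℤ)) : actN g u = w := by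
  obtain ⟨c', hc'⟩ := actN_spec g u
  refine nrm_eq_of_shift (c := c - c') (fun x => ?_)
  rw [hc', h, wb_add_assoc, add_sub_cancel]

noncomputable instance instMulActionNrm : MulAction (SLP p N) (Nrm p N) where
  smul := actN
  one_smul u := actN_eq (c := 0) (fun x => by rw [inv_one, mv_one, wb_add_zero])
  mul_smul g h u := by
    obtain ⟨c₁, h₁⟩ := actN_spec h u
    obtain ⟨c₂, h₂⟩ := actN_spec g (actN h u)
    refine actN_eq (c := c₁ + c₂) (fun x => ?_)
    show (actN g (actN h u)).1 x = _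
    rw [h₂, h₁, wb_add_assoc, mul_inv_rev, mv_mul]

lemma smul_spec (g : SLP p N) (u : Nrm p N) :
    ∃ c : ℤ, ∀ x, (g • u).1 x = u.1 (mv g⁻¹ x) + (c : WithBot ℤ) :=
  actN_spec g u

omit [Fact p.Prime] in
/-- `v` is within one step of `u` up to shift. -/
lemma near_or_iff (u v : Nrm p N) : Near u v ∨ Near v u ↔ ∃ c : ℤ,
    (∀ x, u.1 x + (c : WithBot ℤ) ≤ v.1 x) ∧
      ∀ x, v.1 x ≤ u.1 x + ((c + 1 : ℤ) : WithBot ℤ) := by
  constructor
  · rintro (⟨h1, h2⟩ | ⟨h1, h2⟩)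
    · exact ⟨0, fun x => by rw [wb_add_zero]; exact h1 x, fun x => by simpa using h2 x⟩
    · refine ⟨-1, fun x => ?_, fun x => by rw [neg_add_cancel, wb_add_zero]; exact h1 x⟩
      have := (wb_add_le_iff (-1)).2 (h2 x)
      rwa [wb_add_assoc, add_neg_cancel, wb_add_zero] at this
  · rintro ⟨c, h1, h2⟩
    obtain ⟨x, hx, hxe⟩ := u.2.touch
    obtain ⟨y, hy, hye⟩ := v.2.touch
    obtain ⟨a, ha⟩ := WithBot.ne_bot_iff_exists.1 (fun e => hx (std_eq_bot.1 e))
    obtain ⟨b, hb⟩ := WithBot.ne_bot_iff_exists.1 (fun e => hy (std_eq_bot.1 e))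
    have hc1 : c ≤ 0 := by
      have := (h1 x).trans (v.2.le_std x)
      rw [hxe, ← ha, ← WithBot.coe_add, WithBot.coe_le_coe] at this
      omega
    have hc2 : -1 ≤ c := by
      have := (h2 y).trans ((wb_add_le_iff (c + 1)).2 (u.2.le_std y))
      rw [hye, ← hb, ← WithBot.coe_add, WithBot.coe_le_coe] at this
      omega
    rcases (show c = 0 ∨ c = -1 by omega) with rfl | rfl
    · left
      exact ⟨fun x => by simpa [wb_add_zero] using h1 x, fun x => by simpa using h2 x⟩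
    · right
      refine ⟨fun x => by simpa [wb_add_zero] using h2 x, fun x => ?_⟩
      have := le_add_neg (h1 x)
      simpa using this

lemma near_smul (g : SLP p N) {u v : Nrm p N} (h : Near u v ∨ Near v u) :
    Near (g • u) (g • v) ∨ Near (g • v) (g • u) := by
  rw [near_or_iff] at h ⊢
  obtain ⟨c, h1, h2⟩ := h
  obtain ⟨a, ha⟩ := smul_spec g u
  obtain ⟨b, hb⟩ := smul_spec g v
  refine ⟨c + b - a, fun x => ?_, fun x => ?_⟩
  · rw [ha, hb, wb_add_assoc, show a + (c + b - a) = c + b by ring, ← wb_add_assoc]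
    exact (wb_add_le_iff b).2 (h1 _)
  · rw [ha, hb, wb_add_assoc, show a + (c + b - a + 1) = (c + 1) + b by ring, ← wb_add_assoc]
    exact (wb_add_le_iff b).2 (h2 _)

lemma thin_smul (g : SLP p N) {u : Nrm p N} (h : Thin u) : Thin (g • u) := by
  obtain ⟨f, b, hf, hb⟩ := h
  obtain ⟨c, hc⟩ := smul_spec g u
  let e : PV p N ≃ₗ[PR p] PV p N :=
    { mv g with
      invFun := mv g⁻¹
      left_inv := mv_inv_mv g
      right_inv := mv_mv_inv g }
  refine ⟨f.map e, fun i => b i - c, fun x => ?_, fun i j => by have := hb i j; simp only; omega⟩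
  rw [hc, hf]
  have he : ∀ i, (f.map e).repr x i = f.repr (mv g⁻¹ x) i := fun i => by
    simp [Module.Basis.map_repr, e]
  rw [Finset.apply_sup_eq_sup_comp (fun a : WithBot ℤ => a + (c : WithBot ℤ))
    (fun a b => (max_add_add_right a b _).symm) (WithBot.bot_add _)]
  refine Finset.sup_congr rfl (fun i _ => ?_)
  simp only [Function.comp_apply, he]
  cases (f.repr (mv g⁻¹ x) i).degree with
  | bot => simp
  | coe n => simp only [WithBot.map_coe, ← WithBot.coe_add]; congr 1; ring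

lemma xinf_smul (g : SLP p N) {s : Finset (Nrm p N)} (h : s ∈ Xinf p N) :
    s.image (fun v => g • v) ∈ Xinf p N := by
  refine ⟨?_, ?_⟩
  · intro a ha b hb
    obtain ⟨u, hu, rfl⟩ := Finset.mem_image.1 ha
    obtain ⟨v, hv, rfl⟩ := Finset.mem_image.1 hb
    exact near_smul g (h.1 u hu v hv)
  · intro a ha
    obtain ⟨u, hu, rfl⟩ := Finset.mem_image.1 ha
    exact thin_smul g (h.2 u hu)

end Vale.Agent.P067
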