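import Mathlib

namespace Vale.Agent.P067

open Finset

variable {V : Type} [DecidableEq V]

/-- The `i`-faces of the complex generated by the facets `T`:
the subsets with `i + 1` vertices of some facet. -/
def faces (T : Finset (Finset V)) (i : ℕ) : Finset (Finset V) :=
  (T.biUnion Finset.powerset).filter (fun s => s.card = i + 1)

/-- Cochains with coefficients in `ZMod 2`. -/
abbrev Coch (T : Finset (Finset V)) (i : ℕ) : Type := {s // s ∈ faces T i} → ZMod 2

/-- The coboundary map. -/
def cob (T : Finset (Finset V)) (i : ℕ) : Coch T i →ₗ[ZMod 2] Coch T (i + 1) where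
  toFun f t := ∑ s : {s // s ∈ faces T i}, if s.1 ⊆ t.1 then f s else 0
  map_add' f g := by
    funext t
    simp only [Pi.add_apply]
    rw [← Finset.sum_add_distrib]
    refine Finset.sum_congr rfl (fun s _ => ?_)
    split <;> simp
  map_smul' c f := by
    funext t
    simp only [Pi.smul_apply, smul_eq_mul, RingHom.id_apply]
    rw [Finset.mul_sum]
    refine Finset.sum_congr rfl (fun s _ => ?_)
    split <;> simp

/-- Coboundaries; in degree `0` the constant functions. -/
def cobs (T : Finset (Finset V)) : (i : ℕ) → Submodule (ZMod 2) (Coch T i)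
  | 0 => Submodule.span (ZMod 2) {fun _ => 1}
  | i + 1 => LinearMap.range (cob T i)

/-- The weight of an `i`-face in a `d`-dimensional complex. -/
noncomputable def faceWeight (T : Finset (Finset V)) (d i : ℕ) (s : Finset V) : ℝ :=
  ((T.filter (fun t => s ⊆ t)).card : ℝ) / (((d + 1).choose (i + 1) : ℝ) * (T.card : ℝ))

/-- The weighted norm of a cochain. -/
noncomputable def cochNorm (T : Finset (Finset V)) (d i : ℕ) (f : Coch T i) : ℝ :=
  ∑ s : {s // s ∈ faces T i}, if f s = 0 then 0 else faceWeight T d i s.1

/-- The minimal norm of `f - a` over coboundaries `a`. -/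
noncomputable def distCobs (T : Finset (Finset V)) (d i : ℕ) (f : Coch T i) : ℝ :=
  ⨅ a : cobs T i, cochNorm T d i (f - a.1)

/-- `ε`-coboundary expansion in all degrees below `d`. -/
def IsCobExpander (T : Finset (Finset V)) (d : ℕ) (ε : ℝ) : Prop :=
  ∀ i, i < d → ∀ f : Coch T i, ε * distCobs T d i f ≤ cochNorm T d (i + 1) (cob T i f)

/-- The dimension over `ZMod 2` of `C^(m+1) / B^(m+1)`; for a complex of dimension `m + 1`
this is the dimension of its top cohomology. -/
noncomputable def topBetti (T : Finset (Finset V)) (m : ℕ) : ℕ :=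
  Module.finrank (ZMod 2) (Coch T (m + 1) ⧸ LinearMap.range (cob T m))

end Vale.Agent.P067
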