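import Mathlib
import Vale.Agent.P067.Chains

namespace Vale.Agent.P067

open Classical

variable {V : Type} {N : ℕ}

/-- A family of facets with `N` vertices, coloured bijectively by `Fin N`. -/
def IsChambers (T : Finset (Finset V)) (col : V → Fin N) : Prop :=
  ∀ t ∈ T, t.card = N ∧ Set.InjOn col (t : Set V)

/-- The complex generated by `T`. -/
def cxOf (T : Finset (Finset V)) : Set (Finset V) := {s | s = ∅ ∨ ∃ t ∈ T, s ⊆ t}

/-- The faces with `n` vertices. -/
noncomputable def facesOfSize (T : Finset (Finset V)) (n : ℕ) : Finset (Finset V) :=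
  (T.biUnion Finset.powerset).filter (fun s => s.card = n)

/-- The number of facets containing `s`. -/
noncomputable def cnt (T : Finset (Finset V)) (s : Finset V) : ℕ :=
  (T.filter (fun t => s ⊆ t)).card

/-- Weighted size of the support of `f` among faces with `n` vertices. -/
noncomputable def wsz (T : Finset (Finset V)) (n : ℕ) (f : Finset V → ZMod 2) : ℕ :=
  ∑ s ∈ (facesOfSize T n).filter (fun s => f s ≠ 0), cnt T s

/-- Coboundary of a cochain, on arbitrary finite sets. -/
noncomputable def cobS (f : Finset V → ZMod 2) : Finset V → ZMod 2 :=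
  fun t => ∑ v ∈ t, f (t.erase v)

/-- `f` lives on faces with `n` vertices containing `r`. -/
def SuppAbove (T : Finset (Finset V)) (n : ℕ) (r : Finset V) (f : Finset V → ZMod 2) : Prop :=
  ∀ s, f s ≠ 0 → s ∈ facesOfSize T n ∧ r ⊆ s

/-- Coboundary expansion of all links of nonempty faces, in degrees up to `d`. -/
def LinkExp (T : Finset (Finset V)) (d : ℕ) (β : ℝ) : Prop :=
  ∀ k, k ≤ d → ∀ r : Finset V, r.Nonempty → r.card ≤ k → (∃ t ∈ T, r ⊆ t) →
    ∀ f, SuppAbove T (k + 1) r f → ∃ g, SuppAbove T k r g ∧
      β * (wsz T (k + 1) (f + cobS g) : ℝ) ≤ (wsz T (k + 2) (cobS f) : ℝ)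

/-- The links of faces of corank at least two, the empty one included, have connected graphs. -/
def LinksConn (T : Finset (Finset V)) (N : ℕ) : Prop :=
  ∀ r : Finset V, r.card + 2 ≤ N → r ∈ cxOf T → ∀ u v, u ∉ r → v ∉ r →
    insert u r ∈ cxOf T → insert v r ∈ cxOf T →
    Relation.ReflTransGen (fun a b => a ∉ r ∧ b ∉ r ∧ insert a (insert b r) ∈ cxOf T) u v

/-- The value of `f` at the vertex of colour `i` of the facet `t`. -/
noncomputable def atCol (col : V → Fin N) (t : Finset V) (i : Fin N) (f : V → ℝ) : ℝ :=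
  ∑ v ∈ t.filter (fun v => col v = i), f v

/-- Sum over the facets above `r` of the value at colour `i`. -/
noncomputable def colSum (T : Finset (Finset V)) (col : V → Fin N) (r : Finset V) (i : Fin N)
    (f : V → ℝ) : ℝ :=
  ∑ t ∈ T.filter (fun t => r ⊆ t), atCol col t i f

/-- Correlation bound between colours `i` and `j` in the link of `r`. -/
def CorrAt (T : Finset (Finset V)) (col : V → Fin N) (r : Finset V) (i j : Fin N) (lam : ℝ) :
    Prop :=
  ∀ f g : V → ℝ,
    (cnt T r : ℝ) * (∑ t ∈ T.filter (fun t => r ⊆ t), atCol col t i f * atCol col t j g)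
        - colSum T col r i f * colSum T col r j g ≤
      lam * Real.sqrt
        (((cnt T r : ℝ) * colSum T col r i (fun v => f v ^ 2) - colSum T col r i f ^ 2) *
         ((cnt T r : ℝ) * colSum T col r j (fun v => g v ^ 2) - colSum T col r j g ^ 2))

/-- The correlation bound for all faces of corank two. -/
def CorrBase (T : Finset (Finset V)) (col : V → Fin N) (lam : ℝ) : Prop :=
  ∀ r : Finset V, r.card + 2 = N → r ∈ cxOf T → ∀ i j : Fin N, i ≠ j →
    (∀ v ∈ r, col v ≠ i) → (∀ v ∈ r, col v ≠ j) → CorrAt T col r i j lam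

end Vale.Agent.P067
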