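import Mathlib
import Vale.Agent.P067.Chains

namespace Vale.Agent.P067

open Classical

variable {p N : ℕ}

/-- Subspaces of `(ZMod p)^N`. -/
abbrev Sub (p N : ℕ) : Type := Submodule (ZMod p) (Fin N → ZMod p)

/-- Finite sets of members of `P`, disjoint from `c`, forming a chain together with `c`. -/
def chainLk (P : Set (Sub p N)) (c : Finset (Sub p N)) : Set (Finset (Sub p N)) :=
  {s | (∀ W ∈ s, W ∈ P ∧ W ∉ c) ∧ IsChain (· ≤ ·) ((s ∪ c : Finset (Sub p N)) : Set (Sub p N))}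

/-- `c` is a chain in `P`. -/
def IsPChain (P : Set (Sub p N)) (c : Finset (Sub p N)) : Prop :=
  (∀ W ∈ c, W ∈ P) ∧ IsChain (· ≤ ·) (c : Set (Sub p N))

/-- `(U, x)` is a gap of `c` of dimension at least `e`. -/
def IsGap (c : Finset (Sub p N)) (U x : Sub p N) (e : ℕ) : Prop :=
  (U = ⊥ ∨ U ∈ c) ∧ (x = ⊤ ∨ x ∈ c) ∧ U ≤ x ∧
    Module.finrank (ZMod p) U + e ≤ Module.finrank (ZMod p) x ∧ ∀ w ∈ c, w ≤ U ∨ x ≤ w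

/-- Adding a vector outside two proper subspaces keeps us inside `P`. -/
def GenericAxiom (P : Set (Sub p N)) : Prop :=
  (∀ W ∈ P, W ≠ ⊥ ∧ W ≠ ⊤) ∧
  ∀ U W x : Sub p N, (U = ⊥ ∨ U ∈ P) → (x = ⊤ ∨ x ∈ P) → U ≤ W → W ≤ x →
    (W = U ∨ W ∈ P) →
    Module.finrank (ZMod p) W + 2 ≤ Module.finrank (ZMod p) x →
    ∃ B₁ B₂ : Sub p N, B₁ < x ∧ B₂ < x ∧
      ∀ v ∈ x, v ∉ B₁ → v ∉ B₂ → W ⊔ Submodule.span (ZMod p) {v} ∈ P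

/-- Subspaces in general position with respect to `F`. -/
def GP (F : Sub p N) : Set (Sub p N) :=
  {W | W ≠ ⊥ ∧ W ≠ ⊤ ∧ (W ⊓ F = ⊥ ∨ W ⊔ F = ⊤)}

/-- The descending set attached to `F₁ ≥ F₂`, `F' ≥ Fr` (flag levels `1`, `2`, `r-1`, `r`). -/
def DescSet (F₁ F₂ F' Fr : Sub p N) : Set (Sub p N) :=
  {W | W ≠ ⊥ ∧ W ≠ ⊤ ∧
    ((W ⊓ Fr = ⊥ ∧ (¬ W ≤ F₁ ∨ W ⊓ F' = ⊥)) ∨
      (W ⊓ Fr ≠ ⊥ ∧ ¬ Fr ≤ W ∧ W ⊔ F₂ = ⊤))}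

end Vale.Agent.P067
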