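import Mathlib
import Vale.Agent.P067.Defs
import Vale.Agent.P067.Chains
import Vale.Agent.P067.Chambers
import Vale.Agent.P067.SubspaceDefs
import Vale.Agent.P067.NormDefs
import Vale.Agent.P067.CongrDefs

namespace Vale.Agent.P067

open Classical

/-- M1, local to global: a thin enough coloured complex with expanding links and vanishing
low homology has a coboundary expanding `d`-skeleton. -/
def LocalToGlobal : Prop :=
  ∀ (N d : ℕ) (β : ℝ), 1 ≤ d → d + 2 ≤ N → 0 < β → ∃ lam : ℝ, 0 < lam ∧ ∀ D₀ : ℕ,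
    ∃ ε : ℝ, 0 < ε ∧ ∀ (V : Type) (T : Finset (Finset V)) (col : V → Fin N),
      IsChambers T col → (∀ v, cnt T {v} ≤ D₀) → LinkExp T d β → LinksConn T N →
      CorrBase T col lam → (∀ n, 1 ≤ n → n ≤ d → AcycAt (cxOf T) n) →
      IsCobExpander (facesOfSize T (d + 1)) d ε

/-- M1, symmetric contractions give link expansion: a contraction with chains of at most `M`
faces, and a group of colour preserving symmetries transitive on the facets above `r`. -/
def ExpOfContraction : Prop :=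
  ∀ (N : ℕ) (V : Type) (T : Finset (Finset V)) (col : V → Fin N) (r : Finset V) (k M : ℕ),
    IsChambers T col → r.Nonempty → r.card ≤ k → k + 1 < N → (∃ t ∈ T, r ⊆ t) →
    (∃ (H : Type) (_ : Group H) (_ : Fintype H) (_ : MulAction H V),
      (∀ (g : H) v, col (g • v) = col v) ∧ (∀ g : H, ∀ v ∈ r, g • v = v) ∧
      (∀ g : H, ∀ t ∈ T, r ⊆ t → t.image (g • ·) ∈ T) ∧
      (∀ t ∈ T, ∀ t' ∈ T, r ⊆ t → r ⊆ t' → ∃ g : H, t.image (g • ·) = t')) →
    (∃ h : Finset V → Chain V, ∀ s, Disjoint s r → s ∪ r ∈ cxOf T → s.card + r.card ≤ k + 1 →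
      h s ∈ chainsOf {u | Disjoint u r ∧ u ∪ r ∈ cxOf T} (s.card + 1) ∧
      (h s).support.card ≤ M ∧
      bd (h s) + Finsupp.linearCombination (ZMod 2) h (bd (Finsupp.single s 1))
        = Finsupp.single s 1) →
    ∀ f, SuppAbove T (k + 1) r f → ∃ g, SuppAbove T k r g ∧
      (1 / ((M : ℝ) * 2 ^ N + 1)) * (wsz T (k + 1) (f + cobS g) : ℝ) ≤
        (wsz T (k + 2) (cobS f) : ℝ)

/-- M2, bounded filling in chain links of a generic poset of subspaces. -/
def GenericFill : Prop :=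
  ∀ n M : ℕ, ∃ B : ℕ, ∀ (p N : ℕ), p.Prime → B < p → ∀ (P : Set (Sub p N)), GenericAxiom P →
    ∀ c, IsPChain P c → (∃ U x, IsGap c U x (n + 2)) → FillAt (chainLk P c) n M B

/-- M2, contraction with boundedly many faces in the links of general position complexes. -/
def GPContraction : Prop :=
  ∀ n : ℕ, ∃ B : ℕ, ∀ (p N : ℕ), p.Prime → B < p → ∀ (F : Sub p N) c, IsPChain (GP F) c →
    (∃ U x, IsGap c U x (n + 2)) →
    ∃ h : Finset (Sub p N) → Chain (Sub p N), ∀ s ∈ chainLk (GP F) c, s.card ≤ n →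
      h s ∈ chainsOf (chainLk (GP F) c) (s.card + 1) ∧ (h s).support.card ≤ B ∧
      bd (h s) + Finsupp.linearCombination (ZMod 2) h (bd (Finsupp.single s 1))
        = Finsupp.single s 1

/-- M2, extension, transitivity and connectivity for general position complexes. -/
def GPStructure : Prop :=
  ∃ B : ℕ, ∀ (p N : ℕ), p.Prime → B < p → 0 < N → ∀ (F : Sub p N) c, IsPChain (GP F) c →
    (∃ t, IsPChain (GP F) t ∧ t.card + 1 = N ∧ c ⊆ t) ∧
    (∀ t t', IsPChain (GP F) t → IsPChain (GP F) t' → t.card + 1 = N → t'.card + 1 = N →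
      c ⊆ t → c ⊆ t' → ∃ g : (Fin N → ZMod p) ≃ₗ[ZMod p] (Fin N → ZMod p),
        F.map g.toLinearMap = F ∧ (∀ W ∈ c, W.map g.toLinearMap = W) ∧
        t.image (fun W => W.map g.toLinearMap) = t') ∧
    (c.card + 3 ≤ N → ∀ W W', {W} ∈ chainLk (GP F) c → {W'} ∈ chainLk (GP F) c →
      Relation.ReflTransGen (fun a b => {a, b} ∈ chainLk (GP F) c) W W')

/-- M2, correlation in links of corank two: `c` misses exactly the dimensions `a ≠ b`. -/
def GPCorr : Prop :=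
  ∀ lam : ℝ, 0 < lam → ∃ B : ℕ, ∀ (p N : ℕ) [Fact p.Prime], B < p →
    ∀ (F : Sub p N) c, IsPChain (GP F) c → c.card + 3 = N →
    ∀ (a b : ℕ), a ≠ b → 0 < a → 0 < b → a < N → b < N →
    (∀ W ∈ c, Module.finrank (ZMod p) W ≠ a ∧ Module.finrank (ZMod p) W ≠ b) →
    ∀ (E : Finset (Sub p N × Sub p N)),
      (∀ W W', (W, W') ∈ E ↔ ({W, W'} ∈ chainLk (GP F) c ∧
        Module.finrank (ZMod p) W = a ∧ Module.finrank (ZMod p) W' = b)) →
      ∀ f g : Sub p N → ℝ,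
        (E.card : ℝ) * (∑ e ∈ E, f e.1 * g e.2) - (∑ e ∈ E, f e.1) * (∑ e ∈ E, g e.2) ≤
          lam * Real.sqrt
            (((E.card : ℝ) * (∑ e ∈ E, f e.1 ^ 2) - (∑ e ∈ E, f e.1) ^ 2) *
             ((E.card : ℝ) * (∑ e ∈ E, g e.2 ^ 2) - (∑ e ∈ E, g e.2) ^ 2))

/-- M3, acyclicity of the thin complex. -/
def ThinAcyclic : Prop :=
  ∀ d : ℕ, ∃ B : ℕ, ∀ (p N : ℕ), p.Prime → B < p → d + 4 ≤ N →
    ∀ n, n ≤ d + 1 → AcycAt (Xinf p N) n

/-- M3, colours and links of thin vertices. -/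
def ThinLink : Prop :=
  ∀ (p N : ℕ), p.Prime → 2 ≤ N → ∃ col : Nrm p N → Fin N,
    (∀ u f b, HasType u.1 f b → ((col u : ℕ) : ℤ) = (∑ i, b i) % (N : ℤ)) ∧
    ∀ u : Nrm p N, Thin u → ∃ (F : Sub p N) (φ : Sub p N → Nrm p N),
      Set.InjOn φ (GP F) ∧
      (∀ W ∈ GP F, φ W ≠ u ∧
        (col (φ W) : ℕ) = ((col u : ℕ) + Module.finrank (ZMod p) W) % N) ∧
      (∀ s : Finset (Sub p N), (∀ W ∈ s, W ∈ GP F) →
        (IsChain (· ≤ ·) (s : Set (Sub p N)) ↔ insert u (s.image φ) ∈ Xinf p N)) ∧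
      ∀ v, v ≠ u → {u, v} ∈ Xinf p N → ∃ W ∈ GP F, φ W = v

/-- M5, comparison of acyclic complexes with finite odd stabilisers. -/
def GACTransfer : Prop :=
  ∀ (G : Type) [Group G] (H : Subgroup G) (V W : Type) [MulAction G V] [MulAction G W]
    (K : Set (Finset V)) (L : Set (Finset W)) (n : ℕ), 1 ≤ n →
    IsCx K → IsCx L → InvCx H K → InvCx H L → OddStab H K → OddStab H L →
    (∀ j, j ≤ n → AcycAt K j) → (∀ j, j ≤ n → AcycAt L j) →
    GAC H K n → GAC H L n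

/-- M5, vanishing propagates from level one to every level. -/
def VanishAll : Prop :=
  ∀ d : ℕ, ∃ B : ℕ, ∀ (p : ℕ), p.Prime → B < p →
    (∀ M, d + 4 ≤ M → ∀ n, 2 ≤ n → n ≤ d + 1 → Vanish p M 1 n) →
    ∀ M, 3 * d + 6 ≤ M → ∀ m, 1 ≤ m → ∀ n, 2 ≤ n → n ≤ d + 1 → Vanish p M m n

end Vale.Agent.P067
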