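import Mathlib
import Vale.Agent.P067.Chains

/-!
Basic lemmas on `ZMod 2` chains: `bd (bd c) = 0`, cones, removal of vertices, and bounded
contractions built from bounded fillings.
-/

namespace Vale.Agent.P067

open Classical

variable {V : Type}

theorem chain_add_self (c : Chain V) : c + c = 0 := by
  ext s
  simp [CharTwo.add_self_eq_zero]

theorem chain_eq_of_add_eq_zero {a b : Chain V} (h : a + b = 0) : a = b := by
  calc a = a + (b + b) := by rw [chain_add_self, add_zero]
    _ = a + b + b := (add_assoc _ _ _).symm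
    _ = b := by rw [h, zero_add]

theorem bd_single (s : Finset V) (a : ZMod 2) :
    bd (Finsupp.single s a) = a • ∑ v ∈ s, Finsupp.single (s.erase v) 1 := by
  simp [bd]

theorem bd_bd (c : Chain V) : bd (bd c) = 0 := by
  induction c using Finsupp.induction_linear with
  | zero => simp
  | add a b ha hb => simp [ha, hb]
  | single s a =>
    rw [bd_single, map_smul, map_sum]
    simp only [bd_single, one_smul]
    rw [Finset.sum_sigma']
    have h : ∑ x ∈ s.sigma (fun v => s.erase v),
        Finsupp.single ((s.erase x.1).erase x.2) (1 : ZMod 2) = 0 := by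
      refine Finset.sum_involution (fun x _ => ⟨x.2, x.1⟩) ?_ ?_ ?_ ?_
      · intro x _
        rw [Finset.erase_right_comm]
        exact chain_add_self _
      · intro x hx _ he
        simp only [Finset.mem_sigma, Finset.mem_erase] at hx
        exact hx.2.1 (congrArg Sigma.fst he)
      · intro x hx
        simp only [Finset.mem_sigma, Finset.mem_erase] at hx ⊢
        exact ⟨hx.2.2, hx.2.1.symm, hx.1⟩
      · intro x _
        rfl
    rw [h, smul_zero]

theorem mem_chainsOf_iff {K : Set (Finset V)} {n : ℕ} {c : Chain V} :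
    c ∈ chainsOf K n ↔ ∀ s ∈ c.support, s ∈ K ∧ s.card = n := by
  simp [chainsOf, Finsupp.mem_supported, Set.subset_def]

theorem single_mem_chainsOf {K : Set (Finset V)} {n : ℕ} {s : Finset V} (h : s ∈ K)
    (hn : s.card = n) (a : ZMod 2) : Finsupp.single s a ∈ chainsOf K n :=
  Finsupp.single_mem_supported _ a ⟨h, hn⟩

theorem sum_smul_single (c : Chain V) : ∑ s ∈ c.support, Finsupp.single s (c s) = c :=
  c.sum_single

theorem bd_mem_chainsOf {K : Set (Finset V)} (hK : ∀ s ∈ K, ∀ t ⊆ s, t ∈ K) {n : ℕ}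
    {c : Chain V} (hc : c ∈ chainsOf K (n + 1)) : bd c ∈ chainsOf K n := by
  rw [mem_chainsOf_iff] at hc
  rw [← congrArg bd (sum_smul_single c), map_sum]
  refine Submodule.sum_mem _ fun s hs => ?_
  rw [bd_single]
  refine Submodule.smul_mem _ _ (Submodule.sum_mem _ fun v hv => single_mem_chainsOf ?_ ?_ _)
  · exact hK s (hc s hs).1 _ (Finset.erase_subset _ _)
  · rw [Finset.card_erase_of_mem hv, (hc s hs).2]
    omega

theorem chainsOf_mono {K L : Set (Finset V)} (h : K ⊆ L) (n : ℕ) :
    chainsOf K n ≤ chainsOf L n := fun c hc => by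
  rw [mem_chainsOf_iff] at hc ⊢
  exact fun s hs => ⟨h (hc s hs).1, (hc s hs).2⟩

/-! ### Vertices of chains -/

theorem mem_vertsOf {c : Chain V} {v : V} : v ∈ vertsOf c ↔ ∃ s ∈ c.support, v ∈ s := by
  simp [vertsOf]

theorem subset_vertsOf {c : Chain V} {s : Finset V} (h : s ∈ c.support) : s ⊆ vertsOf c :=
  fun _ hv => mem_vertsOf.2 ⟨s, h, hv⟩

theorem vertsOf_subset_iff {c : Chain V} {A : Finset V} :
    vertsOf c ⊆ A ↔ ∀ s ∈ c.support, s ⊆ A := by
  simp [vertsOf]

theorem vertsOf_add (a b : Chain V) : vertsOf (a + b) ⊆ vertsOf a ∪ vertsOf b := by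
  intro v hv
  obtain ⟨s, hs, hvs⟩ := mem_vertsOf.1 hv
  rcases Finset.mem_union.1 (Finsupp.support_add hs) with h | h
  · exact Finset.mem_union_left _ (mem_vertsOf.2 ⟨s, h, hvs⟩)
  · exact Finset.mem_union_right _ (mem_vertsOf.2 ⟨s, h, hvs⟩)

theorem vertsOf_zero : vertsOf (0 : Chain V) = ∅ := by simp [vertsOf]

theorem vertsOf_sum {ι : Type} (X : Finset ι) (f : ι → Chain V) :
    vertsOf (∑ i ∈ X, f i) ⊆ X.biUnion fun i => vertsOf (f i) := by
  intro v hv
  obtain ⟨s, hs, hvs⟩ := mem_vertsOf.1 hv
  obtain ⟨i, hi, his⟩ := Finset.mem_biUnion.1 (Finsupp.support_finsetSum hs)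
  exact Finset.mem_biUnion.2 ⟨i, hi, mem_vertsOf.2 ⟨s, his, hvs⟩⟩

theorem vertsOf_bd (c : Chain V) : vertsOf (bd c) ⊆ vertsOf c := by
  conv_lhs => arg 1; arg 2; rw [← sum_smul_single c]
  rw [map_sum]
  refine (vertsOf_sum _ _).trans (Finset.biUnion_subset.2 fun s hs => ?_)
  rw [bd_single, vertsOf_subset_iff]
  intro t ht
  obtain ⟨v, -, hv⟩ := Finset.mem_biUnion.1
    (Finsupp.support_finsetSum (Finsupp.support_smul ht))
  rw [Finset.mem_singleton.1 (Finsupp.support_single_subset hv)]
  exact (Finset.erase_subset _ _).trans (subset_vertsOf hs)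

/-! ### Cones -/

/-- The cone with apex `x`; faces containing `x` go to `0`. -/
noncomputable def cone (x : V) : Chain V →ₗ[ZMod 2] Chain V :=
  Finsupp.linearCombination (ZMod 2) fun s =>
    if x ∈ s then 0 else Finsupp.single (insert x s) 1

theorem cone_single (x : V) (s : Finset V) (a : ZMod 2) :
    cone x (Finsupp.single s a) = if x ∈ s then 0 else Finsupp.single (insert x s) a := by
  simp [cone]

theorem bd_cone (x : V) (c : Chain V) : bd (cone x c) + cone x (bd c) = c := by
  induction c using Finsupp.induction_linear with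
  | zero => simp
  | add a b ha hb =>
    simp only [map_add]
    rw [add_add_add_comm, ha, hb]
  | single s a =>
    rw [cone_single, bd_single, map_smul, map_sum]
    simp only [cone_single]
    by_cases hx : x ∈ s
    · rw [if_pos hx, map_zero, zero_add, Finset.sum_eq_single x]
      · simp [Finset.insert_erase hx]
      · intro v _ hv
        rw [if_pos (Finset.mem_erase.2 ⟨fun e => hv e.symm, hx⟩)]
      · exact fun h => absurd hx h
    · rw [if_neg hx, bd_single, Finset.sum_insert hx, Finset.erase_insert hx, smul_add,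
        add_assoc, ← smul_add, ← Finset.sum_add_distrib, Finset.sum_eq_zero, smul_zero, add_zero,
        Finsupp.smul_single, smul_eq_mul, mul_one]
      intro v hv
      rw [if_neg (fun h => hx (Finset.mem_of_mem_erase h)),
        Finset.erase_insert_of_ne (fun e => hx (by rw [e]; exact hv))]
      exact chain_add_self _

theorem bd_cone_of_cycle (x : V) {c : Chain V} (hc : bd c = 0) : bd (cone x c) = c := by
  simpa [hc] using bd_cone x c

theorem cone_support (x : V) (c : Chain V) {u : Finset V} (hu : u ∈ (cone x c).support) :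
    ∃ s ∈ c.support, x ∉ s ∧ u = insert x s := by
  conv at hu => rw [← sum_smul_single c, map_sum]
  obtain ⟨s, hs, h⟩ := Finset.mem_biUnion.1 (Finsupp.support_finsetSum hu)
  rw [cone_single] at h
  by_cases hx : x ∈ s
  · simp [hx] at h
  · rw [if_neg hx] at h
    exact ⟨s, hs, hx, Finset.mem_singleton.1 (Finsupp.support_single_subset h)⟩

theorem vertsOf_cone (x : V) (c : Chain V) : vertsOf (cone x c) ⊆ insert x (vertsOf c) := by
  rw [vertsOf_subset_iff]
  intro u hu
  obtain ⟨s, hs, -, rfl⟩ := cone_support x c hu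
  exact Finset.insert_subset_insert _ (subset_vertsOf hs)

/-- CONE: a cycle bounds as soon as all its cones with apex `x` are faces. -/
theorem cone_fill {K : Set (Finset V)} {n : ℕ} {z : Chain V} (x : V) (hz : bd z = 0)
    (hn : ∀ s ∈ z.support, s.card = n) (h : ∀ s ∈ z.support, x ∉ s → insert x s ∈ K) :
    cone x z ∈ chainsOf K (n + 1) ∧ bd (cone x z) = z ∧
      vertsOf (cone x z) ⊆ insert x (vertsOf z) := by
  refine ⟨mem_chainsOf_iff.2 fun u hu => ?_, bd_cone_of_cycle x hz, vertsOf_cone x z⟩
  obtain ⟨s, hs, hx, rfl⟩ := cone_support x z hu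
  exact ⟨h s hs hx, by rw [Finset.card_insert_of_notMem hx, hn s hs]⟩

/-! ### Removing vertices -/

/-- The link part of a chain at `x`. -/
noncomputable def lkPart (x : V) : Chain V →ₗ[ZMod 2] Chain V :=
  Finsupp.linearCombination (ZMod 2) fun s =>
    if x ∈ s then Finsupp.single (s.erase x) 1 else 0

theorem lkPart_single (x : V) (s : Finset V) (a : ZMod 2) :
    lkPart x (Finsupp.single s a) = if x ∈ s then Finsupp.single (s.erase x) a else 0 := by
  simp [lkPart]

theorem lkPart_apply (x : V) (c : Chain V) (u : Finset V) :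
    lkPart x c u = if x ∈ u then 0 else c (insert x u) := by
  induction c using Finsupp.induction_linear with
  | zero => simp
  | add a b ha hb =>
    simp only [map_add, Finsupp.add_apply, ha, hb]
    split_ifs <;> simp
  | single s a =>
    rw [lkPart_single]
    by_cases hu : x ∈ u
    · rw [if_pos hu]
      split_ifs with hs
      · exact Finsupp.single_eq_of_ne fun e => Finset.notMem_erase x s (e ▸ hu)
      · simp
    · rw [if_neg hu]
      split_ifs with hs
      · by_cases he : s.erase x = u
        · subst he; simp [Finset.insert_erase hs]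
        · rw [Finsupp.single_eq_of_ne (Ne.symm he), Finsupp.single_eq_of_ne]
          exact fun e => he (by rw [← e, Finset.erase_insert hu])
      · rw [Finsupp.zero_apply, Finsupp.single_eq_of_ne]
        exact fun e => hs (e ▸ Finset.mem_insert_self x u)

theorem lkPart_support {x : V} {c : Chain V} {u : Finset V} (hu : u ∈ (lkPart x c).support) :
    x ∉ u ∧ insert x u ∈ c.support := by
  rw [Finsupp.mem_support_iff, lkPart_apply] at hu
  by_cases hx : x ∈ u
  · simp [hx] at hu
  · rw [if_neg hx] at hu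
    exact ⟨hx, Finsupp.mem_support_iff.2 hu⟩

theorem bd_lkPart (x : V) (c : Chain V) : bd (lkPart x c) = lkPart x (bd c) := by
  induction c using Finsupp.induction_linear with
  | zero => simp
  | add a b ha hb => simp [ha, hb]
  | single s a =>
    rw [lkPart_single, bd_single, map_smul, map_sum]
    simp only [lkPart_single]
    by_cases hx : x ∈ s
    · rw [if_pos hx, bd_single]
      congr 1
      rw [← Finset.sum_erase_add s _ hx, if_neg (Finset.notMem_erase x s), add_zero]
      refine Finset.sum_congr rfl fun v hv => ?_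
      rw [if_pos (Finset.mem_erase.2 ⟨(Finset.ne_of_mem_erase hv).symm, hx⟩),
        Finset.erase_right_comm]
    · rw [if_neg hx, map_zero, Finset.sum_eq_zero, smul_zero]
      intro v _
      rw [if_neg fun h => hx (Finset.mem_of_mem_erase h)]

theorem lkPart_mem {K : Set (Finset V)} {n : ℕ} {c : Chain V} (hc : c ∈ chainsOf K (n + 1))
    (x : V) : lkPart x c ∈ chainsOf (lkV K x) n := by
  rw [mem_chainsOf_iff] at hc ⊢
  intro u hu
  obtain ⟨hx, hi⟩ := lkPart_support hu
  refine ⟨⟨hx, (hc _ hi).1⟩, ?_⟩
  have := (hc _ hi).2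
  rw [Finset.card_insert_of_notMem hx] at this
  omega

theorem vertsOf_lkPart (x : V) (c : Chain V) : vertsOf (lkPart x c) ⊆ vertsOf c := by
  rw [vertsOf_subset_iff]
  intro u hu
  exact (Finset.subset_insert x u).trans (subset_vertsOf (lkPart_support hu).2)

theorem cone_mem {K : Set (Finset V)} {n : ℕ} {x : V} {b : Chain V}
    (hb : b ∈ chainsOf (lkV K x) n) : cone x b ∈ chainsOf K (n + 1) := by
  rw [mem_chainsOf_iff] at hb ⊢
  intro u hu
  obtain ⟨s, hs, hx, rfl⟩ := cone_support x b hu
  exact ⟨(hb s hs).1.2, by rw [Finset.card_insert_of_notMem hx, (hb s hs).2]⟩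

theorem lkV_downward {K : Set (Finset V)} (hK : ∀ s ∈ K, ∀ t ⊆ s, t ∈ K) (x : V) :
    ∀ s ∈ lkV K x, ∀ t ⊆ s, t ∈ lkV K x :=
  fun _ hs _ ht => ⟨fun h => hs.1 (ht h), hK _ hs.2 _ (Finset.insert_subset_insert _ ht)⟩

/-- REMOVE, many pairwise non-adjacent vertices at once: if the link cycle of each vertex in `X`
bounds in its link, then `z` is homologous to a cycle avoiding `X`. -/
theorem remove_many {K : Set (Finset V)} (hK : ∀ s ∈ K, ∀ t ⊆ s, t ∈ K) {n : ℕ} {z : Chain V}
    (hz : z ∈ chainsOf K (n + 1)) (hz0 : bd z = 0) (X : Finset V)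
    (hX : ∀ x ∈ X, ∀ y ∈ X, x ≠ y → ({x, y} : Finset V) ∉ K)
    (bx : V → Chain V)
    (hb : ∀ x ∈ X, bx x ∈ chainsOf (lkV K x) (n + 1) ∧ bd (bx x) = lkPart x z) :
    ∃ b ∈ chainsOf K (n + 2), bd (z + bd b) = 0 ∧ z + bd b ∈ chainsOf K (n + 1) ∧
      vertsOf b ⊆ X.biUnion (fun x => insert x (vertsOf (bx x))) ∧
      ∀ x ∈ X, x ∉ vertsOf (z + bd b) := by
  have hmem : ∑ x ∈ X, cone x (bx x) ∈ chainsOf K (n + 2) :=
    Submodule.sum_mem _ fun x hx => cone_mem (hb x hx).1
  refine ⟨∑ x ∈ X, cone x (bx x), hmem, ?_, ?_, ?_, ?_⟩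
  · simp [hz0, bd_bd]
  · exact Submodule.add_mem _ hz (bd_mem_chainsOf hK hmem)
  · exact (vertsOf_sum _ _).trans (Finset.biUnion_mono fun x _ => vertsOf_cone x _)
  · intro x hx hv
    obtain ⟨s, hs, hxs⟩ := mem_vertsOf.1 hv
    rw [Finsupp.mem_support_iff] at hs
    apply hs
    have hfar : ∀ y ∈ X, y ≠ x → lkPart x (bd (cone y (bx y))) = 0 := by
      intro y hy hne
      rw [← bd_lkPart]
      suffices lkPart x (cone y (bx y)) = 0 by rw [this, map_zero]
      refine Finsupp.support_eq_empty.1 (Finset.eq_empty_of_forall_notMem fun u hu => ?_)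
      obtain ⟨-, hi⟩ := lkPart_support hu
      have hc := (mem_chainsOf_iff.1 (cone_mem (hb y hy).1) _ hi).1
      obtain ⟨t, -, -, he⟩ := cone_support y _ hi
      refine hX y hy x hx hne (hK _ hc _ ?_)
      intro a ha
      rcases Finset.mem_insert.1 ha with rfl | ha
      · rw [he]; exact Finset.mem_insert_self _ _
      · rw [Finset.mem_singleton.1 ha]; exact Finset.mem_insert_self _ _
    have hnear : lkPart x (bd (cone x (bx x))) = lkPart x z := by
      rw [← bd_lkPart, show lkPart x (cone x (bx x)) = bx x from ?_, (hb x hx).2]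
      ext u
      rw [lkPart_apply]
      have hnx : ∀ t ∈ (bx x).support, x ∉ t := fun t ht =>
        (mem_chainsOf_iff.1 (hb x hx).1 t ht).1.1
      by_cases hu : x ∈ u
      · rw [if_pos hu, eq_comm, ← Finsupp.notMem_support_iff]
        exact fun h => hnx u h hu
      · rw [if_neg hu]
        have key := congrArg (fun c => c u) (bd_cone x (bx x))
        conv_lhs => rw [← sum_smul_single (bx x), map_sum, Finsupp.finsetSum_apply]
        conv_rhs => rw [← sum_smul_single (bx x), Finsupp.finsetSum_apply]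
        refine Finset.sum_congr rfl fun t ht => ?_
        rw [cone_single, if_neg (hnx t ht)]
        simp only [Finsupp.single_apply]
        refine if_congr ⟨fun e => ?_, fun e => by rw [e]⟩ rfl rfl
        rw [← Finset.erase_insert (hnx t ht), e, Finset.erase_insert hu]
    have h0 : lkPart x (z + bd (∑ y ∈ X, cone y (bx y))) = 0 := by
      rw [map_add, map_sum, map_sum, Finset.sum_eq_single x hfar (fun h => absurd hx h), hnear,
        chain_add_self]
    have := congrArg (fun c => c (s.erase x)) h0
    simpa [lkPart_apply, Finset.insert_erase hxs] using this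

/-- REMOVE, one vertex. -/
theorem remove_one {K : Set (Finset V)} (hK : ∀ s ∈ K, ∀ t ⊆ s, t ∈ K) {n : ℕ} {z : Chain V}
    (hz : z ∈ chainsOf K (n + 1)) (hz0 : bd z = 0) (x : V) {b₀ : Chain V}
    (hb : b₀ ∈ chainsOf (lkV K x) (n + 1)) (hbd : bd b₀ = lkPart x z) :
    ∃ b ∈ chainsOf K (n + 2), bd (z + bd b) = 0 ∧ z + bd b ∈ chainsOf K (n + 1) ∧
      vertsOf b ⊆ insert x (vertsOf b₀) ∧
      vertsOf (z + bd b) ⊆ (vertsOf z ∪ vertsOf b₀).erase x := by
  obtain ⟨b, h1, h2, h3, h4, h5⟩ :=
    remove_many hK hz hz0 {x} (fun a ha c hc hne => absurd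
      ((Finset.mem_singleton.1 ha).trans (Finset.mem_singleton.1 hc).symm) hne)
      (fun _ => b₀) (fun a ha => by rw [Finset.mem_singleton.1 ha]; exact ⟨hb, hbd⟩)
  rw [Finset.singleton_biUnion] at h4
  refine ⟨b, h1, h2, h3, h4, fun v hv => ?_⟩
  have hne : v ≠ x := fun e => h5 x (Finset.mem_singleton_self x) (e ▸ hv)
  refine Finset.mem_erase.2 ⟨hne, ?_⟩
  rcases Finset.mem_union.1 (vertsOf_add _ _ hv) with h | h
  · exact Finset.mem_union_left _ h
  · exact Finset.mem_union_right _
      ((Finset.mem_insert.1 (h4 (vertsOf_bd _ h))).resolve_left hne)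

/-! ### Fillings give acyclicity and contractions -/

theorem FillAt.mono {K : Set (Finset V)} {n M M' B B' : ℕ} (h : FillAt K n M B) (hM : M' ≤ M)
    (hB : B ≤ B') : FillAt K n M' B' := by
  intro z hz hz0 hv
  obtain ⟨b, h1, h2, h3⟩ := h z hz hz0 (hv.trans hM)
  exact ⟨b, h1, h2, h3.trans hB⟩

theorem acycAt_of_fillAt {K : Set (Finset V)} {n : ℕ} (h : ∀ M, ∃ B, FillAt K n M B) :
    AcycAt K n := by
  intro z hz hz0
  obtain ⟨B, hB⟩ := h (vertsOf z).card
  obtain ⟨b, h1, h2, -⟩ := hB z hz hz0 le_rfl
  exact ⟨b, h1, h2⟩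

theorem card_support_le (c : Chain V) : c.support.card ≤ 2 ^ (vertsOf c).card := by
  rw [← Finset.card_powerset]
  exact Finset.card_le_card fun s hs => Finset.mem_powerset.2 (subset_vertsOf hs)

theorem linearCombination_bd_single (h : Finset V → Chain V) (s : Finset V) :
    Finsupp.linearCombination (ZMod 2) h (bd (Finsupp.single s 1)) = ∑ v ∈ s, h (s.erase v) := by
  rw [bd_single, one_smul, map_sum]
  simp

/-- A bounded contraction up to `n` vertices from bounded fillings: with filling bounds `Bf`
there are `Mx` and `B` such that fillings up to `Mx m` vertices in every size `m ≤ n` suffice. -/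
theorem contraction_of_fillAt (Bf : ℕ → ℕ → ℕ) (n : ℕ) :
    ∃ (Mx : ℕ → ℕ) (B : ℕ), ∀ (V : Type) (K : Set (Finset V)), (∀ s ∈ K, ∀ t ⊆ s, t ∈ K) →
      (∀ m ≤ n, FillAt K m (Mx m) (Bf m (Mx m))) →
      ∃ h : Finset V → Chain V, ∀ s ∈ K, s.card ≤ n →
        h s ∈ chainsOf K (s.card + 1) ∧ (vertsOf (h s)).card ≤ B ∧
        bd (h s) + Finsupp.linearCombination (ZMod 2) h (bd (Finsupp.single s 1))
          = Finsupp.single s 1 := by
  induction n with
  | zero =>
    refine ⟨fun _ => 0, Bf 0 0, fun V K _ hF => ?_⟩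
    by_cases he : ∅ ∈ K
    · obtain ⟨b, h1, h2, h3⟩ := hF 0 le_rfl (Finsupp.single ∅ 1)
        (single_mem_chainsOf he rfl _) (by simp [bd_single]) (by
          rw [show vertsOf (Finsupp.single (∅ : Finset V) (1 : ZMod 2)) = ∅ from
            Finset.subset_empty.1 (vertsOf_subset_iff.2 fun s hs => by
              rw [Finset.mem_singleton.1 (Finsupp.support_single_subset hs)])]
          exact le_rfl)
      refine ⟨fun _ => b, fun s _ hsn => ?_⟩
      have : s = ∅ := Finset.card_eq_zero.1 (by omega)
      subst this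
      exact ⟨h1, h3, by rw [linearCombination_bd_single]; simpa using h2⟩
    · refine ⟨fun _ => 0, fun s hs hsn => ?_⟩
      have h0 : s = ∅ := Finset.card_eq_zero.1 (by omega)
      exact absurd (h0 ▸ hs) he
  | succ n IH =>
    obtain ⟨Mx, B, IH⟩ := IH
    refine ⟨fun m => if m = n + 1 then (n + 1) + (n + 1) * B else Mx m,
      B + Bf (n + 1) ((n + 1) + (n + 1) * B), fun V K hK hF => ?_⟩
    obtain ⟨h, hh⟩ := IH V K hK fun m hm => by
      have := hF m (by omega)
      simpa [show m ≠ n + 1 by omega] using this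
    have hfill := hF (n + 1) le_rfl
    simp only [if_pos] at hfill
    have hex : ∀ s ∈ K, s.card = n + 1 → ∃ b ∈ chainsOf K (n + 2),
        bd b = Finsupp.single s 1 + ∑ v ∈ s, h (s.erase v) ∧
          (vertsOf b).card ≤ Bf (n + 1) ((n + 1) + (n + 1) * B) := by
      intro s hs hsn
      have hsub : ∀ v ∈ s, (s.erase v).card = n ∧ s.erase v ∈ K := fun v hv =>
        ⟨by rw [Finset.card_erase_of_mem hv, hsn]; omega, hK s hs _ (Finset.erase_subset _ _)⟩
      refine hfill _ (Submodule.add_mem _ (single_mem_chainsOf hs hsn _)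
        (Submodule.sum_mem _ fun v hv => ?_)) ?_ ?_
      · have := (hh _ (hsub v hv).2 (hsub v hv).1.le).1
        rwa [(hsub v hv).1] at this
      · rw [map_add, map_sum, bd_single, one_smul, ← Finset.sum_add_distrib]
        have h2 : ∀ v ∈ s, Finsupp.single (s.erase v) 1 + bd (h (s.erase v)) =
            Finsupp.linearCombination (ZMod 2) h (bd (Finsupp.single (s.erase v) 1)) := by
          intro v hv
          have e := (hh _ (hsub v hv).2 (hsub v hv).1.le).2.2
          calc _ = bd (h (s.erase v)) + Finsupp.linearCombination (ZMod 2) h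
                (bd (Finsupp.single (s.erase v) 1)) + bd (h (s.erase v)) := by rw [e]
            _ = _ := by rw [add_comm, ← add_assoc, chain_add_self, zero_add]
        rw [Finset.sum_congr rfl h2, ← map_sum, ← map_sum]
        have h3 : (∑ v ∈ s, Finsupp.single (s.erase v) (1 : ZMod 2)) =
            bd (Finsupp.single s 1) := by rw [bd_single, one_smul]
        rw [h3, bd_bd, map_zero]
      · have hsingle : vertsOf (Finsupp.single s (1 : ZMod 2)) ⊆ s :=
          vertsOf_subset_iff.2 fun t ht => by
            rw [Finset.mem_singleton.1 (Finsupp.support_single_subset ht)]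
        refine (Finset.card_le_card ((vertsOf_add _ _).trans (Finset.union_subset_union hsingle
          (vertsOf_sum _ _)))).trans ((Finset.card_union_le _ _).trans (Nat.add_le_add hsn.le ?_))
        refine Finset.card_biUnion_le.trans ((Finset.sum_le_card_nsmul _ _ B fun v hv =>
          (hh _ (hsub v hv).2 (hsub v hv).1.le).2.1).trans ?_)
        rw [hsn, smul_eq_mul]
    choose g hg1 hg2 hg3 using hex
    let h' : Finset V → Chain V := fun s =>
      if e : s ∈ K ∧ s.card = n + 1 then g s e.1 e.2 else h s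
    refine ⟨h', fun s hs hsn => ?_⟩
    have heq : ∀ t : Finset V, t.card ≤ n → h' t = h t := fun t ht =>
      dif_neg fun e => by omega
    have hsum : Finsupp.linearCombination (ZMod 2) h' (bd (Finsupp.single s 1)) =
        Finsupp.linearCombination (ZMod 2) h (bd (Finsupp.single s 1)) := by
      rw [linearCombination_bd_single, linearCombination_bd_single]
      refine Finset.sum_congr rfl fun v hv => heq _ ?_
      rw [Finset.card_erase_of_mem hv]
      omega
    rw [hsum]
    rcases hsn.lt_or_eq with hlt | he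
    · obtain ⟨a, b, c⟩ := hh s hs (by omega)
      rw [heq s (by omega)]
      exact ⟨a, b.trans (Nat.le_add_right _ _), c⟩
    · have : h' s = g s hs he := dif_pos ⟨hs, he⟩
      rw [this, he, linearCombination_bd_single, hg2 s hs he]
      exact ⟨hg1 s hs he, (hg3 s hs he).trans (Nat.le_add_left _ _),
        by rw [add_assoc, chain_add_self, add_zero]⟩

end Vale.Agent.P067
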