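import Vale.Agent.P067.Chains

/-!
Basic chain lemmas: boundary, action, coinvariant relations.
-/

namespace Vale.Agent.P067.Hom

open Classical Finsupp

variable {V W : Type} {G G' : Type} [Group G] [MulAction G V] [Group G'] [MulAction G' W]

noncomputable section

lemma char_two {M : Type*} [AddCommGroup M] [Module (ZMod 2) M] (x : M) : x + x = 0 := by
  have h : ((1 : ZMod 2) + 1) • x = 0 := by
    rw [show ((1 : ZMod 2) + 1) = 0 from rfl, zero_smul]
  rwa [add_smul, one_smul] at h

lemma neg_self {M : Type*} [AddCommGroup M] [Module (ZMod 2) M] (x : M) : -x = x :=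
  neg_eq_of_add_eq_zero_left (char_two x)

lemma sub_eq_add' {M : Type*} [AddCommGroup M] [Module (ZMod 2) M] (x y : M) : x - y = x + y := by
  rw [sub_eq_add_neg, neg_self]

lemma bd_single (s : Finset V) :
    bd (single s 1) = ∑ v ∈ s, single (s.erase v) (1 : ZMod 2) := by
  simp [bd]

lemma act_single (g : G) (s : Finset V) (c : ZMod 2) :
    act g (single s c) = single (s.image fun v => g • v) c := by
  simp [act]

lemma act_one (c : Chain V) : act (1 : G) c = c := by
  simp [act]
  exact mapDomain_id

lemma image_mul (g h : G) (s : Finset V) :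
    s.image (fun v => (g * h) • v) = (s.image fun v => h • v).image fun v => g • v := by
  simp [Finset.image_image, Function.comp_def, mul_smul]

lemma image_one (s : Finset V) : s.image (fun v => (1 : G) • v) = s := by simp

lemma act_mul (g h : G) (c : Chain V) : act (g * h) c = act g (act h c) := by
  simp only [act, lmapDomain_apply, ← mapDomain_comp]
  congr 1
  funext s
  exact image_mul g h s

lemma act_inv_act (g : G) (c : Chain V) : act g⁻¹ (act g c) = c := by
  rw [← act_mul, inv_mul_cancel, act_one]

lemma chain_ext {M : Type*} [AddCommGroup M] [Module (ZMod 2) M] {f g : Chain V →ₗ[ZMod 2] M}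
    (h : ∀ s, f (single s 1) = g (single s 1)) : f = g := by
  refine Finsupp.lhom_ext' fun s => ?_
  ext
  simpa using h s

lemma bd_act (g : G) (c : Chain V) : bd (act g c) = act g (bd c) := by
  have : (bd : Chain V →ₗ[ZMod 2] Chain V) ∘ₗ act g = act g ∘ₗ bd := by
    refine chain_ext fun s => ?_
    simp only [LinearMap.comp_apply, act_single, bd_single, map_sum]
    rw [Finset.sum_image (fun a _ b _ h => MulAction.injective g h)]
    refine Finset.sum_congr rfl fun v _ => ?_
    rw [Finset.image_erase (MulAction.injective g)]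
  exact LinearMap.congr_fun this c

lemma bd_bd (c : Chain V) : bd (bd c) = 0 := by
  have : (bd : Chain V →ₗ[ZMod 2] Chain V) ∘ₗ bd = 0 := by
    refine chain_ext fun s => ?_
    simp only [LinearMap.comp_apply, bd_single, map_sum, LinearMap.zero_apply]
    rw [Finset.sum_sigma']
    refine Finset.sum_involution (fun p _ => ⟨p.2, p.1⟩) ?_ ?_ ?_ ?_
    · intro p _
      rw [Finset.erase_right_comm]
      exact char_two _
    · intro p hp _ h
      simp only [Finset.mem_sigma, Finset.mem_erase] at hp
      exact hp.2.1 (congrArg Sigma.fst h)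
    · intro p hp
      simp only [Finset.mem_sigma, Finset.mem_erase] at hp ⊢
      exact ⟨hp.2.2, Ne.symm hp.2.1, hp.1⟩
    · intro p _
      rfl
  exact LinearMap.congr_fun this c

lemma mem_chainsOf {K : Set (Finset V)} {n : ℕ} {c : Chain V} :
    c ∈ chainsOf K n ↔ ∀ s ∈ c.support, s ∈ K ∧ s.card = n := by
  simp [chainsOf, mem_supported, Set.subset_def]

lemma single_mem_chainsOf {K : Set (Finset V)} {n : ℕ} {s : Finset V} (a : ZMod 2)
    (hs : s ∈ K) (hn : s.card = n) : single s a ∈ chainsOf K n :=
  single_mem_supported _ _ ⟨hs, hn⟩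

/-- Linear maps agree with their values on single simplices. -/
lemma map_mem {K : Set (Finset V)} {n : ℕ} {M : Type*} [AddCommGroup M] [Module (ZMod 2) M]
    {S : Submodule (ZMod 2) M} {f : Chain V →ₗ[ZMod 2] M}
    (h : ∀ s ∈ K, s.card = n → f (single s 1) ∈ S) {c : Chain V} (hc : c ∈ chainsOf K n) :
    f c ∈ S := by
  rw [← Finsupp.sum_single c, Finsupp.sum, map_sum]
  refine S.sum_mem fun s hs => ?_
  obtain ⟨h1, h2⟩ := mem_chainsOf.1 hc s hs
  rw [show single s (c s) = c s • single s (1 : ZMod 2) from by simp, map_smul]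
  exact S.smul_mem _ (h s h1 h2)

lemma bd_mem {K : Set (Finset V)} (hK : IsCx K) {n : ℕ} {c : Chain V}
    (hc : c ∈ chainsOf K (n + 1)) : bd c ∈ chainsOf K n := by
  refine map_mem (fun s hs hn => ?_) hc
  rw [bd_single]
  exact Submodule.sum_mem _ fun v hv => single_mem_chainsOf 1
    (hK.2 s hs _ (Finset.erase_subset _ _)) (by rw [Finset.card_erase_of_mem hv, hn]; rfl)

lemma act_mem {H : Subgroup G} {K : Set (Finset V)} (hK : InvCx H K) {g : G} (hg : g ∈ H)
    {n : ℕ} {c : Chain V} (hc : c ∈ chainsOf K n) : act g c ∈ chainsOf K n := by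
  refine map_mem (fun s hs hn => ?_) hc
  rw [act_single]
  exact single_mem_chainsOf 1 (hK g hg s hs)
    (by rw [Finset.card_image_of_injective _ (MulAction.injective g), hn])

lemma isCx_univ : IsCx (Set.univ : Set (Finset V)) := ⟨trivial, fun _ _ _ _ => trivial⟩

lemma invCx_univ (H : Subgroup G) : InvCx H (Set.univ : Set (Finset V)) :=
  fun _ _ _ _ => trivial

lemma act_add_mem_relI {H : Subgroup G} {g : G} (hg : g ∈ H) (c : Chain V) :
    act g c + c ∈ relI (V := V) H :=
  Submodule.subset_span ⟨g, hg, c, rfl⟩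

lemma relI_mono {H H' : Subgroup G} (h : H ≤ H') : relI (V := V) H ≤ relI H' :=
  Submodule.span_mono fun _ ⟨g, hg, b, hb⟩ => ⟨g, h hg, b, hb⟩

/-- To send `relI H` into a submodule it suffices to do so on the generators. -/
lemma relI_map {H : Subgroup G} {M : Type*} [AddCommGroup M] [Module (ZMod 2) M]
    {S : Submodule (ZMod 2) M} {f : Chain V →ₗ[ZMod 2] M}
    (h : ∀ g ∈ H, ∀ s : Finset V,
      f (single (s.image fun v => g • v) 1) + f (single s 1) ∈ S)
    {c : Chain V} (hc : c ∈ relI H) : f c ∈ S := by
  refine (Submodule.span_le (p := S.comap f)).2 ?_ hc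
  rintro _ ⟨g, hg, b, rfl⟩
  simp only [SetLike.mem_coe, Submodule.mem_comap]
  rw [← Finsupp.sum_single b, Finsupp.sum]
  simp only [map_sum, ← Finset.sum_add_distrib]
  refine S.sum_mem fun s _ => ?_
  rw [show single s (b s) = b s • single s (1 : ZMod 2) from by simp, map_smul, ← smul_add,
    map_smul, act_single, map_add]
  exact S.smul_mem _ (h g hg s)

lemma single_image_mem_relI {H : Subgroup G} {g : G} (hg : g ∈ H) (s : Finset V) :
    single (s.image fun v => g • v) (1 : ZMod 2) + single s 1 ∈ relI (V := V) H := by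
  rw [← act_single]
  exact act_add_mem_relI hg _

lemma bd_relI {H : Subgroup G} {c : Chain V} (hc : c ∈ relI H) : bd c ∈ relI H := by
  refine relI_map (fun g hg s => ?_) hc
  rw [← act_single, bd_act]
  exact act_add_mem_relI hg _

lemma act_relI_normal {H : Subgroup G} {g : G} (hn : ∀ h ∈ H, g * h * g⁻¹ ∈ H)
    {c : Chain V} (hc : c ∈ relI H) : act g c ∈ relI H := by
  refine relI_map (fun h hh s => ?_) hc
  rw [act_single, act_single, ← image_mul, show g * h = (g * h * g⁻¹) * g by group, image_mul]
  exact single_image_mem_relI (hn h hh) _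

/-- Restriction of a chain to the simplices in a set, as a linear map. -/
def proj (S : Set (Finset V)) : Chain V →ₗ[ZMod 2] Chain V :=
  Finsupp.linearCombination (ZMod 2) fun s => if s ∈ S then single s 1 else 0

lemma proj_eq_self {S : Set (Finset V)} {c : Chain V} (hc : ∀ s ∈ c.support, s ∈ S) :
    proj S c = c := by
  rw [proj, linearCombination_apply, Finsupp.sum]
  conv_rhs => rw [← Finsupp.sum_single c, Finsupp.sum]
  refine Finset.sum_congr rfl fun s hs => ?_
  simp [hc s hs]

/-- As `relI_map`, for chains on an invariant set of simplices. -/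
lemma relI_map_on {H : Subgroup G} {K : Set (Finset V)} (hK : InvCx H K) {n : ℕ}
    {M : Type*} [AddCommGroup M] [Module (ZMod 2) M] {S : Submodule (ZMod 2) M}
    {f : Chain V →ₗ[ZMod 2] M}
    (h : ∀ g ∈ H, ∀ s ∈ K, s.card = n →
      f (single (s.image fun v => g • v) 1) + f (single s 1) ∈ S)
    {c : Chain V} (hc : c ∈ chainsOf K n) (hr : c ∈ relI H) : f c ∈ S := by
  set T : Set (Finset V) := {s | s ∈ K ∧ s.card = n}
  have hp : proj T c = c := proj_eq_self (fun s hs => mem_chainsOf.1 hc s hs)
  rw [← hp]
  refine relI_map (f := f ∘ₗ proj T) (fun g hg s => ?_) hr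
  have hiff : s.image (fun v => g • v) ∈ T ↔ s ∈ T := by
    constructor
    · intro h1
      refine ⟨?_, ?_⟩
      · have := hK g⁻¹ (H.inv_mem hg) _ h1.1
        rwa [← image_mul, inv_mul_cancel, image_one] at this
      · rw [← h1.2, Finset.card_image_of_injective _ (MulAction.injective g)]
    · exact fun h1 => ⟨hK g hg s h1.1,
        by rw [Finset.card_image_of_injective _ (MulAction.injective g), h1.2]⟩
  by_cases hs : s ∈ T
  · simp only [LinearMap.comp_apply, proj, linearCombination_single, one_smul,
      if_pos hs, if_pos (hiff.2 hs)]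
    exact h g hg s hs.1 hs.2
  · simp [proj, hs, mt hiff.1 hs]

lemma sum_odd {ι M : Type*} [AddCommGroup M] [Module (ZMod 2) M] {s : Finset ι}
    (hs : Odd s.card) (x : M) : ∑ _i ∈ s, x = x := by
  obtain ⟨k, hk⟩ := hs
  rw [Finset.sum_const, hk, add_nsmul, one_nsmul, mul_nsmul', two_nsmul, char_two, zero_add]

end

end Vale.Agent.P067.Hom
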