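import Mathlib
import Vale.Agent.P067.Act

namespace Vale.Agent.P067

open Classical Polynomial

variable {p N : ℕ} [Fact p.Prime]

lemma mem_Gam_iff {m : ℕ} {g : SLP p N} :
    g ∈ Gam p N m ↔ ∀ i j, (X : PR p) ^ m ∣ g.1 i j - (1 : Matrix (Fin N) (Fin N) (PR p)) i j := by
  rw [Gam, MonoidHom.mem_ker, Matrix.SpecialLinearGroup.ext_iff]
  refine forall_congr' (fun i => forall_congr' (fun j => ?_))
  simp only [Matrix.SpecialLinearGroup.map_apply_coe, Matrix.SpecialLinearGroup.coe_one,
    RingHom.mapMatrix_apply, Matrix.map_apply]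
  rw [← Ideal.mem_span_singleton, ← Ideal.Quotient.eq]
  rcases eq_or_ne i j with rfl | h
  · simp
  · simp [Matrix.one_apply_ne h]

lemma gam_mv {m : ℕ} {g : SLP p N} (hg : g ∈ Gam p N m) (x : PV p N) (i : Fin N) :
    (X : PR p) ^ m ∣ mv g x i - x i := by
  have h : mv g x i - x i = ∑ j, (g.1 i j - (1 : Matrix (Fin N) (Fin N) (PR p)) i j) * x j := by
    simp [mv, Matrix.mulVec, dotProduct, sub_mul, Finset.sum_sub_distrib, Matrix.one_apply,
      Finset.sum_ite_eq]
  rw [h]
  exact Finset.dvd_sum (fun j _ => Dvd.dvd.mul_right (mem_Gam_iff.1 hg i j) _)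

lemma gam_normal (m : ℕ) : (Gam p N m).Normal := MonoidHom.normal_ker _

lemma gam_antitone {m n : ℕ} (h : m ≤ n) : Gam p N n ≤ Gam p N m := fun g hg =>
  mem_Gam_iff.2 (fun i j => (pow_dvd_pow _ h).trans (mem_Gam_iff.1 hg i j))

lemma gam_repr {m : ℕ} {g : SLP p N} (hg : g ∈ Gam p N m)
    (f : Module.Basis (Fin N) (PR p) (PV p N)) (x : PV p N) (i : Fin N) :
    (X : PR p) ^ m ∣ f.repr (mv g x) i - f.repr x i := by
  choose c hc using gam_mv hg x
  have : mv g x - x = (X : PR p) ^ m • c := funext fun i => by simpa using hc i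
  refine ⟨f.repr c i, ?_⟩
  rw [← Finsupp.sub_apply, ← map_sub, this, map_smul]
  simp

lemma wb_sandwich {u v : Nrm p N} (h : Near u v ∨ Near v u) :
    (∀ x, u.1 x ≤ v.1 x + ((1 : ℤ) : WithBot ℤ)) ∧
      ∀ x, v.1 x ≤ u.1 x + ((1 : ℤ) : WithBot ℤ) := by
  have le1 : ∀ a : WithBot ℤ, a ≤ a + ((1 : ℤ) : WithBot ℤ) := fun a => by
    cases a with
    | bot => simp
    | coe n => rw [← WithBot.coe_add, WithBot.coe_le_coe]; omega
  rcases h with ⟨h1, h2⟩ | ⟨h1, h2⟩
  · exact ⟨fun x => (h1 x).trans (le1 _), h2⟩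
  · exact ⟨h2, fun x => (h1 x).trans (le1 _)⟩

/-- An element of a congruence subgroup moving a thin vertex by at most two steps has
small entries in an adapted basis, hence is trivial for a high level. -/
lemma repr_degree_bound {u v : Nrm p N} {f : Module.Basis (Fin N) (PR p) (PV p N)}
    {b : Fin N → ℤ} (hf : HasType u.1 f b) {g : SLP p N} (hv : g • u = v) {c : ℤ}
    (hc : ∀ x, v.1 x = u.1 (mv g⁻¹ x) + (c : WithBot ℤ)) (e : ℤ)
    (hnear : ∀ x, v.1 x ≤ u.1 x + (e : WithBot ℤ)) (i j : Fin N) :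
    degZ (f.repr (mv g⁻¹ (f j)) i) ≤ ((b i - b j - c + e : ℤ) : WithBot ℤ) := by
  have huj : u.1 (f j) = ((-b j : ℤ) : WithBot ℤ) := by
    rw [hf]
    refine le_antisymm (Finset.sup_le (fun k _ => ?_)) ?_
    · rcases eq_or_ne k j with rfl | h
      · simp
      · simp [f.repr_self, Finsupp.single_eq_of_ne h]
    · refine le_trans (le_of_eq ?_) (Finset.le_sup (Finset.mem_univ j))
      simp
  have h1 := hnear (f j)
  rw [hc, huj, ← WithBot.coe_add] at h1
  have h2 : u.1 (mv g⁻¹ (f j)) ≤ ((-b j + e - c : ℤ) : WithBot ℤ) := by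
    have := le_add_neg h1
    rwa [← WithBot.coe_add, show -b j + e + -c = -b j + e - c by ring] at this
  rw [hf, Finset.sup_le_iff] at h2
  have h3 := h2 i (Finset.mem_univ i)
  cases hd : (f.repr (mv g⁻¹ (f j)) i).degree with
  | bot => simp [degZ, hd]
  | coe n =>
    simp only [hd, WithBot.map_coe, WithBot.coe_le_coe] at h3
    simp only [degZ, hd, WithBot.map_coe, WithBot.coe_le_coe]
    omega

lemma shift_lower {m : ℕ} (hm : 1 ≤ m) {u v : Nrm p N}
    {f : Module.Basis (Fin N) (PR p) (PV p N)} {b : Fin N → ℤ} (hf : HasType u.1 f b)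
    {g : SLP p N} (hg : g ∈ Gam p N m) (hv : g • u = v) {c : ℤ}
    (hc : ∀ x, v.1 x = u.1 (mv g⁻¹ x) + (c : WithBot ℤ)) (e : ℤ)
    (hnear : ∀ x, v.1 x ≤ u.1 x + (e : WithBot ℤ)) (j : Fin N) : c ≤ e := by
  have h := repr_degree_bound hf hv hc e hnear j j
  have hd := gam_repr ((Gam p N m).inv_mem hg) f (f j) j
  have hne : f.repr (mv g⁻¹ (f j)) j ≠ 0 := by
    intro h0
    rw [h0] at hd
    simp only [Module.Basis.repr_self, Finsupp.single_eq_same, zero_sub, dvd_neg] at hd
    have : IsUnit ((X : PR p) ^ m) := isUnit_of_dvd_one hd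
    exact Polynomial.not_isUnit_X ((isUnit_pow_iff (by omega)).1 this)
  rw [degZ, Polynomial.degree_eq_natDegree hne] at h
  have h' : ((f.repr (mv g⁻¹ (f j)) j).natDegree : ℤ) ≤ b j - b j - c + e :=
    WithBot.coe_le_coe.1 h
  omega

/-- Displacement: at level `t^m` a thin vertex is moved at least `e + 1` steps when `2e + 2 ≤ m`. -/
lemma displacement {m : ℕ} (hN : 0 < N) {u : Nrm p N} (hu : Thin u) {g : SLP p N}
    (hg : g ∈ Gam p N m) (e : ℕ) (hm : 2 * e + 2 ≤ m)
    (h1 : ∀ x, (g • u).1 x ≤ u.1 x + ((e : ℤ) : WithBot ℤ))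
    (h2 : ∀ x, u.1 x ≤ (g • u).1 x + ((e : ℤ) : WithBot ℤ)) : g = 1 := by
  obtain ⟨f, b, hf, hb⟩ := hu
  obtain ⟨c, hc⟩ := smul_spec g u
  let j₀ : Fin N := ⟨0, hN⟩
  -- lower bound on the shift from the inverse
  have hrev : -c ≤ (e : ℤ) := by
    have hginv : g⁻¹ • u = g⁻¹ • u := rfl
    obtain ⟨c', hc'⟩ := smul_spec g⁻¹ u
    rw [inv_inv] at hc'
    have hn : ∀ x, (g⁻¹ • u).1 x ≤ u.1 x + ((c' + c + e : ℤ) : WithBot ℤ) := by
      intro x
      have := h2 (mv g x)
      rw [hc, mv_inv_mv, wb_add_assoc] at this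
      rw [hc']
      refine ((wb_add_le_iff c').2 this).trans (le_of_eq ?_)
      rw [wb_add_assoc]; congr 2; ring
    have := shift_lower (m := m) (by omega) hf ((Gam p N m).inv_mem hg) hginv
      (by rw [inv_inv]; exact hc') _ hn j₀
    omega
  have key : ∀ i j, f.repr (mv g⁻¹ (f j)) i = f.repr (f j) i := by
    intro i j
    have hdeg := repr_degree_bound hf rfl hc e h1 i j
    have hd := gam_repr ((Gam p N m).inv_mem hg) f (f j) i
    have hbij := hb i j
    by_contra hne
    have hsub : f.repr (mv g⁻¹ (f j)) i - f.repr (f j) i ≠ 0 := sub_ne_zero.2 hne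
    have h3 := Polynomial.natDegree_le_of_dvd hd hsub
    rw [Polynomial.natDegree_X_pow] at h3
    have h4 := Polynomial.natDegree_sub_le (f.repr (mv g⁻¹ (f j)) i) (f.repr (f j) i)
    have h5 : (f.repr (f j) i).natDegree = 0 := by
      rcases eq_or_ne i j with rfl | h
      · simp
      · simp [Finsupp.single_eq_of_ne h]
    have h6 : (f.repr (mv g⁻¹ (f j)) i).natDegree ≤ 2 * e + 1 := by
      rcases eq_or_ne (f.repr (mv g⁻¹ (f j)) i) 0 with h0 | h0
      · simp [h0]
      · rw [degZ, Polynomial.degree_eq_natDegree h0] at hdeg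
        have : ((f.repr (mv g⁻¹ (f j)) i).natDegree : ℤ) ≤ b i - b j - c + e :=
          WithBot.coe_le_coe.1 hdeg
        omega
    omega
  have hid : mv g⁻¹ = LinearMap.id := f.ext (fun j => f.repr.injective (Finsupp.ext fun i => key i j))
  have : g⁻¹ = 1 := by
    apply Subtype.ext
    apply Matrix.toLin'.injective
    simp only [mv] at hid
    rw [hid]
    simp [Matrix.toLin'_one]
  simpa using this

/-- The standard vertex. -/
noncomputable def origin (p N : ℕ) [Fact p.Prime] (hN : 0 < N) : Nrm p N :=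
  ⟨std p N, by
    refine ⟨fun x y => std_le_iff.2 (fun i => ?_), fun c x => ?_, fun x => le_rfl,
      ⟨0, fun x => by simp⟩, ⟨Pi.single ⟨0, hN⟩ 1, by simp, rfl⟩⟩
    · refine le_trans ?_ (max_le_max (le_std_coord x i) (le_std_coord y i))
      have := Polynomial.degree_add_le (x i) (y i)
      rcases le_max_iff.1 this with h | h
      · exact le_max_of_le_left ((WithBot.monotone_map_iff.2 (fun _ _ => Int.ofNat_le.2)) h)
      · exact le_max_of_le_right ((WithBot.monotone_map_iff.2 (fun _ _ => Int.ofNat_le.2)) h)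
    · rcases eq_or_ne c 0 with rfl | hc
      · rw [zero_smul]; simp [std_eq_bot.2 rfl, degZ]
      · unfold std
        rw [Finset.apply_sup_eq_sup_comp
          (fun a : WithBot ℤ => c.degree.map (fun n : ℕ => (n : ℤ)) + a)
          (fun a b => (max_add_add_left _ a b).symm) (WithBot.add_bot _)]
        refine Finset.sup_congr rfl (fun i _ => ?_)
        simp only [Function.comp_apply, Pi.smul_apply, smul_eq_mul, Polynomial.degree_mul]
        cases c.degree <;> cases (x i).degree <;> simp [← WithBot.coe_add]⟩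

lemma hasType_origin (hN : 0 < N) :
    HasType (origin p N hN).1 (Pi.basisFun (PR p) (Fin N)) (fun _ => 0) := by
  intro x
  simp [origin, std]

lemma thin_origin (hN : 0 < N) : Thin (origin p N hN) :=
  ⟨_, _, hasType_origin hN, fun _ _ => by simp⟩

lemma gam_orderTwo (hp : p ≠ 2) {g : SLP p N} (hg : g ∈ Gam p N 1) (h2 : g * g = 1) :
    g = 1 := by
  have h2' : ((2 : ℕ) : ZMod p) ≠ 0 := by
    rw [Ne, CharP.cast_eq_zero_iff (ZMod p) p]
    exact fun h => hp ((Nat.prime_dvd_prime_iff_eq Fact.out Nat.prime_two).1 h)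
  have hX : ∀ m, 1 ≤ m → g ∈ Gam p N m := by
    intro m hm
    induction m, hm using Nat.le_induction with
    | base => exact hg
    | succ m hm ih =>
      rw [mem_Gam_iff] at ih ⊢
      intro i j
      choose a ha using ih
      have hmat : g.1 = 1 + (X : PR p) ^ m • Matrix.of a := by
        ext i j : 2
        simp [← ha i j]
      have hsq : g.1 * g.1 = 1 := by
        rw [← Matrix.SpecialLinearGroup.coe_mul, h2, Matrix.SpecialLinearGroup.coe_one]
      have e := congrFun (congrFun hsq i) j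
      rw [hmat] at e
      simp only [add_mul, mul_add, one_mul, mul_one, Matrix.smul_mul, Matrix.mul_smul,
        Matrix.add_apply, Matrix.smul_apply, smul_eq_mul, Matrix.of_apply] at e
      have hdiv : (X : PR p) ^ (m + 1) ∣ (C (2 : ZMod p)) * ((X : PR p) ^ m * a i j) := by
        refine ⟨-(X ^ (m - 1) * (Matrix.of a * Matrix.of a) i j), ?_⟩
        have hpow : (X : PR p) ^ m * X ^ m = X ^ (m + 1) * X ^ (m - 1) := by
          rw [← pow_add, ← pow_add]; congr 1; omega
        rw [show (C (2 : ZMod p) : PR p) = 2 from map_ofNat C 2]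
        linear_combination e - (Matrix.of a * Matrix.of a) i j * hpow
      rw [← ha i j] at hdiv
      exact ((Polynomial.isUnit_C.2 (Ne.isUnit (by exact_mod_cast h2'))).dvd_mul_left).1 hdiv
  apply Matrix.SpecialLinearGroup.ext
  intro i j
  by_contra hne
  have hz := sub_ne_zero.2 hne
  have h := Polynomial.natDegree_le_of_dvd
    (mem_Gam_iff.1 (hX ((g.1 i j - (1 : Matrix (Fin N) (Fin N) (PR p)) i j).natDegree + 1)
      (by omega)) i j) hz
  rw [Polynomial.natDegree_X_pow] at h
  omega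

end Vale.Agent.P067
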