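import Mathlib
import Vale.Agent.P067.Displace

namespace Vale.Agent.P067

open Classical Polynomial

variable {p N : ℕ} [Fact p.Prime]

/-- Classical decidability of equality on `ℕ` is the usual one. -/
lemma natDec_eq : (fun a b : ℕ => Classical.propDecidable (a = b)) = instDecidableEqNat :=
  Subsingleton.elim _ _

omit [Fact p.Prime] in
/-- The decidability instance in `Finset.image` does not matter. -/
lemma image_inst {α β : Type} (i j : DecidableEq β) (f : α → β) (s : Finset α) :
    @Finset.image α β i f s = @Finset.image α β j f s := by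
  rw [Subsingleton.elim i j]

omit [Fact p.Prime] in
/-- The decidability instance in `insert` does not matter. -/
lemma mem_insert_inst {α : Type} {i j : DecidableEq α} {a : α} {s : Finset α}
    {K : Set (Finset α)} (h : @insert α (Finset α) (@Finset.instInsert α i) a s ∈ K) :
    @insert α (Finset α) (@Finset.instInsert α j) a s ∈ K := by
  rw [Subsingleton.elim j i]; exact h

omit [Fact p.Prime] in
lemma act_single {V G : Type} [Group G] [MulAction G V] (g : G) (s : Finset V) (a : ZMod 2) :
    act g (Finsupp.single s a) = Finsupp.single (s.image (fun v => g • v)) a := by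
  simp [act, Finsupp.lmapDomain_apply, Finsupp.mapDomain_single]

/-- A finite set stabiliser inside a level one congruence subgroup has odd order. -/
lemma odd_setStab {V : Type} [MulAction (SLP p N) V] (hp : p ≠ 2) (H : Subgroup (SLP p N))
    (hH : H ≤ Gam p N 1) (s : Finset V)
    (hfin : {h : SLP p N | h ∈ H ∧ s.image (fun v => h • v) = s}.Finite) :
    Odd (Nat.card {h : SLP p N | h ∈ H ∧ s.image (fun v => h • v) = s}) := by
  let S : Subgroup (SLP p N) :=
    { carrier := {h : SLP p N | h ∈ H ∧ s.image (fun v => h • v) = s}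
      one_mem' := ⟨H.one_mem, by simp⟩
      mul_mem' := by
        rintro a b ⟨ha, ha'⟩ ⟨hb, hb'⟩
        refine ⟨H.mul_mem ha hb, ?_⟩
        calc s.image (fun v => (a * b) • v)
            = (s.image (fun v => b • v)).image (fun v => a • v) := by
              rw [Finset.image_image]; simp [Function.comp_def, mul_smul]
          _ = s := by rw [hb', ha']
      inv_mem' := by
        rintro a ⟨ha, ha'⟩
        refine ⟨H.inv_mem ha, ?_⟩
        conv_lhs => rw [← ha']
        rw [Finset.image_image]
        simp [Function.comp_def] }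
  have : Finite S := hfin.to_subtype
  show Odd (Nat.card S)
  by_contra h
  rw [Nat.not_odd_iff_even] at h
  obtain ⟨x, hx⟩ := exists_prime_orderOf_dvd_card' 2 (even_iff_two_dvd.1 h)
  have h1 : (x : SLP p N) ∈ Gam p N 1 := hH x.2.1
  have h2 : (x : SLP p N) * x = 1 := by
    have := pow_orderOf_eq_one x
    rw [hx, pow_two] at this
    exact congrArg Subtype.val this
  have h3 : x = 1 := Subtype.ext (gam_orderTwo hp h1 h2)
  rw [h3, orderOf_one] at hx
  norm_num at hx

lemma oddStab_free (hp : p ≠ 2) (H : Subgroup (SLP p N)) (hH : H ≤ Gam p N 1) :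
    OddStab (V := SLP p N) H Set.univ := by
  intro s _ hs
  obtain ⟨v, hv⟩ := hs
  refine ⟨?fin, odd_setStab hp H hH s ?fin⟩
  refine (s.image (fun w => w * v⁻¹)).finite_toSet.subset ?_
  rintro h ⟨-, hh⟩
  simp only [Finset.coe_image, Set.mem_image]
  refine ⟨h * v, ?_, by group⟩
  show h • v ∈ s
  rw [← hh]
  simp only [Finset.mem_image]
  exact ⟨v, hv, rfl⟩

lemma finite_degree_bounded (D : ℕ) :
    {M : Fin N → Fin N → PR p | ∀ i j, (M i j).natDegree ≤ D}.Finite := by
  haveI : NeZero p := ⟨(Fact.out : p.Prime).ne_zero⟩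
  refine Set.Finite.subset (Set.finite_range
    (fun c : Fin N → Fin N → Fin (D + 1) → ZMod p =>
      fun i j => ∑ k : Fin (D + 1), Polynomial.monomial (k : ℕ) (c i j k))) ?_
  intro M hM
  refine ⟨fun i j k => (M i j).coeff k, ?_⟩
  funext i j
  show ∑ k : Fin (D + 1), Polynomial.monomial (k : ℕ) ((M i j).coeff k) = M i j
  rw [Fin.sum_univ_eq_sum_range (fun k => Polynomial.monomial k ((M i j).coeff k))]
  exact ((M i j).as_sum_range' (D + 1) (Nat.lt_succ_of_le (hM i j))).symm

/-- In `Gam 1` an element sending a thin vertex near itself has bounded degree entries. -/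
lemma finite_moves (hN : 0 < N) {u : Nrm p N} (hu : Thin u) (v : Nrm p N) :
    {g : SLP p N | g ∈ Gam p N 1 ∧ g • u = v}.Finite := by
  obtain ⟨f, b, hf, hb⟩ := hu
  by_contra hinf
  obtain ⟨g₀, hg₀, hg₀u⟩ := Set.Infinite.nonempty hinf
  refine hinf ?_
  have key : {g : SLP p N | g ∈ Gam p N 1 ∧ g • u = u}.Finite := by
    let A : SLP p N → (Fin N → Fin N → PR p) := fun g i j => f.repr (mv g⁻¹ (f j)) i
    refine Set.Finite.of_finite_image (f := A)
      ((finite_degree_bounded (p := p) (N := N) 1).subset ?_) ?_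
    rotate_left
    · intro g _ g' _ he
      have : mv g⁻¹ = mv g'⁻¹ :=
        f.ext (fun j => f.repr.injective (Finsupp.ext fun i => congrFun (congrFun he i) j))
      have h2 : g⁻¹ = g'⁻¹ := by
        apply Subtype.ext
        exact Matrix.toLin'.injective this
      exact inv_injective h2
    · rintro M ⟨g, ⟨hg, hgu⟩, rfl⟩ i j
      obtain ⟨c, hc⟩ := smul_spec g u
      rw [hgu] at hc
      have hc1 := shift_lower (le_refl 1) hf hg hgu hc 0 (fun x => by rw [wb_add_zero]) ⟨0, hN⟩
      have hc0 : c = 0 := by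
        have hc' : ∀ x, u.1 x = u.1 (mv g⁻¹⁻¹ x) + ((-c : ℤ) : WithBot ℤ) := by
          intro x
          rw [inv_inv]
          have := hc (mv g x)
          rw [mv_inv_mv] at this
          rw [this, wb_add_assoc, add_neg_cancel, wb_add_zero]
        have hgi : g⁻¹ • u = u := by rw [inv_smul_eq_iff, hgu]
        have := shift_lower (le_refl 1) hf ((Gam p N 1).inv_mem hg) hgi hc' 0
          (fun x => by rw [wb_add_zero]) ⟨0, hN⟩
        omega
      have h := repr_degree_bound hf hgu hc 0 (fun x => by rw [wb_add_zero]) i j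
      show (f.repr (mv g⁻¹ (f j)) i).natDegree ≤ 1
      rcases eq_or_ne (f.repr (mv g⁻¹ (f j)) i) 0 with h0 | h0
      · simp [h0]
      · rw [degZ, Polynomial.degree_eq_natDegree h0] at h
        have h' : ((f.repr (mv g⁻¹ (f j)) i).natDegree : ℤ) ≤ b i - b j - c + 0 :=
          WithBot.coe_le_coe.1 h
        have := hb i j
        omega
  refine (key.image (fun g => g₀ * g)).subset ?_
  rintro g ⟨hg, hgu⟩
  refine ⟨g₀⁻¹ * g, ⟨(Gam p N 1).mul_mem ((Gam p N 1).inv_mem hg₀) hg, ?_⟩, by group⟩
  rw [mul_smul, hgu, inv_smul_eq_iff, hg₀u]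

lemma oddStab_xinf (hp : p ≠ 2) (hN : 0 < N) (H : Subgroup (SLP p N)) (hH : H ≤ Gam p N 1) :
    OddStab (V := Nrm p N) H (Xinf p N) := by
  intro s hs hne
  obtain ⟨u, hu⟩ := hne
  refine ⟨?fin, odd_setStab hp H hH s ?fin⟩
  refine (Set.Finite.biUnion s.finite_toSet
    (fun v _ => finite_moves hN (hs.2 u hu) v)).subset ?_
  rintro h ⟨hh, he⟩
  simp only [Set.mem_iUnion]
  exact ⟨h • u, by rw [← he]; simp only [Finset.mem_coe, Finset.mem_image]; exact ⟨u, hu, rfl⟩, hH hh, rfl⟩

lemma isCx_univ {V : Type} : IsCx (Set.univ : Set (Finset V)) :=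
  ⟨trivial, fun _ _ _ _ => trivial⟩

lemma isCx_xinf : IsCx (Xinf p N) :=
  ⟨⟨fun u hu => absurd hu (Finset.notMem_empty u), fun u hu => absurd hu (Finset.notMem_empty u)⟩,
    fun _ hs _ ht => ⟨fun u hu v hv => hs.1 u (ht hu) v (ht hv), fun u hu => hs.2 u (ht hu)⟩⟩

lemma invCx_xinf (H : Subgroup (SLP p N)) : InvCx H (Xinf p N) :=
  fun h _ _ hs => image_inst _ _ _ _ ▸ xinf_smul h hs

end Vale.Agent.P067
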