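import Mathlib
import Vale.Agent.P067.Interface
import Vale.Agent.P067.ChainLemmas
import Vale.Agent.P067.Stab

namespace Vale.Agent.P067

open Classical Polynomial

variable {p N : ℕ} [Fact p.Prime]

lemma near_self (u : Nrm p N) : Near u u :=
  ⟨fun _ => le_rfl, fun x => by
    cases u.1 x with
    | bot => simp
    | coe n => rw [← WithBot.coe_add, WithBot.coe_le_coe]; omega⟩

/-- Within one step below the standard norm. -/
def Band (w : Nrm p N) : Prop := ∀ x, std p N x ≤ w.1 x + ((1 : ℤ) : WithBot ℤ)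

lemma band_of_star (hN : 0 < N) {s : Finset (Nrm p N)}
    (h : insert (origin p N hN) s ∈ Bld p N) {w : Nrm p N} (hw : w ∈ s) : Band w := by
  have := h (origin p N hN) (Finset.mem_insert_self _ _) w (Finset.mem_insert_of_mem hw)
  exact (wb_sandwich this).1

lemma near_origin_of_band (hN : 0 < N) {w : Nrm p N} (h : Band w) :
    Near w (origin p N hN) := ⟨w.2.le_std, h⟩

/-- The constant vectors on which `w` is negative. -/
def negSet (w : Nrm p N) : Set (PV p N) := {x | w.1 x ≤ ((-1 : ℤ) : WithBot ℤ)}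

lemma negSet_std {w : Nrm p N} (hw : Band w) {x : PV p N} (hx : x ∈ negSet w) :
    std p N x ≤ ((0 : ℤ) : WithBot ℤ) := by
  refine (hw x).trans (((wb_add_le_iff 1).2 hx).trans (le_of_eq ?_))
  rw [← WithBot.coe_add]; rfl

lemma const_of_std_le {x : PV p N} (hx : std p N x ≤ ((0 : ℤ) : WithBot ℤ)) (i : Fin N) :
    x i = C ((x i).coeff 0) := by
  refine Polynomial.eq_C_of_degree_le_zero ?_
  have := (le_std_coord x i).trans hx
  cases hd : (x i).degree with
  | bot => exact bot_le
  | coe n =>
    rw [degZ, hd] at this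
    have : (n : ℤ) ≤ 0 := WithBot.coe_le_coe.1 this
    have h0 : n = 0 := by omega
    subst h0
    exact le_rfl

lemma const_congr {x y : PV p N} (hx : std p N x ≤ ((0 : ℤ) : WithBot ℤ))
    (hy : std p N y ≤ ((0 : ℤ) : WithBot ℤ)) (h : ∀ i, (X : PR p) ∣ x i - y i) : x = y := by
  funext i
  rw [const_of_std_le hx i, const_of_std_le hy i]
  have := h i
  rw [Polynomial.X_dvd_iff, Polynomial.coeff_sub, sub_eq_zero] at this
  rw [this]

/-- The coefficient vector of `t^n`, as a constant vector. -/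
noncomputable def coeffVec (n : ℕ) (x : PV p N) : PV p N := fun i => C ((x i).coeff n)

lemma nrm_bot {w : Nrm p N} : w.1 0 = ⊥ := by
  simpa using w.2.smul_eq 0 0

lemma std_sub_top {n : ℕ} {x : PV p N} (hx : std p N x ≤ (((n : ℕ) : ℤ) : WithBot ℤ)) :
    std p N (x - ((X : PR p) ^ n) • coeffVec n x) ≤ (((n : ℤ) - 1 : ℤ) : WithBot ℤ) := by
  rw [std_le_iff]
  intro i
  simp only [Pi.sub_apply, Pi.smul_apply, smul_eq_mul, coeffVec]
  cases hd : (x i - X ^ n * C ((x i).coeff n)).degree with
  | bot => rw [degZ, hd]; exact bot_le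
  | coe k =>
    rw [degZ, hd]
    refine WithBot.coe_le_coe.2 ?_
    have hk : (x i - X ^ n * C ((x i).coeff n)).coeff k ≠ 0 :=
      Polynomial.coeff_ne_zero_of_eq_degree hd
    rcases lt_trichotomy k n with h | h | h
    · show ((k : ℕ) : ℤ) ≤ _
      omega
    · subst h
      exact absurd (by rw [Polynomial.coeff_sub, mul_comm, Polynomial.coeff_C_mul,
        Polynomial.coeff_X_pow, if_pos rfl, mul_one, sub_self]) hk
    · exfalso
      apply hk
      have h1 : (x i).degree ≤ (n : WithBot ℕ) := by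
        have := (le_std_coord x i).trans hx
        cases hd' : (x i).degree with
        | bot => exact bot_le
        | coe j =>
          rw [degZ, hd'] at this
          have : (j : ℤ) ≤ (n : ℤ) := WithBot.coe_le_coe.1 this
          exact WithBot.coe_le_coe.2 (show j ≤ n by omega)
      rw [Polynomial.coeff_sub, mul_comm, Polynomial.coeff_C_mul, Polynomial.coeff_X_pow,
        if_neg h.ne', mul_zero, sub_zero]
      exact Polynomial.coeff_eq_zero_of_degree_lt (h1.trans_lt (by exact_mod_cast h))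

lemma eq_of_negSet {v w : Nrm p N} (hv : Band v) (hw : Band w) (h : negSet v = negSet w) :
    v = w := by
  suffices key : ∀ v w : Nrm p N, Band v → Band w → negSet v ⊆ negSet w →
      ∀ x, w.1 x ≤ v.1 x from
    Subtype.ext (funext fun x =>
      le_antisymm (key w v hw hv h.symm.subset x) (key v w hv hw h.subset x))
  intro v w hv hw hsub x
  rcases eq_or_ne x 0 with rfl | hx
  · simp [nrm_bot]
  obtain ⟨z, hz⟩ := WithBot.ne_bot_iff_exists.1 (fun e => hx (std_eq_bot.1 e))
  have hz0 : 0 ≤ z := by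
    by_contra hneg
    apply hx
    funext i
    have := (le_std_coord x i).trans hz.ge
    cases hd : (x i).degree with
    | bot => exact Polynomial.degree_eq_bot.1 hd
    | coe j =>
      rw [degZ, hd] at this
      have : (j : ℤ) ≤ z := WithBot.coe_le_coe.1 this
      omega
  obtain ⟨n, rfl⟩ : ∃ n : ℕ, z = n := ⟨z.toNat, by omega⟩
  have hvx := hv x
  rw [← hz] at hvx
  cases hvd : v.1 x with
  | bot => rw [hvd] at hvx; simp at hvx
  | coe a =>
    rw [hvd, ← WithBot.coe_add, WithBot.coe_le_coe] at hvx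
    by_cases ha : (n : ℤ) ≤ a
    · exact (w.2.le_std x).trans (hz.ge.trans (WithBot.coe_le_coe.2 ha))
    have hy := std_sub_top hz.ge
    set y := x - ((X : PR p) ^ n) • coeffVec n x with hy_def
    have hxy : x = ((X : PR p) ^ n) • coeffVec n x + y := by rw [hy_def]; abel
    have hdegX : degZ ((X : PR p) ^ n) = ((n : ℤ) : WithBot ℤ) := by
      simp [degZ]
    have hmem : coeffVec n x ∈ negSet v := by
      have h1 : v.1 (((X : PR p) ^ n) • coeffVec n x) ≤ (((n : ℤ) - 1 : ℤ) : WithBot ℤ) := by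
        have hneg : v.1 ((-1 : PR p) • y) = v.1 y := by
          rw [v.2.smul_eq]; simp
        have : ((X : PR p) ^ n) • coeffVec n x = x + (-1 : PR p) • y := by
          rw [hy_def]; module
        rw [this]
        refine (v.2.add_le _ _).trans (max_le ?_ ?_)
        · rw [hvd]; exact WithBot.coe_le_coe.2 (by omega)
        · rw [hneg]; exact (v.2.le_std y).trans hy
      rw [v.2.smul_eq, show (Polynomial.degree ((X : PR p) ^ n)).map (fun n : ℕ => (n : ℤ))
        = ((n : ℤ) : WithBot ℤ) from hdegX] at h1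
      show v.1 (coeffVec n x) ≤ _
      cases hc : v.1 (coeffVec n x) with
      | bot => exact bot_le
      | coe b =>
        rw [hc, ← WithBot.coe_add, WithBot.coe_le_coe] at h1
        exact WithBot.coe_le_coe.2 (by omega)
    have hw' := hsub hmem
    have : w.1 x ≤ (((n : ℤ) - 1 : ℤ) : WithBot ℤ) := by
      rw [hxy]
      refine (w.2.add_le _ _).trans (max_le ?_ ((w.2.le_std y).trans hy))
      rw [w.2.smul_eq, show (Polynomial.degree ((X : PR p) ^ n)).map (fun n : ℕ => (n : ℤ))
        = ((n : ℤ) : WithBot ℤ) from hdegX]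
      refine (add_le_add_right hw' _).trans (le_of_eq ?_)
      rw [← WithBot.coe_add]; congr 1
    exact this.trans (WithBot.coe_le_coe.2 (by omega))

lemma negSet_ne_all {w : Nrm p N} (hw : Band w) :
    ∃ x, std p N x ≤ ((0 : ℤ) : WithBot ℤ) ∧ x ∉ negSet w := by
  by_contra hc
  push Not at hc
  obtain ⟨x, hx, hxe⟩ := w.2.touch
  have key : ∀ d : ℕ, ∀ x, x ≠ 0 → std p N x ≤ ((d : ℤ) : WithBot ℤ) →
      w.1 x ≤ (((d : ℤ) - 1 : ℤ) : WithBot ℤ) := by
    intro d x _ hd
    have hy := std_sub_top hd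
    have : x = ((X : PR p) ^ d) • coeffVec d x + (x - ((X : PR p) ^ d) • coeffVec d x) := by abel
    rw [this]
    refine (w.2.add_le _ _).trans (max_le ?_ ((w.2.le_std _).trans hy))
    have hc' : w.1 (coeffVec d x) ≤ ((-1 : ℤ) : WithBot ℤ) := by
      refine hc _ (std_le_iff.2 fun i => ?_)
      cases hdd : (coeffVec d x i).degree with
      | bot => simp [degZ, hdd]
      | coe j =>
        rw [degZ, hdd]
        have h0 : (coeffVec d x i).degree ≤ 0 := Polynomial.degree_C_le
        rw [hdd] at h0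
        have : j ≤ 0 := WithBot.coe_le_coe.1 h0
        exact WithBot.coe_le_coe.2 (show (j : ℤ) ≤ 0 by omega)
    rw [w.2.smul_eq, Polynomial.degree_X_pow]
    refine (add_le_add_right hc' _).trans (le_of_eq ?_)
    show (((d : ℕ) : ℤ) : WithBot ℤ) + _ = _
    rw [← WithBot.coe_add]; congr 1
  obtain ⟨z, hz⟩ := WithBot.ne_bot_iff_exists.1 (fun e => hx (std_eq_bot.1 e))
  have hz0 : 0 ≤ z := by
    by_contra hneg
    apply hx
    funext i
    have := (le_std_coord x i).trans hz.ge
    cases hd : (x i).degree with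
    | bot => exact Polynomial.degree_eq_bot.1 hd
    | coe j =>
      rw [degZ, hd] at this
      have : (j : ℤ) ≤ z := WithBot.coe_le_coe.1 this
      omega
  have h := key z.toNat x hx (hz.ge.trans (WithBot.coe_le_coe.2 (by omega)))
  rw [hxe, ← hz, WithBot.coe_le_coe] at h
  omega

/-- Two vertices next to the origin in one orbit of `Gam 1` are equal. -/
lemma star_unique {g : SLP p N} (hg : g ∈ Gam p N 1) {w : Nrm p N}
    (hw : Band w) (hv : Band (g • w)) : g • w = w := by
  have aux : ∀ (g : SLP p N), g ∈ Gam p N 1 → ∀ w : Nrm p N, Band w → Band (g • w) →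
      ∀ c : ℤ, (∀ x, (g • w).1 x = w.1 (mv g⁻¹ x) + (c : WithBot ℤ)) → 0 ≤ c := by
    intro g hg w hw hv c hc
    by_contra hneg
    obtain ⟨x, hx0, hxn⟩ := negSet_ne_all hv
    -- `g⁻¹`-preimages of constants
    have hmem : ∀ y, std p N y ≤ ((0 : ℤ) : WithBot ℤ) → mv g y ∈ negSet (g • w) := by
      intro y hy
      show (g • w).1 (mv g y) ≤ _
      rw [hc, mv_inv_mv]
      refine (add_le_add_left ((w.2.le_std y).trans hy) _).trans ?_
      rw [← WithBot.coe_add]
      exact WithBot.coe_le_coe.2 (by omega)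
    have h1 := hmem x hx0
    have h2 : mv g x = x := by
      refine const_congr (negSet_std hv h1) hx0 (fun i => ?_)
      simpa using gam_mv hg x i
    rw [h2] at h1
    exact hxn h1
  obtain ⟨c, hc⟩ := smul_spec g w
  have h1 := aux g hg w hw hv c hc
  have h2 := aux g⁻¹ ((Gam p N 1).inv_mem hg) (g • w) hv (by rw [inv_smul_smul]; exact hw) (-c)
    (fun x => by
      rw [inv_smul_smul, inv_inv, hc, mv_inv_mv, wb_add_assoc, add_neg_cancel, wb_add_zero])
  have hc0 : c = 0 := by omega
  subst hc0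
  refine eq_of_negSet hv hw (Set.ext fun x => ⟨fun hx => ?_, fun hx => ?_⟩)
  · have hx' : mv g⁻¹ x ∈ negSet w := by
      show w.1 _ ≤ _
      have := hx
      rw [negSet, Set.mem_setOf_eq, hc, wb_add_zero] at this
      exact this
    have : mv g⁻¹ x = x := const_congr (negSet_std hw hx') (negSet_std hv hx)
      (fun i => by simpa using gam_mv ((Gam p N 1).inv_mem hg) x i)
    rwa [this] at hx'
  · have hx' : mv g x ∈ negSet (g • w) := by
      show (g • w).1 _ ≤ _
      rw [hc, mv_inv_mv, wb_add_zero]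
      exact hx
    have : mv g x = x := const_congr (negSet_std hv hx') (negSet_std hw hx)
      (fun i => by simpa using gam_mv hg x i)
    rwa [this] at hx'

/-- A thin vertex with constant exponents lies in the orbit of the origin. -/
lemma exists_gam_origin (hN : 0 < N) {u : Nrm p N} {f : Module.Basis (Fin N) (PR p) (PV p N)}
    {b : Fin N → ℤ} (hf : HasType u.1 f b) (hb : ∀ i j, b i = b j) :
    ∃ g ∈ Gam p N 1, g • origin p N hN = u := by
  let A : Matrix (Fin N) (Fin N) (PR p) := (Pi.basisFun (PR p) (Fin N)).toMatrix f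
  have hAdet : IsUnit A.det := by
    rw [← Matrix.isUnit_iff_isUnit_det]
    haveI := (Pi.basisFun (PR p) (Fin N)).invertibleToMatrix f
    exact isUnit_of_invertible A
  let ev : PR p →+* ZMod p := Polynomial.evalRingHom 0
  let A₀ : Matrix (Fin N) (Fin N) (ZMod p) := A.map ev
  have hA₀ : IsUnit A₀.det := by
    rw [show A₀.det = ev A.det from (RingHom.map_det ev A).symm]
    exact hAdet.map ev
  let B : Matrix (Fin N) (Fin N) (PR p) := A * (A₀⁻¹).map C
  have hBev : B.map ev = 1 := by
    rw [Matrix.map_mul]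
    have : ((A₀⁻¹).map C).map ev = A₀⁻¹ := by
      ext i j
      simp [ev]
    rw [this]
    exact Matrix.mul_nonsing_inv A₀ hA₀
  have hBdet : B.det = 1 := by
    have hu : IsUnit B.det := by
      rw [Matrix.det_mul]
      refine hAdet.mul ?_
      rw [show ((A₀⁻¹).map C).det = C (A₀⁻¹).det from (RingHom.map_det C _).symm]
      exact (Matrix.isUnit_nonsing_inv_det A₀ hA₀).map C
    obtain ⟨r, -, hr⟩ := Polynomial.isUnit_iff.1 hu
    have h1 : ev B.det = 1 := by
      rw [RingHom.map_det]
      show (B.map ev).det = 1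
      rw [hBev, Matrix.det_one]
    rw [← hr] at h1 ⊢
    simp only [ev, Polynomial.coe_evalRingHom, Polynomial.eval_C] at h1
    rw [h1, map_one]
  let g : SLP p N := ⟨B, hBdet⟩
  have hg : g ∈ Gam p N 1 := by
    rw [mem_Gam_iff]
    intro i j
    rw [pow_one, Polynomial.X_dvd_iff, Polynomial.coeff_sub, Polynomial.coeff_zero_eq_eval_zero,
      Polynomial.coeff_zero_eq_eval_zero, sub_eq_zero]
    have := congrFun (congrFun hBev i) j
    simp only [Matrix.map_apply, ev, Polynomial.coe_evalRingHom] at this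
    show (B i j).eval 0 = _
    rw [this]
    rcases eq_or_ne i j with rfl | h
    · simp
    · simp [Matrix.one_apply_ne h]
  refine ⟨g, hg, ?_⟩
  let i₀ : Fin N := ⟨0, hN⟩
  refine actN_eq (c := -b i₀) (fun x => ?_)
  let r : PV p N := fun i => f.repr x i
  let P : Matrix (Fin N) (Fin N) (PR p) := A₀.map C
  let Q : Matrix (Fin N) (Fin N) (PR p) := (A₀⁻¹).map C
  have hQP : Q * P = 1 := by
    simp only [Q, P]
    rw [← Matrix.map_mul, Matrix.nonsing_inv_mul A₀ hA₀]
    exact Matrix.map_one C (map_zero C) (map_one C)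
  have hAr : A.mulVec r = x := by
    have h := f.toMatrix_mulVec_repr (Pi.basisFun (PR p) (Fin N)) x
    refine h.trans ?_
    funext i
    simp
  have hgP : mv g (P.mulVec r) = x := by
    show Matrix.toLin' B (P.mulVec r) = x
    rw [Matrix.toLin'_apply, Matrix.mulVec_mulVec, Matrix.mul_assoc, hQP, Matrix.mul_one, hAr]
  have hinv : mv g⁻¹ x = P.mulVec r := by
    conv_lhs => rw [← hgP]
    exact mv_inv_mv g _
  have hconst : ∀ (M : Matrix (Fin N) (Fin N) (ZMod p)) (y : PV p N),
      std p N ((M.map C).mulVec y) ≤ std p N y := by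
    intro M y
    rw [std_le_iff]
    intro i
    show degZ (∑ j, C (M i j) * y j) ≤ _
    refine (WithBot.monotone_map_iff.2 (fun _ _ => Int.ofNat_le.2)
      (Polynomial.degree_sum_le _ _)).trans ?_
    have hne : (Finset.univ : Finset (Fin N)).Nonempty := ⟨i, Finset.mem_univ i⟩
    obtain ⟨j, -, he⟩ := Finset.exists_mem_eq_sup Finset.univ hne
      (fun j => (C (M i j) * y j).degree)
    rw [he]
    refine le_trans ?_ (le_std_coord y j)
    refine WithBot.monotone_map_iff.2 (fun _ _ => Int.ofNat_le.2) ?_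
    exact (Polynomial.degree_mul_le _ _).trans
      ((add_le_add_left Polynomial.degree_C_le _).trans (by rw [zero_add]))
  have hstd : std p N r = std p N (mv g⁻¹ x) := by
    rw [hinv]
    refine le_antisymm ?_ (hconst _ _)
    have : r = Q.mulVec (P.mulVec r) := by rw [Matrix.mulVec_mulVec, hQP, Matrix.one_mulVec]
    conv_lhs => rw [this]
    exact hconst _ _
  show u.1 x = std p N (mv g⁻¹ x) + _
  rw [hf, ← hstd, std]
  rw [Finset.apply_sup_eq_sup_comp (fun a : WithBot ℤ => a + ((-b i₀ : ℤ) : WithBot ℤ))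
    (fun a c => (max_add_add_right a c _).symm) (WithBot.bot_add _)]
  refine Finset.sup_congr rfl (fun i _ => ?_)
  simp only [Function.comp_apply, hb i i₀]
  cases (f.repr x i).degree with
  | bot => simp
  | coe n => simp only [WithBot.map_coe, ← WithBot.coe_add]; rfl

/-- Every nonempty thin face has a translate next to the origin. -/
lemma exists_star (hN : 2 ≤ N) (hlink : ThinLink) (hstr : ∀ (F : Sub p N) c, IsPChain (GP F) c →
      ∃ t, IsPChain (GP F) t ∧ t.card + 1 = N ∧ c ⊆ t)
    {s : Finset (Nrm p N)} (hs : s ∈ Xinf p N) (hne : s.Nonempty) :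
    ∃ g ∈ Gam p N 1, insert (origin p N (by omega)) (s.image (fun v => g • v)) ∈ Xinf p N := by
  obtain ⟨col, hcol, hloc⟩ := hlink p N Fact.out hN
  obtain ⟨u, hu⟩ := hne
  obtain ⟨F, φ, hφi, hφ, hchain, hsurj⟩ := hloc u (hs.2 u hu)
  have hpre : ∀ v ∈ s.erase u, ∃ W ∈ GP F, φ W = v := by
    intro v hv
    refine hsurj v (Finset.ne_of_mem_erase hv) (isCx_xinf.2 s hs _ ?_)
    exact Finset.insert_subset hu (Finset.singleton_subset_iff.2 (Finset.mem_of_mem_erase hv))
  choose ψ hψ hψv using hpre
  let c : Finset (Sub p N) := (s.erase u).attach.image (fun v => ψ v.1 v.2)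
  have hcGP : ∀ W ∈ c, W ∈ GP F := by
    intro W hW
    obtain ⟨v, -, rfl⟩ := Finset.mem_image.1 hW
    exact hψ _ _
  have hcim : c.image φ = s.erase u := by
    ext v
    constructor
    · intro hv
      obtain ⟨W, hW, rfl⟩ := Finset.mem_image.1 hv
      obtain ⟨a, -, rfl⟩ := Finset.mem_image.1 hW
      rw [hψv]; exact a.2
    · exact fun hv => Finset.mem_image.2
        ⟨_, Finset.mem_image.2 ⟨⟨v, hv⟩, Finset.mem_attach _ _, rfl⟩, hψv v hv⟩
  have hc : IsPChain (GP F) c := by
    refine ⟨hcGP, (hchain c hcGP).2 ?_⟩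
    rw [hcim, Finset.insert_erase hu]
    exact hs
  obtain ⟨t, ht, htc, hct⟩ := hstr F c hc
  have hfull : insert u (t.image φ) ∈ Xinf p N := (hchain t ht.1).1 ht.2
  have hdim : Set.InjOn (fun W : Sub p N => Module.finrank (ZMod p) W) (t : Set (Sub p N)) := by
    intro W hW W' hW' he
    rcases ht.2.total hW hW' with h | h
    · exact Submodule.eq_of_le_of_finrank_eq h he
    · exact (Submodule.eq_of_le_of_finrank_eq h he.symm).symm
  have hrange : t.image (fun W : Sub p N => Module.finrank (ZMod p) W) = Finset.Ioo 0 N := by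
    refine Finset.eq_of_subset_of_card_le ?_ ?_
    · intro d hd
      obtain ⟨W, hW, rfl⟩ := Finset.mem_image.1 hd
      obtain ⟨h1, h2, -⟩ := ht.1 W hW
      refine Finset.mem_Ioo.2 ⟨Nat.pos_of_ne_zero (fun e => h1 (Submodule.finrank_eq_zero.1 e)),
        ?_⟩
      have := Submodule.finrank_lt h2
      rwa [Module.finrank_fin_fun] at this
    · rw [Finset.card_image_of_injOn hdim, Nat.card_Ioo]
      omega
  obtain ⟨w, hw, hw0⟩ : ∃ w ∈ insert u (t.image φ), (col w : ℕ) = 0 := by
    by_cases h0 : (col u : ℕ) = 0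
    · exact ⟨u, Finset.mem_insert_self _ _, h0⟩
    · have hd : N - (col u : ℕ) ∈ Finset.Ioo 0 N :=
        Finset.mem_Ioo.2 ⟨by have := (col u).2; omega, by omega⟩
      rw [← hrange] at hd
      obtain ⟨W, hW, hWd⟩ := Finset.mem_image.1 hd
      refine ⟨φ W, Finset.mem_insert_of_mem (Finset.mem_image_of_mem _ hW), ?_⟩
      rw [(hφ W (ht.1 W hW)).2, hWd, Nat.add_sub_of_le (col u).2.le, Nat.mod_self]
  obtain ⟨f, b, hf, hb⟩ := hfull.2 w hw
  have hbc : ∀ i j, b i = b j := by
    have hsum : (∑ i, b i) % (N : ℤ) = 0 := by rw [← hcol w f b hf, hw0]; rfl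
    obtain ⟨i₁, -, hmin⟩ := Finset.exists_min_image Finset.univ b
      ⟨⟨0, by omega⟩, Finset.mem_univ _⟩
    have h01 : ∀ i, b i = b i₁ ∨ b i = b i₁ + 1 := fun i => by
      have := hmin i (Finset.mem_univ i); have := hb i i₁; omega
    let S := Finset.univ.filter (fun i => b i = b i₁ + 1)
    have hs' : ∑ i, b i = (N : ℤ) * b i₁ + S.card := by
      have : ∀ i, b i = b i₁ + if b i = b i₁ + 1 then 1 else 0 := fun i => by
        rcases h01 i with h | h <;> simp [h]
      rw [Finset.sum_congr rfl (fun i _ => this i), Finset.sum_add_distrib, Finset.sum_boole]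
      simp [S]
    have hlt : S.card < N := by
      have : i₁ ∉ S := by simp [S]
      have := Finset.card_lt_univ_of_notMem this
      simpa using this
    have hdiv : (N : ℤ) ∣ (S.card : ℤ) := by
      have := Int.dvd_of_emod_eq_zero hsum
      rw [hs'] at this
      exact (dvd_add_right (dvd_mul_right _ _)).1 this
    have hS : S = ∅ := Finset.card_eq_zero.1 (Nat.eq_zero_of_dvd_of_lt (Int.natCast_dvd_natCast.1 hdiv) hlt)
    intro i j
    have key : ∀ i, b i = b i₁ := fun i => by
      rcases h01 i with h | h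
      · exact h
      · have : i ∈ S := by simp [S, h]
        rw [hS] at this
        simp at this
    rw [key i, key j]
  obtain ⟨g, hg, hgw⟩ := exists_gam_origin (by omega) hf hbc
  refine ⟨g⁻¹, (Gam p N 1).inv_mem hg, ?_⟩
  have h := xinf_smul g⁻¹ hfull
  refine isCx_xinf.2 _ h _ ?_
  refine Finset.insert_subset ?_ (Finset.image_subset_image ?_)
  · exact Finset.mem_image.2 ⟨w, hw, by rw [← hgw, inv_smul_smul]⟩
  · intro v hv
    rcases eq_or_ne v u with rfl | hvu
    · exact Finset.mem_insert_self _ _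
    · have : v ∈ c.image φ := by rw [hcim]; exact Finset.mem_erase.2 ⟨hvu, hv⟩
      exact Finset.mem_insert_of_mem (Finset.image_subset_image hct this)

lemma act_single_nrm (g : SLP p N) (s : Finset (Nrm p N)) (a : ZMod 2) :
    act g (Finsupp.single s a) = Finsupp.single (s.image (fun v => g • v)) a := by
  rw [act_single]
  congr 2
  exact Subsingleton.elim _ _

/-- The level one vanishing, from the building. -/
lemma gac_xinf_one (hN : 2 ≤ N) (hlink : ThinLink)
    (hstr : ∀ (F : Sub p N) c, IsPChain (GP F) c →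
      ∃ t, IsPChain (GP F) t ∧ t.card + 1 = N ∧ c ⊆ t) (n : ℕ) (hn : 2 ≤ n) :
    GAC (V := Nrm p N) (Gam p N 1) (Xinf p N) n := by
  have h0 : 0 < N := by omega
  let o := origin p N h0
  let InStar : Finset (Nrm p N) → Finset (Nrm p N) → Prop := fun s s' =>
    ∃ g ∈ Gam p N 1, s' = s.image (fun v => g • v) ∧ insert o s' ∈ Xinf p N
  have uniq : ∀ s t t', InStar s t → InStar s t' → t = t' := by
    rintro s t t' ⟨g, hg, rfl, h⟩ ⟨g', hg', rfl, h'⟩
    refine Finset.image_congr (fun v hv => ?_)
    have hb : Band (g • v) := band_of_star h0 h.1 (Finset.mem_image_of_mem _ hv)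
    have hb' : Band (g' • v) := band_of_star h0 h'.1 (Finset.mem_image_of_mem _ hv)
    have e : (g' * g⁻¹) • (g • v) = g' • v := by rw [← mul_smul, inv_mul_cancel_right]
    have := star_unique ((Gam p N 1).mul_mem hg' ((Gam p N 1).inv_mem hg)) hb (e.symm ▸ hb')
    show g • v = g' • v
    rw [← e, this]
  have exst : ∀ s ∈ Xinf p N, s.Nonempty → ∃ t, InStar s t := by
    intro s hs hne
    obtain ⟨g, hg, h⟩ := exists_star hN hlink hstr hs hne
    exact ⟨_, g, hg, rfl, h⟩
  let Φ : Chain (Nrm p N) →ₗ[ZMod 2] Chain (Nrm p N) :=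
    Finsupp.linearCombination (ZMod 2) fun s =>
      if h : ∃ t, InStar s t then Finsupp.single (Classical.choose h) 1 else 0
  have hΦ : ∀ s t a, InStar s t → Φ (Finsupp.single s a) = Finsupp.single t a := by
    intro s t a ht
    simp only [Φ, Finsupp.linearCombination_single]
    rw [dif_pos ⟨t, ht⟩, uniq s _ t (Classical.choose_spec ⟨t, ht⟩) ht]
    simp
  have hinv : ∀ h ∈ Gam p N 1, ∀ c, Φ (act h c) = Φ c := by
    intro h hh c
    induction c using Finsupp.induction_linear with
    | zero => simp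
    | add a b ha hb => simp [ha, hb]
    | single s a =>
      rw [act_single_nrm]
      have hiff : ∀ t, InStar (s.image (fun v => h • v)) t ↔ InStar s t := by
        intro t
        constructor
        · rintro ⟨g, hg, rfl, ht⟩
          refine ⟨g * h, (Gam p N 1).mul_mem hg hh, ?_, ht⟩
          rw [Finset.image_image]
          simp [Function.comp_def, mul_smul]
        · rintro ⟨g, hg, rfl, ht⟩
          refine ⟨g * h⁻¹, (Gam p N 1).mul_mem hg ((Gam p N 1).inv_mem hh), ?_, ht⟩
          rw [Finset.image_image]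
          simp [Function.comp_def, mul_smul]
      by_cases hex : ∃ t, InStar s t
      · obtain ⟨t, ht⟩ := hex
        rw [hΦ s t a ht, hΦ _ t a ((hiff t).2 ht)]
      · have hex' : ¬ ∃ t, InStar (s.image (fun v => h • v)) t :=
          fun ⟨t, ht⟩ => hex ⟨t, (hiff t).1 ht⟩
        simp only [Φ, Finsupp.linearCombination_single]
        rw [dif_neg hex, dif_neg hex']
  intro z hz hbz
  have hzs := mem_chainsOf_iff.1 hz
  have hΦI : ∀ c ∈ relI (V := Nrm p N) (Gam p N 1), Φ c = 0 := by
    intro c hc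
    induction hc using Submodule.span_induction with
    | mem c hc =>
      obtain ⟨h, hh, b, rfl⟩ := hc
      rw [map_add, hinv h hh, chain_add_self]
    | zero => simp
    | add _ _ _ _ ha hb => simp [ha, hb]
    | smul a _ _ ha => simp [ha]
  have hcomm : bd (Φ z) = Φ (bd z) := by
    rw [← sum_smul_single z, map_sum, map_sum, map_sum, map_sum]
    refine Finset.sum_congr rfl (fun s hs => ?_)
    obtain ⟨hsK, hsn⟩ := hzs s hs
    obtain ⟨t, ht⟩ := exst s hsK (Finset.card_pos.1 (by omega))
    obtain ⟨g, hg, rfl, hst⟩ := ht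
    rw [hΦ s _ _ ⟨g, hg, rfl, hst⟩, bd_single, bd_single, map_smul, map_sum,
      Finset.sum_image (fun a _ b _ h => smul_left_cancel g h)]
    congr 1
    refine Finset.sum_congr rfl (fun v hv => ?_)
    have he := Finset.image_erase (MulAction.injective g) s v
    refine Eq.trans (b := Finsupp.single ((s.erase v).image (fun x => g • x)) (1 : ZMod 2)) ?_ ?_
    · refine congrArg (fun t => Finsupp.single t (1 : ZMod 2)) ?_
      ext x
      simp only [Finset.mem_erase, Finset.mem_image]
      constructor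
      · rintro ⟨hx, w, hw, rfl⟩
        exact ⟨w, ⟨fun e => hx (e ▸ rfl), hw⟩, rfl⟩
      · rintro ⟨w, ⟨hw, hws⟩, rfl⟩
        exact ⟨fun e => hw (smul_left_cancel g e), w, hws, rfl⟩
    refine (hΦ _ _ _ ⟨g, hg, ?_, ?_⟩).symm
    · ext x; simp
    · refine isCx_xinf.2 _ hst _ ?_
      exact Finset.insert_subset_insert o
        (Finset.image_subset_image (f := fun x => g • x) (Finset.erase_subset v s))
  have hcyc : bd (Φ z) = 0 := by rw [hcomm, hΦI _ hbz]
  have hcoh : z + Φ z ∈ relI (V := Nrm p N) (Gam p N 1) := by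
    rw [← sum_smul_single z, map_sum, ← Finset.sum_add_distrib]
    refine Submodule.sum_mem _ (fun s hs => ?_)
    obtain ⟨hsK, hsn⟩ := hzs s hs
    obtain ⟨t, g, hg, rfl, hst⟩ := exst s hsK (Finset.card_pos.1 (by omega))
    rw [hΦ s _ _ ⟨g, hg, rfl, hst⟩, ← act_single_nrm, add_comm]
    exact Submodule.subset_span ⟨g, hg, _, rfl⟩
  have hsupp : ∀ t ∈ (Φ z).support, t.card = n ∧ insert o t ∈ Xinf p N := by
    intro t ht
    rw [← sum_smul_single z, map_sum] at ht
    obtain ⟨s, hs, hts⟩ := Finset.mem_biUnion.1 (Finsupp.support_finsetSum ht)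
    obtain ⟨hsK, hsn⟩ := hzs s hs
    obtain ⟨t', g, hg, rfl, hst⟩ := exst s hsK (Finset.card_pos.1 (by omega))
    rw [hΦ s _ _ ⟨g, hg, rfl, hst⟩] at hts
    rw [Finset.mem_singleton.1 (Finsupp.support_single_subset hts)]
    exact ⟨by rw [Finset.card_image_of_injective _ (MulAction.injective g), hsn], hst⟩
  obtain ⟨h1, h2, -⟩ := cone_fill (K := Xinf p N) o hcyc (fun t ht => (hsupp t ht).1)
    (fun t ht _ => mem_insert_inst (hsupp t ht).2)
  exact ⟨cone o (Φ z), h1, by rw [h2]; exact hcoh⟩

/-- Vanishing at level one, from the three interface statements. -/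
theorem vanish_one (hlink : ThinLink) (hstr : GPStructure) (hacyc : ThinAcyclic)
    (htr : GACTransfer) (d : ℕ) : ∃ B : ℕ, ∀ p : ℕ, p.Prime → B < p →
      ∀ M, d + 4 ≤ M → ∀ n, 2 ≤ n → n ≤ d + 1 → Vanish p M 1 n := by
  obtain ⟨B₁, hB₁⟩ := hstr
  obtain ⟨B₂, hB₂⟩ := hacyc d
  refine ⟨max (max B₁ B₂) 2, fun p hp hpB M hM n hn1 hn2 => ?_⟩
  have hp2 : p ≠ 2 := by omega
  haveI : Fact p.Prime := ⟨hp⟩
  have h := gac_xinf_one (p := p) (N := M) (by omega) hlink
    (fun F c hc => (hB₁ p M hp (by omega) (by omega) F c hc).1) n hn1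
  refine htr (SLP p M) (Gam p M 1) (Nrm p M) (SLP p M) (Xinf p M) Set.univ n (by omega)
    isCx_xinf isCx_univ (invCx_xinf _) (fun _ _ _ _ => trivial) (oddStab_xinf hp2 (by omega) _ le_rfl)
    (oddStab_free hp2 _ le_rfl)
    (fun j hj => hB₂ p M hp (by omega) hM j (by omega)) (fun j _ => ?_) h
  intro z hz hbz
  have hz' := mem_chainsOf_iff.1 hz
  obtain ⟨a, b, -⟩ := cone_fill (K := (Set.univ : Set (Finset (SLP p M)))) (1 : SLP p M) hbz
    (fun s hs => (hz' s hs).2) (fun _ _ _ => trivial)
  exact ⟨_, a, b⟩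

end Vale.Agent.P067
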