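import Mathlib
import Vale.Agent.P067.Interface
import Vale.Agent.P067.ChainLemmas
import Vale.Agent.P067.HomBasic
import Vale.Agent.P067.Orbit

namespace Vale.Agent.P067

open Classical Polynomial

variable {p N : ℕ} [Fact p.Prime]

/-- The data taken from the building and from the subspace modules. -/
structure Geo (p N : ℕ) : Prop where
  two_le : 2 ≤ N
  link : ThinLink
  ext : ∀ (F : Sub p N) c, IsPChain (GP F) c → ∃ t, IsPChain (GP F) t ∧ t.card + 1 = N ∧ c ⊆ t

omit [Fact p.Prime] in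
lemma basis_value {u : Nrm p N} {f : Module.Basis (Fin N) (PR p) (PV p N)} {b : Fin N → ℤ}
    (hf : HasType u.1 f b) (x : PV p N) (i : Fin N) :
    degZ (f.repr x i) + ((-b i : ℤ) : WithBot ℤ) ≤ u.1 x := by
  rw [hf]
  refine le_trans (le_of_eq ?_) (Finset.le_sup (Finset.mem_univ i))
  cases hd : (f.repr x i).degree with
  | bot => simp [degZ, hd]
  | coe n => simp only [degZ, hd, WithBot.map_coe, ← WithBot.coe_add, sub_eq_add_neg]

lemma exists_col (hG : Geo p N) : ∃ col : Nrm p N → Fin N,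
    (∀ u f b, HasType u.1 f b → ((col u : ℕ) : ℤ) = (∑ i, b i) % (N : ℤ)) ∧
    ∀ u : Nrm p N, Thin u → ∃ (F : Sub p N) (φ : Sub p N → Nrm p N),
      Set.InjOn φ (GP F) ∧
      (∀ W ∈ GP F, φ W ≠ u ∧
        (col (φ W) : ℕ) = ((col u : ℕ) + Module.finrank (ZMod p) W) % N) ∧
      (∀ s : Finset (Sub p N), (∀ W ∈ s, W ∈ GP F) →
        (IsChain (· ≤ ·) (s : Set (Sub p N)) ↔ insert u (s.image φ) ∈ Xinf p N)) ∧
      ∀ v, v ≠ u → {u, v} ∈ Xinf p N → ∃ W ∈ GP F, φ W = v :=
  hG.link p N Fact.out hG.two_le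

/-- The colour of a vertex. -/
noncomputable def colV (hG : Geo p N) : Nrm p N → Fin N := (exists_col hG).choose

lemma colV_spec (hG : Geo p N) {u : Nrm p N} {f b} (h : HasType u.1 f b) :
    ((colV hG u : ℕ) : ℤ) = (∑ i, b i) % (N : ℤ) :=
  (exists_col hG).choose_spec.1 u f b h

lemma colV_loc (hG : Geo p N) {u : Nrm p N} (hu : Thin u) :
    ∃ (F : Sub p N) (φ : Sub p N → Nrm p N), Set.InjOn φ (GP F) ∧
      (∀ W ∈ GP F, φ W ≠ u ∧
        (colV hG (φ W) : ℕ) = ((colV hG u : ℕ) + Module.finrank (ZMod p) W) % N) ∧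
      (∀ s : Finset (Sub p N), (∀ W ∈ s, W ∈ GP F) →
        (IsChain (· ≤ ·) (s : Set (Sub p N)) ↔ insert u (s.image φ) ∈ Xinf p N)) ∧
      ∀ v, v ≠ u → {u, v} ∈ Xinf p N → ∃ W ∈ GP F, φ W = v :=
  (exists_col hG).choose_spec.2 u hu

lemma colV_smul (hG : Geo p N) (g : SLP p N) {u : Nrm p N} (hu : Thin u) :
    colV hG (g • u) = colV hG u := by
  obtain ⟨f, b, hf, hb⟩ := hu
  obtain ⟨c, hc⟩ := smul_spec g u
  let e : PV p N ≃ₗ[PR p] PV p N :=
    { mv g with
      invFun := mv g⁻¹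
      left_inv := mv_inv_mv g
      right_inv := mv_mv_inv g }
  have ht : HasType (g • u).1 (f.map e) (fun i => b i - c) := by
    intro x
    rw [hc, hf]
    have he : ∀ i, (f.map e).repr x i = f.repr (mv g⁻¹ x) i := fun i => by
      simp [Module.Basis.map_repr, e]
    rw [Finset.apply_sup_eq_sup_comp (fun a : WithBot ℤ => a + (c : WithBot ℤ))
      (fun a b => (max_add_add_right a b _).symm) (WithBot.bot_add _)]
    refine Finset.sup_congr rfl (fun i _ => ?_)
    simp only [Function.comp_apply, he]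
    cases (f.repr (mv g⁻¹ x) i).degree with
    | bot => simp
    | coe n => simp only [WithBot.map_coe, ← WithBot.coe_add]; congr 1; ring
  have h1 := colV_spec hG ht
  have h2 := colV_spec hG hf
  rw [Finset.sum_sub_distrib, Finset.sum_const, Finset.card_univ, Fintype.card_fin,
    nsmul_eq_mul, Int.sub_mul_emod_self_left] at h1
  ext
  exact_mod_cast h1.trans h2.symm

/-- In a face the link chart gives a chain of subspaces. -/
lemma face_chain (hG : Geo p N) {s : Finset (Nrm p N)} (hs : s ∈ Xinf p N) {u : Nrm p N}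
    (hu : u ∈ s) {F : Sub p N} {φ : Sub p N → Nrm p N}
    (hchain : ∀ t : Finset (Sub p N), (∀ W ∈ t, W ∈ GP F) →
      (IsChain (· ≤ ·) (t : Set (Sub p N)) ↔ insert u (t.image φ) ∈ Xinf p N))
    (hsurj : ∀ v, v ≠ u → {u, v} ∈ Xinf p N → ∃ W ∈ GP F, φ W = v) :
    ∃ c, IsPChain (GP F) c ∧ c.image φ = s.erase u := by
  have hpre : ∀ v ∈ s.erase u, ∃ W ∈ GP F, φ W = v := by
    intro v hv
    refine hsurj v (Finset.ne_of_mem_erase hv) (isCx_xinf.2 s hs _ ?_)
    exact Finset.insert_subset hu (Finset.singleton_subset_iff.2 (Finset.mem_of_mem_erase hv))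
  choose ψ hψ hψv using hpre
  let c : Finset (Sub p N) := (s.erase u).attach.image (fun v => ψ v.1 v.2)
  have hcGP : ∀ W ∈ c, W ∈ GP F := by
    intro W hW
    obtain ⟨v, -, rfl⟩ := Finset.mem_image.1 hW
    exact hψ _ _
  have hcim : c.image φ = s.erase u := by
    ext v
    constructor
    · intro hv
      obtain ⟨W, hW, rfl⟩ := Finset.mem_image.1 hv
      obtain ⟨a, -, rfl⟩ := Finset.mem_image.1 hW
      rw [hψv]; exact a.2
    · exact fun hv => Finset.mem_image.2
        ⟨_, Finset.mem_image.2 ⟨⟨v, hv⟩, Finset.mem_attach _ _, rfl⟩, hψv v hv⟩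
  refine ⟨c, ⟨hcGP, (hchain c hcGP).2 ?_⟩, hcim⟩
  rw [hcim, Finset.insert_erase hu]
  exact hs

omit [Fact p.Prime] in
/-- A chain of subspaces in general position has at most `N - 1` members. -/
lemma chain_card_lt [Fact p.Prime] {F : Sub p N} {c : Finset (Sub p N)}
    (hc : IsPChain (GP F) c) : c.card + 1 ≤ N ∨ N = 0 := by
  rcases Nat.eq_zero_or_pos N with h | hN
  · exact Or.inr h
  left
  have hinj : Set.InjOn (fun W : Sub p N => Module.finrank (ZMod p) W) (c : Set (Sub p N)) := by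
    intro W hW W' hW' he
    rcases hc.2.total hW hW' with h | h
    · exact Submodule.eq_of_le_of_finrank_eq h he
    · exact (Submodule.eq_of_le_of_finrank_eq h he.symm).symm
  have : c.card ≤ (Finset.Ioo 0 N).card := by
    rw [← Finset.card_image_of_injOn hinj]
    refine Finset.card_le_card ?_
    intro d hd
    obtain ⟨W, hW, rfl⟩ := Finset.mem_image.1 hd
    obtain ⟨h1, h2, -⟩ := hc.1 W hW
    refine Finset.mem_Ioo.2 ⟨Nat.pos_of_ne_zero (fun e => h1 (Submodule.finrank_eq_zero.1 e)), ?_⟩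
    have := Submodule.finrank_lt h2
    rwa [Module.finrank_fin_fun] at this
  rw [Nat.card_Ioo] at this
  omega

lemma face_card_le (hG : Geo p N) {s : Finset (Nrm p N)} (hs : s ∈ Xinf p N) : s.card ≤ N := by
  rcases s.eq_empty_or_nonempty with rfl | ⟨u, hu⟩
  · simp
  obtain ⟨F, φ, hφi, hφ, hchain, hsurj⟩ := colV_loc hG (hs.2 u hu)
  obtain ⟨c, hc, hcim⟩ := face_chain hG hs hu hchain hsurj
  have h1 : (s.erase u).card ≤ c.card := hcim ▸ Finset.card_image_le
  rw [Finset.card_erase_of_mem hu] at h1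
  have := chain_card_lt hc
  have := hG.two_le
  omega

/-- Every nonempty face lies in a facet. -/
lemma exists_facet (hG : Geo p N) {s : Finset (Nrm p N)} (hs : s ∈ Xinf p N) (hne : s.Nonempty) :
    ∃ t ∈ Xinf p N, s ⊆ t ∧ t.card = N := by
  obtain ⟨u, hu⟩ := hne
  obtain ⟨F, φ, hφi, hφ, hchain, hsurj⟩ := colV_loc hG (hs.2 u hu)
  obtain ⟨c, hc, hcim⟩ := face_chain hG hs hu hchain hsurj
  obtain ⟨t, ht, htc, hct⟩ := hG.ext F c hc
  refine ⟨insert u (t.image φ), (hchain t ht.1).1 ht.2, ?_, ?_⟩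
  · intro v hv
    rcases eq_or_ne v u with rfl | hvu
    · exact Finset.mem_insert_self _ _
    · have : v ∈ c.image φ := by rw [hcim]; exact Finset.mem_erase.2 ⟨hvu, hv⟩
      exact Finset.mem_insert_of_mem (Finset.image_subset_image hct this)
  · have hnot : u ∉ t.image φ := by
      intro h
      obtain ⟨W, hW, he⟩ := Finset.mem_image.1 h
      exact (hφ W (ht.1 W hW)).1 he
    rw [Finset.card_insert_of_notMem hnot, Finset.card_image_of_injOn
      (hφi.mono (fun W hW => ht.1 W hW)), htc]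

/-- Orbits of vertices under a congruence subgroup. -/
abbrev Orb (p N m : ℕ) [Fact p.Prime] : Type :=
  Quotient (MulAction.orbitRel (Gam p N m) (Nrm p N))

/-- The orbits of thin vertices. -/
def thinOrb (p N m : ℕ) [Fact p.Prime] : Set (Orb p N m) :=
  {q | ∃ u, Thin u ∧ Quotient.mk _ u = q}

/-- A numbering of orbits, injective on thin orbits. -/
noncomputable def qIdx (p N m : ℕ) [Fact p.Prime] : Orb p N m → ℕ :=
  Classical.epsilon fun f => Set.InjOn f (thinOrb p N m)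

/-- The projection to the quotient complex. -/
noncomputable def proj (p N m : ℕ) [Fact p.Prime] (u : Nrm p N) : ℕ :=
  qIdx p N m (Quotient.mk _ u)

lemma proj_smul {m : ℕ} {g : SLP p N} (hg : g ∈ Gam p N m) (u : Nrm p N) :
    proj p N m (g • u) = proj p N m u := by
  unfold proj
  congr 1
  exact Quotient.sound ⟨⟨g, hg⟩, rfl⟩

lemma mem_gam_mul_inv {m : ℕ} {g g' : SLP p N}
    (h : ∀ i j, g.1 i j %ₘ (X : PR p) ^ m = g'.1 i j %ₘ (X : PR p) ^ m) :
    g * g'⁻¹ ∈ Gam p N m := by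
  have hm : (Matrix.SpecialLinearGroup.map (n := Fin N)
      (Ideal.Quotient.mk (Ideal.span {(X : PR p) ^ m}))) g =
      (Matrix.SpecialLinearGroup.map (n := Fin N)
      (Ideal.Quotient.mk (Ideal.span {(X : PR p) ^ m}))) g' := by
    apply Matrix.SpecialLinearGroup.ext
    intro i j
    simp only [Matrix.SpecialLinearGroup.map_apply_coe, RingHom.mapMatrix_apply, Matrix.map_apply]
    rw [Ideal.Quotient.eq, Ideal.mem_span_singleton, ← Polynomial.modByMonic_eq_zero_iff_dvd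
      (Polynomial.monic_X_pow m), Polynomial.sub_modByMonic, h i j, sub_self]
  rw [Gam, MonoidHom.mem_ker, map_mul, map_inv, hm, mul_inv_cancel]

lemma band_finite (hN : 0 < N) : {w : Nrm p N | Band w}.Finite := by
  have hfin : {x : PV p N | std p N x ≤ ((0 : ℤ) : WithBot ℤ)}.Finite := by
    haveI : NeZero p := ⟨(Fact.out : p.Prime).ne_zero⟩
    refine (Set.finite_range (fun c : Fin N → ZMod p => (fun i => C (c i) : PV p N))).subset ?_
    intro x hx
    exact ⟨fun i => (x i).coeff 0, funext fun i => (const_of_std_le hx i).symm⟩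
  refine Set.Finite.of_finite_image (f := negSet) (hfin.powerset.subset ?_) ?_
  · rintro _ ⟨w, hw, rfl⟩ x hx
    exact negSet_std hw hx
  · exact fun v hv w hw h => eq_of_negSet hv hw h

lemma thinOrb_finite (hG : Geo p N) {m : ℕ} (hm : 1 ≤ m) : (thinOrb p N m).Finite := by
  have h0 : 0 < N := by have := hG.two_le; omega
  let A : SLP p N → (Fin N → Fin N → PR p) := fun g i j => g.1 i j %ₘ (X : PR p) ^ m
  have hA : (Set.range A).Finite := by
    refine (finite_degree_bounded (p := p) (N := N) m).subset ?_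
    rintro _ ⟨g, rfl⟩ i j
    exact le_trans (Polynomial.natDegree_modByMonic_le _ (Polynomial.monic_X_pow m))
      (le_of_eq (Polynomial.natDegree_X_pow m))
  let rep : (Fin N → Fin N → PR p) → SLP p N := Function.invFun A
  refine ((hA.prod (band_finite (p := p) h0)).image
    (fun e => (Quotient.mk _ (rep e.1 • e.2) : Orb p N m))).subset ?_
  rintro q ⟨u, hu, rfl⟩
  have hus : ({u} : Finset (Nrm p N)) ∈ Xinf p N :=
    ⟨fun a ha b hb => by
      rw [Finset.mem_singleton.1 ha, Finset.mem_singleton.1 hb]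
      exact Or.inl (near_self u), fun a ha => by rwa [Finset.mem_singleton.1 ha]⟩
  obtain ⟨g, hg, hgs⟩ := exists_star hG.two_le hG.link hG.ext hus ⟨u, Finset.mem_singleton_self u⟩
  have hb : Band (g • u) := band_of_star h0 hgs.1 (by simp)
  refine ⟨(A g⁻¹, g • u), ⟨⟨g⁻¹, rfl⟩, hb⟩, ?_⟩
  refine Quotient.sound ⟨⟨rep (A g⁻¹) * g, ?_⟩, ?_⟩
  · have h := Function.invFun_eq (f := A) ⟨g⁻¹, rfl⟩
    have := mem_gam_mul_inv (g := rep (A g⁻¹)) (g' := g⁻¹) (fun i j => congrFun (congrFun h i) j)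
    rwa [inv_inv] at this
  · show (rep (A g⁻¹) * g) • u = rep (A g⁻¹) • (g • u)
    rw [mul_smul]

lemma proj_eq_iff (hG : Geo p N) {m : ℕ} (hm : 1 ≤ m) {u v : Nrm p N} (hu : Thin u) (hv : Thin v) :
    proj p N m u = proj p N m v ↔ ∃ g ∈ Gam p N m, g • v = u := by
  constructor
  · intro h
    have hex : ∃ f : Orb p N m → ℕ, Set.InjOn f (thinOrb p N m) := by
      obtain ⟨f, hf⟩ := Set.countable_iff_exists_injOn.1 (thinOrb_finite hG hm).countable
      exact ⟨f, hf⟩
    have hi : Set.InjOn (qIdx p N m) (thinOrb p N m) := Classical.epsilon_spec hex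
    obtain ⟨⟨g, hg⟩, hgv⟩ := Quotient.exact (hi ⟨u, hu, rfl⟩ ⟨v, hv, rfl⟩ h)
    exact ⟨g, hg, hgv⟩
  · rintro ⟨g, hg, rfl⟩
    exact proj_smul hg v

/-- Two vertices of one orbit near a common vertex are equal. -/
lemma eq_of_near (hN : 0 < N) {m : ℕ} (hm : 6 ≤ m) {g : SLP p N} (hg : g ∈ Gam p N m)
    {v w : Nrm p N} (hv : Thin v) (h1 : Near v w ∨ Near w v)
    (h2 : Near (g • v) w ∨ Near w (g • v)) : g = 1 := by
  obtain ⟨a1, a2⟩ := wb_sandwich h1
  obtain ⟨b1, b2⟩ := wb_sandwich h2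
  refine displacement hN hv hg 2 (by omega) (fun x => ?_) (fun x => ?_)
  · refine (b1 x).trans (((wb_add_le_iff 1).2 (a2 x)).trans (le_of_eq ?_))
    rw [wb_add_assoc]; rfl
  · refine (a1 x).trans (((wb_add_le_iff 1).2 (b2 x)).trans (le_of_eq ?_))
    rw [wb_add_assoc]; rfl

lemma proj_injOn (hG : Geo p N) {m : ℕ} (hm : 6 ≤ m) {s : Finset (Nrm p N)}
    (hs : s ∈ Xinf p N) : Set.InjOn (proj p N m) (s : Set (Nrm p N)) := by
  intro u hu v hv h
  obtain ⟨g, hg, hgv⟩ := (proj_eq_iff hG (by omega) (hs.2 u hu) (hs.2 v hv)).1 h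
  have hN : 0 < N := by have := hG.two_le; omega
  have : g = 1 := eq_of_near hN hm hg (hs.2 v hv) (w := v) (Or.inl (near_self v))
    (by rw [hgv]; exact hs.1 u hu v hv)
  rw [← hgv, this, one_smul]

/-- Lifts of a face agree up to translation. -/
lemma lift_unique (hG : Geo p N) {m : ℕ} (hm : 6 ≤ m) {σ τ : Finset (Nrm p N)}
    (hσ : σ ∈ Xinf p N) (hτ : τ ∈ Xinf p N) (hne : σ.Nonempty)
    (h : σ.image (proj p N m) ⊆ τ.image (proj p N m)) :
    ∃ g ∈ Gam p N m, σ.image (fun v => g • v) ⊆ τ := by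
  have hN : 0 < N := by have := hG.two_le; omega
  obtain ⟨u, hu⟩ := hne
  have hlift : ∀ v ∈ σ, ∃ g ∈ Gam p N m, g • v ∈ τ := by
    intro v hv
    obtain ⟨w, hw, hwv⟩ := Finset.mem_image.1 (h (Finset.mem_image_of_mem _ hv))
    obtain ⟨g, hg, hgw⟩ := (proj_eq_iff hG (by omega) (hτ.2 w hw) (hσ.2 v hv)).1 hwv
    exact ⟨g, hg, hgw ▸ hw⟩
  obtain ⟨g, hg, hgu⟩ := hlift u hu
  refine ⟨g, hg, ?_⟩
  intro x hx
  obtain ⟨v, hv, rfl⟩ := Finset.mem_image.1 hx
  obtain ⟨k, hk, hkv⟩ := hlift v hv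
  have h1 : Near (g • v) (g • u) ∨ Near (g • u) (g • v) := near_smul g (hσ.1 v hv u hu)
  have h2 : Near ((k * g⁻¹) • g • v) (g • u) ∨ Near (g • u) ((k * g⁻¹) • g • v) := by
    rw [← mul_smul, inv_mul_cancel_right]
    exact hτ.1 _ hkv _ hgu
  have := eq_of_near hN hm ((Gam p N m).mul_mem hk ((Gam p N m).inv_mem hg))
    (thin_smul g (hσ.2 v hv)) h1 h2
  rw [mul_inv_eq_one] at this
  rwa [← this]

/-- The facets of the quotient complex. -/
noncomputable def facetsT (p N m : ℕ) [Fact p.Prime] : Finset (Finset ℕ) :=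
  if h : {s : Finset ℕ | ∃ σ ∈ Xinf p N, σ.card = N ∧ σ.image (proj p N m) = s}.Finite
  then h.toFinset else ∅

lemma mem_facetsT (hG : Geo p N) {m : ℕ} (hm : 1 ≤ m) {s : Finset ℕ} :
    s ∈ facetsT p N m ↔ ∃ σ ∈ Xinf p N, σ.card = N ∧ σ.image (proj p N m) = s := by
  have hfin : {s : Finset ℕ | ∃ σ ∈ Xinf p N, σ.card = N ∧ σ.image (proj p N m) = s}.Finite := by
    refine (((thinOrb_finite hG hm).image (qIdx p N m)).toFinset.powerset.finite_toSet).subset ?_
    rintro _ ⟨σ, hσ, -, rfl⟩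
    simp only [Finset.mem_coe, Finset.mem_powerset]
    intro x hx
    obtain ⟨v, hv, rfl⟩ := Finset.mem_image.1 hx
    simp only [Set.Finite.mem_toFinset, Set.mem_image]
    exact ⟨Quotient.mk _ v, ⟨v, hσ.2 v hv, rfl⟩, rfl⟩
  rw [facetsT, dif_pos hfin, Set.Finite.mem_toFinset]
  rfl

lemma face_of_lift (hG : Geo p N) {m : ℕ} (hm : 1 ≤ m) {σ : Finset (Nrm p N)}
    (hσ : σ ∈ Xinf p N) : σ.image (proj p N m) ∈ cxOf (facetsT p N m) := by
  rcases σ.eq_empty_or_nonempty with rfl | hne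
  · exact Or.inl (Finset.image_empty _)
  obtain ⟨t, ht, hσt, htc⟩ := exists_facet hG hσ hne
  exact Or.inr ⟨_, (mem_facetsT hG hm).2 ⟨t, ht, htc, rfl⟩, Finset.image_subset_image hσt⟩

lemma lift_of_face (hG : Geo p N) {m : ℕ} (hm : 1 ≤ m) {s : Finset ℕ}
    (hs : s ∈ cxOf (facetsT p N m)) : ∃ σ ∈ Xinf p N, σ.image (proj p N m) = s := by
  rcases hs with rfl | ⟨t, ht, hst⟩
  · exact ⟨∅, isCx_xinf.1, Finset.image_empty _⟩
  obtain ⟨τ, hτ, -, rfl⟩ := (mem_facetsT hG hm).1 ht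
  refine ⟨τ.filter (fun v => proj p N m v ∈ s), isCx_xinf.2 τ hτ _ (Finset.filter_subset _ _), ?_⟩
  ext x
  simp only [Finset.mem_image, Finset.mem_filter]
  constructor
  · rintro ⟨v, ⟨-, hv⟩, rfl⟩
    exact hv
  · intro hx
    obtain ⟨v, hv, rfl⟩ := Finset.mem_image.1 (hst hx)
    exact ⟨v, ⟨hv, hx⟩, rfl⟩

/-- A face above `s` lifts above any lift of `s`. -/
lemma lift_above (hG : Geo p N) {m : ℕ} (hm : 6 ≤ m) {σ : Finset (Nrm p N)} (hσ : σ ∈ Xinf p N)
    (hne : σ.Nonempty) {t : Finset ℕ} (ht : t ∈ cxOf (facetsT p N m))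
    (hsub : σ.image (proj p N m) ⊆ t) :
    ∃ τ ∈ Xinf p N, σ ⊆ τ ∧ τ.image (proj p N m) = t := by
  obtain ⟨τ, hτ, rfl⟩ := lift_of_face hG (by omega) ht
  obtain ⟨g, hg, hgσ⟩ := lift_unique hG hm hσ hτ hne hsub
  refine ⟨τ.image (fun v => g⁻¹ • v), xinf_smul g⁻¹ hτ, ?_, ?_⟩
  · intro v hv
    exact Finset.mem_image.2 ⟨g • v, hgσ (Finset.mem_image_of_mem _ hv), inv_smul_smul g v⟩
  · rw [Finset.image_image]
    refine Finset.image_congr (fun v _ => ?_)
    exact proj_smul ((Gam p N m).inv_mem hg) v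

/-- The colour of a vertex of the quotient. -/
noncomputable def colT (hG : Geo p N) (m : ℕ) (x : ℕ) : Fin N :=
  if h : ∃ u, Thin u ∧ proj p N m u = x then colV hG h.choose
  else ⟨0, by have := hG.two_le; omega⟩

lemma colT_proj (hG : Geo p N) {m : ℕ} (hm : 1 ≤ m) {u : Nrm p N} (hu : Thin u) :
    colT hG m (proj p N m u) = colV hG u := by
  have h : ∃ v, Thin v ∧ proj p N m v = proj p N m u := ⟨u, hu, rfl⟩
  rw [colT, dif_pos h]
  obtain ⟨g, -, hgu⟩ := (proj_eq_iff hG hm h.choose_spec.1 hu).1 h.choose_spec.2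
  rw [← hgu, colV_smul hG g hu]

lemma isChambers_facetsT (hG : Geo p N) {m : ℕ} (hm : 6 ≤ m) :
    IsChambers (facetsT p N m) (colT hG m) := by
  intro t ht
  obtain ⟨σ, hσ, hσc, rfl⟩ := (mem_facetsT hG (by omega)).1 ht
  refine ⟨by rw [Finset.card_image_of_injOn (proj_injOn hG hm hσ), hσc], ?_⟩
  intro x hx y hy hxy
  obtain ⟨a, ha, rfl⟩ := Finset.mem_image.1 hx
  obtain ⟨b, hb, rfl⟩ := Finset.mem_image.1 hy
  rw [colT_proj hG (by omega) (hσ.2 a ha), colT_proj hG (by omega) (hσ.2 b hb)] at hxy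
  congr 1
  by_contra hne
  obtain ⟨F, φ, hφi, hφ, hchain, hsurj⟩ := colV_loc hG (hσ.2 a ha)
  have hedge : ({a, b} : Finset (Nrm p N)) ∈ Xinf p N :=
    isCx_xinf.2 σ hσ _ (Finset.insert_subset ha (Finset.singleton_subset_iff.2 hb))
  obtain ⟨W, hW, rfl⟩ := hsurj b (Ne.symm hne) hedge
  have hc := (hφ W hW).2
  rw [← hxy] at hc
  have hlt := Submodule.finrank_lt hW.2.1
  rw [Module.finrank_fin_fun] at hlt
  have hpos : Module.finrank (ZMod p) W ≠ 0 := fun e => hW.1 (Submodule.finrank_eq_zero.1 e)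
  have := (colV hG a).2
  by_cases hw : (colV hG a : ℕ) + Module.finrank (ZMod p) W < N
  · rw [Nat.mod_eq_of_lt hw] at hc; omega
  · rw [Nat.mod_eq_sub_mod (by omega), Nat.mod_eq_of_lt (by omega)] at hc; omega

/-- Push chains to the quotient. -/
noncomputable def pushQ (p N m : ℕ) [Fact p.Prime] : Chain (Nrm p N) →ₗ[ZMod 2] Chain ℕ :=
  Finsupp.lmapDomain (ZMod 2) (ZMod 2) (fun s => s.image (proj p N m))

lemma pushQ_single (m : ℕ) (s : Finset (Nrm p N)) (a : ZMod 2) :
    pushQ p N m (Finsupp.single s a) = Finsupp.single (s.image (proj p N m)) a := by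
  simp [pushQ]

lemma pushQ_relI (m : ℕ) {c : Chain (Nrm p N)} (hc : c ∈ relI (V := Nrm p N) (Gam p N m)) :
    pushQ p N m c = 0 := by
  refine (Submodule.mem_bot (ZMod 2)).1 (Hom.relI_map (S := ⊥) (fun g hg s => ?_) hc)
  rw [Submodule.mem_bot, pushQ_single, pushQ_single]
  refine (congrArg (fun t => Finsupp.single t (1 : ZMod 2) + _) ?_).trans (chain_add_self _)
  ext x
  simp only [Finset.mem_image]
  constructor
  · rintro ⟨_, ⟨v, hv, rfl⟩, rfl⟩
    exact ⟨v, hv, (proj_smul hg v).symm⟩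
  · rintro ⟨v, hv, rfl⟩
    exact ⟨_, ⟨v, hv, rfl⟩, proj_smul hg v⟩

lemma pushQ_mem (hG : Geo p N) {m : ℕ} (hm : 6 ≤ m) {n : ℕ} {c : Chain (Nrm p N)}
    (hc : c ∈ chainsOf (Xinf p N) n) : pushQ p N m c ∈ chainsOf (cxOf (facetsT p N m)) n := by
  refine Hom.map_mem (fun s hs hn => ?_) hc
  rw [pushQ_single]
  exact single_mem_chainsOf (face_of_lift hG (by omega) hs)
    (by rw [Finset.card_image_of_injOn (proj_injOn hG hm hs), hn]) _

lemma pushQ_bd (hG : Geo p N) {m : ℕ} (hm : 6 ≤ m) {n : ℕ} {c : Chain (Nrm p N)}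
    (hc : c ∈ chainsOf (Xinf p N) n) : bd (pushQ p N m c) = pushQ p N m (bd c) := by
  have key : (bd ∘ₗ pushQ p N m - pushQ p N m ∘ₗ bd) c ∈ (⊥ : Submodule (ZMod 2) (Chain ℕ)) := by
    refine Hom.map_mem (fun s hs hn => ?_) hc
    have hi := proj_injOn hG hm hs
    rw [Submodule.mem_bot, LinearMap.sub_apply, sub_eq_zero, LinearMap.comp_apply,
      LinearMap.comp_apply, pushQ_single, bd_single, bd_single, map_smul, map_sum,
      Finset.sum_image hi]
    congr 1
    refine Finset.sum_congr rfl (fun v hv => ?_)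
    rw [pushQ_single]
    congr 1
    ext x
    simp only [Finset.mem_erase, Finset.mem_image]
    constructor
    · rintro ⟨hx, w, hw, rfl⟩
      exact ⟨w, ⟨fun e => hx (e ▸ rfl), hw⟩, rfl⟩
    · rintro ⟨w, ⟨hw, hws⟩, rfl⟩
      exact ⟨fun e => hw (hi hws hv e), w, hws, rfl⟩
  simpa [sub_eq_zero] using key

lemma pushQ_ker (hG : Geo p N) {m : ℕ} (hm : 6 ≤ m) {n : ℕ} (hn : 1 ≤ n) {c : Chain (Nrm p N)}
    (hc : c ∈ chainsOf (Xinf p N) n) (h0 : pushQ p N m c = 0) :
    c ∈ relI (V := Nrm p N) (Gam p N m) := by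
  let sec : Finset ℕ → Finset (Nrm p N) := fun s =>
    if h : ∃ σ ∈ Xinf p N, σ.image (proj p N m) = s then h.choose else ∅
  let S : Chain ℕ →ₗ[ZMod 2] Chain (Nrm p N) := Finsupp.lmapDomain (ZMod 2) (ZMod 2) sec
  have key : ((LinearMap.id : Chain (Nrm p N) →ₗ[ZMod 2] Chain (Nrm p N)) +
      S ∘ₗ pushQ p N m) c ∈ relI (V := Nrm p N) (Gam p N m) := by
    refine Hom.map_mem (fun s hs hs' => ?_) hc
    rw [LinearMap.add_apply, LinearMap.id_apply, LinearMap.comp_apply, pushQ_single]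
    simp only [S, Finsupp.lmapDomain_apply, Finsupp.mapDomain_single]
    have hex : ∃ σ ∈ Xinf p N, σ.image (proj p N m) = s.image (proj p N m) := ⟨s, hs, rfl⟩
    have hsec : sec (s.image (proj p N m)) = hex.choose := dif_pos hex
    rw [hsec]
    obtain ⟨hσ, hσe⟩ := hex.choose_spec
    obtain ⟨g, hg, hsub⟩ := lift_unique hG hm hs hσ (Finset.card_pos.1 (by omega)) hσe.ge
    have heq : s.image (fun v => g • v) = hex.choose := by
      refine Finset.eq_of_subset_of_card_le hsub ?_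
      have := congrArg Finset.card hσe
      rw [Finset.card_image_of_injOn (proj_injOn hG hm hσ),
        Finset.card_image_of_injOn (proj_injOn hG hm hs)] at this
      rw [this, Finset.card_image_of_injective _ (MulAction.injective g)]
    rw [← heq, add_comm, ← act_single_nrm]
    exact Hom.act_add_mem_relI hg _
  simpa [h0] using key

/-- Low degree cycles of the quotient bound. -/
lemma acycAt_facetsT (hG : Geo p N) {m : ℕ} (hm : 6 ≤ m) {n : ℕ} (hn : 1 ≤ n)
    (hacyc : AcycAt (Xinf p N) n)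
    (hgac : 2 ≤ n → GAC (V := Nrm p N) (Gam p N m) (Xinf p N) n) :
    AcycAt (cxOf (facetsT p N m)) n := by
  intro z hz hbz
  have hz' := mem_chainsOf_iff.1 hz
  let L : Finset ℕ → Finset (Nrm p N) := fun s =>
    if h : ∃ σ ∈ Xinf p N, σ.image (proj p N m) = s then h.choose else ∅
  let zl : Chain (Nrm p N) := ∑ s ∈ z.support, Finsupp.single (L s) (z s)
  have hL : ∀ s ∈ z.support, L s ∈ Xinf p N ∧ (L s).image (proj p N m) = s := by
    intro s hs
    have hex := lift_of_face hG (by omega : 1 ≤ m) (hz' s hs).1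
    have he : L s = hex.choose := dif_pos hex
    rw [he]
    exact hex.choose_spec
  have hzl : zl ∈ chainsOf (Xinf p N) n := by
    refine Submodule.sum_mem _ (fun s hs => single_mem_chainsOf (hL s hs).1 ?_ _)
    have := (hz' s hs).2
    rwa [← (hL s hs).2, Finset.card_image_of_injOn (proj_injOn hG hm (hL s hs).1)] at this
  have hpush : pushQ p N m zl = z := by
    rw [map_sum]
    conv_rhs => rw [← sum_smul_single z]
    refine Finset.sum_congr rfl (fun s hs => ?_)
    rw [pushQ_single, (hL s hs).2]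
  have hb0 : pushQ p N m (bd zl) = 0 := by rw [← pushQ_bd hG hm hzl, hpush, hbz]
  obtain ⟨n', rfl⟩ : ∃ k, n = k + 1 := ⟨n - 1, by omega⟩
  have hbmem : bd zl ∈ chainsOf (Xinf p N) n' := bd_mem_chainsOf isCx_xinf.2 hzl
  obtain ⟨b, hb, hI⟩ : ∃ b ∈ chainsOf (Xinf p N) (n' + 1 + 1),
      zl + bd b ∈ relI (V := Nrm p N) (Gam p N m) := by
    rcases Nat.eq_zero_or_pos n' with h0 | h0
    · subst h0
      have hcyc : bd zl = 0 := by
        ext s
        by_cases hs : s = ∅
        · subst hs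
          have h : ∀ c ∈ chainsOf (Xinf p N) 0, pushQ p N m c ∅ = c ∅ := by
            intro c hc
            have hc0 : c = Finsupp.single ∅ (c ∅) := by
              ext t
              by_cases ht : t = ∅
              · subst ht; simp
              · rw [Finsupp.single_eq_of_ne ht, ← Finsupp.notMem_support_iff]
                exact fun hmem => ht (Finset.card_eq_zero.1 ((mem_chainsOf_iff.1 hc t hmem).2))
            rw [hc0, pushQ_single, Finset.image_empty]
            simp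
          rw [← h _ hbmem, hb0]
          rfl
        · rw [Finsupp.zero_apply, ← Finsupp.notMem_support_iff]
          exact fun hmem => hs (Finset.card_eq_zero.1 ((mem_chainsOf_iff.1 hbmem s hmem).2))
      obtain ⟨b, hb, hbd⟩ := hacyc zl hzl hcyc
      exact ⟨b, hb, by rw [hbd, chain_add_self]; exact Submodule.zero_mem _⟩
    · exact hgac (by omega) zl hzl (pushQ_ker hG hm h0 hbmem hb0)
  refine ⟨pushQ p N m b, pushQ_mem hG hm hb, ?_⟩
  have h := pushQ_relI m hI
  rw [map_add, hpush, ← pushQ_bd hG hm hb] at h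
  exact (chain_eq_of_add_eq_zero h).symm

end Vale.Agent.P067
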