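import Mathlib
import Vale.Agent.P067.Quotient

namespace Vale.Agent.P067

open Classical Polynomial

variable {p N : ℕ} [Fact p.Prime]

/-- A chart of the link of a nonempty face of the quotient by a complex of subspaces. -/
structure LinkChart (hG : Geo p N) (m : ℕ) (r : Finset ℕ) (F : Sub p N) (c : Finset (Sub p N))
    (ψ : Sub p N → ℕ) (w : ℕ) : Prop where
  chain : IsPChain (GP F) c
  ne_w : ∀ W ∈ GP F, ψ W ≠ w
  inj : Set.InjOn ψ (GP F)
  r_eq : insert w (c.image ψ) = r
  col_eq : ∀ W ∈ GP F,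
    (colT hG m (ψ W) : ℕ) = ((colT hG m w : ℕ) + Module.finrank (ZMod p) W) % N
  face : ∀ t, IsPChain (GP F) t → insert w (t.image ψ) ∈ cxOf (facetsT p N m)
  back : ∀ t : Finset (Sub p N), (∀ W ∈ t, W ∈ GP F) →
    insert w (t.image ψ) ∈ cxOf (facetsT p N m) → IsChain (· ≤ ·) (t : Set (Sub p N))
  surj : ∀ s ∈ cxOf (facetsT p N m), r ⊆ s →
    ∃ t, IsPChain (GP F) t ∧ c ⊆ t ∧ insert w (t.image ψ) = s

lemma exists_chart (hG : Geo p N) {m : ℕ} (hm : 6 ≤ m) {r : Finset ℕ}
    (hr : r ∈ cxOf (facetsT p N m)) (hne : r.Nonempty) :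
    ∃ F c ψ w, LinkChart hG m r F c ψ w := by
  have h0 : 0 < N := by have := hG.two_le; omega
  obtain ⟨σ, hσ, rfl⟩ := lift_of_face hG (by omega) hr
  obtain ⟨u, hu⟩ := Finset.image_nonempty.1 hne
  have htu := hσ.2 u hu
  obtain ⟨F, φ, hφi, hφ, hchain, hsurj⟩ := colV_loc hG htu
  obtain ⟨c, hc, hcim⟩ := face_chain hG hσ hu hchain hsurj
  let π := proj p N m
  have hpair : ∀ W ∈ GP F, insert u ({φ W} : Finset (Nrm p N)) ∈ Xinf p N := by
    intro W hW
    have := (hchain {W} (fun x hx => by rwa [Finset.mem_singleton.1 hx])).1 (by simp)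
    simpa using this
  have hnear : ∀ W ∈ GP F, Near (φ W) u ∨ Near u (φ W) := fun W hW =>
    (hpair W hW).1 _ (by simp) _ (by simp)
  have hthin : ∀ W ∈ GP F, Thin (φ W) := fun W hW => (hpair W hW).2 _ (by simp)
  have hinj : Set.InjOn (fun W => π (φ W)) (GP F) := by
    intro W hW W' hW' he
    obtain ⟨g, hg, hgW⟩ := (proj_eq_iff hG (by omega) (hthin W hW) (hthin W' hW')).1 he
    have := eq_of_near h0 hm hg (hthin W' hW') (hnear W' hW') (by rw [hgW]; exact hnear W hW)
    rw [this, one_smul] at hgW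
    exact hφi hW hW' hgW.symm
  have hnew : ∀ W ∈ GP F, π (φ W) ≠ π u := by
    intro W hW he
    have := proj_injOn hG hm (hpair W hW) (by simp : φ W ∈ (insert u {φ W} : Finset (Nrm p N)))
      (Finset.mem_insert_self _ _) he
    exact (hφ W hW).1 this
  have him : ∀ t : Finset (Sub p N),
      insert (π u) (t.image (fun W => π (φ W))) = (insert u (t.image φ)).image π := by
    intro t
    rw [Finset.image_insert, Finset.image_image]
    rfl
  have hr_eq : insert (π u) (c.image (fun W => π (φ W))) = σ.image π := by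
    rw [him, hcim, Finset.insert_erase hu]
  refine ⟨F, c, fun W => π (φ W), π u, hc, hnew, hinj, hr_eq, ?_, ?_, ?_, ?_⟩
  · intro W hW
    show (colT hG m (proj p N m (φ W)) : ℕ) = ((colT hG m (proj p N m u) : ℕ) + _) % N
    rw [colT_proj hG (by omega) (hthin W hW), colT_proj hG (by omega) htu]
    exact (hφ W hW).2
  · intro t ht
    rw [him]
    exact face_of_lift hG (by omega) ((hchain t ht.1).1 ht.2)
  · intro t ht hface
    refine (hchain t ht).2 ?_
    obtain ⟨τ, hτ, hsub, hτe⟩ := lift_above hG hm (σ := {u}) (isCx_xinf.2 σ hσ _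
      (Finset.singleton_subset_iff.2 hu)) (Finset.singleton_nonempty u) hface
      (by simp [π])
    obtain ⟨t', ht', ht'im⟩ := face_chain hG hτ (Finset.singleton_subset_iff.1 hsub) hchain hsurj
    have hτ' : insert u (t'.image φ) = τ := by
      rw [ht'im, Finset.insert_erase (Finset.singleton_subset_iff.1 hsub)]
    have heq : t' = t := by
      have e : insert (π u) (t'.image (fun W => π (φ W))) =
          insert (π u) (t.image (fun W => π (φ W))) := by
        rw [him t', hτ', hτe]
      have hn : ∀ a : Finset (Sub p N), (∀ W ∈ a, W ∈ GP F) →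
          π u ∉ a.image (fun W => π (φ W)) := fun a ha h => by
        obtain ⟨W, hW, hWe⟩ := Finset.mem_image.1 h
        exact hnew W (ha W hW) hWe
      have e' := congrArg (fun a => a.erase (π u)) e

      rw [Finset.erase_insert (hn t' ht'.1), Finset.erase_insert (hn t ht)] at e'
      ext W
      constructor
      · intro hW
        obtain ⟨W', hW', he⟩ := Finset.mem_image.1 (e' ▸ Finset.mem_image_of_mem _ hW)
        rwa [← hinj (ht W' hW') (ht'.1 W hW) he]
      · intro hW
        obtain ⟨W', hW', he⟩ := Finset.mem_image.1 (e'.symm ▸ Finset.mem_image_of_mem _ hW)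
        rwa [← hinj (ht'.1 W' hW') (ht W hW) he]
    rw [← heq, hτ']
    exact hτ
  · intro s hs hrs
    obtain ⟨τ, hτ, hστ, hτe⟩ := lift_above hG hm hσ ⟨u, hu⟩ hs hrs
    obtain ⟨t, ht, htim⟩ := face_chain hG hτ (hστ hu) hchain hsurj
    refine ⟨t, ht, ?_, ?_⟩
    · intro W hW
      have : φ W ∈ t.image φ := by
        rw [htim]
        have h := hcim ▸ Finset.mem_image_of_mem φ hW
        exact Finset.erase_subset_erase _ hστ h
      obtain ⟨W', hW', he⟩ := Finset.mem_image.1 this
      rwa [← hφi (ht.1 W' hW') (hc.1 W hW) he]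
    · rw [him, htim, Finset.insert_erase (hστ hu), hτe]

namespace LinkChart

variable {hG : Geo p N} {m : ℕ} {r : Finset ℕ} {F : Sub p N} {c : Finset (Sub p N)}
  {ψ : Sub p N → ℕ} {w : ℕ}

lemma w_notMem (h : LinkChart hG m r F c ψ w) {t : Finset (Sub p N)} (ht : ∀ W ∈ t, W ∈ GP F) :
    w ∉ t.image ψ := fun hm => by
  obtain ⟨W, hW, he⟩ := Finset.mem_image.1 hm
  exact h.ne_w W (ht W hW) he

lemma card_insert (h : LinkChart hG m r F c ψ w) {t : Finset (Sub p N)}
    (ht : ∀ W ∈ t, W ∈ GP F) : (insert w (t.image ψ)).card = t.card + 1 := by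
  rw [Finset.card_insert_of_notMem (h.w_notMem ht), Finset.card_image_of_injOn (h.inj.mono ht)]

lemma card_r (h : LinkChart hG m r F c ψ w) : r.card = c.card + 1 := by
  rw [← h.r_eq, h.card_insert h.chain.1]

lemma mem_r_iff (h : LinkChart hG m r F c ψ w) {W : Sub p N} (hW : W ∈ GP F) :
    ψ W ∈ r ↔ W ∈ c := by
  rw [← h.r_eq, Finset.mem_insert, Finset.mem_image]
  constructor
  · rintro (e | ⟨W', hW', e⟩)
    · exact absurd e (h.ne_w W hW)
    · rwa [← h.inj (h.chain.1 W' hW') hW e]
  · exact fun hWc => Or.inr ⟨W, hWc, rfl⟩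

lemma w_mem (h : LinkChart hG m r F c ψ w) : w ∈ r := h.r_eq ▸ Finset.mem_insert_self _ _

/-- A face of the link corresponds to a face of the subspace link. -/
lemma pull_spec (h : LinkChart hG m r F c ψ w) {s : Finset ℕ} (hd : Disjoint s r)
    (hs : s ∪ r ∈ cxOf (facetsT p N m)) :
    ∃ t ∈ chainLk (GP F) c, t.image ψ = s ∧ t.card = s.card := by
  obtain ⟨t, ht, hct, hte⟩ := h.surj _ hs Finset.subset_union_right
  refine ⟨t \ c, ⟨fun W hW => ⟨ht.1 W (Finset.mem_sdiff.1 hW).1, (Finset.mem_sdiff.1 hW).2⟩, ?_⟩,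
    ?_, ?_⟩
  · rw [Finset.sdiff_union_of_subset hct]; exact ht.2
  all_goals
    have him : (t \ c).image ψ = s := by
      ext x
      simp only [Finset.mem_image, Finset.mem_sdiff]
      constructor
      · rintro ⟨W, ⟨hW, hWc⟩, rfl⟩
        have : ψ W ∈ s ∪ r := hte ▸ Finset.mem_insert_of_mem (Finset.mem_image_of_mem _ hW)
        rcases Finset.mem_union.1 this with h' | h'
        · exact h'
        · exact absurd ((h.mem_r_iff (ht.1 W hW)).1 h') hWc
      · intro hx
        have hxr : x ∉ r := Finset.disjoint_left.1 hd hx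
        have : x ∈ insert w (t.image ψ) := hte.symm ▸ Finset.mem_union_left r hx
        rcases Finset.mem_insert.1 this with e | e
        · exact absurd (e ▸ h.w_mem) hxr
        · obtain ⟨W, hW, rfl⟩ := Finset.mem_image.1 e
          exact ⟨W, ⟨hW, fun hWc => hxr ((h.mem_r_iff (ht.1 W hW)).2 hWc)⟩, rfl⟩
  · exact him
  · rw [← him, Finset.card_image_of_injOn]
    exact h.inj.mono fun W hW => ht.1 W (Finset.mem_sdiff.1 hW).1

/-- A face of the subspace link gives a face of the link. -/
lemma push_spec (h : LinkChart hG m r F c ψ w) {t : Finset (Sub p N)}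
    (ht : t ∈ chainLk (GP F) c) :
    Disjoint (t.image ψ) r ∧ t.image ψ ∪ r ∈ cxOf (facetsT p N m) := by
  refine ⟨Finset.disjoint_left.2 fun x hx hxr => ?_, ?_⟩
  · obtain ⟨W, hW, rfl⟩ := Finset.mem_image.1 hx
    exact (ht.1 W hW).2 ((h.mem_r_iff (ht.1 W hW).1).1 hxr)
  · rw [← h.r_eq, Finset.union_insert, ← Finset.image_union]
    refine h.face _ ⟨fun W hW => ?_, ht.2⟩
    rcases Finset.mem_union.1 hW with h' | h'
    · exact (ht.1 W h').1
    · exact h.chain.1 W h'

end LinkChart

end Vale.Agent.P067
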