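import Mathlib
import Vale.Agent.P067.LinkChart

namespace Vale.Agent.P067

open Classical Polynomial

variable {p N : ℕ}

lemma exists_gap_le [Fact p.Prime] (e : ℕ) : ∀ (n : ℕ) (c : Finset (Sub p N)), c.card = n →
    IsChain (· ≤ ·) (c : Set (Sub p N)) → ∀ x : Sub p N, (∀ W ∈ c, W ≤ x) →
    (n + 1) * e ≤ Module.finrank (ZMod p) x →
    ∃ U y, (U = ⊥ ∨ U ∈ c) ∧ (y = x ∨ y ∈ c) ∧ U ≤ y ∧
      Module.finrank (ZMod p) U + e ≤ Module.finrank (ZMod p) y ∧
      ∀ v ∈ c, v ≤ U ∨ y ≤ v := by
  intro n
  induction n with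
  | zero =>
    intro c hc _ x _ he
    refine ⟨⊥, x, Or.inl rfl, Or.inl rfl, bot_le, by simpa using he, ?_⟩
    simp [Finset.card_eq_zero.1 hc]
  | succ n ih =>
    intro c hc hch x hx he
    obtain ⟨M, hM, hmax⟩ := Finset.exists_max_image c
      (fun W => Module.finrank (ZMod p) W) (Finset.card_pos.1 (by omega))
    have hle : ∀ W ∈ c, W ≤ M := by
      intro W hW
      rcases hch.total hW hM with h | h
      · exact h
      · exact (Submodule.eq_of_le_of_finrank_le h (hmax W hW)).ge
    by_cases hg : Module.finrank (ZMod p) M + e ≤ Module.finrank (ZMod p) x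
    · exact ⟨M, x, Or.inr hM, Or.inl rfl, hx M hM, hg, fun v hv => Or.inl (hle v hv)⟩
    · obtain ⟨U, y, hU, hy, hUy, hd, hv⟩ := ih (c.erase M)
        (by rw [Finset.card_erase_of_mem hM]; omega)
        (hch.mono (Finset.coe_subset.2 (Finset.erase_subset _ _))) M
        (fun W hW => hle W (Finset.mem_of_mem_erase hW))
        (by
          have : (n + 1 + 1) * e = (n + 1) * e + e := by ring
          omega)
      refine ⟨U, y, ?_, ?_, hUy, hd, fun v hv' => ?_⟩
      · exact hU.imp_right Finset.mem_of_mem_erase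
      · rcases hy with rfl | h
        · exact Or.inr hM
        · exact Or.inr (Finset.mem_of_mem_erase h)
      · rcases eq_or_ne v M with rfl | hne
        · refine Or.inr ?_
          rcases hy with rfl | h
          · exact le_rfl
          · exact hle y (Finset.mem_of_mem_erase h)
        · exact hv v (Finset.mem_erase.2 ⟨hne, hv'⟩)

lemma exists_gap [Fact p.Prime] (e : ℕ) {P : Set (Sub p N)} {c : Finset (Sub p N)}
    (hc : IsPChain P c) (h : (c.card + 1) * e ≤ N) : ∃ U x, IsGap c U x e := by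
  obtain ⟨U, y, hU, hy, hUy, hd, hv⟩ := exists_gap_le e c.card c rfl hc.2 ⊤ (fun _ _ => le_top)
    (by rw [finrank_top, Module.finrank_fin_fun]; exact h)
  exact ⟨U, y, hU, hy, hUy, hd, hv⟩

lemma sub_finite [Fact p.Prime] : Finite (Sub p N) := by
  haveI : NeZero p := ⟨(Fact.out : p.Prime).ne_zero⟩
  exact Finite.of_injective (fun W : Sub p N => (W : Set (Fin N → ZMod p))) SetLike.coe_injective

/-- Linear automorphisms fixing `F` and every member of `c`. -/
def chainStab (F : Sub p N) (c : Finset (Sub p N)) :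
    Subgroup ((Fin N → ZMod p) ≃ₗ[ZMod p] (Fin N → ZMod p)) where
  carrier := {g | F.map g.toLinearMap = F ∧ ∀ W ∈ c, W.map g.toLinearMap = W}
  one_mem' := ⟨Submodule.map_id F, fun W _ => Submodule.map_id W⟩
  mul_mem' := by
    rintro a b ⟨ha, ha'⟩ ⟨hb, hb'⟩
    have e : (a * b).toLinearMap = a.toLinearMap ∘ₗ b.toLinearMap := rfl
    exact ⟨by rw [e, Submodule.map_comp, hb, ha],
      fun W hW => by rw [e, Submodule.map_comp, hb' W hW, ha' W hW]⟩
  inv_mem' := by
    rintro a ⟨ha, ha'⟩
    have key : ∀ W : Sub p N, W.map a.toLinearMap = W → W.map a⁻¹.toLinearMap = W := by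
      intro W hW
      conv_lhs => rw [← hW]
      rw [← Submodule.map_comp]
      have e : a⁻¹.toLinearMap ∘ₗ a.toLinearMap = LinearMap.id := by
        exact LinearMap.ext fun x => a.symm_apply_apply x
      rw [e, Submodule.map_id]
    exact ⟨key F ha, fun W hW => key W (ha' W hW)⟩

lemma gp_map {F : Sub p N} (g : (Fin N → ZMod p) ≃ₗ[ZMod p] (Fin N → ZMod p))
    (hF : F.map g.toLinearMap = F) {W : Sub p N} (hW : W ∈ GP F) :
    W.map g.toLinearMap ∈ GP F := by
  have hinj := Submodule.map_injective_of_injective (f := g.toLinearMap) g.injective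
  have hbot : (⊥ : Sub p N).map g.toLinearMap = ⊥ := Submodule.map_bot _
  have htop : (⊤ : Sub p N).map g.toLinearMap = ⊤ := by
    rw [Submodule.map_top, LinearMap.range_eq_top]; exact g.surjective
  obtain ⟨h1, h2, h3⟩ := hW
  refine ⟨fun e => h1 (hinj (e.trans hbot.symm)), fun e => h2 (hinj (e.trans htop.symm)), ?_⟩
  rcases h3 with h | h
  · left
    conv_lhs => rw [← hF]
    rw [← Submodule.map_inf _ g.injective, h, hbot]
  · right
    conv_lhs => rw [← hF]
    rw [← Submodule.map_sup, h, htop]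

lemma gp_map_finrank (g : (Fin N → ZMod p) ≃ₗ[ZMod p] (Fin N → ZMod p)) (W : Sub p N) :
    Module.finrank (ZMod p) (W.map g.toLinearMap) = Module.finrank (ZMod p) W :=
  LinearEquiv.finrank_map_eq g W

variable [Fact p.Prime]

/-- Links of nonempty faces of the quotient are coboundary expanders. -/
lemma linkExp_facetsT (hG : Geo p N) (hExp : ExpOfContraction) {m : ℕ} (hm : 6 ≤ m) (d M : ℕ)
    (hd : d + 1 < N) (hN : d * (d + 2) ≤ N)
    (htrans : ∀ (F : Sub p N) c, IsPChain (GP F) c → ∀ t t', IsPChain (GP F) t →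
      IsPChain (GP F) t' → t.card + 1 = N → t'.card + 1 = N → c ⊆ t → c ⊆ t' →
      ∃ g : (Fin N → ZMod p) ≃ₗ[ZMod p] (Fin N → ZMod p),
        F.map g.toLinearMap = F ∧ (∀ W ∈ c, W.map g.toLinearMap = W) ∧
        t.image (fun W => W.map g.toLinearMap) = t')
    (hcon : ∀ n, n ≤ d → ∀ (F : Sub p N) c, IsPChain (GP F) c →
      (∃ U x, IsGap c U x (n + 2)) →
      ∃ h : Finset (Sub p N) → Chain (Sub p N), ∀ s ∈ chainLk (GP F) c, s.card ≤ n →
        h s ∈ chainsOf (chainLk (GP F) c) (s.card + 1) ∧ (h s).support.card ≤ M ∧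
        bd (h s) + Finsupp.linearCombination (ZMod 2) h (bd (Finsupp.single s 1))
          = Finsupp.single s 1) :
    LinkExp (facetsT p N m) d (1 / ((M : ℝ) * 2 ^ N + 1)) := by
  intro k hk r hne hrk hrt f hf
  haveI : NeZero p := ⟨(Fact.out : p.Prime).ne_zero⟩
  haveI := sub_finite (p := p) (N := N)
  letI : Fintype (Sub p N) := Fintype.ofFinite _
  have hr : r ∈ cxOf (facetsT p N m) := Or.inr hrt
  obtain ⟨F, c, ψ, w, hC⟩ := exists_chart hG hm hr hne
  have hrc := hC.card_r
  -- vertices of the link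
  let inv : ℕ → Sub p N := fun x => if h : ∃ W ∈ GP F, ψ W = x then h.choose else ⊥
  have hinv : ∀ W ∈ GP F, inv (ψ W) = W := by
    intro W hW
    have h : ∃ W' ∈ GP F, ψ W' = ψ W := ⟨W, hW, rfl⟩
    have : inv (ψ W) = h.choose := dif_pos h
    rw [this]
    exact hC.inj h.choose_spec.1 hW h.choose_spec.2
  let H := chainStab F c
  let sm : H → ℕ → ℕ := fun g x =>
    if ∃ W ∈ GP F, ψ W = x then ψ ((inv x).map g.1.toLinearMap) else x
  have sm_pos : ∀ (g : H) W, W ∈ GP F → sm g (ψ W) = ψ (W.map g.1.toLinearMap) := by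
    intro g W hW
    show (if _ then _ else _) = _
    rw [if_pos ⟨W, hW, rfl⟩, hinv W hW]
  have sm_neg : ∀ (g : H) x, (¬ ∃ W ∈ GP F, ψ W = x) → sm g x = x := fun g x hx => if_neg hx
  letI actH : MulAction H ℕ :=
    { smul := sm
      one_smul := fun x => by
        show sm 1 x = x
        by_cases hx : ∃ W ∈ GP F, ψ W = x
        · obtain ⟨W, hW, rfl⟩ := hx
          rw [sm_pos 1 W hW]
          congr 1
          exact Submodule.map_id W
        · exact sm_neg 1 x hx
      mul_smul := fun a b x => by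
        show sm (a * b) x = sm a (sm b x)
        by_cases hx : ∃ W ∈ GP F, ψ W = x
        · obtain ⟨W, hW, rfl⟩ := hx
          rw [sm_pos _ W hW, sm_pos b W hW, sm_pos a _ (gp_map _ b.2.1 hW), ← Submodule.map_comp]
          rfl
        · rw [sm_neg _ x hx, sm_neg b x hx, sm_neg a x hx] }
  have hsm : ∀ (g : H) x, g • x = sm g x := fun g x => rfl
  have himg : ∀ (g : H) (t : Finset (Sub p N)), (∀ W ∈ t, W ∈ GP F) →
      (insert w (t.image ψ)).image (fun x => g • x) =
        insert w ((t.image (fun W => W.map g.1.toLinearMap)).image ψ) := by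
    intro g t ht
    rw [Finset.image_insert, Finset.image_image, Finset.image_image]
    congr 1
    · rw [hsm]
      exact sm_neg g w fun ⟨W, hW, e⟩ => hC.ne_w W hW e
    · exact Finset.image_congr fun W hW => by
        simp only [Function.comp_apply, hsm]
        exact sm_pos g W (ht W hW)
  have hfin : Finite H := by
    haveI : Finite ((Fin N → ZMod p) ≃ₗ[ZMod p] (Fin N → ZMod p)) :=
      Finite.of_injective (fun g => (g : (Fin N → ZMod p) → Fin N → ZMod p)) DFunLike.coe_injective
    infer_instance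
  letI : Fintype H := Fintype.ofFinite H
  -- contraction
  obtain ⟨n, hn⟩ : ∃ n, n + r.card = k + 1 := ⟨k + 1 - r.card, by omega⟩
  have hgap : ∃ U x, IsGap c U x (n + 2) := by
    refine exists_gap (n + 2) hC.chain (le_trans ?_ hN)
    have h1 : c.card + 1 ≤ d := by omega
    have h2 : n + 2 ≤ d + 2 := by omega
    exact Nat.mul_le_mul h1 h2
  obtain ⟨h, hh⟩ := hcon n (by omega) F c hC.chain hgap
  let pull : Finset ℕ → Finset (Sub p N) :=
    fun s => Finset.univ.filter (fun W => W ∈ GP F ∧ ψ W ∈ s)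
  have hpull : ∀ t : Finset (Sub p N), (∀ W ∈ t, W ∈ GP F) → pull (t.image ψ) = t := by
    intro t ht
    ext W
    simp only [pull, Finset.mem_filter, Finset.mem_univ, true_and, Finset.mem_image]
    constructor
    · rintro ⟨hW, W', hW', e⟩
      rwa [← hC.inj (ht W' hW') hW e]
    · exact fun hW => ⟨ht W hW, W, hW, rfl⟩
  let push : Chain (Sub p N) →ₗ[ZMod 2] Chain ℕ :=
    Finsupp.lmapDomain (ZMod 2) (ZMod 2) (fun t => t.image ψ)
  have push_single : ∀ t a, push (Finsupp.single t a) = Finsupp.single (t.image ψ) a := by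
    intro t a
    simp [push]
  let h' : Finset ℕ → Chain ℕ := fun s => push (h (pull s))
  have push_bd : ∀ j (z : Chain (Sub p N)), z ∈ chainsOf (chainLk (GP F) c) j →
      bd (push z) = push (bd z) := by
    intro j z hz
    have key : (bd ∘ₗ push - push ∘ₗ bd) z ∈ (⊥ : Submodule (ZMod 2) (Chain ℕ)) := by
      refine Hom.map_mem (fun t ht _ => ?_) hz
      have hi : Set.InjOn ψ (t : Set (Sub p N)) := hC.inj.mono fun W hW => (ht.1 W hW).1
      rw [Submodule.mem_bot, LinearMap.sub_apply, sub_eq_zero, LinearMap.comp_apply,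
        LinearMap.comp_apply, push_single, bd_single, bd_single, map_smul, map_sum,
        Finset.sum_image hi]
      congr 1
      refine Finset.sum_congr rfl (fun v hv => ?_)
      rw [push_single]
      congr 1
      ext x
      simp only [Finset.mem_erase, Finset.mem_image]
      constructor
      · rintro ⟨hx, W, hW, rfl⟩
        exact ⟨W, ⟨fun e => hx (e ▸ rfl), hW⟩, rfl⟩
      · rintro ⟨W, ⟨hW, hWt⟩, rfl⟩
        exact ⟨fun e => hW (hi hWt hv e), W, hWt, rfl⟩
    simpa [sub_eq_zero] using key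
  have hmain := hExp N ℕ (facetsT p N m) (colT hG m) r k M (isChambers_facetsT hG hm) hne hrk
    (by omega) hrt ⟨H, inferInstance, inferInstance, actH, ?_, ?_, ?_, ?_⟩ ⟨h', ?_⟩ f hf
  · exact hmain
  · intro g x
    by_cases hx : ∃ W ∈ GP F, ψ W = x
    · obtain ⟨W, hW, rfl⟩ := hx
      apply Fin.ext
      rw [hsm, sm_pos g W hW, hC.col_eq _ (gp_map _ g.2.1 hW), hC.col_eq W hW, gp_map_finrank]
    · rw [hsm, sm_neg g x hx]
  · intro g v hv
    rw [← hC.r_eq] at hv
    rcases Finset.mem_insert.1 hv with rfl | hv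
    · rw [hsm]
      exact sm_neg g _ fun ⟨W, hW, e⟩ => hC.ne_w W hW e
    · obtain ⟨W, hW, rfl⟩ := Finset.mem_image.1 hv
      rw [hsm, sm_pos g W (hC.chain.1 W hW), g.2.2 W hW]
  · intro g t ht hrsub
    obtain ⟨t', ht', hct, hte⟩ := hC.surj t (Or.inr ⟨t, ht, subset_rfl⟩) hrsub
    have hgp : ∀ W ∈ t'.image (fun W => W.map g.1.toLinearMap), W ∈ GP F := by
      intro W hW
      obtain ⟨W', hW', rfl⟩ := Finset.mem_image.1 hW
      exact gp_map _ g.2.1 (ht'.1 W' hW')
    have hch : IsPChain (GP F) (t'.image (fun W => W.map g.1.toLinearMap)) := by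
      refine ⟨hgp, ?_⟩
      intro x hx y hy hne'
      obtain ⟨a, ha, rfl⟩ := Finset.mem_image.1 hx
      obtain ⟨b, hb, rfl⟩ := Finset.mem_image.1 hy
      rcases ht'.2.total ha hb with h | h
      · exact Or.inl (Submodule.map_mono h)
      · exact Or.inr (Submodule.map_mono h)
    have hface := hC.face _ hch
    rw [← himg g t' ht'.1, hte] at hface
    rcases hface with e | ⟨T', hT', hsub⟩
    · have hw : w ∈ t := hrsub hC.w_mem
      have := Finset.mem_image_of_mem (fun x => g • x) hw
      simp [e] at this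
    · have h1 := (isChambers_facetsT hG hm t ht).1
      have h2 := (isChambers_facetsT hG hm T' hT').1
      have h3 : (t.image (fun x => g • x)).card = N := by
        rw [Finset.card_image_of_injective _ (MulAction.injective g), h1]
      have : t.image (fun x => g • x) = T' := Finset.eq_of_subset_of_card_le hsub (by omega)
      rw [natDec_eq, this]
      exact hT'
  · intro t ht t' ht' hsub hsub'
    obtain ⟨a, ha, hca, hae⟩ := hC.surj t (Or.inr ⟨t, ht, subset_rfl⟩) hsub
    obtain ⟨b, hb, hcb, hbe⟩ := hC.surj t' (Or.inr ⟨t', ht', subset_rfl⟩) hsub'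
    have hca' : a.card + 1 = N := by
      rw [← hC.card_insert ha.1, hae]; exact (isChambers_facetsT hG hm t ht).1
    have hcb' : b.card + 1 = N := by
      rw [← hC.card_insert hb.1, hbe]; exact (isChambers_facetsT hG hm t' ht').1
    obtain ⟨g, hgF, hgc, hgt⟩ := htrans F c hC.chain a b ha hb hca' hcb' hca hcb
    have hgH : g ∈ H := ⟨hgF, hgc⟩
    refine ⟨⟨g, hgH⟩, ?_⟩
    have e := himg ⟨g, hgH⟩ a ha.1
    rw [hae, hgt, hbe] at e
    rw [natDec_eq]
    exact e
  · intro s hd hs hsc
    rw [natDec_eq] at hs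
    obtain ⟨t, ht, him, htc⟩ := hC.pull_spec hd hs
    have htgp : ∀ W ∈ t, W ∈ GP F := fun W hW => (ht.1 W hW).1
    obtain ⟨h1, h2, h3⟩ := hh t ht (by omega)
    have hps : pull s = t := by rw [← him, hpull t htgp]
    have hh' : h' s = push (h t) := by simp only [h', hps]
    refine ⟨?_, ?_, ?_⟩
    · rw [hh', ← htc]
      refine Hom.map_mem (fun u hu hun => ?_) h1
      rw [push_single]
      refine single_mem_chainsOf ?_ ?_ _
      · exact ⟨(hC.push_spec hu).1, by rw [natDec_eq]; exact (hC.push_spec hu).2⟩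
      · rw [Finset.card_image_of_injOn (hC.inj.mono fun W hW => (hu.1 W hW).1), hun]
    · rw [hh']
      exact le_trans (le_trans (Finset.card_le_card Finsupp.mapDomain_support)
        Finset.card_image_le) h2
    · have hlc : Finsupp.linearCombination (ZMod 2) h' (bd (Finsupp.single s 1)) =
          push (Finsupp.linearCombination (ZMod 2) h (bd (Finsupp.single t 1))) := by
        rw [bd_single, bd_single]
        simp only [one_smul, map_sum, Finsupp.linearCombination_single]
        have hi : Set.InjOn ψ (t : Set (Sub p N)) := hC.inj.mono htgp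
        conv_lhs => rw [← him]
        rw [Finset.sum_image hi]
        refine Finset.sum_congr rfl (fun v hv => ?_)
        have he : (t.image ψ).erase (ψ v) = (t.erase v).image ψ := by
          ext x
          simp only [Finset.mem_erase, Finset.mem_image]
          constructor
          · rintro ⟨hx, W, hW, rfl⟩
            exact ⟨W, ⟨fun e => hx (e ▸ rfl), hW⟩, rfl⟩
          · rintro ⟨W, ⟨hW, hWt⟩, rfl⟩
            exact ⟨fun e => hW (hi hWt hv e), W, hWt, rfl⟩
        have e2 := congrArg pull he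
        rw [hpull (t.erase v) fun W hW => htgp W (Finset.mem_of_mem_erase hW)] at e2
        show h' _ = _
        simp only [h']
        congr 2
        rw [natDec_eq]
        exact e2
      rw [hh', push_bd _ _ h1, hlc, ← map_add, h3, push_single, him]

end Vale.Agent.P067
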