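import Mathlib
import Vale.Agent.P067.Defs
import Vale.Agent.P067.Interface
import Vale.Agent.P067.LinkProps

namespace Vale.Agent.P067

open Classical Polynomial

/-- The faces with two vertices connect all vertices. -/
def IsConnectedCx {V : Type} [DecidableEq V] (T : Finset (Finset V)) : Prop :=
  ∀ u v, {u} ∈ faces T 0 → {v} ∈ faces T 0 →
    Relation.ReflTransGen (fun a b => {a, b} ∈ faces T 1) u v

variable {p N : ℕ} [Fact p.Prime]

lemma gam_one_fix_origin (hN : 0 < N) {g : SLP p N} (hg : g ∈ Gam p N 1)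
    (hfix : g • origin p N hN = origin p N hN) : g = 1 := by
  have hB : Band (origin p N hN) := fun x => by
    show std p N x ≤ std p N x + _
    cases std p N x with
    | bot => simp
    | coe n => rw [← WithBot.coe_add, WithBot.coe_le_coe]; omega
  obtain ⟨c, hc⟩ := smul_spec g (origin p N hN)
  rw [hfix] at hc
  have hf := hasType_origin (p := p) hN
  have h1 := shift_lower (le_refl 1) hf hg hfix hc 0 (fun x => by rw [wb_add_zero]) ⟨0, hN⟩
  have hc' : ∀ x, (origin p N hN).1 x =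
      (origin p N hN).1 (mv g⁻¹⁻¹ x) + ((-c : ℤ) : WithBot ℤ) := by
    intro x
    rw [inv_inv, hc (mv g x), mv_inv_mv, wb_add_assoc, add_neg_cancel, wb_add_zero]
  have h2 := shift_lower (le_refl 1) hf ((Gam p N 1).inv_mem hg)
    (show g⁻¹ • origin p N hN = origin p N hN by rw [inv_smul_eq_iff, hfix]) hc' 0
    (fun x => by rw [wb_add_zero]) ⟨0, hN⟩
  have hc0 : c = 0 := by omega
  subst hc0
  have key : mv g⁻¹ = LinearMap.id := by
    refine (Pi.basisFun (PR p) (Fin N)).ext (fun j => ?_)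
    have hy : std p N ((Pi.basisFun (PR p) (Fin N)) j) ≤ ((0 : ℤ) : WithBot ℤ) := by
      rw [std_le_iff]
      intro i
      rcases eq_or_ne i j with rfl | h
      · simp [degZ]
      · simp [degZ, Pi.single_eq_of_ne h]
    have hy' : std p N (mv g⁻¹ ((Pi.basisFun (PR p) (Fin N)) j)) ≤ ((0 : ℤ) : WithBot ℤ) := by
      have := hc ((Pi.basisFun (PR p) (Fin N)) j)
      rw [wb_add_zero] at this
      exact le_trans this.ge hy
    exact const_congr hy' hy fun i => by simpa using gam_mv ((Gam p N 1).inv_mem hg) _ i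
  have : g⁻¹ = 1 := by
    apply Subtype.ext
    apply Matrix.toLin'.injective
    simp only [mv] at key
    rw [key]
    simp [Matrix.toLin'_one]
  simpa using this

/-- The elementary matrix with entry `t^a`. -/
noncomputable def elem (hN : 2 ≤ N) (a : ℕ) : SLP p N :=
  ⟨Matrix.transvection (⟨0, by omega⟩ : Fin N) ⟨1, by omega⟩ ((X : PR p) ^ a),
    Matrix.det_transvection_of_ne _ _ (by simp [Fin.ext_iff]) _⟩

lemma vertices_grow (hG : Geo p N) {m : ℕ} (hm : 6 ≤ m) :
    ∃ S : Finset ℕ, m - 1 ≤ S.card ∧ ∀ x ∈ S, ({x} : Finset ℕ) ∈ cxOf (facetsT p N m) := by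
  have h2 := hG.two_le
  have h0 : 0 < N := by omega
  let o := origin p N h0
  let f : ℕ → ℕ := fun a => proj p N m (elem (p := p) h2 a • o)
  have hel : ∀ a, 1 ≤ a → elem (p := p) h2 a ∈ Gam p N 1 := by
    intro a ha
    rw [mem_Gam_iff]
    intro i j
    simp only [elem, Matrix.transvection, Matrix.add_apply, add_sub_cancel_left,
      Matrix.single_apply]
    split
    · simpa using pow_dvd_pow (X : PR p) ha
    · exact dvd_zero _
  have hinj : Set.InjOn f (Finset.Ico 1 m : Finset ℕ) := by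
    intro a ha b hb h
    rw [Finset.mem_coe, Finset.mem_Ico] at ha hb
    obtain ⟨g, hg, hgb⟩ := (proj_eq_iff hG (by omega) (thin_smul _ (thin_origin h0))
      (thin_smul _ (thin_origin h0))).1 h
    have hfix : ((elem (p := p) h2 a)⁻¹ * g * elem h2 b) • o = o := by
      rw [mul_smul, mul_smul, hgb, inv_smul_smul]
    have h1 := gam_one_fix_origin h0 ((Gam p N 1).mul_mem ((Gam p N 1).mul_mem
      ((Gam p N 1).inv_mem (hel a ha.1)) (gam_antitone (by omega) hg)) (hel b hb.1)) hfix
    have h2' : g * elem (p := p) h2 b = elem h2 a := by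
      rw [mul_assoc] at h1
      exact (inv_mul_eq_one.1 h1).symm
    have hd := mem_Gam_iff.1 hg ⟨0, by omega⟩ ⟨1, by omega⟩
    have he : (g.1 * Matrix.transvection (⟨0, by omega⟩ : Fin N) ⟨1, by omega⟩ ((X : PR p) ^ b))
          ⟨0, by omega⟩ ⟨1, by omega⟩ =
        Matrix.transvection (⟨0, by omega⟩ : Fin N) ⟨1, by omega⟩ ((X : PR p) ^ a)
          ⟨0, by omega⟩ ⟨1, by omega⟩ :=
      congrFun (congrFun (congrArg Subtype.val h2') _) _
    rw [Matrix.mul_transvection_apply_same] at he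
    have hne : (⟨0, by omega⟩ : Fin N) ≠ ⟨1, by omega⟩ := by simp [Fin.ext_iff]
    have hd0 := mem_Gam_iff.1 hg ⟨0, by omega⟩ ⟨0, by omega⟩
    rw [Matrix.one_apply_ne hne, sub_zero] at hd
    rw [Matrix.one_apply_eq] at hd0
    have hdiv : (X : PR p) ^ m ∣ (X : PR p) ^ b - X ^ a := by
      have : (X : PR p) ^ b - X ^ a = -g.1 ⟨0, by omega⟩ ⟨1, by omega⟩ -
          X ^ b * (g.1 ⟨0, by omega⟩ ⟨0, by omega⟩ - 1) := by
        have he' : g.1 ⟨0, by omega⟩ ⟨1, by omega⟩ + X ^ b * g.1 ⟨0, by omega⟩ ⟨0, by omega⟩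
            = X ^ a := by
          rw [he]; simp [Matrix.transvection, Matrix.single_apply]
        linear_combination he'
      rw [this]
      exact dvd_sub ((dvd_neg).2 hd) (Dvd.dvd.mul_left hd0 _)
    by_contra hab
    have hne0 : (X : PR p) ^ b - X ^ a ≠ 0 := by
      intro e
      have := congrArg (fun q : PR p => q.coeff b) e
      simp [Polynomial.coeff_X_pow, Ne.symm hab] at this
    have := Polynomial.natDegree_le_of_dvd hdiv hne0
    have h3 := Polynomial.natDegree_sub_le ((X : PR p) ^ b) (X ^ a)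
    simp only [Polynomial.natDegree_X_pow] at this h3
    omega
  refine ⟨(Finset.Ico 1 m).image f, ?_, ?_⟩
  · rw [Finset.card_image_of_injOn hinj, Nat.card_Ico]
  · intro x hx
    obtain ⟨a, -, rfl⟩ := Finset.mem_image.1 hx
    have h := face_of_lift hG (by omega : 1 ≤ m) (σ := {elem (p := p) h2 a • o})
      ⟨fun u hu v hv => by
        rw [Finset.mem_singleton.1 hu, Finset.mem_singleton.1 hv]
        exact Or.inl (near_self _),
      fun u hu => by rw [Finset.mem_singleton.1 hu]; exact thin_smul _ (thin_origin h0)⟩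
    rwa [Finset.image_singleton] at h

omit [Fact p.Prime] in
lemma cnt_eq_zero {V : Type} {T : Finset (Finset V)} {s : Finset V} (h : ∀ t ∈ T, ¬ s ⊆ t) :
    cnt T s = 0 :=
  Finset.card_eq_zero.2 (Finset.filter_eq_empty_iff.2 h)

lemma degree_facetsT (hG : Geo p N) {m : ℕ} (hm : 6 ≤ m) (v : ℕ) :
    cnt (facetsT p N m) {v} ≤ 2 ^ Nat.card (Sub p N) := by
  haveI := sub_finite (p := p) (N := N)
  letI : Fintype (Sub p N) := Fintype.ofFinite _
  by_cases hv : ({v} : Finset ℕ) ∈ cxOf (facetsT p N m)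
  · obtain ⟨F, c, ψ, w, hC⟩ := exists_chart hG hm hv (Finset.singleton_nonempty v)
    have hsub : (facetsT p N m).filter (fun t => {v} ⊆ t) ⊆
        (Finset.univ : Finset (Finset (Sub p N))).image (fun t => insert w (t.image ψ)) := by
      intro t ht
      obtain ⟨ht1, ht2⟩ := Finset.mem_filter.1 ht
      obtain ⟨t', -, -, he⟩ := hC.surj t (Or.inr ⟨t, ht1, subset_rfl⟩) ht2
      exact Finset.mem_image.2 ⟨t', Finset.mem_univ _, he⟩
    have key : ((facetsT p N m).filter (fun t => {v} ⊆ t)).card ≤ 2 ^ Nat.card (Sub p N) := by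
      refine (Finset.card_le_card hsub).trans (Finset.card_image_le.trans ?_)
      rw [Finset.card_univ, Fintype.card_finset, Nat.card_eq_fintype_card]
    refine le_of_eq_of_le (congrArg Finset.card (Finset.ext fun t => ?_)) key
    simp
  · exact le_of_eq_of_le (cnt_eq_zero fun t ht hsub => hv (Or.inr ⟨t, ht, hsub⟩)) (Nat.zero_le _)

lemma skeleton_props {T : Finset (Finset ℕ)} {d n D₀ : ℕ} (hTn : ∀ t ∈ T, t.card = n)
    (hD : ∀ v, cnt T {v} ≤ D₀) (hdn : d + 1 ≤ n) :
    (∀ t ∈ facesOfSize T (d + 1), t.card = d + 1) ∧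
    (∀ v, ((facesOfSize T (d + 1)).filter (fun t => v ∈ t)).card ≤ D₀ * 2 ^ n) ∧
    (∀ v, ({v} : Finset ℕ) ∈ cxOf T → {v} ∈ faces (facesOfSize T (d + 1)) 0) := by
  refine ⟨fun t ht => (Finset.mem_filter.1 ht).2, fun v => ?_, fun v hv => ?_⟩
  · calc ((facesOfSize T (d + 1)).filter (fun t => v ∈ t)).card
        ≤ ((T.filter (fun t => {v} ⊆ t)).biUnion Finset.powerset).card := by
          refine Finset.card_le_card ?_
          intro s hs
          simp only [facesOfSize, Finset.mem_filter, Finset.mem_biUnion, Finset.mem_powerset,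
            Finset.singleton_subset_iff] at hs ⊢
          obtain ⟨⟨⟨t, ht, hst⟩, -⟩, hv⟩ := hs
          exact ⟨t, ⟨ht, hst hv⟩, hst⟩
      _ ≤ ∑ t ∈ T.filter (fun t => {v} ⊆ t), t.powerset.card := Finset.card_biUnion_le
      _ ≤ ∑ _t ∈ T.filter (fun t => {v} ⊆ t), 2 ^ n :=
          Finset.sum_le_sum fun t ht => by
            rw [Finset.card_powerset, hTn t (Finset.mem_filter.1 ht).1]
      _ ≤ D₀ * 2 ^ n := by
          rw [Finset.sum_const, smul_eq_mul]
          refine Nat.mul_le_mul_right _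
            (le_trans (le_of_eq (congrArg Finset.card (Finset.ext fun t => ?_))) (hD v))
          simp
  · rcases hv with e | ⟨t, ht, hvt⟩
    · exact absurd e (Finset.singleton_ne_empty v)
    · obtain ⟨s, hs1, hs2, hs3⟩ := Finset.exists_subsuperset_card_eq hvt
        (by rw [Finset.card_singleton]; omega : ({v} : Finset ℕ).card ≤ d + 1)
        (by rw [hTn t ht]; omega)
      simp only [faces, facesOfSize, Finset.mem_filter, Finset.mem_biUnion, Finset.mem_powerset,
        Finset.card_singleton]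
      exact ⟨⟨s, ⟨⟨t, ht, hs2⟩, hs3⟩, hs1⟩, trivial⟩

lemma skeleton_connected {T : Finset (Finset ℕ)} {d n : ℕ} (hTn : ∀ t ∈ T, t.card = n)
    (hd : 1 ≤ d) (hdn : d + 1 ≤ n) (hconn : LinksConn T n) :
    IsConnectedCx (facesOfSize T (d + 1)) := by
  intro u v hu hv
  have cx : ∀ x, ({x} : Finset ℕ) ∈ faces (facesOfSize T (d + 1)) 0 →
      ({x} : Finset ℕ) ∈ cxOf T := by
    intro x hx
    simp only [faces, facesOfSize, Finset.mem_filter, Finset.mem_biUnion, Finset.mem_powerset]
      at hx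
    obtain ⟨⟨s, ⟨⟨t, ht, hst⟩, -⟩, hxs⟩, -⟩ := hx
    exact Or.inr ⟨t, ht, hxs.trans hst⟩
  have h := hconn ∅ (by simp; omega) (Or.inl rfl) u v (Finset.notMem_empty u)
    (Finset.notMem_empty v) (by simpa using cx u hu) (by simpa using cx v hv)
  clear hv hu
  induction h with
  | refl => exact Relation.ReflTransGen.refl
  | @tail a b _ hab ih =>
    rcases eq_or_ne a b with rfl | hne
    · exact ih
    refine ih.tail ?_
    have hab' : ({a, b} : Finset ℕ) ∈ cxOf T := by
      have h' := hab.2.2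
      simp only [insert_empty_eq] at h'
      rw [natDec_eq] at h'
      exact h'
    rcases hab' with e | ⟨t, ht, hsub⟩
    · exact absurd e (Finset.insert_ne_empty a _)
    · have hc : ({a, b} : Finset ℕ).card = 2 := Finset.card_pair hne
      obtain ⟨s, hs1, hs2, hs3⟩ := Finset.exists_subsuperset_card_eq hsub
        (by omega : ({a, b} : Finset ℕ).card ≤ d + 1) (by rw [hTn t ht]; omega)
      simp only [faces, facesOfSize, Finset.mem_filter, Finset.mem_biUnion, Finset.mem_powerset]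
      exact ⟨⟨s, ⟨⟨t, ht, hs2⟩, hs3⟩, hs1⟩, hc⟩

omit [Fact p.Prime] in
/-- Everything put together. -/
theorem q1_of_modules (hLG : LocalToGlobal) (hExp : ExpOfContraction) (hCon : GPContraction)
    (hStr : GPStructure) (hCorr : GPCorr) (hAcy : ThinAcyclic) (hLink : ThinLink)
    (hTr : GACTransfer) (hVan : VanishAll)
    (hConn : ∀ (p N : ℕ) [Fact p.Prime], Geo p N →
      (∀ (F : Sub p N) c, IsPChain (GP F) c → c.card + 3 ≤ N → ∀ W W',
        {W} ∈ chainLk (GP F) c → {W'} ∈ chainLk (GP F) c →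
        Relation.ReflTransGen (fun a b => {a, b} ∈ chainLk (GP F) c) W W') →
      ∀ m, 6 ≤ m → AcycAt (Xinf p N) 1 → LinksConn (facetsT p N m) N)
    (hCorrT : ∀ (p N : ℕ) [Fact p.Prime] (hG : Geo p N) (lam : ℝ), 3 ≤ N →
      (∀ (F : Sub p N) c, IsPChain (GP F) c → c.card + 3 = N →
        ∀ (a b : ℕ), a ≠ b → 0 < a → 0 < b → a < N → b < N →
        (∀ W ∈ c, Module.finrank (ZMod p) W ≠ a ∧ Module.finrank (ZMod p) W ≠ b) →
        ∀ (E : Finset (Sub p N × Sub p N)),
          (∀ W W', (W, W') ∈ E ↔ ({W, W'} ∈ chainLk (GP F) c ∧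
            Module.finrank (ZMod p) W = a ∧ Module.finrank (ZMod p) W' = b)) →
          ∀ f g : Sub p N → ℝ,
            (E.card : ℝ) * (∑ e ∈ E, f e.1 * g e.2) - (∑ e ∈ E, f e.1) * (∑ e ∈ E, g e.2) ≤
              lam * Real.sqrt
                (((E.card : ℝ) * (∑ e ∈ E, f e.1 ^ 2) - (∑ e ∈ E, f e.1) ^ 2) *
                 ((E.card : ℝ) * (∑ e ∈ E, g e.2 ^ 2) - (∑ e ∈ E, g e.2) ^ 2))) →
      ∀ m, 6 ≤ m → CorrBase (facetsT p N m) (colT hG m) lam)
    (d : ℕ) (hd : 1 ≤ d) :
    ∃ (D : ℕ) (ε : ℝ) (X : ℕ → Finset (Finset ℕ)), 0 < ε ∧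
      Filter.Tendsto (fun m => (faces (X m) 0).card) Filter.atTop Filter.atTop ∧
      ∀ m, (∀ t ∈ X m, t.card = d + 1) ∧ (∀ v, ((X m).filter (fun t => v ∈ t)).card ≤ D) ∧
        IsConnectedCx (X m) ∧ IsCobExpander (X m) d ε := by
  obtain ⟨N, hN⟩ : ∃ N, N = d * (d + 2) + 3 * d + 8 := ⟨_, rfl⟩
  choose Bc hBc using hCon
  let M := ∑ n ∈ Finset.range (d + 1), Bc n
  let β : ℝ := 1 / ((M : ℝ) * 2 ^ N + 1)
  have hβ : 0 < β := by positivity
  obtain ⟨lam, hlam, hlg⟩ := hLG N d β hd (by omega) hβ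
  obtain ⟨Bs, hBs⟩ := hStr
  obtain ⟨Bo, hBo⟩ := hCorr lam hlam
  obtain ⟨Ba, hBa⟩ := hAcy d
  obtain ⟨Bv, hBv⟩ := hVan d
  obtain ⟨B1, hB1⟩ := vanish_one hLink ⟨Bs, hBs⟩ hAcy hTr d
  obtain ⟨p, hpB, hp⟩ := Nat.exists_infinite_primes (M + Bs + Bo + Ba + Bv + B1 + 3)
  haveI : Fact p.Prime := ⟨hp⟩
  have hpc : ∀ n, n ≤ d → Bc n < p := fun n hn => by
    have : Bc n ≤ M := Finset.single_le_sum (f := Bc) (fun _ _ => Nat.zero_le _)
      (Finset.mem_range.2 (by omega))
    omega
  have hS := fun F c hc => hBs p N hp (by omega) (by omega) F c hc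
  have hG : Geo p N := ⟨by omega, hLink, fun F c hc => (hS F c hc).1⟩
  obtain ⟨ε, hε, hexp⟩ := hlg (2 ^ Nat.card (Sub p N))
  let T : ℕ → Finset (Finset ℕ) := fun m => facetsT p N (m + 8)
  refine ⟨2 ^ Nat.card (Sub p N) * 2 ^ N, ε, fun m => facesOfSize (T m) (d + 1), hε, ?_, fun m => ?_⟩
  · refine Filter.tendsto_atTop_mono (fun m => ?_) Filter.tendsto_id
    have hcard : ∀ t ∈ T m, t.card = N := fun t ht =>
      (isChambers_facetsT hG (by omega) t ht).1
    obtain ⟨S, hS1, hS2⟩ := vertices_grow hG (m := m + 8) (by omega)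
    have hsub : S.image (fun x => ({x} : Finset ℕ)) ⊆ faces (facesOfSize (T m) (d + 1)) 0 := by
      intro s hs
      obtain ⟨x, hx, rfl⟩ := Finset.mem_image.1 hs
      exact (skeleton_props (D₀ := 2 ^ Nat.card (Sub p N)) hcard
        (fun v => degree_facetsT hG (by omega) v) (by omega)).2.2 x (hS2 x hx)
    have := Finset.card_le_card hsub
    rw [Finset.card_image_of_injective _ Finset.singleton_injective] at this
    show m ≤ _
    refine le_trans (le_trans (by omega : m ≤ S.card) this) (le_of_eq ?_)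
    rfl
  · have hm : 6 ≤ m + 8 := by omega
    have hT := isChambers_facetsT hG hm
    have hacy1 : AcycAt (Xinf p N) 1 := hBa p N hp (by omega) (by omega) 1 (by omega)
    have hconn : LinksConn (T m) N :=
      hConn p N hG (fun F c hc h3 => (hS F c hc).2.2 h3) (m + 8) hm hacy1
    have hlink : LinkExp (T m) d β := by
      refine linkExp_facetsT hG hExp hm d M (by omega) (by omega)
        (fun F c hc => (hS F c hc).2.1) (fun n hn F c hc hgap => ?_)
      obtain ⟨h, hh⟩ := hBc n p N hp (hpc n hn) F c hc hgap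
      refine ⟨h, fun s hs hsn => ?_⟩
      obtain ⟨h1, h2, h3⟩ := hh s hs hsn
      exact ⟨h1, le_trans h2 (Finset.single_le_sum (f := Bc) (fun _ _ => Nat.zero_le _)
        (Finset.mem_range.2 (by omega))), h3⟩
    have hcorr : CorrBase (T m) (colT hG (m + 8)) lam :=
      hCorrT p N hG lam (by omega) (fun F c hc h3 => hBo p N (by omega) F c hc h3) (m + 8) hm
    have hacyc : ∀ n, 1 ≤ n → n ≤ d → AcycAt (cxOf (T m)) n := by
      intro n hn1 hn2
      refine acycAt_facetsT hG hm hn1 (hBa p N hp (by omega) (by omega) n (by omega)) (fun h2 => ?_)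
      have hv := hBv p hp (by omega) (fun M' hM' n' ha hb => hB1 p hp (by omega) M' hM' n' ha hb)
        N (by omega) (m + 8) (by omega) n h2 (by omega)
      have hle : Gam p N (m + 8) ≤ Gam p N 1 := gam_antitone (by omega)
      refine hTr (SLP p N) (Gam p N (m + 8)) (SLP p N) (Nrm p N) Set.univ (Xinf p N) n hn1
        isCx_univ isCx_xinf (fun _ _ _ _ => trivial) (invCx_xinf _)
        (oddStab_free (by omega) _ hle) (oddStab_xinf (by omega) (by omega) _ hle)
        (fun j _ => ?_) (fun j hj => hBa p N hp (by omega) (by omega) j (by omega)) hv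
      intro z hz hbz
      obtain ⟨a, b, -⟩ := cone_fill (K := (Set.univ : Set (Finset (SLP p N)))) (1 : SLP p N) hbz
        (fun s hs => ((mem_chainsOf_iff.1 hz) s hs).2) (fun _ _ _ => trivial)
      exact ⟨_, a, b⟩
    have hD := fun v => degree_facetsT hG hm v
    have hcard : ∀ t ∈ T m, t.card = N := fun t ht => (hT t ht).1
    obtain ⟨hs1, hs2, -⟩ := skeleton_props (d := d) hcard hD (by omega)
    refine ⟨hs1, ?_, skeleton_connected hcard hd (by omega) hconn, ?_⟩
    · intro v
      exact hs2 v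
    · have := hexp ℕ (T m) (colT hG (m + 8)) hT hD hlink hconn hcorr hacyc
      rw [natDec_eq] at this
      exact this

end Vale.Agent.P067
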