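import Mathlib
import Vale.Agent.P067.SubspaceDefs

/-!
Chains of subspaces, gaps, and vectors avoiding finitely many proper subspaces.
-/

namespace Vale.Agent.P067

open Classical

variable {p N : ℕ}

/-- A vertex of the link of the chain `c` in `P`. -/
def IsVtx (P : Set (Sub p N)) (c : Finset (Sub p N)) (W : Sub p N) : Prop :=
  W ∈ P ∧ W ∉ c ∧ ∀ w ∈ c, W ≤ w ∨ w ≤ W

theorem chain_cases {s : Set (Sub p N)} (h : IsChain (· ≤ ·) s) {a b : Sub p N} (ha : a ∈ s)
    (hb : b ∈ s) : a ≤ b ∨ b ≤ a := by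
  by_cases e : a = b
  · exact Or.inl e.le
  · exact h ha hb e

theorem mem_chainLk {P : Set (Sub p N)} {c s : Finset (Sub p N)} (hc : IsPChain P c) :
    s ∈ chainLk P c ↔ (∀ W ∈ s, IsVtx P c W) ∧ ∀ a ∈ s, ∀ b ∈ s, a ≤ b ∨ b ≤ a := by
  constructor
  · rintro ⟨h1, h2⟩
    have hm : ∀ W ∈ s, W ∈ ((s ∪ c : Finset (Sub p N)) : Set (Sub p N)) := fun W hW =>
      Finset.mem_coe.2 (Finset.mem_union_left _ hW)
    exact ⟨fun W hW => ⟨(h1 W hW).1, (h1 W hW).2, fun w hw =>
      chain_cases h2 (hm W hW) (Finset.mem_coe.2 (Finset.mem_union_right _ hw))⟩,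
      fun a ha b hb => chain_cases h2 (hm a ha) (hm b hb)⟩
  · rintro ⟨h1, h2⟩
    refine ⟨fun W hW => ⟨(h1 W hW).1, (h1 W hW).2.1⟩, ?_⟩
    intro a ha b hb hne
    simp only [Finset.coe_union, Set.mem_union, Finset.mem_coe] at ha hb
    rcases ha with ha | ha <;> rcases hb with hb | hb
    · exact h2 a ha b hb
    · exact (h1 a ha).2.2 b hb
    · exact ((h1 b hb).2.2 a ha).symm
    · exact chain_cases hc.2 ha hb

theorem chainLk_downward {P : Set (Sub p N)} {c : Finset (Sub p N)} (hc : IsPChain P c) :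
    ∀ s ∈ chainLk P c, ∀ t ⊆ s, t ∈ chainLk P c := by
  intro s hs t hts
  rw [mem_chainLk hc] at hs ⊢
  exact ⟨fun W hW => hs.1 W (hts hW), fun a ha b hb => hs.2 a (hts ha) b (hts hb)⟩

theorem empty_mem_chainLk {P : Set (Sub p N)} {c : Finset (Sub p N)} (hc : IsPChain P c) :
    ∅ ∈ chainLk P c := (mem_chainLk hc).2 ⟨by simp, by simp⟩

theorem singleton_mem_chainLk {P : Set (Sub p N)} {c : Finset (Sub p N)} (hc : IsPChain P c)
    {W : Sub p N} : {W} ∈ chainLk P c ↔ IsVtx P c W := by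
  simp [mem_chainLk hc]

theorem pair_mem_chainLk {P : Set (Sub p N)} {c : Finset (Sub p N)} (hc : IsPChain P c)
    {W W' : Sub p N} :
    {W, W'} ∈ chainLk P c ↔ IsVtx P c W ∧ IsVtx P c W' ∧ (W ≤ W' ∨ W' ≤ W) := by
  rw [mem_chainLk hc]
  constructor
  · rintro ⟨h1, h2⟩
    exact ⟨h1 W (by simp), h1 W' (by simp), h2 W (by simp) W' (by simp)⟩
  · rintro ⟨h1, h2, h3⟩
    simp [h1, h2, h3, Or.symm h3]

theorem IsVtx.isPChain_insert {P : Set (Sub p N)} {c : Finset (Sub p N)} {W : Sub p N}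
    (hc : IsPChain P c) (hW : IsVtx P c W) : IsPChain P (insert W c) := by
  refine ⟨fun w hw => ?_, ?_⟩
  · rcases Finset.mem_insert.1 hw with rfl | h
    · exact hW.1
    · exact hc.1 w h
  · intro a ha b hb hne
    simp only [Finset.coe_insert, Set.mem_insert_iff, Finset.mem_coe] at ha hb
    rcases ha with rfl | ha <;> rcases hb with rfl | hb
    · exact absurd rfl hne
    · exact hW.2.2 b hb
    · exact (hW.2.2 a ha).symm
    · exact hc.2 ha hb hne

/-- The link of a vertex in the link of a chain. -/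
theorem lkV_chainLk {P : Set (Sub p N)} {c : Finset (Sub p N)} {W : Sub p N} (hc : IsPChain P c)
    (hW : IsVtx P c W) : lkV (chainLk P c) W = chainLk P (insert W c) := by
  ext s
  simp only [lkV, Set.mem_ofPred_eq, mem_chainLk hc, mem_chainLk (hW.isPChain_insert hc)]
  constructor
  · rintro ⟨hn, h1, h2⟩
    refine ⟨fun a ha => ?_, fun a ha b hb => h2 a (by simp [ha]) b (by simp [hb])⟩
    have hav := h1 a (by simp [ha])
    refine ⟨hav.1, ?_, fun w hw => ?_⟩
    · rw [Finset.mem_insert, not_or]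
      exact ⟨fun e => hn (e ▸ ha), hav.2.1⟩
    · rcases Finset.mem_insert.1 hw with rfl | h
      · exact h2 a (by simp [ha]) _ (by simp)
      · exact hav.2.2 w h
  · rintro ⟨h1, h2⟩
    refine ⟨fun h => (h1 W h).2.1 (Finset.mem_insert_self _ _), fun a ha => ?_, ?_⟩
    · rcases Finset.mem_insert.1 ha with rfl | h
      · exact hW
      · exact ⟨(h1 a h).1, fun e => (h1 a h).2.1 (Finset.mem_insert_of_mem e),
          fun w hw => (h1 a h).2.2 w (Finset.mem_insert_of_mem hw)⟩
    · intro a ha b hb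
      rcases Finset.mem_insert.1 ha with ea | ha <;> rcases Finset.mem_insert.1 hb with eb | hb
      · exact Or.inl (ea.trans eb.symm).le
      · rw [ea]; exact ((h1 b hb).2.2 _ (Finset.mem_insert_self _ _)).symm
      · rw [eb]; exact (h1 a ha).2.2 _ (Finset.mem_insert_self _ _)
      · exact h2 a ha b hb

theorem IsGap.mono {c : Finset (Sub p N)} {U x : Sub p N} {e e' : ℕ} (h : IsGap c U x e)
    (he : e' ≤ e) : IsGap c U x e' := by
  obtain ⟨h1, h2, h3, h4, h5⟩ := h
  exact ⟨h1, h2, h3, le_trans (by omega) h4, h5⟩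

/-- A member of the open gap is outside `c` and comparable with all of `c`. -/
theorem IsGap.isVtx {P : Set (Sub p N)} {c : Finset (Sub p N)} {U x : Sub p N} {e : ℕ}
    (hg : IsGap c U x e) {W : Sub p N} (hW : W ∈ P) (hU : U < W) (hx : W < x) : IsVtx P c W := by
  refine ⟨hW, fun h => ?_, fun w hw => ?_⟩
  · rcases hg.2.2.2.2 W h with h' | h'
    · exact not_le_of_gt hU h'
    · exact not_le_of_gt hx h'
  · rcases hg.2.2.2.2 w hw with h' | h'
    · exact Or.inr (h'.trans hU.le)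
    · exact Or.inl (hx.le.trans h')

/-- A vertex of the link is below, above or strictly inside a gap. -/
theorem IsVtx.gap_cases {P : Set (Sub p N)} {c : Finset (Sub p N)} {U x W : Sub p N} {e : ℕ}
    (hW : IsVtx P c W) (hP : ∀ V ∈ P, V ≠ ⊥ ∧ V ≠ ⊤) (hg : IsGap c U x e) :
    W ≤ U ∨ x ≤ W ∨ (U < W ∧ W < x) := by
  have hUW : W ≤ U ∨ U < W := by
    rcases hg.1 with rfl | hU
    · exact Or.inr (bot_lt_iff_ne_bot.2 (hP W hW.1).1)
    · rcases hW.2.2 U hU with h | h
      · exact Or.inl h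
      · exact Or.inr (lt_of_le_of_ne h fun e => hW.2.1 (e ▸ hU))
  have hxW : x ≤ W ∨ W < x := by
    rcases hg.2.1 with rfl | hx
    · exact Or.inr (lt_top_iff_ne_top.2 (hP W hW.1).2)
    · rcases hW.2.2 x hx with h | h
      · exact Or.inr (lt_of_le_of_ne h fun e => hW.2.1 (e ▸ hx))
      · exact Or.inl h
  tauto

theorem IsGap.left_mem {P : Set (Sub p N)} {c : Finset (Sub p N)} {U x : Sub p N} {e : ℕ}
    (hc : IsPChain P c) (hg : IsGap c U x e) : U = ⊥ ∨ U ∈ P := hg.1.imp_right (hc.1 U)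

theorem IsGap.right_mem {P : Set (Sub p N)} {c : Finset (Sub p N)} {U x : Sub p N} {e : ℕ}
    (hc : IsPChain P c) (hg : IsGap c U x e) : x = ⊤ ∨ x ∈ P := hg.2.1.imp_right (hc.1 x)

section Field

variable [Fact p.Prime]

/-- Fewer than `p` subspaces, none containing `x`, leave a vector of `x` uncovered. -/
theorem exists_avoid (x : Sub p N) (S : Finset (Sub p N)) (hS : ∀ T ∈ S, ¬ x ≤ T)
    (hp : S.card < p) : ∃ v ∈ x, ∀ T ∈ S, v ∉ T := by
  have h := Submodule.iUnion_ssubset_of_forall_ne_top_of_card_lt (K := ZMod p)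
    (Finset.univ : Finset {T // T ∈ S}) (fun T => Submodule.comap x.subtype T.1)
    (fun T h => hS T.1 T.2 ?_) ?_
  · obtain ⟨v, -, hv⟩ := Set.exists_of_ssubset h
    refine ⟨v.1, v.2, fun T hT hvT => hv ?_⟩
    exact Set.mem_iUnion₂.2 ⟨⟨T, hT⟩, Finset.mem_univ _, hvT⟩
  · intro v hv
    have : (⟨v, hv⟩ : x) ∈ Submodule.comap x.subtype T.1 := h ▸ Submodule.mem_top
    exact this
  · rw [ENat.card_eq_coe_fintype_card, ZMod.card, Finset.card_univ, Fintype.card_coe]
    exact_mod_cast hp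

theorem finrank_sup_span_le (W : Sub p N) (v : Fin N → ZMod p) :
    Module.finrank (ZMod p) (W ⊔ Submodule.span (ZMod p) {v} : Sub p N) ≤
      Module.finrank (ZMod p) W + 1 := by
  have h := Submodule.finrank_sup_add_finrank_inf_eq W (Submodule.span (ZMod p) {v})
  have h2 := finrank_span_le_card (R := ZMod p) ({v} : Set (Fin N → ZMod p))
  simp only [Set.toFinset_singleton, Finset.card_singleton] at h2
  omega

theorem finrank_sup_span {W : Sub p N} {v : Fin N → ZMod p} (hv : v ∉ W) :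
    Module.finrank (ZMod p) (W ⊔ Submodule.span (ZMod p) {v} : Sub p N) =
      Module.finrank (ZMod p) W + 1 := by
  refine le_antisymm (finrank_sup_span_le W v) ?_
  have : W < W ⊔ Submodule.span (ZMod p) {v} := lt_of_le_of_ne le_sup_left fun e =>
    hv (e ▸ Submodule.mem_sup_right (Submodule.mem_span_singleton_self v))
  exact Submodule.finrank_lt_finrank_of_lt this

theorem sup_span_lt {W x : Sub p N} {v : Fin N → ZMod p} (hW : W ≤ x) (hv : v ∈ x)
    (hd : Module.finrank (ZMod p) W + 2 ≤ Module.finrank (ZMod p) x) :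
    W ⊔ Submodule.span (ZMod p) {v} < x := by
  refine lt_of_le_of_ne (sup_le hW ((Submodule.span_singleton_le_iff_mem v x).2 hv)) fun e => ?_
  have := finrank_sup_span_le W v
  rw [e] at this
  omega

end Field

end Vale.Agent.P067
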