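import Mathlib
import Vale.Agent.P067.Interface
import Vale.Agent.P067.ChainLemmas
import Vale.Agent.P067.SubspaceBase

/-!
Bounded filling in chain links of generic posets of subspaces.
-/

namespace Vale.Agent.P067

open Classical

variable {p N : ℕ}

/-- Second half of the filling: a cycle none of whose gap vertices is a hyperplane of `x`. -/
theorem fill_low [Fact p.Prime] {P : Set (Sub p N)} (hP : GenericAxiom P)
    {c : Finset (Sub p N)} (hc : IsPChain P c) {U x : Sub p N} {e : ℕ}
    (hg : IsGap c U x (e + 2)) {n : ℕ} {z : Chain (Sub p N)}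
    (hz : z ∈ chainsOf (chainLk P c) (n + 1)) (hz0 : bd z = 0)
    (hlow : ∀ W ∈ vertsOf z, U < W → W < x →
      Module.finrank (ZMod p) W + 2 ≤ Module.finrank (ZMod p) x)
    (hp : 2 * (vertsOf z).card + 3 < p) :
    ∃ b ∈ chainsOf (chainLk P c) (n + 2), bd b = z ∧
      (vertsOf b).card ≤ 2 * (vertsOf z).card + 1 := by
  have hUd : Module.finrank (ZMod p) U + 2 ≤ Module.finrank (ZMod p) x :=
    le_trans (by omega) hg.2.2.2.1
  have hUx : ¬ x ≤ U := fun h => by
    have := Submodule.finrank_mono h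
    omega
  set S := (vertsOf z).filter (fun W => U < W ∧ W < x) with hS
  have hSP : ∀ W ∈ vertsOf z, IsVtx P c W := by
    intro W hW
    obtain ⟨s, hs, hWs⟩ := mem_vertsOf.1 hW
    exact ((mem_chainLk hc).1 (mem_chainsOf_iff.1 hz s hs).1).1 W hWs
  have hax : ∀ W ∈ insert U S, ∃ B₁ B₂ : Sub p N, B₁ < x ∧ B₂ < x ∧
      ∀ v ∈ x, v ∉ B₁ → v ∉ B₂ → W ⊔ Submodule.span (ZMod p) {v} ∈ P := by
    intro W hW
    rcases Finset.mem_insert.1 hW with rfl | hW
    · exact hP.2 W W x (hg.left_mem hc) (hg.right_mem hc) le_rfl hg.2.2.1 (Or.inl rfl) hUd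
    · obtain ⟨hWz, hUW, hWx⟩ := Finset.mem_filter.1 hW
      exact hP.2 U W x (hg.left_mem hc) (hg.right_mem hc) hUW.le hWx.le
        (Or.inr (hSP W hWz).1) (hlow W hWz hUW hWx)
  choose! B₁ B₂ hB₁ hB₂ hB using hax
  obtain ⟨v, hvx, hv⟩ := exists_avoid x (insert U ((insert U S).image B₁ ∪ (insert U S).image B₂))
    (by
      intro T hT
      rcases Finset.mem_insert.1 hT with rfl | hT
      · exact hUx
      rcases Finset.mem_union.1 hT with hT | hT <;>
        obtain ⟨W, hW, rfl⟩ := Finset.mem_image.1 hT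
      · exact not_le_of_gt (hB₁ W hW)
      · exact not_le_of_gt (hB₂ W hW))
    (by
      have h1 : S.card ≤ (vertsOf z).card := Finset.card_filter_le _ _
      refine lt_of_le_of_lt (Finset.card_insert_le _ _) (lt_of_le_of_lt ?_ hp)
      have := Finset.card_insert_le U S
      have := Finset.card_union_le ((insert U S).image B₁) ((insert U S).image B₂)
      have := Finset.card_image_le (s := insert U S) (f := B₁)
      have := Finset.card_image_le (s := insert U S) (f := B₂)
      omega)
  have hvU : v ∉ U := hv U (Finset.mem_insert_self _ _)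
  let φ : Sub p N → Sub p N := fun W => W ⊔ Submodule.span (ZMod p) {v}
  have hvφ : ∀ W, v ∈ φ W := fun W =>
    Submodule.mem_sup_right (Submodule.mem_span_singleton_self v)
  have hφP : ∀ W ∈ insert U S, φ W ∈ P := fun W hW => hB W hW v hvx
    (hv _ (Finset.mem_insert_of_mem (Finset.mem_union_left _ (Finset.mem_image_of_mem _ hW))))
    (hv _ (Finset.mem_insert_of_mem (Finset.mem_union_right _ (Finset.mem_image_of_mem _ hW))))
  have hUφ : ∀ W, U ≤ W → U < φ W := fun W hW =>
    lt_of_le_of_ne (hW.trans le_sup_left) fun e => hvU (e ▸ hvφ W)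
  have hu : IsVtx P c (φ U) := hg.isVtx (hφP U (Finset.mem_insert_self _ _)) (hUφ U le_rfl)
    (sup_span_lt hg.2.2.1 hvx hUd)
  set A := insert (φ U) (vertsOf z ∪ S.image φ) with hA
  have hAv : ∀ W ∈ A, U < W → W < x → v ∈ W ∨ W ∈ S := by
    intro W hW h1 h2
    rcases Finset.mem_insert.1 hW with rfl | hW
    · exact Or.inl (hvφ U)
    rcases Finset.mem_union.1 hW with hW | hW
    · exact Or.inr (Finset.mem_filter.2 ⟨hW, h1, h2⟩)
    · obtain ⟨W', -, rfl⟩ := Finset.mem_image.1 hW
      exact Or.inl (hvφ W')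
  suffices main : ∀ k, ∀ y ∈ chainsOf (chainLk P c) (n + 1), bd y = 0 → vertsOf y ⊆ A →
      ((vertsOf y).filter fun W => U < W ∧ W < x ∧ v ∉ W).card = k →
      ∃ b ∈ chainsOf (chainLk P c) (n + 2), bd b = y ∧ vertsOf b ⊆ A by
    obtain ⟨b, h1, h2, h3⟩ := main _ z hz hz0
      (Finset.subset_union_left.trans (Finset.subset_insert _ _)) rfl
    refine ⟨b, h1, h2, (Finset.card_le_card h3).trans ?_⟩
    have h4 : S.card ≤ (vertsOf z).card := Finset.card_filter_le _ _
    have := Finset.card_insert_le (φ U) (vertsOf z ∪ S.image φ)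
    have := Finset.card_union_le (vertsOf z) (S.image φ)
    have := Finset.card_image_le (s := S) (f := φ)
    rw [hA]
    omega
  intro k
  induction k using Nat.strong_induction_on with
  | _ k IH =>
    intro y hy hy0 hyA hyk
    set T := (vertsOf y).filter fun W => U < W ∧ W < x ∧ v ∉ W with hT
    have hyV : ∀ s ∈ y.support, ∀ a ∈ s, IsVtx P c a := fun s hs =>
      ((mem_chainLk hc).1 (mem_chainsOf_iff.1 hy s hs).1).1
    rcases T.eq_empty_or_nonempty with he | hne
    · refine ⟨cone (φ U) y, ?_⟩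
      obtain ⟨h1, h2, h3⟩ := cone_fill (K := chainLk P c) (n := n + 1) (φ U) hy0
        (fun s hs => (mem_chainsOf_iff.1 hy s hs).2) (fun s hs _ => by
          have hsK := (mem_chainLk hc).1 (mem_chainsOf_iff.1 hy s hs).1
          have key : ∀ a ∈ s, φ U ≤ a ∨ a ≤ φ U := by
            intro a ha
            rcases (hsK.1 a ha).gap_cases hP.1 hg with h | h | ⟨h1, h2⟩
            · exact Or.inr (h.trans le_sup_left)
            · exact Or.inl ((sup_le hg.2.2.1 ((Submodule.span_singleton_le_iff_mem v x).2 hvx)).trans h)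
            · refine Or.inl (sup_le h1.le ((Submodule.span_singleton_le_iff_mem v a).2 ?_))
              by_contra hva
              have : a ∈ T := Finset.mem_filter.2 ⟨subset_vertsOf hs ha, h1, h2, hva⟩
              rw [he] at this
              exact absurd this (Finset.notMem_empty a)
          rw [mem_chainLk hc]
          refine ⟨fun a ha => ?_, fun a ha b hb => ?_⟩
          · rcases Finset.mem_insert.1 ha with rfl | ha
            · exact hu
            · exact hsK.1 a ha
          · rcases Finset.mem_insert.1 ha with rfl | ha <;>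
              rcases Finset.mem_insert.1 hb with rfl | hb
            · exact Or.inl le_rfl
            · exact key b hb
            · exact (key a ha).symm
            · exact hsK.2 a ha b hb)
      exact ⟨h1, h2, h3.trans (Finset.insert_subset (Finset.mem_insert_self _ _) hyA)⟩
    obtain ⟨W, hWT, hmax⟩ := T.exists_max_image (fun W => Module.finrank (ZMod p) W) hne
    obtain ⟨hWy, hUW, hWx, hvW⟩ := Finset.mem_filter.1 hWT
    have hWS : W ∈ S := (hAv W (hyA hWy) hUW hWx).resolve_left hvW
    have hWv : IsVtx P c W := hg.isVtx (hSP W (Finset.mem_filter.1 hWS).1).1 hUW hWx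
    have hφW : IsVtx P c (φ W) := hg.isVtx (hφP W (Finset.mem_insert_of_mem hWS))
      (hUφ W hUW.le) (sup_span_lt hWx.le hvx (hlow W (Finset.mem_filter.1 hWS).1 hUW hWx))
    have hWφ : W ≤ φ W := le_sup_left
    have hlk := lkPart_mem hy W
    obtain ⟨h1, h2, h3⟩ := cone_fill (K := lkV (chainLk P c) W) (n := n) (φ W)
      (z := lkPart W y) (by rw [bd_lkPart, hy0, map_zero])
      (fun s hs => (mem_chainsOf_iff.1 hlk s hs).2) (fun s hs _ => by
        obtain ⟨hns, hins⟩ := lkPart_support hs
        have hsK := (mem_chainLk hc).1 (mem_chainsOf_iff.1 hy _ hins).1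
        have key : ∀ a ∈ insert W s, φ W ≤ a ∨ a ≤ φ W := by
          intro a ha
          rcases (hsK.1 a ha).gap_cases hP.1 hg with h | h | ⟨g1, g2⟩
          · exact Or.inr (h.trans (hUφ W hUW.le).le)
          · exact Or.inl ((sup_le hWx.le ((Submodule.span_singleton_le_iff_mem v x).2 hvx)).trans h)
          rcases hsK.2 a ha W (Finset.mem_insert_self _ _) with h | h
          · exact Or.inr (h.trans hWφ)
          rcases h.eq_or_lt with h' | h'
          · exact Or.inr (h' ▸ hWφ)
          · refine Or.inl (sup_le h ((Submodule.span_singleton_le_iff_mem v a).2 ?_))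
            by_contra hva
            have := hmax a (Finset.mem_filter.2 ⟨subset_vertsOf hins ha, g1, g2, hva⟩)
            have := Submodule.finrank_lt_finrank_of_lt h'
            omega
        refine ⟨?_, ?_⟩
        · rw [Finset.mem_insert, not_or]
          exact ⟨fun e => hvW (e.symm ▸ hvφ W), hns⟩
        rw [Finset.insert_comm, mem_chainLk hc]
        refine ⟨fun a ha => ?_, fun a ha b hb => ?_⟩
        · rcases Finset.mem_insert.1 ha with rfl | ha
          · exact hφW
          · exact hsK.1 a ha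
        · rcases Finset.mem_insert.1 ha with rfl | ha <;>
            rcases Finset.mem_insert.1 hb with rfl | hb
          · exact Or.inl le_rfl
          · exact key b hb
          · exact (key a ha).symm
          · exact hsK.2 a ha b hb)
    have hb₀A : vertsOf (cone (φ W) (lkPart W y)) ⊆ insert (φ W) (vertsOf y) :=
      h3.trans (Finset.insert_subset_insert _ (vertsOf_lkPart W y))
    have hφA : φ W ∈ A :=
      Finset.mem_insert_of_mem (Finset.mem_union_right _ (Finset.mem_image_of_mem _ hWS))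
    obtain ⟨b, hb1, hb2, hb3, hb4, hb5⟩ :=
      remove_one (chainLk_downward hc) hy hy0 W h1 h2
    have hy'A : vertsOf (y + bd b) ⊆ (insert (φ W) (vertsOf y)).erase W := by
      refine hb5.trans (Finset.erase_subset_erase _ (Finset.union_subset ?_ hb₀A))
      exact Finset.subset_insert _ _
    have hlt : ((vertsOf (y + bd b)).filter fun W => U < W ∧ W < x ∧ v ∉ W).card < k := by
      rw [← hyk]
      refine lt_of_le_of_lt (Finset.card_le_card (t := T.erase W) ?_)
        (Finset.card_erase_lt_of_mem hWT)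
      intro a ha
      obtain ⟨ha1, ha2, ha3, ha4⟩ := Finset.mem_filter.1 ha
      obtain ⟨hne', ha5⟩ := Finset.mem_erase.1 (hy'A ha1)
      rcases Finset.mem_insert.1 ha5 with rfl | ha6
      · exact absurd (hvφ W) ha4
      · exact Finset.mem_erase.2 ⟨hne', Finset.mem_filter.2 ⟨ha6, ha2, ha3, ha4⟩⟩
    obtain ⟨b', hb'1, hb'2, hb'3⟩ := IH _ hlt _ hb3 hb2
      ((hy'A.trans (Finset.erase_subset _ _)).trans (Finset.insert_subset hφA hyA)) rfl
    refine ⟨b' + b, Submodule.add_mem _ hb'1 hb1, ?_, ?_⟩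
    · rw [map_add, hb'2, add_assoc, chain_add_self, add_zero]
    · refine (vertsOf_add _ _).trans (Finset.union_subset hb'3 (hb4.trans ?_))
      exact Finset.insert_subset (hyA hWy) (hb₀A.trans (Finset.insert_subset hφA hyA))

/-- The bound in `GenericFill`. -/
def fillBound : ℕ → ℕ → ℕ
  | 0, _ => 4
  | n + 1, M => 4 * (M + M * (fillBound n M + 1)) + 4 + fillBound n M

theorem fillAt_chainLk : ∀ n M : ℕ, ∀ (p N : ℕ), p.Prime → fillBound n M < p →
    ∀ (P : Set (Sub p N)), GenericAxiom P → ∀ c, IsPChain P c →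
      (∃ U x, IsGap c U x (n + 2)) → FillAt (chainLk P c) n M (fillBound n M) := by
  intro n
  induction n with
  | zero =>
    intro M p N hp hB P hP c hc ⟨U, x, hg⟩ z hz hz0 _
    have := Fact.mk hp
    obtain ⟨B₁, B₂, h1, h2, h3⟩ := hP.2 U U x (hg.left_mem hc) (hg.right_mem hc) le_rfl hg.2.2.1
      (Or.inl rfl) hg.2.2.2.1
    have hUx : ¬ x ≤ U := fun h => by
      have := Submodule.finrank_mono h
      have := hg.2.2.2.1
      omega
    obtain ⟨v, hvx, hv⟩ := exists_avoid x {U, B₁, B₂}
      (by simp [hUx, not_le_of_gt h1, not_le_of_gt h2])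
      (lt_of_le_of_lt Finset.card_le_three (lt_trans (by decide : 3 < 4) hB))
    have hvU : v ∉ U := hv U (by simp)
    have hu : IsVtx P c (U ⊔ Submodule.span (ZMod p) {v}) :=
      hg.isVtx (h3 v hvx (hv B₁ (by simp)) (hv B₂ (by simp)))
        (lt_of_le_of_ne le_sup_left fun e =>
          hvU (e ▸ Submodule.mem_sup_right (Submodule.mem_span_singleton_self v)))
        (sup_span_lt hg.2.2.1 hvx hg.2.2.2.1)
    obtain ⟨g1, g2, g3⟩ := cone_fill (K := chainLk P c) (n := 0)
      (U ⊔ Submodule.span (ZMod p) {v}) hz0 (fun s hs => (mem_chainsOf_iff.1 hz s hs).2)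
      (fun s hs _ => by
        rw [Finset.card_eq_zero.1 (mem_chainsOf_iff.1 hz s hs).2, insert_empty_eq]
        exact (singleton_mem_chainLk hc).2 hu)
    refine ⟨_, g1, g2, (Finset.card_le_card g3).trans ?_⟩
    have : vertsOf z = ∅ := Finset.subset_empty.1 (vertsOf_subset_iff.2 fun s hs => by
      rw [Finset.card_eq_zero.1 (mem_chainsOf_iff.1 hz s hs).2])
    simp [this, fillBound]
  | succ n IH =>
    intro M p N hp hB P hP c hc ⟨U, x, hg⟩ z hz hz0 hzM
    have := Fact.mk hp
    simp only [fillBound] at hB ⊢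
    set X := (vertsOf z).filter fun W => U < W ∧ W < x ∧
      Module.finrank (ZMod p) W + 1 = Module.finrank (ZMod p) x with hX
    have hXv : ∀ W ∈ X, IsVtx P c W := by
      intro W hW
      obtain ⟨s, hs, hWs⟩ := mem_vertsOf.1 (Finset.mem_filter.1 hW).1
      exact ((mem_chainLk hc).1 (mem_chainsOf_iff.1 hz s hs).1).1 W hWs
    have hbx : ∀ W ∈ X, ∃ b ∈ chainsOf (lkV (chainLk P c) W) (n + 1),
        bd b = lkPart W z ∧ (vertsOf b).card ≤ fillBound n M := by
      intro W hW
      obtain ⟨-, hUW, hWx, hWd⟩ := Finset.mem_filter.1 hW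
      have hl := lkPart_mem hz W
      rw [lkV_chainLk hc (hXv W hW)] at hl ⊢
      have hgap : IsGap (insert W c) U W (n + 2) := by
        refine ⟨hg.1.imp_right (Finset.mem_insert_of_mem), Or.inr (Finset.mem_insert_self _ _),
          hUW.le, ?_, fun w hw => ?_⟩
        · have := hg.2.2.2.1
          omega
        · rcases Finset.mem_insert.1 hw with rfl | hw
          · exact Or.inr le_rfl
          · exact (hg.2.2.2.2 w hw).imp_right fun h => hWx.le.trans h
      exact IH M p N hp (by omega) P hP _ ((hXv W hW).isPChain_insert hc) ⟨U, W, hgap⟩ _ hl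
        (by rw [bd_lkPart, hz0, map_zero])
        ((Finset.card_le_card (vertsOf_lkPart W z)).trans hzM)
    choose! bx hbx1 hbx2 hbx3 using hbx
    obtain ⟨b, hb1, hb2, hb3, hb4, hb5⟩ := remove_many (chainLk_downward hc) hz hz0 X
      (by
        intro a ha b hb hne hmem
        obtain ⟨-, -, -, hda⟩ := Finset.mem_filter.1 ha
        obtain ⟨-, -, -, hdb⟩ := Finset.mem_filter.1 hb
        rcases ((pair_mem_chainLk hc).1 hmem).2.2 with h | h
        · exact hne (Submodule.eq_of_le_of_finrank_eq h (by omega))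
        · exact hne (Submodule.eq_of_le_of_finrank_eq h (by omega)).symm)
      bx (fun W hW => ⟨hbx1 W hW, hbx2 W hW⟩)
    have hbM : (vertsOf b).card ≤ M * (fillBound n M + 1) := by
      refine (Finset.card_le_card hb4).trans (Finset.card_biUnion_le.trans
        ((Finset.sum_le_card_nsmul X _ (fillBound n M + 1) fun W hW => ?_).trans ?_))
      · exact (Finset.card_insert_le _ _).trans (Nat.add_le_add_right (hbx3 W hW) 1)
      · exact Nat.mul_le_mul_right _ ((Finset.card_filter_le _ _).trans hzM)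
    have hz' : (vertsOf (z + bd b)).card ≤ M + M * (fillBound n M + 1) :=
      (Finset.card_le_card ((vertsOf_add _ _).trans
        (Finset.union_subset_union subset_rfl (vertsOf_bd b)))).trans
        ((Finset.card_union_le _ _).trans (Nat.add_le_add hzM hbM))
    have hlow : ∀ W ∈ vertsOf (z + bd b), U < W → W < x →
        Module.finrank (ZMod p) W + 2 ≤ Module.finrank (ZMod p) x := by
      intro W hW hUW hWx
      have hlt := Submodule.finrank_lt_finrank_of_lt hWx
      by_contra hd
      have hWd : Module.finrank (ZMod p) W + 1 = Module.finrank (ZMod p) x := by omega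
      rcases Finset.mem_union.1 (vertsOf_add _ _ hW) with h | h
      · exact hb5 W (Finset.mem_filter.2 ⟨h, hUW, hWx, hWd⟩) hW
      obtain ⟨x₀, hx₀, h⟩ := Finset.mem_biUnion.1 (hb4 (vertsOf_bd b h))
      rcases Finset.mem_insert.1 h with rfl | h
      · exact hb5 W hx₀ hW
      obtain ⟨s, hs, hWs⟩ := mem_vertsOf.1 h
      have hsK := (mem_chainsOf_iff.1 (hbx1 x₀ hx₀) s hs).1
      rw [lkV_chainLk hc (hXv x₀ hx₀), mem_chainLk ((hXv x₀ hx₀).isPChain_insert hc)] at hsK
      obtain ⟨-, hn, hcmp⟩ := hsK.1 W hWs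
      have hd₀ := (Finset.mem_filter.1 hx₀).2.2.2
      apply hn
      rcases hcmp x₀ (Finset.mem_insert_self _ _) with h' | h'
      · rw [Submodule.eq_of_le_of_finrank_eq h' (by omega)]; exact Finset.mem_insert_self _ _
      · rw [← Submodule.eq_of_le_of_finrank_eq h' (by omega)]; exact Finset.mem_insert_self _ _
    obtain ⟨b', hb'1, hb'2, hb'3⟩ := fill_low hP hc (e := n + 1) hg hb3 hb2 hlow (by omega)
    refine ⟨b' + b, Submodule.add_mem _ hb'1 hb1, ?_, ?_⟩
    · rw [map_add, hb'2, add_assoc, chain_add_self, add_zero]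
    · have := (Finset.card_le_card (vertsOf_add b' b)).trans (Finset.card_union_le _ _)
      omega

theorem genericFill : GenericFill := fun n M =>
  ⟨fillBound n M, fun p N hp hB P hP c hc hgap => fillAt_chainLk n M p N hp hB P hP c hc hgap⟩

theorem genericAxiom_GP [Fact p.Prime] (F : Sub p N) : GenericAxiom (GP F) := by
  refine ⟨fun W hW => ⟨hW.1, hW.2.1⟩, fun U W x hU hx hUW hWx hW hd => ?_⟩
  have hWx' : W < x := lt_of_le_of_ne hWx fun e => by rw [e] at hd; omega
  have hgp : W ⊓ F = ⊥ ∨ W ⊔ F = ⊤ := by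
    rcases hW with rfl | hW
    · rcases hU with rfl | hU
      · exact Or.inl (bot_inf_eq F)
      · exact hU.2.2
    · exact hW.2.2
  have hne : ∀ v ∈ x, v ∉ W →
      W ⊔ Submodule.span (ZMod p) {v} ≠ ⊥ ∧ W ⊔ Submodule.span (ZMod p) {v} ≠ ⊤ :=
    fun v hv hvW => ⟨fun e => hvW (by
      have : v ∈ (⊥ : Sub p N) :=
        e ▸ Submodule.mem_sup_right (Submodule.mem_span_singleton_self v)
      rw [Submodule.mem_bot] at this
      rw [this]; exact W.zero_mem), (lt_of_lt_of_le (sup_span_lt hWx hv hd) le_top).ne⟩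
  by_cases htop : W ⊔ F = ⊤
  · refine ⟨W, W, hWx', hWx', fun v hv hvW _ => ?_⟩
    refine ⟨(hne v hv hvW).1, (hne v hv hvW).2, Or.inr (top_le_iff.1 ?_)⟩
    rw [← htop]
    exact sup_le_sup_right le_sup_left _
  have hbot := hgp.resolve_right htop
  by_cases hxle : x ≤ W ⊔ F
  · rcases hx with rfl | hx
    · exact absurd (top_le_iff.1 hxle) htop
    rcases hx.2.2 with h | h
    · refine ⟨W, W, hWx', hWx', fun v hv hvW _ =>
        ⟨(hne v hv hvW).1, (hne v hv hvW).2, Or.inl (le_bot_iff.1 ?_)⟩⟩
      rw [← h]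
      exact inf_le_inf_right _ (sup_le hWx ((Submodule.span_singleton_le_iff_mem v x).2 hv))
    · exact absurd (top_le_iff.1 (h ▸ sup_le hxle le_sup_right)) htop
  refine ⟨x ⊓ (W ⊔ F), W, lt_of_le_of_ne inf_le_left fun e => hxle (e ▸ inf_le_right), hWx',
    fun v hv hv1 hvW => ⟨(hne v hv hvW).1, (hne v hv hvW).2, Or.inl ?_⟩⟩
  have hvWF : v ∉ W ⊔ F := fun h => hv1 ⟨hv, h⟩
  rw [Submodule.eq_bot_iff]
  rintro y ⟨hy1, hy2⟩
  obtain ⟨w, hw, z, hz, rfl⟩ := Submodule.mem_sup.1 hy1
  obtain ⟨a, rfl⟩ := Submodule.mem_span_singleton.1 hz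
  by_cases ha : a = 0
  · subst ha
    rw [zero_smul, add_zero] at hy2 ⊢
    exact (Submodule.eq_bot_iff _).1 hbot w ⟨hw, hy2⟩
  · refine absurd ?_ hvWF
    have hav : a • v ∈ W ⊔ F := by
      have h : (w + a • v) - w ∈ W ⊔ F :=
        Submodule.sub_mem _ (Submodule.mem_sup_right hy2) (Submodule.mem_sup_left hw)
      simpa using h
    simpa [smul_smul, inv_mul_cancel₀ ha] using Submodule.smul_mem _ a⁻¹ hav

theorem gpContraction : GPContraction := by
  intro n
  obtain ⟨Mx, B, h⟩ := contraction_of_fillAt fillBound n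
  refine ⟨2 ^ B + ∑ m ∈ Finset.range (n + 1), fillBound m (Mx m),
    fun p N hp hB F c hc ⟨U, x, hg⟩ => ?_⟩
  have := Fact.mk hp
  obtain ⟨g, hgs⟩ := h _ (chainLk (GP F) c) (chainLk_downward hc) (fun m hm =>
    fillAt_chainLk m (Mx m) p N hp
      (lt_of_le_of_lt (le_trans (Finset.single_le_sum (f := fun m => fillBound m (Mx m))
        (fun i _ => Nat.zero_le _) (Finset.mem_range.2 (by omega))) (Nat.le_add_left _ _)) hB)
      _ (genericAxiom_GP F) c hc ⟨U, x, hg.mono (by omega)⟩)
  refine ⟨g, fun s hs hsn => ?_⟩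
  obtain ⟨h1, h2, h3⟩ := hgs s hs hsn
  exact ⟨h1, (card_support_le _).trans ((Nat.pow_le_pow_right (by decide) h2).trans
    (Nat.le_add_right _ _)), h3⟩

end Vale.Agent.P067
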