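import Vale.Agent.P067.BldDesc
import Vale.Agent.P067.ChainLemmas
import Vale.Agent.P067.Displace
import Vale.Agent.P067.Interface
import Vale.Agent.P067.SubspaceFill

/-!
M3, part 6: the building is acyclic, and so is its thin part.
-/

set_option linter.unusedSectionVars false

namespace Vale.Agent.P067

open Classical Polynomial

-- the chain library uses classical equality on vertices
attribute [-instance] Subtype.instDecidableEq

variable {p N : ℕ}

/-- A chosen reduced basis of a vertex. -/
noncomputable def vBasis [Fact p.Prime] (u : Nrm p N) :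
    Module.Basis (Fin N) (PR p) (PV p N) :=
  (exists_hasType (Nrm.pre u)).choose

/-- The exponents of the chosen reduced basis. -/
noncomputable def vExp [Fact p.Prime] (u : Nrm p N) : Fin N → ℤ :=
  (exists_hasType (Nrm.pre u)).choose_spec.choose

lemma vType [Fact p.Prime] (u : Nrm p N) : HasType u.1 (vBasis u) (vExp u) :=
  (exists_hasType (Nrm.pre u)).choose_spec.choose_spec

variable [Fact p.Prime]

/-- The exponents of a vertex up to a shift. -/
lemma vExp_congr (hN : 0 < N) {u : Nrm p N} {δ : PV p N → WithBot ℤ} {c : ℤ}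
    (hu : u.1 = sh c δ) (_hδ : IsPre δ) {f : Module.Basis (Fin N) (PR p) (PV p N)}
    {b : Fin N → ℤ} (hT : HasType δ f b) :
    bLo (vExp u) = bLo b - c ∧ bHi (vExp u) = bHi b - c ∧ heightB (vExp u) = heightB b ∧
      ∑ i, vExp u i = (∑ i, b i) - N * c := by
  have hT' : HasType u.1 f (fun i => b i - c) := hu ▸ hT.sh c
  have hg : ∀ l, geCnt (vExp u) (l + -c) = geCnt b l := fun l => by
    rw [geCnt_eq_of_hasType (Nrm.pre u) hT' (vType u), ← geCnt_shift b (-c) l]
    simp [sub_eq_add_neg]
  obtain ⟨e1, e2, e3⟩ := heightB_congr hN hg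
  refine ⟨by omega, by omega, e3, ?_⟩
  set L := bLo b - c with hL
  set M := bHi b - c with hM
  have h1 := sum_eq_of_geCnt (b := vExp u) (L := L) (M := M)
    (fun i => by have := bLo_le (vExp u) i; omega) (fun i => by have := le_bHi (vExp u) i; omega)
  have h2 := sum_eq_of_geCnt (b := fun i => b i - c) (L := L) (M := M)
    (fun i => by have := bLo_le b i; omega)
    (fun i => by have := le_bHi b i; omega)
  have h3 : ∀ l, geCnt (vExp u) l = geCnt (fun i => b i - c) l := fun l =>
    geCnt_eq_of_hasType (Nrm.pre u) hT' (vType u) l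
  rw [h1]
  simp only [h3]
  rw [← h2, Finset.sum_sub_distrib, Finset.sum_const, Finset.card_univ, Fintype.card_fin,
    nsmul_eq_mul]

lemma thin_iff (hN : 0 < N) (u : Nrm p N) : Thin u ↔ bHi (vExp u) - bLo (vExp u) ≤ 1 := by
  constructor
  · rintro ⟨f, b, hT, hb⟩
    obtain ⟨e1, e2, -⟩ := vExp_congr hN (sh_zero u.1).symm (Nrm.pre u) hT
    obtain ⟨i, hi⟩ := exists_bHi hN b
    obtain ⟨j, hj⟩ := exists_bLo hN b
    have := hb i j
    omega
  · intro h
    refine ⟨_, _, vType u, fun i j => ?_⟩
    have := bLo_le (vExp u) j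
    have := le_bHi (vExp u) i
    omega

/-- The neighbour of a vertex attached to a subspace. -/
noncomputable def nbrV (hN : 0 < N) (u : Nrm p N) (W : Sub p N) : Nrm p N :=
  nrmz hN (nbr_pre (Nrm.pre u) (vType u) W)

lemma nbrV_val (hN : 0 < N) (u : Nrm p N) (W : Sub p N) :
    ∃ c, (nbrV hN u W).1 = sh c (nbr (vBasis u) (vExp u) u.1 W) := nrmz_spec hN _

lemma eq_nbrV_of_adjP (hN : 0 < N) {u v : Nrm p N} (h : AdjP u.1 v.1) (hne : v ≠ u) :
    ∃ W : Sub p N, W ≠ ⊥ ∧ W ≠ ⊤ ∧ nbrV hN u W = v := by
  obtain ⟨W, h0, h1, t, ht⟩ := exists_nbr_of_adjP (Nrm.pre u) (vType u) (Nrm.pre v) h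
    (fun t he => hne (nrm_eq_of_sh he))
  refine ⟨W, h0, h1, ?_⟩
  obtain ⟨c, hc⟩ := nbrV_val hN u W
  rw [ht, sh_sh] at hc
  exact nrm_eq_of_sh hc

lemma nbrV_ne (hN : 0 < N) {u : Nrm p N} {W : Sub p N} (h0 : W ≠ ⊥) (h1 : W ≠ ⊤) :
    nbrV hN u W ≠ u := by
  intro h
  obtain ⟨c, hc⟩ := nbrV_val hN u W
  rw [h] at hc
  refine not_shift_nbr (Nrm.pre u) (vType u) h0 h1 (-c) ?_
  conv_rhs => rw [hc, sh_sh, add_neg_cancel, sh_zero]

lemma adjP_nbrV (hN : 0 < N) (u : Nrm p N) (W : Sub p N) : AdjP u.1 (nbrV hN u W).1 := by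
  obtain ⟨c, hc⟩ := nbrV_val hN u W
  rw [hc, adjP_shift_right_iff]
  exact adjP_nbr (Nrm.pre u) (vType u) W

lemma nbrV_adj_iff (hN : 0 < N) {u : Nrm p N} {W W' : Sub p N} :
    AdjP (nbrV hN u W).1 (nbrV hN u W').1 ↔ W ≤ W' ∨ W' ≤ W := by
  obtain ⟨c, hc⟩ := nbrV_val hN u W
  obtain ⟨c', hc'⟩ := nbrV_val hN u W'
  rw [hc, hc', adjP_shift_left_iff, adjP_shift_right_iff]
  exact adjP_nbr_nbr_iff (Nrm.pre u) (vType u)

lemma nbrV_inj (hN : 0 < N) {u : Nrm p N} {W W' : Sub p N} (h0 : W ≠ ⊥) (h1 : W ≠ ⊤)
    (h : nbrV hN u W' = nbrV hN u W) : W' = W := by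
  obtain ⟨c, hc⟩ := nbrV_val hN u W
  obtain ⟨c', hc'⟩ := nbrV_val hN u W'
  rw [h, hc] at hc'
  refine (nbr_shift_inj (Nrm.pre u) (vType u) h0 h1 (t := c - c') ?_).1
  have := congrArg (sh (-c')) hc'
  rw [sh_sh, sh_sh, add_neg_cancel, sh_zero] at this
  rw [← this, sub_eq_add_neg]

/-- The exponents of a neighbour. -/
lemma nbrV_exp (hN : 0 < N) (u : Nrm p N) (W : Sub p N) :
    ∃ (f' : Module.Basis (Fin N) (PR p) (PV p N)) (b' : Fin N → ℤ) (c : ℤ),
      HasType (nbr (vBasis u) (vExp u) u.1 W) f' b' ∧
      bLo (vExp (nbrV hN u W)) = bLo b' - c ∧ bHi (vExp (nbrV hN u W)) = bHi b' - c ∧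
      heightB (vExp (nbrV hN u W)) = heightB b' ∧
      ∑ i, vExp (nbrV hN u W) i = (∑ i, b' i) - N * c := by
  obtain ⟨c, hc⟩ := nbrV_val hN u W
  have hp := nbr_pre (Nrm.pre u) (vType u) W
  obtain ⟨f', b', hT'⟩ := exists_hasType hp
  exact ⟨f', b', c, hT', vExp_congr hN hc hp hT'⟩

lemma mem_bld_iff {s : Finset (Nrm p N)} :
    s ∈ Bld p N ↔ ∀ u ∈ s, ∀ v ∈ s, AdjP u.1 v.1 :=
  forall₂_congr fun _ _ => forall₂_congr fun _ _ => near_or_iff_adjP

lemma bld_downward : ∀ s ∈ Bld p N, ∀ t ⊆ s, t ∈ Bld p N :=
  fun _ hs _ ht u hu v hv => hs u (ht hu) v (ht hv)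

lemma adjP_refl (u : Nrm p N) : AdjP u.1 u.1 := by
  refine ⟨0, fun x => by rw [sh_zero], fun x => ?_⟩
  refine wb_le_of_forall fun s hs => ?_
  rw [sh_le_iff] at hs
  exact hs.trans (WithBot.coe_le_coe.mpr (by omega))

/-- Least number of steps needed to reach the standard norm. -/
noncomputable def depth (u : Nrm p N) : ℕ := Nat.find u.2.bounded

lemma depth_spec (u : Nrm p N) (x : PV p N) :
    std p N x ≤ u.1 x + (((depth u : ℕ) : ℤ) : WithBot ℤ) := Nat.find_spec u.2.bounded x

lemma eq_origin_of_depth (hN : 0 < N) {u : Nrm p N} (h : depth u = 0) : u = origin p N hN := by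
  refine Subtype.ext (funext fun x => le_antisymm (u.2.le_std x) ?_)
  have := depth_spec u x
  rw [h] at this
  simpa [origin] using this

/-- One step towards the standard norm. -/
lemma exists_step (hN : 0 < N) (u : Nrm p N) (hu : 0 < depth u) :
    ∃ c : Nrm p N, c ≠ u ∧ depth c < depth u ∧ ∀ x, c.1 x =
      max (u.1 x) (std p N x + ((-((depth u : ℤ) - 1) : ℤ) : WithBot ℤ)) := by
  set k : ℤ := -((depth u : ℤ) - 1) with hk
  have hstd := (origin p N hN).2
  have hle : ∀ x, max (u.1 x) (std p N x + (k : WithBot ℤ)) ≤ std p N x := fun x =>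
    max_le (u.2.le_std x) (wb_le_of_forall fun s hs => by
      rw [wb_shift_le_iff]
      exact hs.trans (WithBot.coe_le_coe.mpr (by omega)))
  have hlow : ∀ x, std p N x ≤ max (u.1 x) (std p N x + (k : WithBot ℤ)) +
      (((depth u - 1 : ℕ) : ℤ) : WithBot ℤ) := fun x => by
    refine le_trans ?_ (add_le_add_left (le_max_right _ _) _)
    rw [wb_add_assoc, show k + ((depth u - 1 : ℕ) : ℤ) = 0 by omega, wb_add_zero]
  have hn : IsNrm p N (fun x => max (u.1 x) (std p N x + (k : WithBot ℤ))) := by
    refine ⟨fun x y => ?_, fun c x => ?_, hle, ⟨_, hlow⟩, ?_⟩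
    · refine wb_le_of_forall fun s hs => ?_
      obtain ⟨⟨h1, h2⟩, ⟨h3, h4⟩⟩ := And.intro (max_le_iff.mp (max_le_iff.mp hs).1)
        (max_le_iff.mp (max_le_iff.mp hs).2)
      rw [wb_shift_le_iff] at h2 h4
      refine max_le ((Nrm.pre u).add_le_of h1 h3) ?_
      rw [wb_shift_le_iff]
      exact ((Nrm.pre (origin p N hN)).add_le_of h2 h4)
    · show max _ _ = _
      rw [← max_add_add_left, u.2.smul_eq]
      congr 1
      rw [← add_assoc]
      exact congrArg (· + _) (hstd.smul_eq c x)
    · obtain ⟨x, hx, hxe⟩ := u.2.touch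
      exact ⟨x, hx, le_antisymm (hle x) (by rw [← hxe]; exact le_max_left _ _)⟩
  have hd : depth ⟨_, hn⟩ ≤ depth u - 1 := Nat.find_min' _ hlow
  refine ⟨⟨_, hn⟩, fun h => ?_, by omega, fun x => rfl⟩
  rw [h] at hd
  omega

/-- The building is acyclic. -/
theorem acycAt_bld (hN : 0 < N) (n : ℕ) : AcycAt (Bld p N) n := by
  rcases n with _ | n
  · intro z hz _
    have hz' : ∀ t ∈ z.support, t.card = 0 := fun t ht => ((mem_chainsOf_iff.1 hz) t ht).2
    obtain ⟨h1, h2, -⟩ := cone_fill (K := Bld p N) (origin p N hN) (z := z) (n := 0) (by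
      rw [← sum_smul_single z, map_sum]
      refine Finset.sum_eq_zero fun t ht => ?_
      rw [Finset.card_eq_zero.1 (hz' t ht)]
      simp [bd_single]) hz' (fun t ht _ => by
        rw [Finset.card_eq_zero.1 (hz' t ht)]
        intro a ha c hc
        rw [show a = origin p N hN by simpa using ha, show c = origin p N hN by simpa using hc]
        exact near_or_iff_adjP.mpr (adjP_refl _))
    exact ⟨_, h1, h2⟩
  -- measure
  suffices key : ∀ (μ : ℕ) (z : Chain (Nrm p N)), z ∈ chainsOf (Bld p N) (n + 1) → bd z = 0 →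
      (∑ v ∈ vertsOf z, 2 ^ depth v) ≤ μ →
      ∃ b ∈ chainsOf (Bld p N) (n + 2), bd b = z by
    intro z hz hz0
    exact key _ z hz hz0 le_rfl
  intro μ
  induction μ using Nat.strong_induction_on with
  | _ μ ih =>
    intro z hz hz0 hμ
    by_cases hall : ∀ v ∈ vertsOf z, depth v = 0
    · -- only the standard vertex occurs
      refine ⟨cone (origin p N hN) z, (cone_fill (origin p N hN) hz0
        (fun t ht => ((mem_chainsOf_iff.1 hz) t ht).2) ?_).1, bd_cone_of_cycle _ hz0⟩
      intro t ht _
      intro a ha c hc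
      have h : ∀ a ∈ insert (origin p N hN) t, a = origin p N hN := fun a ha => by
        rcases Finset.mem_insert.1 ha with rfl | ha
        · rfl
        · exact eq_origin_of_depth hN (hall a (subset_vertsOf ht ha))
      rw [h a ha, h c hc]
      exact near_or_iff_adjP.mpr (adjP_refl _)
    push Not at hall
    obtain ⟨v0, hv0, hv0d⟩ := hall
    obtain ⟨v1, hv1, hv1max⟩ := (vertsOf z).exists_max_image depth ⟨v0, hv0⟩
    let F := (vertsOf z).filter fun v => depth v = depth v1
    obtain ⟨a, ⟨d, hd, hda⟩, hamax⟩ := (F.image fun v => v.1).exists_maximal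
      ⟨v1.1, Finset.mem_image.2 ⟨v1, by simp [F, hv1], rfl⟩⟩ |>.imp fun a ha =>
        And.intro (Finset.mem_image.1 ha.1) ha
    subst hda
    obtain ⟨hdz, hdd⟩ := Finset.mem_filter.1 hd
    have hdpos : 0 < depth d := by
      have := hv1max v0 hv0
      omega
    obtain ⟨c, hcd, hcdep, hcval⟩ := exists_step hN d hdpos
    -- the cone point is adjacent to the link of `d`
    have hcone : ∀ w ∈ vertsOf z, w ≠ d → AdjP d.1 w.1 → AdjP c.1 w.1 := by
      intro w hw hwd hadj
      have hwdep : depth w ≤ depth d := by rw [hdd]; exact hv1max w hw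
      rcases near_or_iff_adjP.mpr hadj with h | h
      · -- `d ≤ w`
        have hlt : depth w < depth d := by
          refine lt_of_le_of_ne hwdep fun he => hwd (Subtype.ext ?_)
          have hwF : w.1 ∈ F.image fun v => v.1 :=
            Finset.mem_image.2 ⟨w, Finset.mem_filter.2 ⟨hw, by omega⟩, rfl⟩
          exact le_antisymm (hamax.2 hwF h.1) h.1
        refine near_or_iff_adjP.mp (Or.inl ⟨fun x => ?_, fun x => ?_⟩)
        · rw [hcval]
          refine max_le (h.1 x) ?_
          refine (add_le_add_left (depth_spec w x) _).trans ?_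
          rw [wb_add_assoc]
          refine wb_le_of_forall fun s hs => ?_
          rw [wb_shift_le_iff]
          exact hs.trans (WithBot.coe_le_coe.mpr (by omega))
        · rw [hcval]
          exact (h.2 x).trans (add_le_add_left (le_max_left _ _) _)
      · refine near_or_iff_adjP.mp (Or.inr ⟨fun x => ?_, fun x => ?_⟩)
        · rw [hcval]
          exact (h.1 x).trans (le_max_left _ _)
        · rw [hcval]
          refine max_le (h.2 x) ?_
          refine (add_le_add_left (depth_spec w x) _).trans ?_
          rw [wb_add_assoc]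
          exact add_le_add_right (WithBot.coe_le_coe.mpr (by omega)) _
    have hadjc : AdjP d.1 c.1 := by
      refine near_or_iff_adjP.mp (Or.inl ⟨fun x => ?_, fun x => ?_⟩)
      · rw [hcval]; exact le_max_left _ _
      · rw [hcval]
        refine max_le (wb_le_of_forall fun s hs => ?_) ?_
        · rw [wb_shift_le_iff] at hs
          exact hs.trans (WithBot.coe_le_coe.mpr (by omega))
        · refine (add_le_add_left (depth_spec d x) _).trans ?_
          rw [wb_add_assoc]
          exact add_le_add_right (WithBot.coe_le_coe.mpr (by omega)) _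
    have hl := lkPart_mem hz d
    have hl0 : bd (lkPart d z) = 0 := by rw [bd_lkPart, hz0, map_zero]
    have hfill := cone_fill (K := lkV (Bld p N) d) c hl0
      (fun t ht => ((mem_chainsOf_iff.1 hl) t ht).2) (fun t ht hct => ?_)
    swap
    · obtain ⟨hdt, hins⟩ := ((mem_chainsOf_iff.1 hl) t ht).1
      refine ⟨by simp [hdt, Ne.symm hcd], mem_bld_iff.mpr ?_⟩
      have hins' := mem_bld_iff.mp hins
      have hc' : ∀ w ∈ insert d t, AdjP c.1 w.1 := fun w hw => by
        rcases Finset.mem_insert.1 hw with rfl | hw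
        · exact hadjc.symm
        · exact hcone w (subset_vertsOf (lkPart_support ht).2 (Finset.mem_insert_of_mem hw))
            (fun e => hdt (e ▸ hw))
            (hins' d (Finset.mem_insert_self _ _) w (Finset.mem_insert_of_mem hw))
      intro a ha b hb
      rw [Finset.insert_comm] at ha hb
      rcases Finset.mem_insert.1 ha with rfl | ha' <;> rcases Finset.mem_insert.1 hb with rfl | hb'
      · exact adjP_refl _
      · exact hc' b hb'
      · exact (hc' a ha').symm
      · exact hins' a ha' b hb'
    obtain ⟨b, hb, hbc, hbm, -, hbv⟩ := remove_one bld_downward hz hz0 d hfill.1 hfill.2.1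
    have hsub : vertsOf (z + bd b) ⊆ insert c ((vertsOf z).erase d) := by
      intro w hw
      obtain ⟨hwd, hw⟩ := Finset.mem_erase.1 (hbv hw)
      rcases Finset.mem_union.1 hw with h | h
      · exact Finset.mem_insert_of_mem (Finset.mem_erase.2 ⟨hwd, h⟩)
      · rcases Finset.mem_insert.1 (hfill.2.2 h) with rfl | h
        · exact Finset.mem_insert_self _ _
        · exact Finset.mem_insert_of_mem (Finset.mem_erase.2 ⟨hwd, vertsOf_lkPart d z h⟩)
    have hμ' : ∑ v ∈ vertsOf (z + bd b), 2 ^ depth v < μ := by
      have h1 : ∑ v ∈ vertsOf (z + bd b), 2 ^ depth v ≤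
          ∑ v ∈ insert c ((vertsOf z).erase d), 2 ^ depth v :=
        Finset.sum_le_sum_of_subset hsub
      have h2 : ∑ v ∈ insert c ((vertsOf z).erase d), 2 ^ depth v ≤
          2 ^ depth c + ∑ v ∈ (vertsOf z).erase d, 2 ^ depth v := by
        by_cases hce : c ∈ (vertsOf z).erase d
        · rw [Finset.insert_eq_self.2 hce]; exact Nat.le_add_left _ _
        · rw [Finset.sum_insert hce]
      have h3 := Finset.add_sum_erase (vertsOf z) (fun v => 2 ^ depth v) hdz
      have h4 : 2 ^ depth c < 2 ^ depth d := Nat.pow_lt_pow_right (by omega) hcdep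
      generalize 2 ^ depth c = X at h2 h4
      generalize 2 ^ depth d = Y at h3 h4
      omega
    obtain ⟨b', hb', hb'd⟩ := ih _ hμ' _ hbm hbc le_rfl
    refine ⟨b' + b, Submodule.add_mem _ hb' hb, ?_⟩
    rw [map_add, hb'd, add_assoc, chain_add_self, add_zero]

/-- The thin part is acyclic in low degrees. -/
theorem thinAcyclic_of (hfill : GenericFill) : ThinAcyclic := by
  intro d
  choose Bf hBf using hfill
  obtain ⟨Mx, Bc, hcon⟩ := contraction_of_fillAt Bf (d + 1)
  refine ⟨(Finset.range (d + 2)).sup fun m => Bf m (Mx m), fun p N hp hpB hdN n hn => ?_⟩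
  have := Fact.mk hp
  have hN : 0 < N := by omega
  intro z hz hz0
  have hzB : z ∈ chainsOf (Bld p N) n := chainsOf_mono (fun s hs => hs.1) n hz
  obtain ⟨b, hb, hbz⟩ := acycAt_bld hN n z hzB hz0
  suffices key : ∀ (H : ℕ) (k : ℕ) (b : Chain (Nrm p N)), b ∈ chainsOf (Bld p N) (n + 1) →
      bd b = z → (∀ v ∈ vertsOf b, ¬ Thin v → heightB (vExp v) ≤ H) →
      ((vertsOf b).filter fun v => ¬ Thin v ∧ heightB (vExp v) = H).card ≤ k →
      ∃ b' ∈ chainsOf (Xinf p N) (n + 1), bd b' = z by
    exact key ((vertsOf b).sup fun v => heightB (vExp v)) _ b hb hbz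
      (fun v hv _ => Finset.le_sup (f := fun v => heightB (vExp v)) hv) le_rfl
  intro H
  induction H using Nat.strong_induction_on with
  | _ H ihH =>
    intro k
    induction k with
    | zero =>
      intro b hb hbz hH hk
      have hno : ∀ v ∈ vertsOf b, ¬ Thin v → heightB (vExp v) < H := fun v hv hvt => by
        refine lt_of_le_of_ne (hH v hv hvt) fun he => ?_
        have : v ∈ (vertsOf b).filter fun v => ¬ Thin v ∧ heightB (vExp v) = H :=
          Finset.mem_filter.2 ⟨hv, hvt, he⟩
        simp [Finset.card_eq_zero.1 (Nat.le_zero.1 hk)] at this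
      by_cases hall : ∀ v ∈ vertsOf b, Thin v
      · exact ⟨b, mem_chainsOf_iff.2 fun s hs => ⟨⟨((mem_chainsOf_iff.1 hb) s hs).1,
          fun v hv => hall v (subset_vertsOf hs hv)⟩, ((mem_chainsOf_iff.1 hb) s hs).2⟩, hbz⟩
      · push Not at hall
        obtain ⟨v, hv, hvt⟩ := hall
        have h1 := hno v hv hvt
        exact ihH (H - 1) (by omega) _ b hb hbz (fun w hw hwt => by have := hno w hw hwt; omega)
          le_rfl
    | succ k ihk =>
      intro b hb hbz hH hk
      rcases ((vertsOf b).filter fun v => ¬ Thin v ∧ heightB (vExp v) = H).eq_empty_or_nonempty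
        with he | ⟨v, hv⟩
      · exact ihk b hb hbz hH (by simp [he])
      obtain ⟨hvb, hvt, hvH⟩ := Finset.mem_filter.1 hv
      have hspread : 2 ≤ bHi (vExp v) - bLo (vExp v) := by
        rw [thin_iff hN] at hvt
        omega
      set P := DescSet (flag (p := p) (vExp v) (bLo (vExp v) + 1))
        (flag (vExp v) (bLo (vExp v) + 2)) (flag (vExp v) (bHi (vExp v) - 1))
        (flag (vExp v) (bHi (vExp v))) with hP
      have hax : GenericAxiom P := by
        refine genericAxiom_descSet _ _ _ _ (flag_anti _ (by omega)) (flag_anti _ (by omega)) ?_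
        intro htop
        obtain ⟨i, hi⟩ := exists_bLo hN (vExp v)
        have h1 : (Pi.single i (1 : ZMod p)) ∈ flag (p := p) (vExp v) (bLo (vExp v) + 1) :=
          htop ▸ Submodule.mem_top
        have := h1 i (by omega)
        simp at this
      have hempty : IsPChain P ∅ := ⟨by simp, by simp [IsChain]⟩
      -- the link cycle and its translation into the subspace poset
      have hl := lkPart_mem hb v
      have hl0 : bd (lkPart v b) = 0 := by
        rw [bd_lkPart, hbz]
        refine Finsupp.support_eq_empty.1 (Finset.eq_empty_of_forall_notMem fun u hu => hvt ?_)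
        exact ((mem_chainsOf_iff.1 hz) _ (lkPart_support hu).2).1.2 v (Finset.mem_insert_self _ _)
      have hlow : ∀ w ∈ vertsOf (lkPart v b), AdjP v.1 w.1 ∧ w ≠ v ∧
          heightB (vExp w) ≤ heightB (vExp v) := by
        intro w hw
        obtain ⟨t, ht, hwt⟩ := mem_vertsOf.1 hw
        obtain ⟨hvt', hins⟩ := ((mem_chainsOf_iff.1 hl) t ht).1
        refine ⟨mem_bld_iff.mp hins v (Finset.mem_insert_self _ _) w
          (Finset.mem_insert_of_mem hwt), fun e => hvt' (e ▸ hwt), ?_⟩
        by_cases hwthin : Thin w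
        · rw [thin_iff hN] at hwthin
          unfold heightB
          refine (hval_lt_of_spread hN ?_ fun l => atCnt_le _ _).le
          omega
        · rw [hvH]
          exact hH w (vertsOf_lkPart v b hw) hwthin
      have hW : ∀ w ∈ vertsOf (lkPart v b), ∃ W ∈ P, nbrV hN v W = w := by
        intro w hw
        obtain ⟨hadj, hwv, hh⟩ := hlow w hw
        obtain ⟨W, h0, h1, rfl⟩ := eq_nbrV_of_adjP hN hadj hwv
        obtain ⟨f', b', c, hT', -, -, e3, -⟩ := nbrV_exp hN v W
        obtain ⟨hiff, hne⟩ := heightB_nbr hN (Nrm.pre v) (vType v) h0 h1 hT' hspread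
        rw [e3] at hh
        exact ⟨W, hiff.mp (lt_of_le_of_ne hh hne), rfl⟩
      choose! ψ hψP hψ using hW
      let φ : Sub p N → Nrm p N := nbrV hN v
      let back : Chain (Sub p N) →ₗ[ZMod 2] Chain (Nrm p N) :=
        Finsupp.lmapDomain (ZMod 2) (ZMod 2) fun s => s.image φ
      let fwd : Finset (Nrm p N) → Finset (Sub p N) := fun t => t.image ψ
      let l' : Chain (Sub p N) := Finsupp.mapDomain fwd (lkPart v b)
      have hPinj : ∀ W ∈ P, ∀ W' ∈ P, φ W' = φ W → W' = W := fun W hW W' _ h =>
        nbrV_inj hN (hax.1 W hW).1 (hax.1 W hW).2 h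
      have hl'mem : l' ∈ chainsOf (chainLk P ∅) n := by
        refine mem_chainsOf_iff.2 fun s hs => ?_
        obtain ⟨t, ht, rfl⟩ := Finset.mem_image.1 (Finsupp.mapDomain_support hs)
        obtain ⟨⟨hvt', hins⟩, hcard⟩ := (mem_chainsOf_iff.1 hl) t ht
        have hsub := subset_vertsOf ht
        refine ⟨⟨fun W hW => ?_, ?_⟩, ?_⟩
        · obtain ⟨w, hw, rfl⟩ := Finset.mem_image.1 hW
          exact ⟨hψP w (hsub hw), Finset.notMem_empty _⟩
        · intro W hW W' hW' _
          simp only [Finset.union_empty, Finset.mem_coe, fwd, Finset.mem_image] at hW hW'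
          obtain ⟨w, hw, rfl⟩ := hW
          obtain ⟨w', hw', rfl⟩ := hW'
          refine (nbrV_adj_iff hN (u := v)).mp ?_
          rw [hψ w (hsub hw), hψ w' (hsub hw')]
          exact mem_bld_iff.mp hins w (Finset.mem_insert_of_mem hw) w'
            (Finset.mem_insert_of_mem hw')
        · rw [Finset.card_image_of_injOn, hcard]
          intro w hw w' hw' h
          rw [← hψ w (hsub hw), ← hψ w' (hsub hw'), h]
      have hback : back l' = lkPart v b := by
        simp only [back, l', Finsupp.lmapDomain_apply, ← Finsupp.mapDomain_comp]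
        rw [← Finsupp.mapDomain_id (v := lkPart v b)]
        conv_lhs => rw [Finsupp.mapDomain_id]
        refine Finsupp.mapDomain_congr fun t ht => ?_
        simp only [Function.comp_apply, fwd, Finset.image_image, id_eq]
        refine (Finset.image_congr fun w hw => ?_).trans Finset.image_id
        exact hψ w (subset_vertsOf ht hw)
      have hbdback : ∀ c : Chain (Sub p N), (∀ s ∈ c.support, ∀ W ∈ s, W ∈ P) →
          bd (back c) = back (bd c) := by
        intro c hc
        conv_lhs => rw [← sum_smul_single c]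
        conv_rhs => rw [← sum_smul_single c]
        simp only [map_sum]
        refine Finset.sum_congr rfl fun s hs => ?_
        simp only [back, Finsupp.lmapDomain_apply, Finsupp.mapDomain_single, bd_single,
          Finsupp.mapDomain_smul, Finsupp.mapDomain_finsetSum]
        congr 1
        rw [Finset.sum_image fun W hW W' hW' h => hPinj W' (hc s hs W' hW') W (hc s hs W hW) h]
        refine Finset.sum_congr rfl fun W hW => ?_
        congr 1
        ext w
        simp only [Finset.mem_erase, Finset.mem_image]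
        constructor
        · rintro ⟨hne, W', hW', rfl⟩
          exact ⟨W', ⟨fun e => hne (e ▸ rfl), hW'⟩, rfl⟩
        · rintro ⟨W', ⟨hne, hW'⟩, rfl⟩
          exact ⟨fun e => hne (hPinj W (hc s hs W hW) W' (hc s hs W' hW') e), W', hW', rfl⟩
      have hl'P : ∀ s ∈ l'.support, ∀ W ∈ s, W ∈ P := fun s hs W hW =>
        (((mem_chainsOf_iff.1 hl'mem) s hs).1.1 W hW).1
      have hl'0 : bd l' = 0 := by
        have h1 : back (bd l') = 0 := by rw [← hbdback l' hl'P, hback, hl0]
        refine Finsupp.mapDomain_injOn {s : Finset (Sub p N) | ∀ W ∈ s, W ∈ P} ?_ ?_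
          (by simp) (h1.trans Finsupp.mapDomain_zero.symm)
        · intro s hs t ht h
          ext W
          constructor <;> intro hW
          · have : φ W ∈ t.image φ := by
              simp only at h
              rw [← h]; exact Finset.mem_image_of_mem φ hW
            obtain ⟨W', hW', e⟩ := Finset.mem_image.1 this
            exact hPinj W (hs W hW) W' (ht W' hW') e ▸ hW'
          · have : φ W ∈ s.image φ := by
              simp only at h
              rw [h]; exact Finset.mem_image_of_mem φ hW
            obtain ⟨W', hW', e⟩ := Finset.mem_image.1 this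
            exact hPinj W (ht W hW) W' (hs W' hW') e ▸ hW'
        · intro s hs W hW
          have hWv := (vertsOf_bd l') (subset_vertsOf hs hW)
          obtain ⟨t, ht, hWt⟩ := mem_vertsOf.1 hWv
          exact hl'P t ht W hWt
      -- fill in the poset
      have hacyc : AcycAt (chainLk P ∅) n := by
        have hdown : ∀ s ∈ chainLk P ∅, ∀ t ⊆ s, t ∈ chainLk P ∅ := fun s hs t ht =>
          ⟨fun W hW => hs.1 W (ht hW), hs.2.mono (by
            simp only [Finset.union_empty]; exact Finset.coe_subset.2 ht)⟩
        obtain ⟨h, hh⟩ := hcon _ (chainLk P ∅) hdown fun m hm => by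
          refine hBf m (Mx m) p N hp (lt_of_le_of_lt ?_ hpB) P hax ∅ hempty
            ⟨⊥, ⊤, Or.inl rfl, Or.inl rfl, bot_le, ?_, by simp⟩
          · exact Finset.le_sup (f := fun m => Bf m (Mx m)) (Finset.mem_range.2 (by omega))
          · rw [finrank_bot, finrank_top, Module.finrank_fin_fun]; omega
        intro y hy hy0
        have hmem := mem_chainsOf_iff.1 hy
        refine ⟨Finsupp.linearCombination (ZMod 2) h y, ?_, ?_⟩
        · rw [Finsupp.linearCombination_apply, Finsupp.sum]
          refine Submodule.sum_mem _ fun t ht => Submodule.smul_mem _ _ ?_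
          have h1 := (hh t (hmem t ht).1 ((hmem t ht).2.trans_le hn)).1
          rwa [(hmem t ht).2] at h1
        · have h2 : ∀ t ∈ y.support, bd (h t) = Finsupp.single t 1 +
              Finsupp.linearCombination (ZMod 2) h (bd (Finsupp.single t 1)) := fun t ht => by
            have h3 := (hh t (hmem t ht).1 ((hmem t ht).2.trans_le hn)).2.2
            conv_rhs =>
              arg 1
              rw [← h3]
            rw [add_assoc, chain_add_self, add_zero]
          have h4 : bd (Finsupp.linearCombination (ZMod 2) h y) =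
              y + Finsupp.linearCombination (ZMod 2) h (bd y) := by
            rw [Finsupp.linearCombination_apply, Finsupp.sum, map_sum]
            conv_rhs => rw [← sum_smul_single y, map_sum, map_sum, ← Finset.sum_add_distrib]
            refine Finset.sum_congr rfl fun t ht => ?_
            have h5 : Finsupp.single t (y t) = y t • Finsupp.single t (1 : ZMod 2) := by simp
            rw [h5, map_smul, map_smul, map_smul, h2 t ht, smul_add]
          rw [h4, hy0, map_zero, add_zero]
      obtain ⟨e, he, he0⟩ := hacyc l' hl'mem hl'0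
      have heP : ∀ s ∈ e.support, ∀ W ∈ s, W ∈ P := fun s hs W hW =>
        (((mem_chainsOf_iff.1 he) s hs).1.1 W hW).1
      have hemem : back e ∈ chainsOf (lkV (Bld p N) v) (n + 1) := by
        refine mem_chainsOf_iff.2 fun t ht => ?_
        obtain ⟨s, hs, rfl⟩ := Finset.mem_image.1 (Finsupp.mapDomain_support ht)
        obtain ⟨⟨hsP, hchain⟩, hcard⟩ := (mem_chainsOf_iff.1 he) s hs
        refine ⟨⟨fun hv' => ?_, mem_bld_iff.mpr fun a ha c hc => ?_⟩, ?_⟩
        · obtain ⟨W, hW, e'⟩ := Finset.mem_image.1 hv'
          exact nbrV_ne hN (hax.1 W (hsP W hW).1).1 (hax.1 W (hsP W hW).1).2 e'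
        · simp only [Finset.mem_insert, Finset.mem_image] at ha hc
          rcases ha with rfl | ⟨W, hW, rfl⟩ <;> rcases hc with rfl | ⟨W', hW', rfl⟩
          · exact adjP_refl _
          · exact adjP_nbrV hN _ _
          · exact (adjP_nbrV hN _ _).symm
          · refine (nbrV_adj_iff hN).mpr ?_
            rcases eq_or_ne W W' with rfl | hne
            · exact Or.inl le_rfl
            · exact hchain (by simpa using hW) (by simpa using hW') hne
        · rw [Finset.card_image_of_injOn
            fun W hW W' hW' h => hPinj W' (heP s hs W' hW') W (heP s hs W hW) h, hcard]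
      have hebd : bd (back e) = lkPart v b := by rw [hbdback e heP, he0, hback]
      -- replace the star of `v`
      let b2 := b + bd (cone v (back e))
      have hb2 : b2 ∈ chainsOf (Bld p N) (n + 1) :=
        Submodule.add_mem _ hb (bd_mem_chainsOf bld_downward (cone_mem hemem))
      have hb2z : bd b2 = z := by rw [map_add, bd_bd, add_zero, hbz]
      have hb2v : ∀ w ∈ vertsOf b2, w ≠ v ∧ (w ∈ vertsOf b ∨
          heightB (vExp w) < heightB (vExp v)) := by
        intro w hw
        refine ⟨?_, ?_⟩
        · rintro rfl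
          obtain ⟨s, hs, hws⟩ := mem_vertsOf.1 hw
          have h0 : lkPart w b2 = 0 := by
            simp only [b2, map_add]
            rw [← bd_lkPart, ← hebd]
            have : lkPart w (cone w (back e)) = back e := by
              ext u
              rw [lkPart_apply]
              have hnot : ∀ t ∈ (back e).support, w ∉ t := fun t ht =>
                ((mem_chainsOf_iff.1 hemem) t ht).1.1
              by_cases hu : w ∈ u
              · rw [if_pos hu, eq_comm, ← Finsupp.notMem_support_iff]
                exact fun h => hnot u h hu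
              · rw [if_neg hu]
                conv_lhs => rw [← sum_smul_single (back e), map_sum, Finsupp.finsetSum_apply]
                conv_rhs => rw [← sum_smul_single (back e), Finsupp.finsetSum_apply]
                refine Finset.sum_congr rfl fun t ht => ?_
                rw [cone_single, if_neg (hnot t ht)]
                simp only [Finsupp.single_apply]
                refine if_congr ⟨fun e' => ?_, fun e' => by rw [e']⟩ rfl rfl
                rw [← Finset.erase_insert (hnot t ht), e', Finset.erase_insert hu]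
            rw [this, chain_add_self]
          have := congrArg (fun c => c (s.erase w)) h0
          simp only [lkPart_apply, Finset.notMem_erase, ↓reduceIte, Finset.insert_erase hws,
            Finsupp.zero_apply] at this
          exact Finsupp.mem_support_iff.1 hs this
        · rcases Finset.mem_union.1 (vertsOf_add _ _ hw) with h | h
          · exact Or.inl h
          · rcases Finset.mem_insert.1 (vertsOf_cone v _ (vertsOf_bd _ h)) with h | h
            · exact Or.inl (h ▸ hvb)
            · obtain ⟨t, ht, hwt⟩ := mem_vertsOf.1 h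
              obtain ⟨s, hs, rfl⟩ := Finset.mem_image.1 (Finsupp.mapDomain_support ht)
              obtain ⟨W, hW, rfl⟩ := Finset.mem_image.1 hwt
              have hWP := heP s hs W hW
              obtain ⟨f', b', c, hT', -, -, e3, -⟩ := nbrV_exp hN v W
              obtain ⟨hiff, -⟩ :=
                heightB_nbr hN (Nrm.pre v) (vType v) (hax.1 W hWP).1 (hax.1 W hWP).2 hT' hspread
              exact Or.inr (e3 ▸ hiff.mpr hWP)
      refine ihk b2 hb2 hb2z (fun w hw hwt => ?_) ?_
      · rcases (hb2v w hw).2 with h | h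
        · exact hH w h hwt
        · omega
      · have hsub : ((vertsOf b2).filter fun w => ¬ Thin w ∧ heightB (vExp w) = H) ⊆
            ((vertsOf b).filter fun w => ¬ Thin w ∧ heightB (vExp w) = H).erase v := by
          intro w hw
          obtain ⟨hwb, hwt, hwH⟩ := Finset.mem_filter.1 hw
          obtain ⟨hne, h | h⟩ := hb2v w hwb
          · exact Finset.mem_erase.2 ⟨hne, Finset.mem_filter.2 ⟨h, hwt, hwH⟩⟩
          · omega
        have := Finset.card_le_card hsub
        rw [Finset.card_erase_of_mem hv] at this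
        omega

/-- The thin part is acyclic. -/
theorem thinAcyclic : ThinAcyclic := thinAcyclic_of genericFill

end Vale.Agent.P067
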