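import Vale.Agent.P067.HomLift
import Vale.Agent.P067.Interface

/-!
Vanishing of coinvariant homology does not depend on the acyclic complex.
-/

namespace Vale.Agent.P067.Hom

open Classical Finsupp

variable {V W : Type} {G G' : Type} [Group G] [MulAction G V] [Group G'] [MulAction G' W]

noncomputable section

lemma target_bot {H : Subgroup G} {π : G → G'} {L : Set (Finset W)} {n : ℕ}
    (hL : IsCx L) (hinv : ∀ g ∈ H, ∀ s ∈ L, s.image (fun w => π g • w) ∈ L)
    (hmul : ∀ g ∈ H, ∀ h ∈ H, π (g * h) = π g * π h) (hac : ∀ j, j ≤ n → AcycAt L j) :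
    Target H π L (⊥ : Submodule (ZMod 2) (Chain W)) n :=
  { cx := hL
    inv := hinv
    map_mul := hmul
    stable := fun g _ c hc => by
      rw [Submodule.mem_bot] at hc
      simp [hc]
    bd_stable := fun c hc => by
      rw [Submodule.mem_bot] at hc
      simp [hc]
    exact' := fun j hj z hz hb => by
      obtain ⟨b, hb1, hb2⟩ := hac j hj z hz ((Submodule.mem_bot _).1 hb)
      exact ⟨b, hb1, by rw [hb2, char_two]; exact Submodule.zero_mem _⟩ }

lemma IsMap.id {H : Subgroup G} {L : Set (Finset V)} (I : Submodule (ZMod 2) (Chain V)) (n : ℕ) :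
    IsMap H (fun g => g) L L I n LinearMap.id :=
  { empty := rfl
    mem := fun _ hs _ => single_mem_chainsOf 1 hs rfl
    chain := fun s _ _ => by simp [char_two]
    equiv := fun g _ s _ _ => by simp [act_single, char_two] }

/-- Chain maps exact on the nose send relations to relations. -/
lemma IsMap.map_relI {H : Subgroup G} {H' : Subgroup G'} {π : G → G'} {K : Set (Finset V)}
    {L : Set (Finset W)} {I : Submodule (ZMod 2) (Chain W)} {n : ℕ}
    {f : Chain V →ₗ[ZMod 2] Chain W} (hf : IsMap H π K L I n f) (hK : InvCx H K)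
    (hπ : ∀ g ∈ H, π g ∈ H') (hI : I ≤ relI H') {j : ℕ} (hj : j ≤ n) {c : Chain V}
    (hc : c ∈ chainsOf K j) (hr : c ∈ relI H) : f c ∈ relI H' :=
  relI_map_on hK (fun g hg s hs he => by
    have h1 := hI (hf.equiv g hg s hs (he ▸ hj))
    have h2 := act_add_mem_relI (V := W) (hπ g hg) (f (single s 1))
    have h3 := (relI H').add_mem h1 h2
    convert h3 using 1
    rw [add_assoc, ← add_assoc (act (π g) _), char_two, zero_add]) hc hr

/-- Transfer along an injective homomorphism of the acting group. -/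
lemma gac_transfer_hom {H : Subgroup G} {H' : Subgroup G'} {π : G → G'}
    (hπ : ∀ g ∈ H, π g ∈ H') (hsurj : ∀ g' ∈ H', ∃ g ∈ H, π g = g')
    (hmul : ∀ g ∈ H, ∀ h ∈ H, π (g * h) = π g * π h)
    (hinj : ∀ g ∈ H, ∀ h ∈ H, π g = π h → g = h)
    {K : Set (Finset V)} {L : Set (Finset W)} {n : ℕ} (hn : 1 ≤ n)
    (hK : IsCx K) (hL : IsCx L) (hKi : InvCx H K) (hLi : InvCx H' L)
    (hKo : OddStab H K) (hLo : OddStab H' L)
    (hKa : ∀ j, j ≤ n → AcycAt K j) (hLa : ∀ j, j ≤ n → AcycAt L j)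
    (hg : GAC H K n) : GAC H' L n := by
  let ρ : G' → G := fun g' => if h : g' ∈ H' then (hsurj g' h).choose else 1
  have hρ : ∀ g' ∈ H', ρ g' ∈ H ∧ π (ρ g') = g' := by
    intro g' h
    simp only [ρ, dif_pos h]
    exact (hsurj g' h).choose_spec
  have hρmul : ∀ a ∈ H', ∀ b ∈ H', ρ (a * b) = ρ a * ρ b := fun a ha b hb =>
    hinj _ (hρ _ (H'.mul_mem ha hb)).1 _ (H.mul_mem (hρ a ha).1 (hρ b hb).1) (by
      rw [(hρ _ (H'.mul_mem ha hb)).2, hmul _ (hρ a ha).1 _ (hρ b hb).1, (hρ a ha).2,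
        (hρ b hb).2])
  have T1 : Target H π L (⊥ : Submodule (ZMod 2) (Chain W)) n :=
    target_bot hL (fun g hg' s hs => hLi (π g) (hπ g hg') s hs) hmul hLa
  have T2 : Target H' ρ K (⊥ : Submodule (ZMod 2) (Chain V)) n :=
    target_bot hK (fun g hg' s hs => hKi (ρ g) (hρ g hg').1 s hs) hρmul hKa
  have T3 : Target H' (fun g => g) L (⊥ : Submodule (ZMod 2) (Chain W)) n :=
    target_bot hL hLi (fun _ _ _ _ => rfl) hLa
  obtain ⟨φ, hφ⟩ := exists_map T1 hK hKi hKo (n + 1) le_rfl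
  obtain ⟨ψ, hψ⟩ := exists_map T2 hL hLi hLo n (by omega)
  intro z hz hbz
  obtain ⟨i, rfl⟩ : ∃ i, n = i + 1 := ⟨n - 1, by omega⟩
  have hψbd : bd (ψ z) + ψ (bd z) = 0 := by
    simpa using hψ.map_chain le_rfl hz
  have hψz : bd (ψ z) ∈ relI (V := V) H := by
    rw [add_eq_zero_iff_eq_neg, neg_self] at hψbd
    rw [hψbd]
    exact hψ.map_relI hLi (fun g hg' => (hρ g hg').1) bot_le (by omega) (bd_mem hL hz) hbz
  obtain ⟨b, hb, hb'⟩ := hg (ψ z) (hψ.map_mem le_rfl hz) hψz
  have hsum : ψ z + bd b ∈ chainsOf K (i + 1) :=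
    Submodule.add_mem _ (hψ.map_mem le_rfl hz) (bd_mem hK hb)
  have h1 : φ (ψ z + bd b) ∈ relI H' :=
    hφ.map_relI hKi hπ bot_le (by omega) hsum hb'
  have h2 : bd (φ b) + φ (bd b) = 0 := by simpa using hφ.map_chain le_rfl hb
  rw [add_eq_zero_iff_eq_neg, neg_self] at h2
  have hcomp : IsMap H' (fun g => g) L L (⊥ : Submodule (ZMod 2) (Chain W)) (i + 1)
      (φ ∘ₗ ψ) :=
    { empty := by simp [hψ.empty, hφ.empty]
      mem := fun s hs hs' => hφ.map_mem (by omega) (hψ.mem s hs hs')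
      chain := fun s hs hs' => by
        have a := hφ.map_chain (j := s.card) (by omega) (hψ.mem s hs hs')
        have b := (Submodule.mem_bot _).1 (hψ.chain s hs hs')
        rw [add_eq_zero_iff_eq_neg, neg_self] at b
        rw [b] at a
        simpa using a
      equiv := fun g hg' s hs hs' => by
        have a := (Submodule.mem_bot _).1 (hψ.equiv g hg' s hs hs')
        rw [add_eq_zero_iff_eq_neg, neg_self] at a
        have b := hφ.map_equiv (j := s.card) (by omega) (hψ.mem s hs hs') (hρ g hg').1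
        rw [(hρ g hg').2] at b
        simpa [a] using b }
  obtain ⟨c, hc, hc'⟩ := homotopic_on_cycle T3 hL hLi hLo (IsMap.id _ _) hcomp
    (J := relI H') bot_le (fun g hg' c => act_add_mem_relI hg' c) (by omega) hz hbz
  refine ⟨c + φ b, Submodule.add_mem _ hc (hφ.map_mem le_rfl hb), ?_⟩
  have h3 := (relI H').add_mem hc' h1
  convert h3 using 1
  simp only [map_add, LinearMap.id_apply, LinearMap.comp_apply, h2]
  rw [show z + φ (ψ z) + bd c + (φ (ψ z) + φ (bd b))
    = z + (bd c + φ (bd b)) + (φ (ψ z) + φ (ψ z)) by abel, char_two, add_zero]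

end

end Vale.Agent.P067.Hom

namespace Vale.Agent.P067

theorem gacTransfer : GACTransfer := by
  intro G _ H V W _ _ K L n hn hK hL hKi hLi hKo hLo hKa hLa hg
  exact Hom.gac_transfer_hom (π := fun g => g) (fun _ h => h) (fun g h => ⟨g, h, rfl⟩)
    (fun _ _ _ _ => rfl) (fun _ _ _ _ h => h) hn hK hL hKi hLi hKo hLo hKa hLa hg

end Vale.Agent.P067
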