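import Mathlib
import Vale.Agent.P067.Quotient
import Vale.Agent.P067.LinkChart

/-!
Connectivity and correlation in the links of the quotient complex, read off from the complexes
of subspaces in general position.
-/

namespace Vale.Agent.P067

open Classical

variable {p N : ℕ}

/-- In an acyclic complex any two vertices are joined by a path. -/
theorem reach_of_acyc {V : Type} {K : Set (Finset V)} (hK : AcycAt K 1) {u v : V}
    (hu : {u} ∈ K) (hv : {v} ∈ K) :
    Relation.ReflTransGen (fun a b => ({a, b} : Finset V) ∈ K) u v := by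
  set R := fun a b => ({a, b} : Finset V) ∈ K with hR
  by_contra hnot
  have hsing : ∀ a, {a} ∈ K →
      Finsupp.single ({a} : Finset V) (1 : ZMod 2) ∈ chainsOf K 1 := fun a ha =>
    single_mem_chainsOf ha (Finset.card_singleton a) _
  have hbd : ∀ a : V, bd (Finsupp.single ({a} : Finset V) (1 : ZMod 2)) =
      Finsupp.single ∅ 1 := fun a => by simp [bd_single]
  obtain ⟨b, hb1, hb2⟩ := hK _ (Submodule.add_mem _ (hsing u hu) (hsing v hv))
    (by rw [map_add, hbd, hbd, chain_add_self])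
  let χ : Chain V →ₗ[ZMod 2] ZMod 2 := Finsupp.linearCombination (ZMod 2) fun s =>
    if ∃ a, s = {a} ∧ Relation.ReflTransGen R u a then 1 else 0
  have hχ : ∀ a, χ (Finsupp.single ({a} : Finset V) 1) =
      if Relation.ReflTransGen R u a then 1 else 0 := fun a => by
    simp [χ, Finset.singleton_inj]
  have h0 : χ (bd b) = 0 := by
    rw [← congrArg bd (sum_smul_single b), map_sum, map_sum]
    refine Finset.sum_eq_zero fun s hs => ?_
    obtain ⟨hsK, hs2⟩ := mem_chainsOf_iff.1 hb1 s hs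
    obtain ⟨x, y, hxy, hsxy⟩ := Finset.card_eq_two.1 hs2
    have e1 : ∀ d : DecidableEq V, @Finset.erase _ d s x = {y} := fun d => by
      rw [hsxy]; ext a; simp only [Finset.mem_erase, Finset.mem_insert, Finset.mem_singleton]; grind
    have e2 : ∀ d : DecidableEq V, @Finset.erase _ d s y = {x} := fun d => by
      rw [hsxy]; ext a; simp only [Finset.mem_erase, Finset.mem_insert, Finset.mem_singleton]; grind
    rw [bd_single, map_smul, hsxy, Finset.sum_pair hxy, ← hsxy, map_add, e1, e2, hχ, hχ]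
    rw [hsxy] at hsK
    have hiff : Relation.ReflTransGen R u x ↔ Relation.ReflTransGen R u y :=
      ⟨fun h => h.tail hsK, fun h => h.tail (by rw [hR]; simpa [Finset.pair_comm] using hsK)⟩
    simp only [hiff, CharTwo.add_self_eq_zero, smul_zero]
  rw [hb2, map_add, hχ, hχ, if_pos Relation.ReflTransGen.refl, if_neg hnot, add_zero] at h0
  exact one_ne_zero h0

variable [Fact p.Prime]

/-- The links of the quotient complex have connected graphs. -/
theorem linksConn_facetsT (hG : Geo p N) {m : ℕ} (hm : 6 ≤ m)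
    (hstr : ∀ (F : Sub p N) c, IsPChain (GP F) c → c.card + 3 ≤ N → ∀ W W',
      {W} ∈ chainLk (GP F) c → {W'} ∈ chainLk (GP F) c →
      Relation.ReflTransGen (fun a b => {a, b} ∈ chainLk (GP F) c) W W')
    (hacyc : AcycAt (Xinf p N) 1) : LinksConn (facetsT p N m) N := by
  intro r hcard hrT u v hu hv huT hvT
  rcases r.eq_empty_or_nonempty with rfl | hne
  · have hK := acycAt_facetsT hG hm le_rfl hacyc (fun h => absurd h (by omega))
    simp only [insert_empty_eq] at huT hvT ⊢
    refine Relation.ReflTransGen.lift id (fun a b hab => ?_) _ _ (reach_of_acyc hK huT hvT)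
    exact ⟨Finset.notMem_empty _, Finset.notMem_empty _, hab⟩
  · obtain ⟨F, c, ψ, w, h⟩ := exists_chart hG hm hrT hne
    have hvtx : ∀ x, x ∉ r → insert x r ∈ cxOf (facetsT p N m) →
        ∃ W, {W} ∈ chainLk (GP F) c ∧ ψ W = x := by
      intro x hx hxT
      obtain ⟨t, ht, htim, htc⟩ := h.pull_spec (s := {x}) (Finset.disjoint_singleton_left.2 hx)
        hxT
      rw [Finset.card_singleton] at htc
      obtain ⟨W, rfl⟩ := Finset.card_eq_one.1 htc
      exact ⟨W, ht, by simpa using htim⟩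
    rw [natDec_eq] at huT hvT
    obtain ⟨W, hW, rfl⟩ := hvtx u hu huT
    obtain ⟨W', hW', rfl⟩ := hvtx v hv hvT
    refine Relation.ReflTransGen.lift ψ (fun a b hab => ?_) _ _
      (hstr F c h.chain (by have := h.card_r; omega) W W' hW hW')
    obtain ⟨hd, hT⟩ := h.push_spec hab
    refine ⟨Finset.disjoint_left.1 hd ?_, Finset.disjoint_left.1 hd ?_, ?_⟩
    · simp
    · simp
    · refine (congrArg (· ∈ cxOf (facetsT p N m)) (Finset.ext fun x => ?_)).mp hT
      simp [eq_comm, or_assoc]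

/-- The correlation bound in the links of corank two of the quotient complex. -/
theorem corrBase_facetsT (hG : Geo p N) (hN : 3 ≤ N) {m : ℕ} (hm : 6 ≤ m) {lam : ℝ}
    (hcorr : ∀ (F : Sub p N) c, IsPChain (GP F) c → c.card + 3 = N →
      ∀ (a b : ℕ), a ≠ b → 0 < a → 0 < b → a < N → b < N →
      (∀ W ∈ c, Module.finrank (ZMod p) W ≠ a ∧ Module.finrank (ZMod p) W ≠ b) →
      ∀ (E : Finset (Sub p N × Sub p N)),
        (∀ W W', (W, W') ∈ E ↔ ({W, W'} ∈ chainLk (GP F) c ∧
          Module.finrank (ZMod p) W = a ∧ Module.finrank (ZMod p) W' = b)) →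
        ∀ f g : Sub p N → ℝ,
          (E.card : ℝ) * (∑ e ∈ E, f e.1 * g e.2) - (∑ e ∈ E, f e.1) * (∑ e ∈ E, g e.2) ≤
            lam * Real.sqrt
              (((E.card : ℝ) * (∑ e ∈ E, f e.1 ^ 2) - (∑ e ∈ E, f e.1) ^ 2) *
               ((E.card : ℝ) * (∑ e ∈ E, g e.2 ^ 2) - (∑ e ∈ E, g e.2) ^ 2))) :
    CorrBase (facetsT p N m) (colT hG m) lam := by
  intro r hr hrT i j hij hi hj f g
  obtain ⟨F, c, ψ, w, h⟩ := exists_chart hG hm hrT (Finset.card_pos.1 (by omega))
  have : NeZero p := ⟨(Fact.out : p.Prime).ne_zero⟩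
  have : NeZero N := ⟨by omega⟩
  have := Fintype.ofFinite (Sub p N)
  have hc : c.card + 3 = N := by have := h.card_r; omega
  set col := colT hG m with hcol
  have key : ∀ (k : Fin N), ∀ W ∈ GP F,
      col (ψ W) = k ↔ Module.finrank (ZMod p) W = ((k - col w : Fin N) : ℕ) := by
    intro k W hW
    have hlt : Module.finrank (ZMod p) W < N := by
      have := Submodule.finrank_lt hW.2.1
      rwa [Module.finrank_fin_fun] at this
    have hcw : col (ψ W) = col w + ⟨_, hlt⟩ := Fin.ext (by rw [h.col_eq W hW, Fin.val_add])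
    rw [hcw, ← eq_sub_iff_add_eq', Fin.ext_iff]
  have hpos : ∀ k, col w ≠ k → 0 < ((k - col w : Fin N) : ℕ) := fun k hk =>
    Nat.pos_of_ne_zero fun e => hk (sub_eq_zero.1 (Fin.ext e)).symm
  set a := ((i - col w : Fin N) : ℕ) with ha
  set b := ((j - col w : Fin N) : ℕ) with hb
  have hab : a ≠ b := fun e => hij (sub_left_inj.1 (Fin.ext e))
  let E : Finset (Sub p N × Sub p N) := Finset.univ.filter fun e =>
    {e.1, e.2} ∈ chainLk (GP F) c ∧
      Module.finrank (ZMod p) e.1 = a ∧ Module.finrank (ZMod p) e.2 = b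
  let Φ : Sub p N × Sub p N → Finset ℕ := fun e => insert w (({e.1, e.2} ∪ c).image ψ)
  have hE : ∀ e ∈ E, Φ e ∈ facetsT p N m ∧ r ⊆ Φ e ∧
      (Φ e).filter (fun v => col v = i) = {ψ e.1} ∧
      (Φ e).filter (fun v => col v = j) = {ψ e.2} ∧ e.1 ∈ GP F ∧ e.2 ∈ GP F := by
    intro e he
    obtain ⟨hlk, hea, heb⟩ := (Finset.mem_filter.1 he).2
    have h1 := hlk.1 e.1 (by simp)
    have h2 := hlk.1 e.2 (by simp)
    have hq : IsPChain (GP F) ({e.1, e.2} ∪ c) := by
      refine ⟨fun W hW => ?_, hlk.2⟩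
      rcases Finset.mem_union.1 hW with hW | hW
      · exact (hlk.1 W hW).1
      · exact h.chain.1 W hW
    have hcardq : ({e.1, e.2} ∪ c : Finset (Sub p N)).card = c.card + 2 := by
      rw [Finset.card_union_of_disjoint (Finset.disjoint_left.2 fun W hW => (hlk.1 W hW).2),
        Finset.card_pair (fun e' => hab (hea ▸ heb ▸ by rw [e'])), add_comm]
    have hcard : (Φ e).card = N := by
      rw [h.card_insert hq.1, hcardq]; omega
    have hT : Φ e ∈ facetsT p N m := by
      rcases h.face _ hq with h0 | ⟨t, ht, hsub⟩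
      · exact absurd h0 (Finset.insert_ne_empty _ _)
      · have heq : Φ e = t := Finset.eq_of_subset_of_card_le hsub
          (by rw [(isChambers_facetsT hG hm t ht).1, hcard])
        exact heq ▸ ht
    have hfil : ∀ (k : Fin N) (W : Sub p N), W ∈ ({e.1, e.2} ∪ c : Finset (Sub p N)) →
        col (ψ W) = k → (Φ e).filter (fun v => col v = k) = {ψ W} := by
      intro k W hW hk
      have hmem : ψ W ∈ Φ e := Finset.mem_insert_of_mem (Finset.mem_image_of_mem _ hW)
      ext v
      simp only [Finset.mem_filter, Finset.mem_singleton]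
      exact ⟨fun ⟨hv, hvk⟩ => (isChambers_facetsT hG hm _ hT).2 hv hmem (hvk.trans hk.symm),
        fun hv => hv ▸ ⟨hmem, hk⟩⟩
    refine ⟨hT, ?_, hfil i e.1 (by simp) ((key i _ h1.1).2 hea),
      hfil j e.2 (by simp) ((key j _ h2.1).2 heb), h1.1, h2.1⟩
    rw [← h.r_eq]
    exact Finset.insert_subset_insert _ (Finset.image_subset_image Finset.subset_union_right)
  have hinj : Set.InjOn Φ (E : Set (Sub p N × Sub p N)) := by
    intro e he e' he' heq
    obtain ⟨-, -, hi1, hj1, g1, g2⟩ := hE e he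
    obtain ⟨-, -, hi2, hj2, g1', g2'⟩ := hE e' he'
    rw [heq, hi2, Finset.singleton_inj] at hi1
    rw [heq, hj2, Finset.singleton_inj] at hj1
    exact Prod.ext (h.inj g1 g1' hi1.symm) (h.inj g2 g2' hj1.symm)
  have himg : ∀ d : DecidablePred (fun t : Finset ℕ => r ⊆ t),
      @Finset.filter _ (fun t => r ⊆ t) d (facetsT p N m) = E.image Φ := by
    intro d
    ext t
    simp only [Finset.mem_filter, Finset.mem_image]
    refine ⟨fun ⟨ht, hrt⟩ => ?_, fun ⟨e, he, het⟩ => het ▸ ⟨(hE e he).1, (hE e he).2.1⟩⟩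
    obtain ⟨q, hq, hcq, hqt⟩ := h.surj t (Or.inr ⟨t, ht, subset_rfl⟩) hrt
    obtain ⟨htc, htinj⟩ := isChambers_facetsT hG hm t ht
    have hqc : q.card + 1 = N := by rw [← h.card_insert hq.1, hqt, htc]
    have hex : ∀ k : Fin N, (∀ v ∈ r, col v ≠ k) →
        ∃ W ∈ q, W ∉ c ∧ Module.finrank (ZMod p) W = ((k - col w : Fin N) : ℕ) := by
      intro k hk
      have huniv : t.image col = Finset.univ := Finset.eq_univ_of_card _ (by
        rw [Finset.card_image_of_injOn htinj, htc, Fintype.card_fin])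
      obtain ⟨v, hv, hvk⟩ := Finset.mem_image.1 (huniv.symm ▸ Finset.mem_univ k)
      rw [← hqt, Finset.mem_insert, Finset.mem_image] at hv
      rcases hv with rfl | ⟨W, hW, rfl⟩
      · exact absurd hvk (hk _ h.w_mem)
      · exact ⟨W, hW, fun hWc => hk _ ((h.mem_r_iff (hq.1 W hW)).2 hWc) hvk,
          (key k W (hq.1 W hW)).1 hvk⟩
    obtain ⟨W, hW, hWc, hWa⟩ := hex i hi
    obtain ⟨W', hW', hW'c, hW'b⟩ := hex j hj
    have hWW' : W ≠ W' := fun e => hab (by rw [ha, hb, ← hWa, ← hW'b, e])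
    have hqeq : ({W, W'} ∪ c : Finset (Sub p N)) = q := by
      refine Finset.eq_of_subset_of_card_le (Finset.union_subset
        (Finset.insert_subset hW (Finset.singleton_subset_iff.2 hW')) hcq) ?_
      rw [Finset.card_union_of_disjoint (by simp [hWc, hW'c]), Finset.card_pair hWW']
      omega
    refine ⟨(W, W'), Finset.mem_filter.2 ⟨Finset.mem_univ _, ⟨?_, ?_⟩, hWa, hW'b⟩, ?_⟩
    · intro x hx
      simp only [Finset.mem_insert, Finset.mem_singleton] at hx
      rcases hx with rfl | rfl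
      · exact ⟨hq.1 _ hW, hWc⟩
      · exact ⟨hq.1 _ hW', hW'c⟩
    · show IsChain (· ≤ ·) (({W, W'} ∪ c : Finset (Sub p N)) : Set (Sub p N))
      rw [hqeq]
      exact hq.2
    · show insert w (({W, W'} ∪ c : Finset (Sub p N)).image ψ) = t
      rw [hqeq, hqt]
  have hai : ∀ (u : ℕ → ℝ), ∀ e ∈ E, atCol col (Φ e) i u = u (ψ e.1) := fun u e he => by
    rw [atCol, (hE e he).2.2.1, Finset.sum_singleton]
  have haj : ∀ (u : ℕ → ℝ), ∀ e ∈ E, atCol col (Φ e) j u = u (ψ e.2) := fun u e he => by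
    rw [atCol, (hE e he).2.2.2.1, Finset.sum_singleton]
  have hsi : ∀ u : ℕ → ℝ, colSum (facetsT p N m) col r i u = ∑ e ∈ E, u (ψ e.1) := fun u => by
    rw [colSum, himg, Finset.sum_image hinj]
    exact Finset.sum_congr rfl (hai u)
  have hsj : ∀ u : ℕ → ℝ, colSum (facetsT p N m) col r j u = ∑ e ∈ E, u (ψ e.2) := fun u => by
    rw [colSum, himg, Finset.sum_image hinj]
    exact Finset.sum_congr rfl (haj u)
  have hprod : ∑ e ∈ E, atCol col (Φ e) i f * atCol col (Φ e) j g =
      ∑ e ∈ E, f (ψ e.1) * g (ψ e.2) :=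
    Finset.sum_congr rfl fun e he => by rw [hai f e he, haj g e he]
  rw [cnt, himg, Finset.card_image_of_injOn hinj, Finset.sum_image hinj, hprod, hsi, hsj, hsi, hsj]
  refine hcorr F c h.chain hc a b hab (hpos i (hi w h.w_mem)) (hpos j (hj w h.w_mem))
    (Fin.is_lt _) (Fin.is_lt _) (fun W hW => ?_) E (fun W W' => by simp [E])
    (fun W => f (ψ W)) (fun W => g (ψ W))
  have hWr : ψ W ∈ r := (h.mem_r_iff (h.chain.1 W hW)).2 hW
  exact ⟨fun e => hi _ hWr ((key i W (h.chain.1 W hW)).2 e),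
    fun e => hj _ hWr ((key j W (h.chain.1 W hW)).2 e)⟩

end Vale.Agent.P067
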