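import Mathlib
import Vale.Agent.P067.Chambers

/-!
Basic counting in coloured families of facets.
-/

namespace Vale.Agent.P067.L2G

open Classical Finset

variable {V : Type} {N : ℕ} {T : Finset (Finset V)} {col : V → Fin N}

lemma mem_faces {n : ℕ} {s : Finset V} :
    s ∈ facesOfSize T n ↔ s.card = n ∧ ∃ t ∈ T, s ⊆ t := by
  simp [facesOfSize, and_comm]

lemma mem_cx {s : Finset V} : s ∈ cxOf T ↔ s = ∅ ∨ ∃ t ∈ T, s ⊆ t := Iff.rfl

lemma mem_cx_of_subset {s t : Finset V} (ht : t ∈ T) (h : s ⊆ t) : s ∈ cxOf T :=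
  Or.inr ⟨t, ht, h⟩

lemma cnt_mono {r s : Finset V} (h : r ⊆ s) : cnt T s ≤ cnt T r :=
  Finset.card_le_card fun t ht => by
    simp only [Finset.mem_filter] at ht ⊢
    exact ⟨ht.1, h.trans ht.2⟩

lemma cnt_pos {s : Finset V} : 0 < cnt T s ↔ ∃ t ∈ T, s ⊆ t := by
  simp [cnt, Finset.card_pos, Finset.filter_nonempty_iff]

lemma cnt_empty : cnt T ∅ = T.card := by simp [cnt]

lemma sum_cnt (S : Finset (Finset V)) :
    ∑ s ∈ S, cnt T s = ∑ t ∈ T, (S.filter (fun s => s ⊆ t)).card := by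
  simp only [cnt, Finset.card_filter]
  exact Finset.sum_comm

lemma sum_cnt_above (hT : IsChambers T col) (S : Finset (Finset V)) (r : Finset V)
    (hS : ∀ s ∈ S, r ⊆ s) : ∑ s ∈ S, cnt T s ≤ 2 ^ N * cnt T r := by
  rw [sum_cnt]
  calc ∑ t ∈ T, (S.filter (fun s => s ⊆ t)).card
      ≤ ∑ t ∈ T, if r ⊆ t then 2 ^ N else 0 := by
        refine Finset.sum_le_sum fun t ht => ?_
        by_cases h : r ⊆ t
        · rw [if_pos h, ← (hT t ht).1, ← Finset.card_powerset]
          exact Finset.card_le_card fun s hs => Finset.mem_powerset.2 (Finset.mem_filter.1 hs).2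
        · rw [if_neg h, Finset.filter_false_of_mem (fun s hs => ?_)]
          · simp
          · exact fun hst => h ((hS s hs).trans hst)
    _ = 2 ^ N * cnt T r := by
        rw [← Finset.sum_filter, Finset.sum_const, smul_eq_mul, cnt, mul_comm]

lemma card_face_le (hT : IsChambers T col) {s t : Finset V} (ht : t ∈ T) (h : s ⊆ t) :
    s.card ≤ N := (hT t ht).1 ▸ Finset.card_le_card h

lemma exists_col (hT : IsChambers T col) {t : Finset V} (ht : t ∈ T) (i : Fin N) :
    ∃ v ∈ t, t.filter (fun w => col w = i) = {v} ∧ col v = i := by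
  have himg : t.image col = Finset.univ := by
    refine Finset.eq_univ_of_card _ ?_
    rw [Finset.card_image_of_injOn (hT t ht).2, (hT t ht).1, Fintype.card_fin]
  obtain ⟨v, hv, hvi⟩ := Finset.mem_image.1 (himg.symm ▸ Finset.mem_univ i)
  refine ⟨v, hv, ?_, hvi⟩
  ext w
  simp only [Finset.mem_filter, Finset.mem_singleton]
  constructor
  · rintro ⟨hw, hwi⟩
    exact (hT t ht).2 hw hv (hwi.trans hvi.symm)
  · rintro rfl
    exact ⟨hv, hvi⟩

lemma atCol_of_mem (hT : IsChambers T col) {t : Finset V} (ht : t ∈ T) {v : V} (hv : v ∈ t)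
    (f : V → ℝ) : atCol col t (col v) f = f v := by
  obtain ⟨w, hw, hfil, hwi⟩ := exists_col hT ht (col v)
  have : w = v := (hT t ht).2 hw hv hwi
  rw [atCol, hfil, Finset.sum_singleton, this]

lemma atCol_sq (hT : IsChambers T col) {t : Finset V} (ht : t ∈ T) (i : Fin N) (f : V → ℝ) :
    atCol col t i (fun v => f v ^ 2) = atCol col t i f * atCol col t i f := by
  obtain ⟨w, hw, hfil, hwi⟩ := exists_col hT ht i
  rw [atCol, atCol, hfil, Finset.sum_singleton, Finset.sum_singleton, pow_two]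

lemma facesOfSize_facesOfSize (hT : IsChambers T col) {m n : ℕ} (hnm : n ≤ m) (hm : m ≤ N) :
    facesOfSize (facesOfSize T m) n = facesOfSize T n := by
  ext s
  simp only [mem_faces]
  constructor
  · rintro ⟨hc, u, ⟨-, t, ht, hut⟩, hsu⟩
    exact ⟨hc, t, ht, hsu.trans hut⟩
  · rintro ⟨hc, t, ht, hst⟩
    obtain ⟨u, hsu, hut, huc⟩ := Finset.exists_subsuperset_card_eq hst (hc ▸ hnm)
      ((hT t ht).1.symm ▸ hm)
    exact ⟨hc, u, ⟨huc, t, ht, hut⟩, hsu⟩

end Vale.Agent.P067.L2G
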