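import Mathlib
import Vale.Agent.P067.Interface
import Vale.Agent.P067.LocalGlobalBase

/-!
Symmetric contractions give expansion of links.
-/

namespace Vale.Agent.P067.L2G

open Classical Finset

variable {V : Type} {N : ℕ} {T : Finset (Finset V)} {col : V → Fin N}

lemma cobS_above {m : ℕ} {r : Finset V} {f : Finset V → ZMod 2} (hf : SuppAbove T m r f)
    {u : Finset V} (hur : Disjoint u r) :
    cobS f (u ∪ r) = ∑ v ∈ u, f (u.erase v ∪ r) := by
  rw [cobS, Finset.sum_union hur]
  have h0 : ∀ v ∈ r, f ((u ∪ r).erase v) = 0 := fun v hv => by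
    by_contra h
    exact (Finset.mem_erase.1 ((hf _ h).2 hv)).1 rfl
  rw [Finset.sum_eq_zero h0, add_zero]
  refine Finset.sum_congr rfl fun v hv => ?_
  rw [Finset.erase_union_distrib, Finset.erase_eq_of_notMem (Finset.disjoint_left.1 hur hv)]

lemma lc_single (φ : Finset V → ZMod 2) (s : Finset V) :
    Finsupp.linearCombination (ZMod 2) φ (Finsupp.single s 1) = φ s := by simp

lemma lc_bd (φ : Finset V → ZMod 2) (s : Finset V) :
    Finsupp.linearCombination (ZMod 2) φ (bd (Finsupp.single s 1)) = ∑ v ∈ s, φ (s.erase v) := by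
  simp [bd, map_sum]

lemma lc_ne_zero {φ : Finset V → ZMod 2} {c : Chain V}
    (h : Finsupp.linearCombination (ZMod 2) φ c ≠ 0) : ∃ u ∈ c.support, φ u ≠ 0 := by
  rw [Finsupp.linearCombination_apply, Finsupp.sum] at h
  obtain ⟨u, hu, hne⟩ := Finset.exists_ne_zero_of_sum_ne_zero h
  exact ⟨u, hu, fun e => hne (by rw [e, smul_zero])⟩

theorem expOfContraction_aux {k M : ℕ} {r : Finset V} (hT : IsChambers T col)
    (hrk : r.card ≤ k) (hex : ∃ t ∈ T, r ⊆ t)
    (H : Type) [Group H] [Fintype H] [MulAction H V]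
    (hfix : ∀ g : H, ∀ v ∈ r, g • v = v)
    (hmap : ∀ g : H, ∀ t ∈ T, r ⊆ t → t.image (g • ·) ∈ T)
    (htr : ∀ t ∈ T, ∀ t' ∈ T, r ⊆ t → r ⊆ t' → ∃ g : H, t.image (g • ·) = t')
    (h : Finset V → Chain V)
    (hh : ∀ s, Disjoint s r → s ∪ r ∈ cxOf T → s.card + r.card ≤ k + 1 →
      h s ∈ chainsOf {u | Disjoint u r ∧ u ∪ r ∈ cxOf T} (s.card + 1) ∧
      (h s).support.card ≤ M ∧
      bd (h s) + Finsupp.linearCombination (ZMod 2) h (bd (Finsupp.single s 1))
        = Finsupp.single s 1)
    (f : Finset V → ZMod 2) (hf : SuppAbove T (k + 1) r f) :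
    ∃ g, SuppAbove T k r g ∧
      wsz T (k + 1) (f + cobS g) ≤ M * 2 ^ N * wsz T (k + 2) (cobS f) := by
  -- the translate of a set
  let mv : H → Finset V → Finset V := fun γ s => s.image (γ • ·)
  have mv_union : ∀ γ s u, mv γ (s ∪ u) = mv γ s ∪ mv γ u := fun γ s u => Finset.image_union _ _
  have mv_r : ∀ γ, mv γ r = r := by
    intro γ
    refine (Finset.image_congr fun v hv => hfix γ v hv).trans Finset.image_id
  have mv_inv : ∀ γ s, mv γ (mv γ⁻¹ s) = s := fun γ s => by
    simp [mv, Finset.image_image, Function.comp_def]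
  have mv_inv' : ∀ γ s, mv γ⁻¹ (mv γ s) = s := fun γ s => by
    simp [mv, Finset.image_image, Function.comp_def]
  have mv_card : ∀ γ s, (mv γ s).card = s.card := fun γ s =>
    Finset.card_image_of_injective _ (MulAction.injective γ)
  have mv_disj : ∀ γ s, Disjoint s r → Disjoint (mv γ s) r := by
    intro γ s hs
    rw [← mv_r γ]
    exact (Finset.disjoint_image (MulAction.injective γ)).2 hs
  have mv_sub : ∀ γ s u, s ⊆ u → mv γ s ⊆ mv γ u := fun γ s u hsu => Finset.image_subset_image hsu
  have mv_erase : ∀ γ s v, mv γ (s.erase v) = (mv γ s).erase (γ • v) := fun γ s v =>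
    Finset.image_erase (MulAction.injective γ) s v
  have mv_face : ∀ γ n s, r ⊆ s → s ∈ facesOfSize T n → mv γ s ∈ facesOfSize T n := by
    intro γ n s hrs hs
    obtain ⟨hc, t, ht, hst⟩ := mem_faces.1 hs
    exact mem_faces.2 ⟨(mv_card γ s).trans hc, mv γ t, hmap γ t ht (hrs.trans hst), mv_sub γ _ _ hst⟩
  have mv_cnt : ∀ γ s, r ⊆ s → cnt T (mv γ s) = cnt T s := by
    intro γ s hrs
    refine (Finset.card_bij' (fun t _ => mv γ t) (fun t _ => mv γ⁻¹ t) ?_ ?_ ?_ ?_).symm
    · intro t ht
      obtain ⟨htT, hst⟩ := Finset.mem_filter.1 ht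
      exact Finset.mem_filter.2 ⟨hmap γ t htT (hrs.trans hst), mv_sub γ _ _ hst⟩
    · intro t ht
      obtain ⟨htT, hst⟩ := Finset.mem_filter.1 ht
      have hr' : r ⊆ t := by rw [← mv_r γ]; exact (mv_sub γ _ _ hrs).trans hst
      refine Finset.mem_filter.2 ⟨hmap γ⁻¹ t htT hr', ?_⟩
      rw [← mv_inv' γ s]
      exact mv_sub γ⁻¹ _ _ hst
    · intro t _; exact mv_inv' γ t
    · intro t _; exact mv_inv γ t
  -- the candidate for a given group element
  let G : H → Finset V → ZMod 2 := fun γ x =>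
    if x ∈ facesOfSize T k ∧ r ⊆ x then
      Finsupp.linearCombination (ZMod 2) (fun u => f (mv γ u ∪ r)) (h (mv γ⁻¹ (x \ r))) else 0
  have hG : ∀ γ, SuppAbove T k r (G γ) := fun γ x hx => by
    by_contra hcon
    exact hx (if_neg hcon)
  -- the faces of the link with one vertex more
  let L : Finset (Finset V) :=
    ((facesOfSize T (k + 1)).filter (fun x => r ⊆ x)).image (fun x => x \ r)
  have memL : ∀ s, s ∈ L ↔ Disjoint s r ∧ s ∪ r ∈ facesOfSize T (k + 1) := by
    intro s
    simp only [L, Finset.mem_image, Finset.mem_filter]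
    constructor
    · rintro ⟨x, ⟨hx, hrx⟩, rfl⟩
      exact ⟨Finset.sdiff_disjoint, by rwa [Finset.sdiff_union_of_subset hrx]⟩
    · rintro ⟨hd, hx⟩
      exact ⟨s ∪ r, ⟨hx, Finset.subset_union_right⟩, Finset.union_sdiff_cancel_right hd⟩
  have Lcard : ∀ s ∈ L, s.card + r.card = k + 1 := fun s hs => by
    obtain ⟨hd, hx⟩ := (memL s).1 hs
    rw [← Finset.card_union_of_disjoint hd]
    exact (mem_faces.1 hx).1
  have Lcx : ∀ s ∈ L, s ∪ r ∈ cxOf T := fun s hs => by
    obtain ⟨-, t, ht, hst⟩ := mem_faces.1 ((memL s).1 hs).2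
    exact mem_cx_of_subset ht hst
  let Bd : Finset (Finset V) :=
    (facesOfSize T (k + 2)).filter (fun τ => cobS f τ ≠ 0)
  let A : H → ℕ := fun γ => ∑ s ∈ L, ∑ u ∈ (h s).support,
    if mv γ u ∪ r ∈ Bd then cnt T (s ∪ r) else 0
  -- the value of the improved cochain
  have hval : ∀ γ, ∀ s ∈ L,
      (f + cobS (G γ)) (mv γ s ∪ r) ≠ 0 → ∃ u ∈ (h s).support, mv γ u ∪ r ∈ Bd := by
    intro γ s hs hne
    obtain ⟨hd, hx⟩ := (memL s).1 hs
    set φ : Finset V → ZMod 2 := fun u => f (mv γ u ∪ r) with hφ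
    have hGv : ∀ v ∈ s, G γ (mv γ (s.erase v) ∪ r)
        = Finsupp.linearCombination (ZMod 2) φ (h (s.erase v)) := by
      intro v hv
      have hd' : Disjoint (mv γ (s.erase v)) r :=
        mv_disj γ _ (hd.mono_left (Finset.erase_subset _ _))
      have hmem : mv γ (s.erase v) ∪ r ∈ facesOfSize T k ∧ r ⊆ mv γ (s.erase v) ∪ r := by
        refine ⟨?_, Finset.subset_union_right⟩
        rw [← mv_r γ, ← mv_union]
        refine mv_face γ k _ Finset.subset_union_right ?_
        obtain ⟨hc, t, ht, hst⟩ := mem_faces.1 hx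
        refine mem_faces.2 ⟨?_, t, ht,
          (Finset.union_subset_union (Finset.erase_subset _ _) (Finset.Subset.refl _)).trans hst⟩
        rw [Finset.card_union_of_disjoint (hd.mono_left (Finset.erase_subset _ _)),
          Finset.card_erase_of_mem hv]
        have := Lcard s hs
        have := Finset.card_pos.2 ⟨v, hv⟩
        omega
      simp only [G, hmem, and_self, if_true]
      rw [Finset.union_sdiff_cancel_right hd', mv_inv']
    have e1 : cobS (G γ) (mv γ s ∪ r)
        = Finsupp.linearCombination (ZMod 2) φ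
            (Finsupp.linearCombination (ZMod 2) h (bd (Finsupp.single s 1))) := by
      rw [cobS_above (hG γ) (mv_disj γ s hd)]
      change ∑ w ∈ s.image (γ • ·), _ = _
      rw [Finset.sum_image ((MulAction.injective γ).injOn)]
      simp only [bd, Finsupp.linearCombination_single, one_smul, map_sum]
      refine Finset.sum_congr rfl fun v hv => ?_
      rw [← mv_erase, hGv v hv]
    have e2 : f (mv γ s ∪ r) = Finsupp.linearCombination (ZMod 2) φ (Finsupp.single s 1) :=
      (lc_single φ s).symm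
    obtain ⟨hch, -, heq⟩ := hh s hd (Lcx s hs) (Lcard s hs).le
    have e3 : (f + cobS (G γ)) (mv γ s ∪ r)
        = Finsupp.linearCombination (ZMod 2) φ (bd (h s)) := by
      rw [Pi.add_apply, e1, e2]
      rw [← congrArg (Finsupp.linearCombination (ZMod 2) φ) heq, map_add, add_assoc,
        CharTwo.add_self_eq_zero, add_zero]
    have e4 : Finsupp.linearCombination (ZMod 2) φ (bd (h s))
        = Finsupp.linearCombination (ZMod 2) (fun u => cobS f (mv γ u ∪ r)) (h s) := by
      rw [bd, Finsupp.linearCombination_apply (ZMod 2) (v := fun u => ∑ v ∈ u, _) (h s),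
        Finsupp.sum, map_sum, Finsupp.linearCombination_apply, Finsupp.sum]
      refine Finset.sum_congr rfl fun u hu => ?_
      have hu' := (Finsupp.mem_supported (ZMod 2) (h s)).1 hch hu
      have hud : Disjoint u r := hu'.1.1
      rw [map_smul, map_sum, cobS_above hf (mv_disj γ u hud)]
      change _ = _ • ∑ w ∈ u.image (γ • ·), _
      rw [Finset.sum_image ((MulAction.injective γ).injOn)]
      refine congrArg _ (Finset.sum_congr rfl fun v _ => ?_)
      rw [lc_single, ← mv_erase]
    rw [e3, e4] at hne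
    obtain ⟨u, hu, hune⟩ := lc_ne_zero hne
    refine ⟨u, hu, Finset.mem_filter.2 ⟨?_, hune⟩⟩
    obtain ⟨hd', hcx⟩ := ((Finsupp.mem_supported (ZMod 2) (h s)).1 hch hu).1
    have huc : u.card = s.card + 1 := ((Finsupp.mem_supported (ZMod 2) (h s)).1 hch hu).2
    rw [← mv_r γ, ← mv_union]
    refine mv_face γ _ _ Finset.subset_union_right (mem_faces.2 ⟨?_, ?_⟩)
    · rw [Finset.card_union_of_disjoint hd', huc]
      have := Lcard s hs
      omega
    · rcases hcx with h0 | h0
      · have hu0 : u = ∅ := Finset.union_eq_empty.1 h0 |>.1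
        rw [hu0] at huc
        simp at huc
      · exact h0
  have hwA : ∀ γ, wsz T (k + 1) (f + cobS (G γ)) ≤ A γ := by
    intro γ
    rw [wsz]
    set S := (facesOfSize T (k + 1)).filter (fun x => (f + cobS (G γ)) x ≠ 0) with hS
    have hr : ∀ x ∈ S, r ⊆ x := by
      intro x hx
      have hne := (Finset.mem_filter.1 hx).2
      by_contra hcon
      refine hne ?_
      have h1 : f x = 0 := by by_contra h'; exact hcon (hf x h').2
      have h2 : cobS (G γ) x = 0 := Finset.sum_eq_zero fun v _ => by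
        by_contra h'
        exact hcon (((hG γ) _ h').2.trans (Finset.erase_subset _ _))
      simp [h1, h2]
    have hS' : ∀ x ∈ S, mv γ⁻¹ (x \ r) ∈ L ∧ mv γ (mv γ⁻¹ (x \ r)) ∪ r = x ∧
        cnt T (mv γ⁻¹ (x \ r) ∪ r) = cnt T x := by
      intro x hx
      obtain ⟨hxF, -⟩ := Finset.mem_filter.1 hx
      have e : mv γ⁻¹ (x \ r) ∪ r = mv γ⁻¹ x := by
        calc mv γ⁻¹ (x \ r) ∪ r = mv γ⁻¹ (x \ r) ∪ mv γ⁻¹ r := by rw [mv_r]
          _ = mv γ⁻¹ x := by rw [← mv_union, Finset.sdiff_union_of_subset (hr x hx)]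
      refine ⟨(memL _).2 ⟨mv_disj _ _ Finset.sdiff_disjoint, ?_⟩, ?_, ?_⟩
      · rw [e]; exact mv_face _ _ _ (hr x hx) hxF
      · rw [mv_inv, Finset.sdiff_union_of_subset (hr x hx)]
      · rw [e, mv_cnt _ _ (hr x hx)]
    calc ∑ x ∈ S, cnt T x
        ≤ ∑ x ∈ S, ∑ u ∈ (h (mv γ⁻¹ (x \ r))).support,
            if mv γ u ∪ r ∈ Bd then cnt T (mv γ⁻¹ (x \ r) ∪ r) else 0 := by
          refine Finset.sum_le_sum fun x hx => ?_
          obtain ⟨hL, heq, hcnt⟩ := hS' x hx
          obtain ⟨u, hu, hub⟩ := hval γ _ hL (heq.symm ▸ (Finset.mem_filter.1 hx).2)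
          refine le_trans ?_ (Finset.single_le_sum (fun _ _ => Nat.zero_le _) hu)
          rw [if_pos hub, hcnt]
      _ = ∑ s ∈ S.image (fun x => mv γ⁻¹ (x \ r)), ∑ u ∈ (h s).support,
            if mv γ u ∪ r ∈ Bd then cnt T (s ∪ r) else 0 := by
          refine (Finset.sum_image (g := fun x => mv γ⁻¹ (x \ r))
            (f := fun s => ∑ u ∈ (h s).support, if mv γ u ∪ r ∈ Bd then cnt T (s ∪ r) else 0)
            (fun x hx y hy he => ?_)).symm
          rw [← (hS' x hx).2.1, ← (hS' y hy).2.1]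
          exact congrArg (fun s => mv γ s ∪ r) he
      _ ≤ A γ := Finset.sum_le_sum_of_subset (fun s hs => by
          obtain ⟨x, hx, rfl⟩ := Finset.mem_image.1 hs
          exact (hS' x hx).1)
  -- averaging
  have hn : 0 < cnt T r := cnt_pos.2 hex
  have horb : ∀ (s : Finset V), s ∈ L → ∀ u ∈ (h s).support, ∀ τ ∈ Bd,
      (Finset.univ.filter (fun γ => mv γ u ∪ r = τ)).card * cnt T r
        ≤ Fintype.card H * cnt T τ := by
    intro s hs u hu τ _
    obtain ⟨hd, -⟩ := (memL s).1 hs
    obtain ⟨hch, -, -⟩ := hh s hd (Lcx s hs) (Lcard s hs).le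
    obtain ⟨-, hcx⟩ := ((Finsupp.mem_supported (ZMod 2) (h s)).1 hch hu).1
    obtain ⟨t₀, ht₀, hsub⟩ : ∃ t ∈ T, u ∪ r ⊆ t := by
      rcases hcx with h0 | h0
      · obtain ⟨t, ht, hrt⟩ := hex
        exact ⟨t, ht, by rw [h0]; exact Finset.empty_subset _⟩
      · exact h0
    have hr0 : r ⊆ t₀ := Finset.subset_union_right.trans hsub
    set Tr := T.filter (fun t => r ⊆ t) with hTr
    let fibre : Finset V → Finset H := fun t => Finset.univ.filter (fun γ => mv γ t₀ = t)
    have hfib : ∀ t ∈ Tr, (fibre t).card = (fibre t₀).card := by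
      intro t ht
      obtain ⟨htT, hrt⟩ := Finset.mem_filter.1 ht
      obtain ⟨a, ha⟩ := htr t₀ ht₀ t htT hr0 hrt
      refine (Finset.card_bij' (fun γ _ => a⁻¹ * γ) (fun γ _ => a * γ) ?_ ?_ ?_ ?_)
      · intro γ hγ
        simp only [fibre, Finset.mem_filter, Finset.mem_univ, true_and] at hγ ⊢
        have : mv (a⁻¹ * γ) t₀ = mv a⁻¹ (mv γ t₀) := by
          simp [mv, Finset.image_image, Function.comp_def, mul_smul]
        rw [this, hγ, ← ha]
        exact mv_inv' a t₀
      · intro γ hγ
        simp only [fibre, Finset.mem_filter, Finset.mem_univ, true_and] at hγ ⊢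
        have : mv (a * γ) t₀ = mv a (mv γ t₀) := by
          simp [mv, Finset.image_image, Function.comp_def, mul_smul]
        rw [this, hγ]
        exact ha
      · intro γ _; simp
      · intro γ _; simp
    have htot : Fintype.card H = cnt T r * (fibre t₀).card := by
      rw [← Finset.card_univ, Finset.card_eq_sum_card_fiberwise (f := fun γ => mv γ t₀) (t := Tr)
        (fun γ _ => Finset.mem_filter.2 ⟨hmap γ t₀ ht₀ hr0, by
          rw [← mv_r γ]; exact mv_sub γ _ _ hr0⟩), Finset.sum_congr rfl hfib,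
        Finset.sum_const, smul_eq_mul]
      rfl
    have hsub' : (Finset.univ.filter (fun γ => mv γ u ∪ r = τ))
        ⊆ (T.filter (fun t => τ ⊆ t)).biUnion fibre := by
      intro γ hγ
      simp only [Finset.mem_filter, Finset.mem_univ, true_and] at hγ
      refine Finset.mem_biUnion.2 ⟨mv γ t₀, Finset.mem_filter.2 ⟨hmap γ t₀ ht₀ hr0, ?_⟩,
        by simp [fibre]⟩
      rw [← hγ]
      calc mv γ u ∪ r = mv γ (u ∪ r) := by rw [mv_union, mv_r]
        _ ⊆ mv γ t₀ := mv_sub γ _ _ hsub
    calc (Finset.univ.filter (fun γ => mv γ u ∪ r = τ)).card * cnt T r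
        ≤ ((T.filter (fun t => τ ⊆ t)).biUnion fibre).card * cnt T r :=
          Nat.mul_le_mul_right _ (Finset.card_le_card hsub')
      _ ≤ (∑ t ∈ T.filter (fun t => τ ⊆ t), (fibre t).card) * cnt T r :=
          Nat.mul_le_mul_right _ Finset.card_biUnion_le
      _ ≤ (cnt T τ * (fibre t₀).card) * cnt T r := by
          refine Nat.mul_le_mul_right _ ?_
          rw [cnt, ← smul_eq_mul, ← Finset.sum_const]
          refine Finset.sum_le_sum fun t ht => ?_
          obtain ⟨htT, hτt⟩ := Finset.mem_filter.1 ht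
          by_cases hrt : r ⊆ t
          · exact (hfib t (Finset.mem_filter.2 ⟨htT, hrt⟩)).le
          · have : fibre t = ∅ := by
              refine Finset.filter_false_of_mem fun γ _ hγ => hrt ?_
              rw [← hγ, ← mv_r γ]
              exact mv_sub γ _ _ hr0
            simp [this]
      _ = Fintype.card H * cnt T τ := by rw [htot]; ring
  have hsum : (∑ γ, A γ) * cnt T r ≤
      Fintype.card H * (M * 2 ^ N * wsz T (k + 2) (cobS f)) * cnt T r := by
    calc (∑ γ, A γ) * cnt T r
        = ∑ s ∈ L, ∑ u ∈ (h s).support, cnt T (s ∪ r) *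
            ((Finset.univ.filter (fun γ => mv γ u ∪ r ∈ Bd)).card * cnt T r) := by
          rw [Finset.sum_mul]
          simp only [A, Finset.sum_mul]
          rw [Finset.sum_comm]
          refine Finset.sum_congr rfl fun s _ => ?_
          rw [Finset.sum_comm]
          refine Finset.sum_congr rfl fun u _ => ?_
          rw [← Finset.sum_mul, ← Finset.sum_filter, Finset.sum_const, smul_eq_mul]
          ring
      _ ≤ ∑ s ∈ L, ∑ _u ∈ (h s).support, cnt T (s ∪ r) *
            (Fintype.card H * wsz T (k + 2) (cobS f)) := by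
          refine Finset.sum_le_sum fun s hs => Finset.sum_le_sum fun u hu =>
            Nat.mul_le_mul_left _ ?_
          have hcover : (Finset.univ.filter (fun γ => mv γ u ∪ r ∈ Bd))
              ⊆ Bd.biUnion (fun τ => Finset.univ.filter (fun γ => mv γ u ∪ r = τ)) := by
            intro γ hγ
            simp only [Finset.mem_filter, Finset.mem_univ, true_and, Finset.mem_biUnion] at hγ ⊢
            exact ⟨_, hγ, rfl⟩
          refine (Nat.mul_le_mul_right _ ((Finset.card_le_card hcover).trans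
            Finset.card_biUnion_le)).trans ?_
          rw [Finset.sum_mul, wsz, Finset.mul_sum]
          exact Finset.sum_le_sum (horb s hs u hu)
      _ ≤ ∑ s ∈ L, M * (cnt T (s ∪ r) * (Fintype.card H * wsz T (k + 2) (cobS f))) := by
          refine Finset.sum_le_sum fun s hs => ?_
          rw [Finset.sum_const, smul_eq_mul]
          exact Nat.mul_le_mul_right _ (hh s ((memL s).1 hs).1 (Lcx s hs) (Lcard s hs).le).2.1
      _ ≤ _ := by
          rw [← Finset.mul_sum, ← Finset.sum_mul]
          have : ∑ s ∈ L, cnt T (s ∪ r) ≤ 2 ^ N * cnt T r := by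
            rw [← Finset.sum_image (f := cnt T) (g := fun s => s ∪ r)]
            · refine sum_cnt_above hT _ r fun x hx => ?_
              obtain ⟨s, -, rfl⟩ := Finset.mem_image.1 hx
              exact Finset.subset_union_right
            · intro s hs s' hs' e
              have := congrArg (fun x => x \ r) e
              simpa [Finset.union_sdiff_cancel_right ((memL s).1 hs).1,
                Finset.union_sdiff_cancel_right ((memL s').1 hs').1] using this
          calc M * ((∑ s ∈ L, cnt T (s ∪ r)) * (Fintype.card H * wsz T (k + 2) (cobS f)))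
              ≤ M * ((2 ^ N * cnt T r) * (Fintype.card H * wsz T (k + 2) (cobS f))) := by gcongr
            _ = _ := by ring
  obtain ⟨γ, -, hγ⟩ := Finset.exists_le_of_sum_le
    (s := (Finset.univ : Finset H)) (f := A) (g := fun _ => M * 2 ^ N * wsz T (k + 2) (cobS f))
    Finset.univ_nonempty (by
      rw [Finset.sum_const, Finset.card_univ, smul_eq_mul]
      exact Nat.le_of_mul_le_mul_right hsum hn)
  exact ⟨G γ, hG γ, (hwA γ).trans hγ⟩

end Vale.Agent.P067.L2G

namespace Vale.Agent.P067

theorem expOfContraction : ExpOfContraction := by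
  intro N V T col r k M hT _ hrk _ hex hH hh f hf
  obtain ⟨H, _, _, _, -, hfix, hmap, htr⟩ := hH
  obtain ⟨h, hh⟩ := hh
  obtain ⟨g, hg, hle⟩ := L2G.expOfContraction_aux hT hrk hex H hfix hmap htr h hh f hf
  refine ⟨g, hg, ?_⟩
  have h1 : (wsz T (k + 1) (f + cobS g) : ℝ)
      ≤ ((M : ℝ) * 2 ^ N) * (wsz T (k + 2) (cobS f) : ℝ) := by exact_mod_cast hle
  rw [div_mul_eq_mul_div, one_mul, div_le_iff₀ (by positivity)]
  have : (0 : ℝ) ≤ (wsz T (k + 2) (cobS f) : ℝ) := Nat.cast_nonneg _
  linarith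

end Vale.Agent.P067
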