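import Mathlib

/-!
Abstract trickling down for correlations between coordinates of a finite family of points.
-/

namespace Vale.Agent.P067.L2G

open Finset

variable {Ω : Type} [Fintype Ω]

/-- Unnormalised covariance on a finite set. -/
noncomputable def cvOn (s : Finset Ω) (F G : Ω → ℝ) : ℝ :=
  (s.card : ℝ) * (∑ x ∈ s, F x * G x) - (∑ x ∈ s, F x) * (∑ x ∈ s, G x)

/-- Unnormalised covariance. -/
noncomputable def cv (F G : Ω → ℝ) : ℝ := cvOn Finset.univ F G

lemma cvOn_eq_double (s : Finset Ω) (F G : Ω → ℝ) :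
    2 * cvOn s F G = ∑ q ∈ s ×ˢ s, (F q.1 - F q.2) * (G q.1 - G q.2) := by
  unfold cvOn
  rw [Finset.sum_product]
  simp only [sub_mul, mul_sub, Finset.sum_sub_distrib, Finset.sum_const, nsmul_eq_mul,
    ← Finset.mul_sum, ← Finset.sum_mul]
  ring

lemma cvOn_self_nonneg (s : Finset Ω) (F : Ω → ℝ) : 0 ≤ cvOn s F F := by
  have h := cvOn_eq_double s F F
  have : 0 ≤ ∑ q ∈ s ×ˢ s, (F q.1 - F q.2) * (F q.1 - F q.2) :=
    Finset.sum_nonneg fun q _ => mul_self_nonneg _
  linarith

lemma cvOn_cs (s : Finset Ω) (F G : Ω → ℝ) :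
    cvOn s F G ≤ Real.sqrt (cvOn s F F * cvOn s G G) := by
  have hF := cvOn_eq_double s F F
  have hG := cvOn_eq_double s G G
  have hFG := cvOn_eq_double s F G
  have cs := Finset.sum_mul_sq_le_sq_mul_sq (s ×ˢ s) (fun q => F q.1 - F q.2)
    (fun q => G q.1 - G q.2)
  simp only [pow_two] at cs
  rw [← hF, ← hG, ← hFG] at cs
  refine Real.le_sqrt_of_sq_le ?_
  nlinarith

variable {X : Type} (π : Ω → X)

open Classical in
/-- The fibre of `π` through `x`. -/
noncomputable def fib (x : Ω) : Finset Ω := Finset.univ.filter (fun y => π y = π x)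

/-- Fibrewise average. -/
noncomputable def avg (F : Ω → ℝ) (x : Ω) : ℝ := (∑ y ∈ fib π x, F y) / ((fib π x).card : ℝ)

lemma fib_congr {x y : Ω} (h : π x = π y) : fib π x = fib π y := by
  ext z; simp [fib, h]

lemma avg_congr (F : Ω → ℝ) {x y : Ω} (h : π x = π y) : avg π F x = avg π F y := by
  simp [avg, fib_congr π h]

lemma fib_card_pos (x : Ω) : 0 < (fib π x).card :=
  Finset.card_pos.2 ⟨x, by simp [fib]⟩

lemma mem_fib {x y : Ω} : y ∈ fib π x ↔ π y = π x := by simp [fib]

lemma sum_avg_mul (F G : Ω → ℝ) (hG : ∀ x y, π x = π y → G x = G y) :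
    ∑ x, avg π F x * G x = ∑ x, F x * G x := by
  classical
  rw [← Finset.sum_fiberwise_of_maps_to (g := π) (t := Finset.univ.image π)
    (fun x _ => Finset.mem_image_of_mem π (Finset.mem_univ x)) (fun x => avg π F x * G x)]
  rw [← Finset.sum_fiberwise_of_maps_to (g := π) (t := Finset.univ.image π)
    (fun x _ => Finset.mem_image_of_mem π (Finset.mem_univ x)) (fun x => F x * G x)]
  refine Finset.sum_congr rfl fun u hu => ?_
  obtain ⟨x₀, -, rfl⟩ := Finset.mem_image.1 hu
  have hfib : (Finset.univ.filter fun x => π x = π x₀) = fib π x₀ := by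
    ext y; simp [fib]
  rw [hfib]
  have h1 : ∀ x ∈ fib π x₀, avg π F x * G x = avg π F x₀ * G x₀ := fun x hx => by
    rw [avg_congr π F ((mem_fib π).1 hx), hG x x₀ ((mem_fib π).1 hx)]
  have h2 : ∀ x ∈ fib π x₀, F x * G x = F x * G x₀ := fun x hx => by
    rw [hG x x₀ ((mem_fib π).1 hx)]
  rw [Finset.sum_congr rfl h1, Finset.sum_congr rfl h2, Finset.sum_const, nsmul_eq_mul,
    ← Finset.sum_mul]
  have hne : ((fib π x₀).card : ℝ) ≠ 0 := by exact_mod_cast (fib_card_pos π x₀).ne'
  rw [avg]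
  field_simp

lemma sum_avg (F : Ω → ℝ) : ∑ x, avg π F x = ∑ x, F x := by
  simpa using sum_avg_mul π F (fun _ => 1) (fun _ _ _ => rfl)

/-- The covariance splits into a fibrewise and an averaged part. -/
lemma cv_split (F G : Ω → ℝ) :
    cv F G = (Fintype.card Ω : ℝ) * (∑ x, (F x - avg π F x) * (G x - avg π G x))
      + cv (avg π F) (avg π G) := by
  have hMF : ∀ x y, π x = π y → avg π F x = avg π F y := fun x y h => avg_congr π F h
  have hMG : ∀ x y, π x = π y → avg π G x = avg π G y := fun x y h => avg_congr π G h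
  have e1 := sum_avg_mul π F (avg π G) hMG
  have e2 : ∑ x, avg π F x * G x = ∑ x, avg π F x * avg π G x := by
    have h := sum_avg_mul π G (avg π F) hMF
    simp only [mul_comm (avg π G _), mul_comm (G _)] at h
    exact h.symm
  unfold cv cvOn
  simp only [sub_mul, mul_sub, Finset.sum_sub_distrib, sum_avg, Finset.card_univ]
  rw [e2, ← e1]
  ring

lemma cv_avg_self (F : Ω → ℝ) : cv F (avg π F) = cv (avg π F) (avg π F) := by
  unfold cv cvOn
  rw [sum_avg, sum_avg_mul π F (avg π F) (fun x y h => avg_congr π F h)]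

lemma sq_sum_nonneg (F : Ω → ℝ) : 0 ≤ ∑ x, F x * F x :=
  Finset.sum_nonneg fun x _ => mul_self_nonneg _

lemma sqrt_two (p q r s : ℝ) (hp : 0 ≤ p) (hq : 0 ≤ q) (hr : 0 ≤ r) (hs : 0 ≤ s) :
    Real.sqrt (p * q) + Real.sqrt (r * s) ≤ Real.sqrt ((p + r) * (q + s)) := by
  refine Real.le_sqrt_of_sq_le ?_
  have h1 := Real.mul_self_sqrt (mul_nonneg hp hq)
  have h2 := Real.mul_self_sqrt (mul_nonneg hr hs)
  have h4 : 0 ≤ p * s + r * q := by positivity
  have h5 : (2 * (Real.sqrt (p * q) * Real.sqrt (r * s))) ^ 2 ≤ (p * s + r * q) ^ 2 := by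
    have : (2 * (Real.sqrt (p * q) * Real.sqrt (r * s))) ^ 2 = 4 * ((p * q) * (r * s)) := by
      calc _ = 4 * ((Real.sqrt (p * q) * Real.sqrt (p * q)) *
            (Real.sqrt (r * s) * Real.sqrt (r * s))) := by ring
        _ = _ := by rw [h1, h2]
    rw [this]
    nlinarith [sq_nonneg (p * s - r * q)]
  nlinarith [abs_le_abs_of_sq_le_sq' h5 h4]
where
  abs_le_abs_of_sq_le_sq' {a b : ℝ} (h : a ^ 2 ≤ b ^ 2) (hb : 0 ≤ b) : a ≤ b :=
    (abs_le_of_sq_le_sq' h hb).2

/-- The fibrewise part, bounded by a fibrewise correlation hypothesis. -/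
lemma inner_le (F G : Ω → ℝ) (lam : ℝ) (hlam : 0 ≤ lam)
    (hloc : ∀ x, cvOn (fib π x) F G ≤
      lam * Real.sqrt (cvOn (fib π x) F F * cvOn (fib π x) G G)) :
    (∑ x, (F x - avg π F x) * (G x - avg π G x)) ≤
      lam * Real.sqrt ((∑ x, (F x - avg π F x) * (F x - avg π F x)) *
        (∑ x, (G x - avg π G x) * (G x - avg π G x))) := by
  classical
  have hmap : ∀ x ∈ (Finset.univ : Finset Ω), π x ∈ Finset.univ.image π :=
    fun x _ => Finset.mem_image_of_mem π (Finset.mem_univ x)
  have conv : ∀ (A B : Ω → ℝ) (x₀ : Ω),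
      ∑ x ∈ fib π x₀, (A x - avg π A x) * (B x - avg π B x)
        = cvOn (fib π x₀) A B / ((fib π x₀).card : ℝ) := by
    intro A B x₀
    have hne : ((fib π x₀).card : ℝ) ≠ 0 := by exact_mod_cast (fib_card_pos π x₀).ne'
    have h1 : ∀ x ∈ fib π x₀, (A x - avg π A x) * (B x - avg π B x)
        = (A x - avg π A x₀) * (B x - avg π B x₀) := fun x hx => by
      rw [avg_congr π A ((mem_fib π).1 hx), avg_congr π B ((mem_fib π).1 hx)]
    rw [Finset.sum_congr rfl h1]
    simp only [sub_mul, mul_sub, Finset.sum_sub_distrib, Finset.sum_const, nsmul_eq_mul,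
      ← Finset.mul_sum, ← Finset.sum_mul, avg, cvOn]
    field_simp
    ring
  rw [← Finset.sum_fiberwise_of_maps_to hmap (fun x => (F x - avg π F x) * (G x - avg π G x)),
    ← Finset.sum_fiberwise_of_maps_to hmap (fun x => (F x - avg π F x) * (F x - avg π F x)),
    ← Finset.sum_fiberwise_of_maps_to hmap (fun x => (G x - avg π G x) * (G x - avg π G x))]
  set a : X → ℝ := fun u => ∑ x ∈ Finset.univ.filter (fun x => π x = u),
    (F x - avg π F x) * (F x - avg π F x) with ha
  set b : X → ℝ := fun u => ∑ x ∈ Finset.univ.filter (fun x => π x = u),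
    (G x - avg π G x) * (G x - avg π G x) with hb
  have ha0 : ∀ u, 0 ≤ a u := fun u => Finset.sum_nonneg fun x _ => mul_self_nonneg _
  have hb0 : ∀ u, 0 ≤ b u := fun u => Finset.sum_nonneg fun x _ => mul_self_nonneg _
  calc ∑ u ∈ Finset.univ.image π, ∑ x ∈ Finset.univ.filter (fun x => π x = u),
        (F x - avg π F x) * (G x - avg π G x)
      ≤ ∑ u ∈ Finset.univ.image π, lam * (Real.sqrt (a u) * Real.sqrt (b u)) := by
        refine Finset.sum_le_sum fun u hu => ?_
        obtain ⟨x₀, -, rfl⟩ := Finset.mem_image.1 hu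
        have hfib : (Finset.univ.filter fun x => π x = π x₀) = fib π x₀ := by
          ext y; simp [fib]
        have hc : (0 : ℝ) < ((fib π x₀).card : ℝ) := by exact_mod_cast fib_card_pos π x₀
        simp only [ha, hb, hfib, conv]
        rw [div_le_iff₀ hc, ← Real.sqrt_mul (div_nonneg (cvOn_self_nonneg _ F) hc.le),
          div_mul_div_comm, Real.sqrt_div' _ (mul_self_nonneg _),
          Real.sqrt_mul_self hc.le]
        calc cvOn (fib π x₀) F G ≤ _ := hloc x₀
          _ = _ := by field_simp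
    _ ≤ _ := by
        rw [← Finset.mul_sum]
        refine mul_le_mul_of_nonneg_left ?_ hlam
        rw [Real.sqrt_mul (Finset.sum_nonneg fun u _ => ha0 u)]
        exact Real.sum_sqrt_mul_sqrt_le _ ha0 hb0

variable {ι : Type} [Fintype ι]

/-- `F` factors through the coordinate `i`. -/
def Fac (c : ι → Ω → X) (i : ι) : Set (Ω → ℝ) :=
  {F | ∀ x y, c i x = c i y → F x = F y}

/-- Normalised functions of the coordinate `i`. -/
def Unit' (c : ι → Ω → X) (i : ι) : Set (Ω → ℝ) :=
  {F | F ∈ Fac c i ∧ ∑ x, F x = 0 ∧ ∑ x, F x * F x = 1}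

lemma isCompact_unit (c : ι → Ω → X) (i : ι) : IsCompact (Unit' c i) := by
  refine Metric.isCompact_iff_isClosed_bounded.2 ⟨?_, ?_⟩
  · have h : Unit' c i = (⋂ x, ⋂ y, ⋂ _ : c i x = c i y, {F : Ω → ℝ | F x = F y}) ∩
        ({F | ∑ x, F x = 0} ∩ {F | ∑ x, F x * F x = 1}) := by
      ext F; simp [Unit', Fac]
    rw [h]
    refine IsClosed.inter (isClosed_iInter fun x => isClosed_iInter fun y =>
      isClosed_iInter fun _ => isClosed_eq (continuous_apply x) (continuous_apply y))
      (IsClosed.inter (isClosed_eq ?_ continuous_const) (isClosed_eq ?_ continuous_const))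
    · exact continuous_finsetSum _ fun x _ => continuous_apply x
    · exact continuous_finsetSum _ fun x _ => (continuous_apply x).mul (continuous_apply x)
  · refine (Metric.isBounded_closedBall (x := (0 : Ω → ℝ)) (r := 1)).subset ?_
    intro F hF
    rw [Metric.mem_closedBall, dist_zero_right, pi_norm_le_iff_of_nonneg zero_le_one]
    intro x
    have h : F x * F x ≤ 1 := by
      rw [← hF.2.2]
      exact Finset.single_le_sum (f := fun y => F y * F y) (fun y _ => mul_self_nonneg _)
        (Finset.mem_univ x)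
    rw [Real.norm_eq_abs]
    nlinarith [abs_mul_abs_self (F x), abs_nonneg (F x)]

/-- Trickling down: local correlation bounds and connectivity give a global bound. -/
theorem trickle (c : ι → Ω → X) (lam : ℝ) (hlam : 0 ≤ lam) (hlam1 : lam < 1)
    (hthird : ∀ i j : ι, ∃ l, l ≠ i ∧ l ≠ j)
    (hloc : ∀ i j l : ι, i ≠ j → l ≠ i → l ≠ j → ∀ F ∈ Fac c i, ∀ G ∈ Fac c j, ∀ x,
      cvOn (fib (c l) x) F G ≤
        lam * Real.sqrt (cvOn (fib (c l) x) F F * cvOn (fib (c l) x) G G))
    (hconn : ∀ F : Ω → ℝ, (∀ l, F ∈ Fac c l) → ∀ x y, F x = F y)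
    {i j : ι} (hij : i ≠ j) {F G : Ω → ℝ} (hF : F ∈ Fac c i) (hG : G ∈ Fac c j) :
    cv F G ≤ lam / (1 - lam) * Real.sqrt (cv F F * cv G G) := by
  classical
  let A : Set ℝ := insert 0 (⋃ q ∈ {q : ι × ι | q.1 ≠ q.2},
    (fun FG : (Ω → ℝ) × (Ω → ℝ) => ∑ x, FG.1 x * FG.2 x) '' (Unit' c q.1 ×ˢ Unit' c q.2))
  have hAc : IsCompact A := by
    refine IsCompact.insert ?_ 0
    refine Set.Finite.isCompact_biUnion (Set.toFinite _) fun q _ => ?_
    exact ((isCompact_unit c q.1).prod (isCompact_unit c q.2)).image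
      (continuous_finsetSum _ fun x _ =>
        ((continuous_apply x).comp continuous_fst).mul ((continuous_apply x).comp continuous_snd))
  obtain ⟨m, hmA, hmax⟩ := hAc.exists_isGreatest (Set.insert_nonempty _ _)
  have hm0 : 0 ≤ m := hmax (Set.mem_insert _ _)
  have N0 : (0 : ℝ) ≤ (Fintype.card Ω : ℝ) := Nat.cast_nonneg _
  -- the bound holds with `m`
  have hbound : ∀ a b : ι, a ≠ b → ∀ P ∈ Fac c a, ∀ Q ∈ Fac c b,
      cv P Q ≤ m * Real.sqrt (cv P P * cv Q Q) := by
    intro a b hab P hP Q hQ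
    have hPn : 0 ≤ cv P P := cvOn_self_nonneg _ P
    have hQn : 0 ≤ cv Q Q := cvOn_self_nonneg _ Q
    by_cases hz : cv P P * cv Q Q = 0
    · have h := cvOn_cs Finset.univ P Q
      change cv P Q ≤ Real.sqrt (cv P P * cv Q Q) at h
      rw [hz, Real.sqrt_zero] at h ⊢
      linarith
    obtain ⟨hP0, hQ0⟩ := mul_ne_zero_iff.1 hz
    have hn : (Fintype.card Ω : ℝ) ≠ 0 := by
      intro h
      have : Fintype.card Ω = 0 := by exact_mod_cast h
      have he : IsEmpty Ω := Fintype.card_eq_zero_iff.1 this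
      exact hP0 (by simp [cv, cvOn])
    set n : ℝ := (Fintype.card Ω : ℝ) with hndef
    have hnpos : 0 < n := lt_of_le_of_ne N0 (Ne.symm hn)
    have norm : ∀ R : Ω → ℝ, 0 < cv R R →
        ∑ x, (R x - (∑ y, R y) / n) / Real.sqrt (cv R R / n) = 0 ∧
        ∑ x, (R x - (∑ y, R y) / n) / Real.sqrt (cv R R / n) *
          ((R x - (∑ y, R y) / n) / Real.sqrt (cv R R / n)) = 1 := by
      intro R hR
      constructor
      · rw [← Finset.sum_div, Finset.sum_sub_distrib, Finset.sum_const, nsmul_eq_mul,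
          Finset.card_univ, ← hndef]
        field_simp
        ring
      · have hs : Real.sqrt (cv R R / n) * Real.sqrt (cv R R / n) = cv R R / n :=
          Real.mul_self_sqrt (div_nonneg hR.le hnpos.le)
        simp only [div_mul_div_comm, hs]
        rw [← Finset.sum_div, div_eq_one_iff_eq (by positivity)]
        simp only [sub_mul, mul_sub, Finset.sum_sub_distrib, Finset.sum_const, nsmul_eq_mul,
          ← Finset.mul_sum, ← Finset.sum_mul, cv, cvOn, Finset.card_univ, ← hndef]
        field_simp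
        ring
    have hPp : 0 < cv P P := lt_of_le_of_ne hPn (Ne.symm hP0)
    have hQp : 0 < cv Q Q := lt_of_le_of_ne hQn (Ne.symm hQ0)
    set P' : Ω → ℝ := fun x => (P x - (∑ y, P y) / n) / Real.sqrt (cv P P / n) with hP'
    set Q' : Ω → ℝ := fun x => (Q x - (∑ y, Q y) / n) / Real.sqrt (cv Q Q / n) with hQ'
    have hmem : (∑ x, P' x * Q' x) ∈ A := by
      refine Set.mem_insert_of_mem _ (Set.mem_biUnion (x := (a, b)) hab ⟨(P', Q'), ?_, rfl⟩)
      exact ⟨⟨fun x y h => by simp [hP', hP x y h], norm P hPp⟩,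
        ⟨fun x y h => by simp [hQ', hQ x y h], norm Q hQp⟩⟩
    have hle := hmax hmem
    have hsum : ∑ x, P' x * Q' x = cv P Q / Real.sqrt (cv P P * cv Q Q) := by
      simp only [hP', hQ', div_mul_div_comm]
      rw [← Finset.sum_div, ← Real.sqrt_mul (div_nonneg hPn hnpos.le), div_mul_div_comm,
        Real.sqrt_div' _ (mul_self_nonneg n), Real.sqrt_mul_self hnpos.le]
      simp only [sub_mul, mul_sub, Finset.sum_sub_distrib, Finset.sum_const, nsmul_eq_mul,
        ← Finset.mul_sum, ← Finset.sum_mul, cv, cvOn, Finset.card_univ, ← hndef]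
      field_simp
      ring
    rw [hsum, div_le_iff₀ (Real.sqrt_pos.2 (mul_pos hPp hQp))] at hle
    exact hle
  -- splitting along a third coordinate
  have hsplit : ∀ a b l : ι, a ≠ b → l ≠ a → l ≠ b → ∀ P ∈ Fac c a, ∀ Q ∈ Fac c b,
      cv P Q ≤ lam * Real.sqrt ((cv P P - cv (avg (c l) P) (avg (c l) P)) *
          (cv Q Q - cv (avg (c l) Q) (avg (c l) Q)))
        + Real.sqrt (cv (avg (c l) P) (avg (c l) P) * cv (avg (c l) Q) (avg (c l) Q)) ∧
      cv (avg (c l) P) (avg (c l) P) ≤ m ^ 2 * cv P P ∧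
      cv (avg (c l) Q) (avg (c l) Q) ≤ m ^ 2 * cv Q Q ∧
      0 ≤ cv P P - cv (avg (c l) P) (avg (c l) P) ∧
      0 ≤ cv Q Q - cv (avg (c l) Q) (avg (c l) Q) := by
    intro a b l hab hla hlb P hP Q hQ
    have hPQ := cv_split (c l) P Q
    have hPP := cv_split (c l) P P
    have hQQ := cv_split (c l) Q Q
    have hin := inner_le (c l) P Q lam hlam (hloc a b l hab hla hlb P hP Q hQ)
    have hcs := cvOn_cs Finset.univ (avg (c l) P) (avg (c l) Q)
    change cv _ _ ≤ Real.sqrt (cv _ _ * cv _ _) at hcs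
    have key : ∀ a' : ι, l ≠ a' → ∀ R ∈ Fac c a',
        cv (avg (c l) R) (avg (c l) R) ≤ m ^ 2 * cv R R := by
      intro a' hla' R hR
      have h := hbound a' l (Ne.symm hla') R hR (avg (c l) R)
        (fun x y h => avg_congr (c l) R h)
      rw [cv_avg_self] at h
      have hR0 : 0 ≤ cv R R := cvOn_self_nonneg _ R
      set u := cv (avg (c l) R) (avg (c l) R)
      have hu : 0 ≤ u := cvOn_self_nonneg _ _
      rcases hu.eq_or_lt with hu0 | hu0
      · rw [← hu0]; positivity
      rw [Real.sqrt_mul hR0] at h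
      have hsu := Real.mul_self_sqrt hu
      have hsr := Real.mul_self_sqrt hR0
      have hsu0 : 0 < Real.sqrt u := Real.sqrt_pos.2 hu0
      have h3 : Real.sqrt u ≤ m * Real.sqrt (cv R R) := by nlinarith
      nlinarith [mul_nonneg hm0 (Real.sqrt_nonneg (cv R R))]
    have hIP : 0 ≤ cv P P - cv (avg (c l) P) (avg (c l) P) := by
      rw [hPP]; simpa using mul_nonneg N0 (sq_sum_nonneg fun x => P x - avg (c l) P x)
    have hIQ : 0 ≤ cv Q Q - cv (avg (c l) Q) (avg (c l) Q) := by
      rw [hQQ]; simpa using mul_nonneg N0 (sq_sum_nonneg fun x => Q x - avg (c l) Q x)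
    refine ⟨?_, key a hla P hP, key b hlb Q hQ, hIP, hIQ⟩
    rw [hPQ, hPP, hQQ, add_sub_cancel_right, add_sub_cancel_right]
    refine add_le_add ?_ hcs
    rw [mul_mul_mul_comm, Real.sqrt_mul (mul_self_nonneg _), Real.sqrt_mul_self N0,
      mul_left_comm lam]
    exact mul_le_mul_of_nonneg_left hin N0
  -- `m` is small
  have hm : (1 - lam) * m ≤ lam := by
    rcases hm0.eq_or_lt with h | hmpos
    · rw [← h]; simpa using hlam
    have hmA' : m ∈ ⋃ q ∈ {q : ι × ι | q.1 ≠ q.2},
        (fun FG : (Ω → ℝ) × (Ω → ℝ) => ∑ x, FG.1 x * FG.2 x) ''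
          (Unit' c q.1 ×ˢ Unit' c q.2) := by
      rcases hmA with h | h
      · exact absurd h hmpos.ne'
      · exact h
    obtain ⟨⟨a, b⟩, hab, ⟨P, Q⟩, ⟨⟨hPa, hP0, hP1⟩, ⟨hQb, hQ0, hQ1⟩⟩, hPQ⟩ :=
      Set.mem_iUnion₂.1 hmA'
    simp only at hPQ hab hPa hP0 hP1 hQb hQ0 hQ1
    set n : ℝ := (Fintype.card Ω : ℝ) with hndef
    have hnpos : 0 < n := by
      have : Nonempty Ω := by
        by_contra hne
        rw [not_nonempty_iff] at hne
        simp at hP1
      rw [hndef]; exact_mod_cast Fintype.card_pos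
    have cPP : cv P P = n := by simp [cv, cvOn, hP0, hP1, hndef]
    have cQQ : cv Q Q = n := by simp [cv, cvOn, hQ0, hQ1, hndef]
    have cPQ : cv P Q = n * m := by simp [cv, cvOn, hP0, hQ0, hPQ, hndef]
    have hm1 : m ≤ 1 := by
      have h : 0 ≤ ∑ x, (P x - Q x) * (P x - Q x) := sq_sum_nonneg fun x => P x - Q x
      simp only [sub_mul, mul_sub, Finset.sum_sub_distrib, mul_comm (Q _) (P _)] at h
      linarith
    rcases hm1.eq_or_lt with h1 | h1
    · exfalso
      have hPQe : P = Q := by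
        have h : ∑ x, (P x - Q x) * (P x - Q x) = 0 := by
          simp only [sub_mul, mul_sub, Finset.sum_sub_distrib, mul_comm (Q _) (P _)]
          linarith
        funext x
        have h' := (Finset.sum_eq_zero_iff_of_nonneg
          (fun y _ => mul_self_nonneg (P y - Q y))).1 h x (Finset.mem_univ x)
        exact sub_eq_zero.1 (mul_self_eq_zero.1 h')
      subst hPQe
      have hall : ∀ l, P ∈ Fac c l := by
        intro l
        by_cases hla : l = a
        · exact hla ▸ hPa
        by_cases hlb : l = b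
        · exact hlb ▸ hQb
        obtain ⟨h, h2, -, hI, -⟩ := hsplit a b l hab hla hlb P hPa P hQb
        have hU : 0 ≤ cv (avg (c l) P) (avg (c l) P) := cvOn_self_nonneg _ _
        rw [Real.sqrt_mul_self hI, Real.sqrt_mul_self hU] at h
        have hI0 : cv P P - cv (avg (c l) P) (avg (c l) P) = 0 := by nlinarith
        have hz : ∑ x, (P x - avg (c l) P x) * (P x - avg (c l) P x) = 0 := by
          have := cv_split (c l) P P
          have : n * ∑ x, (P x - avg (c l) P x) * (P x - avg (c l) P x) = 0 := by linarith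
          exact (mul_eq_zero.1 this).resolve_left hnpos.ne'
        intro x y hxy
        have e : ∀ w, P w = avg (c l) P w := fun w => by
          have h' := (Finset.sum_eq_zero_iff_of_nonneg
            (fun u _ => mul_self_nonneg (P u - avg (c l) P u))).1 hz w (Finset.mem_univ w)
          exact sub_eq_zero.1 (mul_self_eq_zero.1 h')
        rw [e x, e y, avg_congr (c l) P hxy]
      have hcon := hconn P hall
      have hz : ∀ x, P x = 0 := fun x => by
        have : ∑ y, P y = n * P x := by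
          rw [Finset.sum_congr rfl (fun y _ => hcon y x), Finset.sum_const, nsmul_eq_mul,
            Finset.card_univ]
        rw [hP0] at this
        exact (mul_eq_zero.1 this.symm).resolve_left hnpos.ne'
      simp [hz] at hP1
    · obtain ⟨l, hla, hlb⟩ := hthird a b
      obtain ⟨h, hA', hB', hIA, hIB⟩ := hsplit a b l hab hla hlb P hPa Q hQb
      rw [cPP] at hA' hIA h
      rw [cQQ] at hB' hIB h
      rw [cPQ] at h
      set u := cv (avg (c l) P) (avg (c l) P)
      set v := cv (avg (c l) Q) (avg (c l) Q)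
      have hu : 0 ≤ u := cvOn_self_nonneg _ _
      have hv : 0 ≤ v := cvOn_self_nonneg _ _
      have h2 := sqrt_two (n - u) (n - v) u v hIA hIB hu hv
      rw [sub_add_cancel, sub_add_cancel, Real.sqrt_mul_self hnpos.le] at h2
      have h3 : Real.sqrt (u * v) ≤ m ^ 2 * n := by
        rw [Real.sqrt_le_left (by positivity)]
        nlinarith [mul_le_mul hA' hB' hv (by positivity)]
      have h4 : m ≤ lam + (1 - lam) * m ^ 2 := by
        refine le_of_mul_le_mul_left ?_ hnpos
        nlinarith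
      by_contra hcon
      nlinarith
  have hfin : m ≤ lam / (1 - lam) := by
    rw [le_div_iff₀ (by linarith)]; linarith
  exact (hbound i j hij F hF G hG).trans
    (mul_le_mul_of_nonneg_right hfin (Real.sqrt_nonneg _))

end Vale.Agent.P067.L2G
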