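import Mathlib
import Vale.Agent.P067.Chambers
import Vale.Agent.P067.LocalGlobalBase
import Vale.Agent.P067.LocalGlobalCorr

/-!
Trickling down from the faces of corank two to all faces.
-/

namespace Vale.Agent.P067.L2G

open Classical Finset

variable {V : Type} {N : ℕ} {T : Finset (Finset V)} {col : V → Fin N}

lemma corrAt_mono {r : Finset V} {i j : Fin N} {a b : ℝ} (hab : a ≤ b)
    (h : CorrAt T col r i j a) : CorrAt T col r i j b :=
  fun f g => (h f g).trans (mul_le_mul_of_nonneg_right hab (Real.sqrt_nonneg _))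

lemma corrAt_step (hT : IsChambers T col) (hC : LinksConn T N) {r : Finset V}
    (hr : r ∈ cxOf T) (hcard : r.card + 3 ≤ N) {lam : ℝ} (hl0 : 0 ≤ lam) (hl1 : lam < 1)
    (hup : ∀ v, v ∉ r → insert v r ∈ cxOf T → ∀ i j : Fin N, i ≠ j →
      (∀ w ∈ insert v r, col w ≠ i) → (∀ w ∈ insert v r, col w ≠ j) →
      CorrAt T col (insert v r) i j lam)
    {i j : Fin N} (hij : i ≠ j) (hi : ∀ w ∈ r, col w ≠ i) (hj : ∀ w ∈ r, col w ≠ j) :
    CorrAt T col r i j (lam / (1 - lam)) := by
  let ι := {l : Fin N // ∀ w ∈ r, col w ≠ l}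
  let Ω := ↥(T.filter (fun t => r ⊆ t))
  let c : ι → Ω → Finset V := fun l x => x.1.filter (fun w => col w = l.1)
  have hxT : ∀ x : Ω, x.1 ∈ T ∧ r ⊆ x.1 := fun x => Finset.mem_filter.1 x.2
  have hthird : ∀ a b : ι, ∃ l, l ≠ a ∧ l ≠ b := by
    intro a b
    have hS : (insert a.1 (insert b.1 (r.image col))).card < (Finset.univ : Finset (Fin N)).card :=
      calc _ ≤ r.card + 2 := by
            refine (Finset.card_insert_le _ _).trans (Nat.add_le_add_right ?_ 1)
            exact (Finset.card_insert_le _ _).trans (Nat.add_le_add_right Finset.card_image_le 1)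
        _ < N := by omega
        _ = _ := by simp
    obtain ⟨l, -, hl⟩ := Finset.exists_mem_notMem_of_card_lt_card hS
    simp only [Finset.mem_insert, Finset.mem_image, not_or, not_exists, not_and] at hl
    exact ⟨⟨l, fun w hw => hl.2.2 w hw⟩, fun h => hl.1 (congrArg Subtype.val h),
      fun h => hl.2.1 (congrArg Subtype.val h)⟩
  -- a coordinate function comes from a function on vertices
  have hlift : ∀ (a : ι) (F : Ω → ℝ), F ∈ Fac c a →
      ∃ f : V → ℝ, ∀ x : Ω, F x = atCol col x.1 a.1 f := by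
    intro a F hF
    refine ⟨fun v => if h : ∃ x : Ω, v ∈ x.1 ∧ col v = a.1 then F h.choose else 0, fun x => ?_⟩
    obtain ⟨v, hv, hfil, hva⟩ := exists_col hT (hxT x).1 a.1
    have h : ∃ y : Ω, v ∈ y.1 ∧ col v = a.1 := ⟨x, hv, hva⟩
    rw [atCol, hfil, Finset.sum_singleton, dif_pos h]
    obtain ⟨w, hw, hwfil, hwa⟩ := exists_col hT (hxT h.choose).1 a.1
    have : w = v := (hT _ (hxT h.choose).1).2 hw h.choose_spec.1 (hwa.trans h.choose_spec.2.symm)
    refine (hF h.choose x ?_).symm
    simp only [c, hwfil, hfil, this]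
  have hloc : ∀ a b l : ι, a ≠ b → l ≠ a → l ≠ b → ∀ F ∈ Fac c a, ∀ G ∈ Fac c b, ∀ x,
      cvOn (fib (c l) x) F G ≤
        lam * Real.sqrt (cvOn (fib (c l) x) F F * cvOn (fib (c l) x) G G) := by
    intro a b l hab hla hlb F hF G hG x
    obtain ⟨v, hv, hfil, hvl⟩ := exists_col hT (hxT x).1 l.1
    have hvr : v ∉ r := fun h => l.2 v h hvl
    obtain ⟨f, hf⟩ := hlift a F hF
    obtain ⟨g, hg⟩ := hlift b G hG
    have hfib : (fib (c l) x).image Subtype.val = T.filter (fun t => insert v r ⊆ t) := by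
      ext t
      simp only [Finset.mem_image, mem_fib, Finset.mem_filter, Finset.insert_subset_iff, c, hfil]
      constructor
      · rintro ⟨y, hy, rfl⟩
        have : v ∈ y.1.filter (fun w => col w = l.1) := by rw [hy]; simp
        exact ⟨(hxT y).1, (Finset.mem_filter.1 this).1, (hxT y).2⟩
      · rintro ⟨htT, hvt, hrt⟩
        refine ⟨⟨t, Finset.mem_filter.2 ⟨htT, hrt⟩⟩, ?_, rfl⟩
        obtain ⟨w, hw, hwfil, hwl⟩ := exists_col hT htT l.1
        rw [hwfil, (hT t htT).2 hw hvt (hwl.trans hvl.symm)]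
    have hsum : ∀ φ : Finset V → ℝ, ∑ y ∈ fib (c l) x, φ y.1
        = ∑ t ∈ T.filter (fun t => insert v r ⊆ t), φ t := fun φ => by
      rw [← hfib, Finset.sum_image (fun y _ z _ h => Subtype.ext h)]
    have hcard' : ((fib (c l) x).card : ℝ) = cnt T (insert v r) := by
      rw [cnt, ← hfib, Finset.card_image_of_injective _ Subtype.val_injective]
    have havoid : ∀ a' : ι, l ≠ a' → ∀ w ∈ insert v r, col w ≠ a'.1 := by
      intro a' ha' w hw
      rcases Finset.mem_insert.1 hw with rfl | h
      · rw [hvl]; exact fun h => ha' (Subtype.ext h)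
      · exact a'.2 w h
    have hcx : insert v r ∈ cxOf T :=
      mem_cx_of_subset (hxT x).1 (Finset.insert_subset hv (hxT x).2)
    have key := hup v hvr hcx a.1 b.1 (fun h => hab (Subtype.ext h)) (havoid a hla) (havoid b hlb)
      f g
    have esq : ∀ (k : Fin N) (φ : V → ℝ), colSum T col (insert v r) k (fun w => φ w ^ 2)
        = ∑ t ∈ T.filter (fun t => insert v r ⊆ t), atCol col t k φ * atCol col t k φ :=
      fun k φ => Finset.sum_congr rfl fun t ht => atCol_sq hT (Finset.mem_filter.1 ht).1 k φ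
    simp only [cvOn, hf, hg, hcard',
      hsum (fun t => atCol col t a.1 f * atCol col t b.1 g),
      hsum (fun t => atCol col t a.1 f * atCol col t a.1 f),
      hsum (fun t => atCol col t b.1 g * atCol col t b.1 g),
      hsum (fun t => atCol col t a.1 f), hsum (fun t => atCol col t b.1 g)]
    rw [esq, esq] at key
    simpa only [colSum, pow_two] using key
  have hconn : ∀ F : Ω → ℝ, (∀ l, F ∈ Fac c l) → ∀ x y, F x = F y := by
    intro F hF x y
    have hfree : ∀ (z : Ω) (a : V), a ∈ z.1 → a ∉ r → ∀ w ∈ r, col w ≠ col a :=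
      fun z a ha har w hw h => har ((hT _ (hxT z).1).2 ((hxT z).2 hw) ha h ▸ hw)
    have same : ∀ z z' : Ω, ∀ a, a ∈ z.1 → a ∈ z'.1 → a ∉ r → F z = F z' := by
      intro z z' a ha ha' har
      refine hF ⟨col a, hfree z a ha har⟩ z z' ?_
      obtain ⟨v, hv, hfil, hva⟩ := exists_col hT (hxT z).1 (col a)
      obtain ⟨v', hv', hfil', hva'⟩ := exists_col hT (hxT z').1 (col a)
      have e : v = a := (hT _ (hxT z).1).2 hv ha hva
      have e' : v' = a := (hT _ (hxT z').1).2 hv' ha' hva'
      simp only [c, hfil, hfil', e, e']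
    have hlt : ∀ z : Ω, ∃ a ∈ z.1, a ∉ r := fun z =>
      Finset.exists_mem_notMem_of_card_lt_card (by rw [(hT _ (hxT z).1).1]; omega)
    obtain ⟨a, hax, har⟩ := hlt x
    obtain ⟨b, hby, hbr⟩ := hlt y
    have hpath := hC r (by omega) hr a b har hbr
      (mem_cx_of_subset (hxT x).1 (Finset.insert_subset hax (hxT x).2))
      (mem_cx_of_subset (hxT y).1 (Finset.insert_subset hby (hxT y).2))
    have : ∀ e, Relation.ReflTransGen
        (fun a b => a ∉ r ∧ b ∉ r ∧ insert a (insert b r) ∈ cxOf T) a e →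
        ∀ z : Ω, e ∈ z.1 → e ∉ r → F z = F x := by
      intro e he
      induction he with
      | refl => exact fun z hz he' => same z x a hz hax he'
      | tail _ hstep ih =>
        intro z hz hzr
        obtain ⟨h1, h2, h3⟩ := hstep
        rcases h3 with h3 | ⟨t, htT, hsub⟩
        · exact absurd h3 (Finset.insert_ne_empty _ _)
        · simp only [Finset.insert_subset_iff] at hsub
          let z' : Ω := ⟨t, Finset.mem_filter.2 ⟨htT, hsub.2.2⟩⟩
          exact (same z z' _ hz hsub.2.1 hzr).trans (ih z' hsub.1 h1)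
    exact ((this b hpath) y hby hbr).symm
  intro f g
  have hfac : ∀ (a : ι) (φ : V → ℝ), (fun x : Ω => atCol col x.1 a.1 φ) ∈ Fac c a := by
    intro a φ x y h
    simp only [c] at h
    simp only [atCol, h]
  have key := trickle (Ω := Ω) c lam hl0 hl1 hthird hloc hconn
    (i := ⟨i, hi⟩) (j := ⟨j, hj⟩) (fun h => hij (congrArg Subtype.val h))
    (hfac ⟨i, hi⟩ f) (hfac ⟨j, hj⟩ g)
  have hsum : ∀ φ : Finset V → ℝ, ∑ x : Ω, φ x.1 = ∑ t ∈ T.filter (fun t => r ⊆ t), φ t :=
    fun φ => Finset.sum_coe_sort _ φ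
  have hc : (Finset.univ : Finset Ω).card = cnt T r := by
    rw [Finset.card_univ]; exact Fintype.card_coe _
  have esq : ∀ (k : Fin N) (φ : V → ℝ), colSum T col r k (fun w => φ w ^ 2)
      = ∑ t ∈ T.filter (fun t => r ⊆ t), atCol col t k φ * atCol col t k φ :=
    fun k φ => Finset.sum_congr rfl fun t ht => atCol_sq hT (Finset.mem_filter.1 ht).1 k φ
  simp only [cv, cvOn, hc, hsum (fun t => atCol col t i f * atCol col t j g),
    hsum (fun t => atCol col t i f * atCol col t i f),
    hsum (fun t => atCol col t j g * atCol col t j g),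
    hsum (fun t => atCol col t i f), hsum (fun t => atCol col t j g)] at key
  rw [esq, esq]
  simpa only [colSum, pow_two] using key

/-- All correlations are small once those of corank two are. -/
lemma corr_all (hT : IsChambers T col) (hC : LinksConn T N) {lam : ℝ} (hl : 0 ≤ lam)
    (hsmall : 2 ^ N * lam ≤ 1 / 2) (hb : CorrBase T col lam) :
    ∀ (e : ℕ) (r : Finset V), r ∈ cxOf T → r.card + 2 + e = N → ∀ i j : Fin N, i ≠ j →
      (∀ w ∈ r, col w ≠ i) → (∀ w ∈ r, col w ≠ j) →
      CorrAt T col r i j (2 ^ e * lam) := by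
  intro e
  induction e with
  | zero =>
    intro r hr hc i j hij hi hj
    simpa using hb r (by omega) hr i j hij hi hj
  | succ e ih =>
    intro r hr hc i j hij hi hj
    have h2 : (2 : ℝ) ^ e * lam ≤ 1 / 2 := by
      refine le_trans (mul_le_mul_of_nonneg_right ?_ hl) hsmall
      exact pow_le_pow_right₀ (by norm_num) (by omega)
    have h0 : (0 : ℝ) ≤ 2 ^ e * lam := by positivity
    refine corrAt_mono ?_ (corrAt_step hT hC hr (by omega) h0 (by linarith)
      (fun v hv hcx a b hab ha hb' => ih _ hcx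
        (by rw [Finset.card_insert_of_notMem hv]; omega) a b hab ha hb') hij hi hj)
    rw [div_le_iff₀ (by linarith), pow_succ]
    nlinarith

end Vale.Agent.P067.L2G
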