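import Mathlib
import Vale.Agent.P067.Chambers
import Vale.Agent.P067.LocalGlobalBase
import Vale.Agent.P067.LocalGlobalTrickle

/-!
Small locally minimal cocycles vanish.
-/

namespace Vale.Agent.P067.L2G

open Classical Finset

variable {V : Type} {N : ℕ} {T : Finset (Finset V)} {col : V → Fin N}

/-- Growth factors for the sizes of the fat sets. -/
noncomputable def growth (N : ℕ) (e : ℝ) : ℕ → ℝ
  | 0 => 1
  | j + 1 => (N : ℝ) * growth N e j ^ 2 / e

lemma one_le_growth {N : ℕ} {e : ℝ} (hN : 1 ≤ N) (he : 0 < e) (he1 : e ≤ 1) :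
    ∀ j, 1 ≤ growth N e j ∧ growth N e j ≤ growth N e (j + 1) := by
  have step : ∀ j, 1 ≤ growth N e j → growth N e j ≤ growth N e (j + 1) := by
    intro j h
    rw [growth, le_div_iff₀ he]
    have : (1 : ℝ) ≤ N := by exact_mod_cast hN
    calc growth N e j * e ≤ growth N e j * 1 := by gcongr
      _ ≤ growth N e j * growth N e j := by gcongr
      _ ≤ (N : ℝ) * growth N e j ^ 2 := by rw [← sq]; nlinarith [sq_nonneg (growth N e j)]
  have one : ∀ j, 1 ≤ growth N e j := by
    intro j
    induction j with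
    | zero => simp [growth]
    | succ j ih => exact ih.trans (step j ih)
  exact fun j => ⟨one j, step j (one j)⟩

lemma growth_le {N : ℕ} {e : ℝ} (hN : 1 ≤ N) (he : 0 < e) (he1 : e ≤ 1) {i j : ℕ} (h : i ≤ j) :
    growth N e i ≤ growth N e j :=
  monotone_nat_of_le_succ (fun n => (one_le_growth hN he he1 n).2) h

/-- The fat sets, indexed by their codepth. -/
noncomputable def fatLevel (T : Finset (Finset V)) (N : ℕ) (e : ℝ) (k : ℕ)
    (z : Finset V → ZMod 2) : ℕ → Finset (Finset V)
  | 0 => (facesOfSize T (k + 1)).filter (fun s => z s ≠ 0)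
  | j + 1 => (facesOfSize T (k - j)).filter (fun ρ => j < k ∧
      e / growth N e j * (cnt T ρ : ℝ) <
        ∑ σ ∈ (fatLevel T N e k z j).filter (fun σ => ρ ⊆ σ), (cnt T σ : ℝ))

lemma mem_fatLevel {e : ℝ} {k : ℕ} {z : Finset V → ZMod 2} {j : ℕ} {s : Finset V}
    (h : s ∈ fatLevel T N e k z j) :
    j ≤ k ∧ s.card = k + 1 - j ∧ ∃ t ∈ T, s ⊆ t := by
  cases j with
  | zero =>
    simp only [fatLevel, Finset.mem_filter, mem_faces] at h
    exact ⟨Nat.zero_le _, by omega, h.1.2⟩
  | succ j =>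
    simp only [fatLevel, Finset.mem_filter, mem_faces] at h
    exact ⟨h.2.1, by omega, h.1.2⟩

/-- Weight of a level of fat sets. -/
lemma sum_fatLevel_le (hT : IsChambers T col) (hN : 1 ≤ N) {e : ℝ} (he : 0 < e) (he1 : e ≤ 1)
    (k : ℕ) (z : Finset V → ZMod 2) :
    ∀ j, ∑ σ ∈ fatLevel T N e k z j, (cnt T σ : ℝ) ≤ growth N e j * (wsz T (k + 1) z : ℝ) := by
  intro j
  induction j with
  | zero => simp [fatLevel, growth, wsz]
  | succ j ih =>
    have hg := (one_le_growth hN he he1 j).1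
    have hp : 0 < e / growth N e j := by positivity
    refine le_of_mul_le_mul_left ?_ hp
    set F := fatLevel T N e k z j with hF
    calc e / growth N e j * ∑ σ ∈ fatLevel T N e k z (j + 1), (cnt T σ : ℝ)
        = ∑ ρ ∈ fatLevel T N e k z (j + 1), e / growth N e j * (cnt T ρ : ℝ) := Finset.mul_sum _ _ _
      _ ≤ ∑ ρ ∈ fatLevel T N e k z (j + 1), ∑ σ ∈ F.filter (fun σ => ρ ⊆ σ), (cnt T σ : ℝ) := by
          refine Finset.sum_le_sum fun ρ hρ => ?_
          simp only [fatLevel, Finset.mem_filter] at hρ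
          exact hρ.2.2.le
      _ = ∑ σ ∈ F, ∑ ρ ∈ (fatLevel T N e k z (j + 1)).filter (fun ρ => ρ ⊆ σ),
            (cnt T σ : ℝ) := by
          refine Finset.sum_comm' ?_
          simp only [Finset.mem_filter]
          tauto
      _ ≤ ∑ σ ∈ F, (N : ℝ) * (cnt T σ : ℝ) := by
          refine Finset.sum_le_sum fun σ hσ => ?_
          rw [Finset.sum_const, nsmul_eq_mul]
          refine mul_le_mul_of_nonneg_right ?_ (Nat.cast_nonneg _)
          obtain ⟨hjk, hc, t, htT, hst⟩ := mem_fatLevel hσ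
          have hsub : (fatLevel T N e k z (j + 1)).filter (fun ρ => ρ ⊆ σ)
              ⊆ σ.image (fun v => σ.erase v) := by
            intro ρ hρ
            obtain ⟨hρ, hρσ⟩ := Finset.mem_filter.1 hρ
            obtain ⟨hjk', hρc, -⟩ := mem_fatLevel hρ
            obtain ⟨v, hv, hvρ⟩ := Finset.exists_mem_notMem_of_card_lt_card
              (show ρ.card < σ.card by omega)
            refine Finset.mem_image.2 ⟨v, hv, (Finset.eq_of_subset_of_card_le ?_ ?_).symm⟩
            · exact fun x hx => Finset.mem_erase.2 ⟨fun h => hvρ (h ▸ hx), hρσ hx⟩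
            · rw [Finset.card_erase_of_mem hv]; omega
          exact_mod_cast (Finset.card_le_card hsub).trans
            (Finset.card_image_le.trans (card_face_le hT htT hst))
      _ = (N : ℝ) * ∑ σ ∈ F, (cnt T σ : ℝ) := (Finset.mul_sum _ _ _).symm
      _ ≤ (N : ℝ) * (growth N e j * (wsz T (k + 1) z : ℝ)) := by gcongr
      _ = e / growth N e j * (growth N e (j + 1) * (wsz T (k + 1) z : ℝ)) := by
          rw [growth]; field_simp

/-- A fat set. -/
def Fat (T : Finset (Finset V)) (N : ℕ) (e : ℝ) (k : ℕ) (z : Finset V → ZMod 2)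
    (ρ : Finset V) : Prop :=
  ∃ j, ρ ∈ fatLevel T N e k z j

lemma fat_nonempty {e : ℝ} {k : ℕ} {z : Finset V → ZMod 2} {ρ : Finset V}
    (h : Fat T N e k z ρ) : ρ.Nonempty ∧ ρ.card ≤ k + 1 := by
  obtain ⟨j, hj⟩ := h
  obtain ⟨hjk, hc, -⟩ := mem_fatLevel hj
  exact ⟨Finset.card_pos.1 (by omega), by omega⟩

/-- Pairs of distinct fat sets above a thin set are rare. -/
lemma pair_bound (hT : IsChambers T col) {Λ η : ℝ} (hΛ : 0 ≤ Λ)
    {ρ : Finset V} (hρ : ∃ t ∈ T, ρ ⊆ t)
    (hcorr : ∀ i l : Fin N, i ≠ l → (∀ w ∈ ρ, col w ≠ i) → (∀ w ∈ ρ, col w ≠ l) →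
      CorrAt T col ρ i l Λ)
    (S : Finset (Finset V)) (hS : ∀ σ ∈ S, ρ ⊆ σ ∧ σ.card = ρ.card + 1)
    (hthin : ∑ σ ∈ S, (cnt T σ : ℝ) ≤ η * (cnt T ρ : ℝ)) :
    ∑ q ∈ S.offDiag, (cnt T (q.1 ∪ q.2) : ℝ) ≤
      (η + (N : ℝ) * Λ) * ∑ σ ∈ S, (cnt T σ : ℝ) := by
  set Tr := T.filter (fun t => ρ ⊆ t) with hTr
  set n : ℝ := (cnt T ρ : ℝ) with hn
  have hnpos : 0 < n := by rw [hn]; exact_mod_cast cnt_pos.2 hρ
  set f : Fin N → V → ℝ := fun i v =>
    if v ∉ ρ ∧ insert v ρ ∈ S ∧ col v = i then 1 else 0 with hf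
  set A : Fin N → Finset V → ℝ := fun i t => atCol col t i (f i) with hA
  have hA01 : ∀ i, ∀ t ∈ Tr, A i t * A i t = A i t ∧ 0 ≤ A i t := by
    intro i t ht
    obtain ⟨v, hv, hfil, hvi⟩ := exists_col hT (Finset.mem_filter.1 ht).1 i
    simp only [hA, atCol, hfil, Finset.sum_singleton, hf]
    split <;> norm_num
  have hAρ : ∀ i, (∃ w ∈ ρ, col w = i) → ∀ t ∈ Tr, A i t = 0 := by
    rintro i ⟨w, hw, rfl⟩ t ht
    obtain ⟨htT, hrt⟩ := Finset.mem_filter.1 ht
    simp only [hA, atCol_of_mem hT htT (hrt hw), hf]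
    simp [hw]
  have hX : ∀ t ∈ Tr, ∑ i, A i t = ((S.filter (fun σ => σ ⊆ t)).card : ℝ) := by
    intro t ht
    obtain ⟨htT, hrt⟩ := Finset.mem_filter.1 ht
    have h1 : ∑ i, A i t = ∑ v ∈ t, if v ∉ ρ ∧ insert v ρ ∈ S then (1 : ℝ) else 0 := by
      simp only [hA, atCol]
      rw [← Finset.sum_fiberwise t col (fun v => if v ∉ ρ ∧ insert v ρ ∈ S then (1 : ℝ) else 0)]
      refine Finset.sum_congr rfl fun i _ => Finset.sum_congr rfl fun v hv => ?_
      simp [hf, (Finset.mem_filter.1 hv).2]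
    rw [h1, Finset.sum_boole]
    refine congrArg Nat.cast (Finset.card_bij (fun v _ => insert v ρ) ?_ ?_ ?_)
    · intro v hv
      simp only [Finset.mem_filter] at hv ⊢
      exact ⟨hv.2.2, Finset.insert_subset hv.1 hrt⟩
    · intro v hv w hw h
      simp only [Finset.mem_filter] at hv hw
      have : v ∈ insert w ρ := h ▸ Finset.mem_insert_self v ρ
      exact (Finset.mem_insert.1 this).resolve_right hv.2.1
    · intro σ hσ
      obtain ⟨hσS, hσt⟩ := Finset.mem_filter.1 hσ
      obtain ⟨hρσ, hc⟩ := hS σ hσS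
      obtain ⟨v, hv, hvρ⟩ := Finset.exists_mem_notMem_of_card_lt_card
        (show ρ.card < σ.card by omega)
      have e : insert v ρ = σ := Finset.eq_of_subset_of_card_le (Finset.insert_subset hv hρσ)
        (by rw [Finset.card_insert_of_notMem hvρ]; omega)
      exact ⟨v, Finset.mem_filter.2 ⟨hσt hv, hvρ, e.symm ▸ hσS⟩, e⟩
  set Si : Fin N → ℝ := fun i => ∑ t ∈ Tr, A i t with hSi
  have hSi0 : ∀ i, 0 ≤ Si i := fun i => Finset.sum_nonneg fun t ht => (hA01 i t ht).2
  have hsub : ∀ σ ∈ S, T.filter (fun t => σ ⊆ t) = Tr.filter (fun t => σ ⊆ t) := fun σ hσ => by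
    rw [hTr, Finset.filter_filter]
    exact Finset.filter_congr fun t _ => ⟨fun h => ⟨(hS σ hσ).1.trans h, h⟩, fun h => h.2⟩
  have hSsum : ∑ σ ∈ S, (cnt T σ : ℝ) = ∑ i, Si i := by
    rw [Finset.sum_comm, Finset.sum_congr rfl hX, ← Nat.cast_sum, ← Nat.cast_sum]
    refine congrArg Nat.cast ?_
    simp only [cnt]
    rw [Finset.sum_congr rfl (fun σ hσ => congrArg Finset.card (hsub σ hσ))]
    simp only [Finset.card_filter]
    exact Finset.sum_comm
  have hpair : ∑ q ∈ S.offDiag, (cnt T (q.1 ∪ q.2) : ℝ)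
      = ∑ q ∈ (Finset.univ : Finset (Fin N)).offDiag, ∑ t ∈ Tr, A q.1 t * A q.2 t := by
    rw [Finset.sum_comm]
    have hq : ∀ q ∈ S.offDiag, cnt T (q.1 ∪ q.2)
        = ∑ t ∈ Tr, if q.1 ⊆ t ∧ q.2 ⊆ t then 1 else 0 := by
      intro q hq
      rw [Finset.mem_offDiag] at hq
      rw [cnt, ← Finset.card_filter, hTr, Finset.filter_filter]
      refine congrArg Finset.card (Finset.filter_congr fun t _ => ?_)
      rw [Finset.union_subset_iff]
      exact ⟨fun h => ⟨(hS _ hq.1).1.trans h.1, h⟩, fun h => h.2⟩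
    rw [← Nat.cast_sum, Finset.sum_congr rfl hq, Finset.sum_comm, Nat.cast_sum]
    refine Finset.sum_congr rfl fun t ht => ?_
    rw [← Finset.card_filter]
    have e1 : (S.offDiag.filter (fun q => q.1 ⊆ t ∧ q.2 ⊆ t))
        = (S.filter (fun σ => σ ⊆ t)).offDiag := by
      ext q
      simp only [Finset.mem_filter, Finset.mem_offDiag]
      tauto
    rw [e1, Finset.offDiag_card, Nat.cast_sub (Nat.le_mul_self _), Nat.cast_mul, ← hX t ht]
    have e2 : ∑ q ∈ (Finset.univ : Finset (Fin N)).offDiag, A q.1 t * A q.2 t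
        + ∑ i, A i t * A i t = (∑ i, A i t) * ∑ i, A i t := by
      rw [Finset.sum_mul_sum, ← Finset.sum_product', ← Finset.diag_union_offDiag,
        Finset.sum_union (Finset.disjoint_diag_offDiag _), Finset.sum_diag, add_comm]
    have e3 : ∑ i, A i t * A i t = ∑ i, A i t :=
      Finset.sum_congr rfl fun i _ => (hA01 i t ht).1
    linarith
  have hoff : ∀ q ∈ (Finset.univ : Finset (Fin N)).offDiag, ∑ t ∈ Tr, A q.1 t * A q.2 t
      ≤ Si q.1 * Si q.2 / n + Λ * ((Si q.1 + Si q.2) / 2) := by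
    intro q hq
    rw [Finset.mem_offDiag] at hq
    have hrhs : 0 ≤ Si q.1 * Si q.2 / n + Λ * ((Si q.1 + Si q.2) / 2) := by
      have := hSi0 q.1; have := hSi0 q.2; positivity
    by_cases h1 : ∃ w ∈ ρ, col w = q.1
    · rw [Finset.sum_eq_zero fun t ht => by rw [hAρ _ h1 t ht, zero_mul]]; exact hrhs
    by_cases h2 : ∃ w ∈ ρ, col w = q.2
    · rw [Finset.sum_eq_zero fun t ht => by rw [hAρ _ h2 t ht, mul_zero]]; exact hrhs
    push Not at h1 h2
    have key := hcorr q.1 q.2 hq.2.2 h1 h2 (f q.1) (f q.2)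
    have esq : ∀ i, colSum T col ρ i (fun v => f i v ^ 2) = Si i := fun i =>
      Finset.sum_congr rfl fun t ht => by
        rw [atCol_sq hT (Finset.mem_filter.1 ht).1]; exact (hA01 i t ht).1
    rw [esq, esq] at key
    change n * (∑ t ∈ Tr, A q.1 t * A q.2 t) - Si q.1 * Si q.2 ≤
      Λ * Real.sqrt ((n * Si q.1 - Si q.1 ^ 2) * (n * Si q.2 - Si q.2 ^ 2)) at key
    have hle : ∀ i, n * Si i - Si i ^ 2 ≤ n * Si i := fun i => by nlinarith [sq_nonneg (Si i)]
    have hge : ∀ i, 0 ≤ n * Si i - Si i ^ 2 := by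
      intro i
      have h : Si i ≤ n := by
        have e : ∑ _t ∈ Tr, (1 : ℝ) = n := by simp [hn, cnt, hTr]
        rw [← e]
        refine Finset.sum_le_sum fun t ht => ?_
        nlinarith [hA01 i t ht, sq_nonneg (A i t - 1)]
      nlinarith [hSi0 i]
    have hs : Real.sqrt ((n * Si q.1 - Si q.1 ^ 2) * (n * Si q.2 - Si q.2 ^ 2))
        ≤ n * ((Si q.1 + Si q.2) / 2) := by
      refine (Real.sqrt_le_sqrt (mul_le_mul (hle _) (hle _) (hge _)
        (mul_nonneg hnpos.le (hSi0 _)))).trans ?_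
      rw [Real.sqrt_le_left (by have := hSi0 q.1; have := hSi0 q.2; positivity)]
      nlinarith [mul_nonneg (mul_nonneg hnpos.le hnpos.le) (sq_nonneg (Si q.1 - Si q.2))]
    refine le_of_mul_le_mul_left ?_ hnpos
    have := mul_le_mul_of_nonneg_left hs hΛ
    have e : n * (Si q.1 * Si q.2 / n + Λ * ((Si q.1 + Si q.2) / 2))
        = Si q.1 * Si q.2 + Λ * (n * ((Si q.1 + Si q.2) / 2)) := by field_simp
    linarith
  rw [hpair, hSsum]
  refine (Finset.sum_le_sum hoff).trans ?_
  refine (Finset.sum_le_sum_of_subset_of_nonneg (Finset.subset_univ _) fun q _ _ => ?_).trans ?_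
  · have := hSi0 q.1; have := hSi0 q.2; positivity
  rw [Fintype.sum_prod_type]
  simp only [Finset.sum_add_distrib, ← Finset.sum_div, ← Finset.mul_sum, Finset.sum_const,
    Finset.card_univ, Fintype.card_fin, nsmul_eq_mul, ← Finset.sum_mul]
  have h1 : (∑ i, Si i) * (∑ i, Si i) / n ≤ η * ∑ i, Si i := by
    rw [div_le_iff₀ hnpos]
    rw [hSsum] at hthin
    nlinarith [Finset.sum_nonneg (s := Finset.univ) fun i _ => hSi0 i]
  linarith

/-- A bad face: it contains two fat sets meeting in a thin one. -/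
def Bad (T : Finset (Finset V)) (N : ℕ) (e : ℝ) (k : ℕ) (z : Finset V → ZMod 2)
    (τ : Finset V) : Prop :=
  ∃ j, j ≤ k ∧ ∃ ρ ∈ facesOfSize T (k - j), ¬ Fat T N e k z ρ ∧
    ∃ σ ∈ fatLevel T N e k z j, ∃ σ' ∈ fatLevel T N e k z j,
      σ ≠ σ' ∧ ρ ⊆ σ ∧ ρ ⊆ σ' ∧ σ ∪ σ' ⊆ τ

lemma bad_bound (hT : IsChambers T col) (hC : LinksConn T N) (hN : 1 ≤ N) {k : ℕ}
    (hk : k + 2 ≤ N) {e lam : ℝ} (he : 0 < e) (he1 : e ≤ 1) (hl : 0 ≤ lam)
    (hsmall : 2 ^ N * lam ≤ 1 / 2) (hΛ : (N : ℝ) * (2 ^ N * lam) * growth N e N ≤ e)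
    (hb : CorrBase T col lam) (z : Finset V → ZMod 2)
    (hz : growth N e N ^ 2 * (wsz T (k + 1) z : ℝ) ≤ e * (T.card : ℝ)) :
    ∑ τ ∈ (facesOfSize T (k + 2)).filter (Bad T N e k z), (cnt T τ : ℝ) ≤
      (N : ℝ) ^ 2 * 2 ^ N * (2 * e) * (wsz T (k + 1) z : ℝ) := by
  set W : ℝ := (wsz T (k + 1) z : ℝ) with hW
  let thin : ℕ → Finset (Finset V) := fun j =>
    (facesOfSize T (k - j)).filter (fun ρ => ¬ Fat T N e k z ρ)
  let above : ℕ → Finset V → Finset (Finset V) := fun j ρ =>
    (fatLevel T N e k z j).filter (fun σ => ρ ⊆ σ)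
  calc ∑ τ ∈ (facesOfSize T (k + 2)).filter (Bad T N e k z), (cnt T τ : ℝ)
      ≤ ∑ τ ∈ facesOfSize T (k + 2), ∑ j ∈ Finset.range (k + 1), ∑ ρ ∈ thin j,
          ∑ q ∈ (above j ρ).offDiag, (if q.1 ∪ q.2 ⊆ τ then (cnt T τ : ℝ) else 0) := by
        rw [Finset.sum_filter]
        refine Finset.sum_le_sum fun τ hτ => ?_
        by_cases hbad : Bad T N e k z τ
        · rw [if_pos hbad]
          obtain ⟨j, hj, ρ, hρ, hthin, σ, hσ, σ', hσ', hne, h1, h2, hsub⟩ := hbad
          refine le_trans ?_ (Finset.single_le_sum (fun i _ => ?_)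
            (Finset.mem_range.2 (Nat.lt_succ_of_le hj)))
          · refine le_trans ?_ (Finset.single_le_sum (fun i _ => ?_)
              (Finset.mem_filter.2 ⟨hρ, hthin⟩ : ρ ∈ thin j))
            · refine le_trans ?_ (Finset.single_le_sum (fun i _ => ?_)
                (Finset.mem_offDiag.2 ⟨Finset.mem_filter.2 ⟨hσ, h1⟩,
                  Finset.mem_filter.2 ⟨hσ', h2⟩, hne⟩ : (σ, σ') ∈ (above j ρ).offDiag))
              · rw [if_pos hsub]
              · split <;> positivity
            · exact Finset.sum_nonneg fun _ _ => by split <;> positivity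
          · exact Finset.sum_nonneg fun _ _ => Finset.sum_nonneg fun _ _ => by split <;> positivity
        · rw [if_neg hbad]
          exact Finset.sum_nonneg fun _ _ => Finset.sum_nonneg fun _ _ => Finset.sum_nonneg
            fun _ _ => by split <;> positivity
    _ = ∑ j ∈ Finset.range (k + 1), ∑ ρ ∈ thin j, ∑ q ∈ (above j ρ).offDiag,
          ∑ τ ∈ facesOfSize T (k + 2), (if q.1 ∪ q.2 ⊆ τ then (cnt T τ : ℝ) else 0) := by
        rw [Finset.sum_comm]
        refine Finset.sum_congr rfl fun j _ => ?_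
        rw [Finset.sum_comm]
        exact Finset.sum_congr rfl fun ρ _ => Finset.sum_comm
    _ ≤ ∑ j ∈ Finset.range (k + 1), (2 : ℝ) ^ N * (((N : ℝ) * (2 * e)) * W) := by
        refine Finset.sum_le_sum fun j hj => ?_
        have hjk : j ≤ k := Nat.le_of_lt_succ (Finset.mem_range.1 hj)
        set Λ : ℝ := 2 ^ N * lam with hΛdef
        set g := growth N e j with hg
        have hg1 : 1 ≤ g := (one_le_growth hN he he1 j).1
        have hΛ0 : 0 ≤ Λ := by positivity
        calc ∑ ρ ∈ thin j, ∑ q ∈ (above j ρ).offDiag,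
              ∑ τ ∈ facesOfSize T (k + 2), (if q.1 ∪ q.2 ⊆ τ then (cnt T τ : ℝ) else 0)
            ≤ ∑ ρ ∈ thin j, (2 : ℝ) ^ N * ∑ q ∈ (above j ρ).offDiag,
                (cnt T (q.1 ∪ q.2) : ℝ) := by
              refine Finset.sum_le_sum fun ρ _ => ?_
              rw [Finset.mul_sum]
              refine Finset.sum_le_sum fun q _ => ?_
              rw [← Finset.sum_filter]
              exact_mod_cast sum_cnt_above hT _ _ (fun s hs => (Finset.mem_filter.1 hs).2)
          _ ≤ ∑ ρ ∈ thin j, (2 : ℝ) ^ N *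
                ((e / g + (N : ℝ) * Λ) * ∑ σ ∈ above j ρ, (cnt T σ : ℝ)) := by
              refine Finset.sum_le_sum fun ρ hρ => mul_le_mul_of_nonneg_left ?_ (by positivity)
              obtain ⟨hρf, hρthin⟩ := Finset.mem_filter.1 hρ
              obtain ⟨hρc, t, htT, hρt⟩ := mem_faces.1 hρf
              refine pair_bound hT hΛ0 ⟨t, htT, hρt⟩ ?_ _ ?_ ?_
              · intro i l hil hi hl'
                refine corrAt_mono ?_ (corr_all hT hC hl hsmall hb (N - 2 - ρ.card) ρ
                  (mem_cx_of_subset htT hρt) (by omega) i l hil hi hl')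
                exact mul_le_mul_of_nonneg_right
                  (pow_le_pow_right₀ (by norm_num) (by omega)) hl
              · intro σ hσ
                obtain ⟨hσ, hρσ⟩ := Finset.mem_filter.1 hσ
                exact ⟨hρσ, by have := (mem_fatLevel hσ).2.1; omega⟩
              · by_cases hjk' : j < k
                · by_contra hcon
                  refine hρthin ⟨j + 1, ?_⟩
                  simp only [fatLevel, Finset.mem_filter]
                  exact ⟨hρf, hjk', not_le.1 hcon⟩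
                · have hρ0 : ρ = ∅ := Finset.card_eq_zero.1 (by omega)
                  calc ∑ σ ∈ above j ρ, (cnt T σ : ℝ)
                      ≤ ∑ σ ∈ fatLevel T N e k z j, (cnt T σ : ℝ) :=
                        Finset.sum_le_sum_of_subset_of_nonneg (Finset.filter_subset _ _)
                          fun _ _ _ => Nat.cast_nonneg _
                    _ ≤ g * W := sum_fatLevel_le hT hN he he1 k z j
                    _ ≤ e / g * (cnt T ρ : ℝ) := by
                        rw [hρ0, cnt_empty, div_mul_eq_mul_div, le_div_iff₀ (by linarith)]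
                        refine le_trans ?_ hz
                        have hgN : g ≤ growth N e N := growth_le hN he he1 (by omega)
                        have : 0 ≤ W := by rw [hW]; positivity
                        calc g * W * g = g ^ 2 * W := by ring
                          _ ≤ growth N e N ^ 2 * W := by gcongr
          _ ≤ (2 : ℝ) ^ N * ((e / g + (N : ℝ) * Λ) * ((N : ℝ) * (g * W))) := by
              rw [← Finset.mul_sum, ← Finset.mul_sum]
              refine mul_le_mul_of_nonneg_left (mul_le_mul_of_nonneg_left ?_ (by positivity))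
                (by positivity)
              calc ∑ ρ ∈ thin j, ∑ σ ∈ above j ρ, (cnt T σ : ℝ)
                  = ∑ σ ∈ fatLevel T N e k z j, ∑ ρ ∈ (thin j).filter (fun ρ => ρ ⊆ σ),
                      (cnt T σ : ℝ) := by
                    refine Finset.sum_comm' ?_
                    simp only [above, Finset.mem_filter]
                    tauto
                _ ≤ ∑ σ ∈ fatLevel T N e k z j, (N : ℝ) * (cnt T σ : ℝ) := by
                    refine Finset.sum_le_sum fun σ hσ => ?_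
                    rw [Finset.sum_const, nsmul_eq_mul]
                    refine mul_le_mul_of_nonneg_right ?_ (Nat.cast_nonneg _)
                    obtain ⟨-, hc, t, htT, hst⟩ := mem_fatLevel hσ
                    have hsub : (thin j).filter (fun ρ => ρ ⊆ σ)
                        ⊆ σ.image (fun v => σ.erase v) := by
                      intro ρ hρ
                      obtain ⟨hρ, hρσ⟩ := Finset.mem_filter.1 hρ
                      have hρc := (mem_faces.1 (Finset.mem_filter.1 hρ).1).1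
                      obtain ⟨v, hv, hvρ⟩ := Finset.exists_mem_notMem_of_card_lt_card
                        (show ρ.card < σ.card by omega)
                      refine Finset.mem_image.2 ⟨v, hv, (Finset.eq_of_subset_of_card_le ?_ ?_).symm⟩
                      · exact fun x hx => Finset.mem_erase.2 ⟨fun h => hvρ (h ▸ hx), hρσ hx⟩
                      · rw [Finset.card_erase_of_mem hv]; omega
                    exact_mod_cast (Finset.card_le_card hsub).trans
                      (Finset.card_image_le.trans (card_face_le hT htT hst))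
                _ ≤ (N : ℝ) * (g * W) := by
                    rw [← Finset.mul_sum]
                    exact mul_le_mul_of_nonneg_left (sum_fatLevel_le hT hN he he1 k z j)
                      (Nat.cast_nonneg _)
          _ ≤ (2 : ℝ) ^ N * (((N : ℝ) * (2 * e)) * W) := by
              refine mul_le_mul_of_nonneg_left ?_ (by positivity)
              have hgN : g ≤ growth N e N := growth_le hN he he1 (by omega)
              have h1 : (e / g + (N : ℝ) * Λ) * g ≤ 2 * e := by
                rw [add_mul, div_mul_cancel₀ _ (by linarith)]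
                have : (N : ℝ) * Λ * g ≤ (N : ℝ) * Λ * growth N e N := by gcongr
                linarith
              calc (e / g + (N : ℝ) * Λ) * ((N : ℝ) * (g * W))
                  = ((e / g + (N : ℝ) * Λ) * g) * ((N : ℝ) * W) := by ring
                _ ≤ (2 * e) * ((N : ℝ) * W) :=
                    mul_le_mul_of_nonneg_right h1 (by rw [hW]; positivity)
                _ = _ := by ring
    _ ≤ _ := by
        rw [Finset.sum_const, Finset.card_range, nsmul_eq_mul]
        have : ((k + 1 : ℕ) : ℝ) ≤ (N : ℝ) := by exact_mod_cast (by omega : k + 1 ≤ N)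
        calc ((k + 1 : ℕ) : ℝ) * ((2 : ℝ) ^ N * ((N : ℝ) * (2 * e) * W))
            ≤ (N : ℝ) * ((2 : ℝ) ^ N * ((N : ℝ) * (2 * e) * W)) :=
              mul_le_mul_of_nonneg_right this (by rw [hW]; positivity)
          _ = _ := by rw [hW]; ring

/-- One step down along fat sets. -/
def Step (T : Finset (Finset V)) (N : ℕ) (e : ℝ) (k : ℕ) (z : Finset V → ZMod 2)
    (A B : Finset V) : Prop :=
  B ⊆ A ∧ B.card + 1 = A.card ∧ Fat T N e k z B

/-- A fat set with no fat set one below it. -/
def Terminal (T : Finset (Finset V)) (N : ℕ) (e : ℝ) (k : ℕ) (z : Finset V → ZMod 2)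
    (ρ : Finset V) : Prop :=
  Fat T N e k z ρ ∧ ∀ B, ¬ Step T N e k z ρ B

lemma linked_subset {e : ℝ} {k : ℕ} {z : Finset V → ZMod 2} {A B : Finset V}
    (h : Relation.ReflTransGen (Step T N e k z) A B) : B ⊆ A := by
  induction h with
  | refl => exact Finset.Subset.refl _
  | tail _ hs ih => exact hs.1.trans ih

lemma exists_terminal {e : ℝ} {k : ℕ} {z : Finset V → ZMod 2} :
    ∀ (c : ℕ) (A : Finset V), A.card = c → Fat T N e k z A →
      ∃ ρ, Relation.ReflTransGen (Step T N e k z) A ρ ∧ Terminal T N e k z ρ := by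
  intro c
  induction c with
  | zero =>
    intro A hA h
    exact absurd (fat_nonempty h).1 (by simp [Finset.card_eq_zero.1 hA])
  | succ c ih =>
    intro A hA h
    by_cases ht : ∃ B, Step T N e k z A B
    · obtain ⟨B, hB⟩ := ht
      obtain ⟨ρ, h1, h2⟩ := ih B (by have := hB.2.1; omega) hB.2.2
      exact ⟨ρ, Relation.ReflTransGen.head hB h1, h2⟩
    · exact ⟨A, Relation.ReflTransGen.refl, h, fun B hB => ht ⟨B, hB⟩⟩

/-- In a face which is not bad, linkage to a terminal set passes to every other face of the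
cocycle inside it. -/
lemma linked_transfer {e : ℝ} {k : ℕ} {z : Finset V → ZMod 2} (hk : 1 ≤ k) {τ : Finset V}
    (hτ : τ ∈ facesOfSize T (k + 2)) (hgood : ¬ Bad T N e k z τ) {x y : V} (hx : x ∈ τ)
    (hy : y ∈ τ) (hxy : x ≠ y) (hσ : τ.erase y ∈ fatLevel T N e k z 0)
    (hσ' : τ.erase x ∈ fatLevel T N e k z 0) {ρ : Finset V} (hterm : Terminal T N e k z ρ)
    (hl : Relation.ReflTransGen (Step T N e k z) (τ.erase y) ρ) :
    Relation.ReflTransGen (Step T N e k z) (τ.erase x) ρ := by
  obtain ⟨hτc, t₀, ht₀, hτt⟩ := mem_faces.1 hτ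
  have hbad : ∀ B : Finset V, B ⊆ τ → x ∈ B → Fat T N e k z B → ∀ A' : Finset V, A' ⊆ τ →
      x ∉ A' → Fat T N e k z A' → A'.card = B.card → B.erase x ⊆ A' →
      Fat T N e k z (B.erase x) := by
    intro B hBτ hxB hBfat A' hA'τ hxA' hA'fat hcard hsub
    by_contra hno
    obtain ⟨j, hj⟩ := hBfat
    obtain ⟨j', hj'⟩ := hA'fat
    obtain ⟨hjk, hc, -⟩ := mem_fatLevel hj
    obtain ⟨hjk', hc', -⟩ := mem_fatLevel hj'
    obtain rfl : j' = j := by omega
    refine hgood ⟨j', hjk, B.erase x, mem_faces.2 ⟨?_, t₀, ht₀,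
      (Finset.erase_subset _ _).trans (hBτ.trans hτt)⟩, hno, B, hj, A', hj',
      fun h => hxA' (h ▸ hxB), Finset.erase_subset _ _, hsub, Finset.union_subset hBτ hA'τ⟩
    rw [Finset.card_erase_of_mem hxB]; omega
  have main : ∀ A, Relation.ReflTransGen (Step T N e k z) (τ.erase y) A →
      Fat T N e k z A ∧ A ⊆ τ ∧
      (x ∈ A → Fat T N e k z (A.erase x) ∧
        Relation.ReflTransGen (Step T N e k z) (τ.erase x) (A.erase x)) ∧
      (x ∉ A → Relation.ReflTransGen (Step T N e k z) (τ.erase x) A) := by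
    intro A hA
    induction hA with
    | refl =>
      have hxs : x ∈ τ.erase y := Finset.mem_erase.2 ⟨hxy, hx⟩
      refine ⟨⟨0, hσ⟩, Finset.erase_subset _ _, fun _ => ?_, fun h => absurd hxs h⟩
      have hf : Fat T N e k z ((τ.erase y).erase x) :=
        hbad _ (Finset.erase_subset _ _) hxs ⟨0, hσ⟩ (τ.erase x) (Finset.erase_subset _ _)
          (Finset.notMem_erase _ _) ⟨0, hσ'⟩
          (by rw [Finset.card_erase_of_mem hx, Finset.card_erase_of_mem hy])
          (Finset.erase_subset_erase _ (Finset.erase_subset _ _))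
      refine ⟨hf, Relation.ReflTransGen.single
        ⟨Finset.erase_subset_erase _ (Finset.erase_subset _ _), ?_, hf⟩⟩
      rw [Finset.card_erase_of_mem hxs, Finset.card_erase_of_mem hy, Finset.card_erase_of_mem hx]
      omega
    | @tail A B _ hs ih =>
      obtain ⟨hAfat, hAτ, hin, hout⟩ := ih
      obtain ⟨hBA, hBc, hBfat⟩ := hs
      refine ⟨hBfat, hBA.trans hAτ, fun hxB => ?_, fun hxB => ?_⟩
      · obtain ⟨hA'fat, hA'l⟩ := hin (hBA hxB)
        have hf := hbad B (hBA.trans hAτ) hxB hBfat (A.erase x)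
          ((Finset.erase_subset _ _).trans hAτ) (Finset.notMem_erase _ _) hA'fat
          (by rw [Finset.card_erase_of_mem (hBA hxB)]; omega)
          (Finset.erase_subset_erase _ hBA)
        refine ⟨hf, hA'l.tail ⟨Finset.erase_subset_erase _ hBA, ?_, hf⟩⟩
        rw [Finset.card_erase_of_mem hxB, Finset.card_erase_of_mem (hBA hxB)]
        have := Finset.card_pos.2 ⟨x, hxB⟩
        omega
      · by_cases hxA : x ∈ A
        · have : B = A.erase x := Finset.eq_of_subset_of_card_le
            (fun w hw => Finset.mem_erase.2 ⟨fun h => hxB (h ▸ hw), hBA hw⟩)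
            (by rw [Finset.card_erase_of_mem hxA]; omega)
          exact this ▸ (hin hxA).2
        · exact (hout hxA).tail ⟨hBA, hBc, hBfat⟩
  obtain ⟨-, -, hin, hout⟩ := main ρ hl
  by_cases hxρ : x ∈ ρ
  · obtain ⟨hf, -⟩ := hin hxρ
    exfalso
    refine hterm.2 (ρ.erase x) ⟨Finset.erase_subset _ _, ?_, hf⟩
    rw [Finset.card_erase_of_mem hxρ]
    have := Finset.card_pos.2 ⟨x, hxρ⟩
    omega
  · exact hout hxρ

/-- The part of `z` linked to `ρ`. -/
noncomputable def linkPart (T : Finset (Finset V)) (N : ℕ) (e : ℝ) (k : ℕ)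
    (z : Finset V → ZMod 2) (ρ : Finset V) : Finset V → ZMod 2 :=
  fun s => if s ∈ fatLevel T N e k z 0 ∧ Relation.ReflTransGen (Step T N e k z) s ρ
    then z s else 0

/-- Small cocycles which cannot be improved near a vertex vanish. -/
theorem key (N d : ℕ) (β : ℝ) (hN : d + 2 ≤ N) (hβ : 0 < β) :
    ∃ lam : ℝ, 0 < lam ∧ ∃ μ : ℝ, 0 < μ ∧
      ∀ (V : Type) (T : Finset (Finset V)) (col : V → Fin N),
        IsChambers T col → LinkExp T d β → LinksConn T N → CorrBase T col lam →
        ∀ k, 1 ≤ k → k ≤ d → ∀ z : Finset V → ZMod 2,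
          (∀ τ ∈ facesOfSize T (k + 2), cobS z τ = 0) →
          (wsz T (k + 1) z : ℝ) ≤ μ * (T.card : ℝ) →
          (∀ (r : Finset V) (g : Finset V → ZMod 2), r.Nonempty → SuppAbove T k r g →
            wsz T (k + 1) z ≤ wsz T (k + 1) (z + cobS g)) →
          ∀ s ∈ facesOfSize T (k + 1), z s = 0 := by
  set b : ℝ := min β 1 with hb
  have hb0 : 0 < b := lt_min hβ one_pos
  have hN1 : (1 : ℝ) ≤ N := by exact_mod_cast (by omega : 1 ≤ N)
  set e : ℝ := b / (4 * (N : ℝ) ^ 2 * 4 ^ N) with he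
  have he0 : 0 < e := by positivity
  have he1 : e ≤ 1 := by
    rw [he, div_le_one (by positivity)]
    calc b ≤ 1 := min_le_right _ _
      _ ≤ 4 * (N : ℝ) ^ 2 * 4 ^ N := by
        have : (1 : ℝ) ≤ (N : ℝ) ^ 2 * 4 ^ N :=
          one_le_mul_of_one_le_of_one_le (one_le_pow₀ hN1) (one_le_pow₀ (by norm_num))
        linarith
  set G := growth N e N with hG
  have hG1 : 1 ≤ G := (one_le_growth (by omega) he0 he1 N).1
  refine ⟨min (e / ((N : ℝ) * 2 ^ N * G)) (1 / (2 * 2 ^ N)), lt_min (by positivity) (by positivity),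
    e / G ^ 2, by positivity, ?_⟩
  intro V T col hT hL hC hB k hk1 hkd z hcoc hsmall hmin
  set lam : ℝ := min (e / ((N : ℝ) * 2 ^ N * G)) (1 / (2 * 2 ^ N)) with hlam
  have hl0 : 0 ≤ lam := le_min (by positivity) (by positivity)
  have hl1 : 2 ^ N * lam ≤ 1 / 2 := by
    calc (2 : ℝ) ^ N * lam ≤ 2 ^ N * (1 / (2 * 2 ^ N)) := by
          gcongr; exact min_le_right _ _
      _ = 1 / 2 := by field_simp
  have hl2 : (N : ℝ) * (2 ^ N * lam) * G ≤ e := by
    calc (N : ℝ) * (2 ^ N * lam) * G ≤ (N : ℝ) * (2 ^ N * (e / ((N : ℝ) * 2 ^ N * G))) * G := by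
          gcongr; exact min_le_left _ _
      _ = e := by field_simp
  have hz2 : G ^ 2 * (wsz T (k + 1) z : ℝ) ≤ e * (T.card : ℝ) := by
    calc G ^ 2 * (wsz T (k + 1) z : ℝ) ≤ G ^ 2 * (e / G ^ 2 * (T.card : ℝ)) := by gcongr
      _ = e * (T.card : ℝ) := by field_simp
  have hbadbd := bad_bound hT hC (by omega) (k := k) (by omega) he0 he1 hl0 hl1 hl2 hB z hz2
  set W : ℝ := (wsz T (k + 1) z : ℝ) with hW
  set F0 := fatLevel T N e k z 0 with hF0
  set R := (F0.biUnion Finset.powerset).filter (Terminal T N e k z) with hR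
  set Badτ := (facesOfSize T (k + 2)).filter (Bad T N e k z) with hBadτ
  -- every member of the support is linked somewhere
  have hcover : W ≤ ∑ ρ ∈ R, (wsz T (k + 1) (linkPart T N e k z ρ) : ℝ) := by
    have h1 : ∀ ρ, (wsz T (k + 1) (linkPart T N e k z ρ) : ℝ)
        = ∑ s ∈ F0, if Relation.ReflTransGen (Step T N e k z) s ρ
            then (cnt T s : ℝ) else 0 := by
      intro ρ
      rw [← Finset.sum_filter, wsz, Nat.cast_sum]
      refine Finset.sum_congr ?_ fun _ _ => rfl
      ext s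
      simp only [hF0, fatLevel, linkPart, Finset.mem_filter, ne_eq, ite_eq_right_iff, Classical.not_imp]
      tauto
    rw [Finset.sum_congr rfl (fun ρ _ => h1 ρ), Finset.sum_comm]
    have h2 : W = ∑ s ∈ F0, (cnt T s : ℝ) := by
      simp [hW, hF0, fatLevel, wsz]
    rw [h2]
    refine Finset.sum_le_sum fun s hs => ?_
    obtain ⟨ρ, hl, ht⟩ := exists_terminal s.card s rfl ⟨0, hs⟩
    have hρR : ρ ∈ R := Finset.mem_filter.2
      ⟨Finset.mem_biUnion.2 ⟨s, hs, Finset.mem_powerset.2 (linked_subset hl)⟩, ht⟩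
    refine le_trans ?_ (Finset.single_le_sum (fun i _ => ?_) hρR)
    · rw [if_pos hl]
    · split <;> positivity
  -- each part expands, with coboundary inside the bad faces
  have hpart : ∀ ρ ∈ R, b * (wsz T (k + 1) (linkPart T N e k z ρ) : ℝ) ≤
      ∑ τ ∈ Badτ.filter (fun τ => ρ ⊆ τ), (cnt T τ : ℝ) := by
    intro ρ hρ
    obtain ⟨-, hterm⟩ := Finset.mem_filter.1 hρ
    set zr := linkPart T N e k z ρ with hzr
    have hsupp : ∀ s, zr s ≠ 0 →
        s ∈ F0 ∧ Relation.ReflTransGen (Step T N e k z) s ρ ∧ zr s = z s := by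
      intro s hs
      simp only [hzr, linkPart] at hs ⊢
      by_cases h : s ∈ fatLevel T N e k z 0 ∧ Relation.ReflTransGen (Step T N e k z) s ρ
      · exact ⟨h.1, h.2, if_pos h⟩
      · exact absurd (if_neg h) hs
    have hF0mem : ∀ s, s ∈ F0 ↔ s ∈ facesOfSize T (k + 1) ∧ z s ≠ 0 := fun s => by
      simp [hF0, fatLevel]
    have hd : ∀ τ ∈ facesOfSize T (k + 2), cobS zr τ ≠ 0 → τ ∈ Badτ.filter (fun τ => ρ ⊆ τ) := by
      intro τ hτ hne
      obtain ⟨y, hy, hyne⟩ := Finset.exists_ne_zero_of_sum_ne_zero hne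
      obtain ⟨hyF, hyl, -⟩ := hsupp _ hyne
      refine Finset.mem_filter.2 ⟨Finset.mem_filter.2 ⟨hτ, ?_⟩,
        (linked_subset hyl).trans (Finset.erase_subset _ _)⟩
      by_contra hgood
      refine hne ?_
      rw [← hcoc τ hτ]
      refine Finset.sum_congr rfl fun x hx => ?_
      by_cases hzx : z (τ.erase x) = 0
      · rw [hzx]
        by_contra h
        exact h ((hsupp _ h).2.2.trans hzx)
      · have hxF : τ.erase x ∈ F0 := by
          obtain ⟨hτc, t, htT, hτt⟩ := mem_faces.1 hτ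
          refine (hF0mem _).2 ⟨mem_faces.2 ⟨?_, t, htT, (Finset.erase_subset _ _).trans hτt⟩, hzx⟩
          rw [Finset.card_erase_of_mem hx]; omega
        have hxl : Relation.ReflTransGen (Step T N e k z) (τ.erase x) ρ := by
          by_cases hxy : x = y
          · exact hxy ▸ hyl
          · exact linked_transfer hk1 hτ hgood hx hy hxy hyF hxF hterm hyl
        simp only [hzr, linkPart]
        exact if_pos ⟨hxF, hxl⟩
    have hdle : (wsz T (k + 2) (cobS zr) : ℝ) ≤
        ∑ τ ∈ Badτ.filter (fun τ => ρ ⊆ τ), (cnt T τ : ℝ) := by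
      rw [wsz, Nat.cast_sum]
      exact Finset.sum_le_sum_of_subset_of_nonneg
        (fun τ hτ => hd τ (Finset.mem_filter.1 hτ).1 (Finset.mem_filter.1 hτ).2)
        fun _ _ _ => Nat.cast_nonneg _
    refine le_trans ?_ hdle
    obtain ⟨hne, hcard⟩ := fat_nonempty hterm.1
    have hzrsupp : SuppAbove T (k + 1) ρ zr := fun s hs =>
      ⟨((hF0mem s).1 (hsupp s hs).1).1, linked_subset (hsupp s hs).2.1⟩
    rcases Nat.lt_or_ge ρ.card (k + 1) with hlt | hge
    · obtain ⟨j, hj⟩ := hterm.1
      obtain ⟨g, hg, hexp⟩ := hL k hkd ρ hne (by omega) (mem_fatLevel hj).2.2 zr hzrsupp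
      have hm := hmin ρ g hne hg
      have hle : wsz T (k + 1) zr ≤ wsz T (k + 1) (zr + cobS g) := by
        simp only [wsz, Finset.sum_filter] at hm ⊢
        have hpt : ∀ s ∈ facesOfSize T (k + 1),
            (if zr s ≠ 0 then cnt T s else 0) + (if (z + cobS g) s ≠ 0 then cnt T s else 0)
              ≤ (if z s ≠ 0 then cnt T s else 0)
                + (if (zr + cobS g) s ≠ 0 then cnt T s else 0) := by
          intro s _
          simp only [Pi.add_apply]
          by_cases hs : zr s = 0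
          · by_cases h1 : z s = 0
            · simp [hs, h1]
            · by_cases h2 : cobS g s = 0
              · simp [hs, h1, h2]
              · have : z s + cobS g s = 0 :=
                  (by decide : ∀ a c : ZMod 2, a ≠ 0 → c ≠ 0 → a + c = 0) _ _ h1 h2
                simp [hs, h1, h2, this]
          · simp [(hsupp s hs).2.2]
        have h3 := Finset.sum_le_sum hpt
        rw [Finset.sum_add_distrib, Finset.sum_add_distrib] at h3
        omega
      calc b * (wsz T (k + 1) zr : ℝ) ≤ β * (wsz T (k + 1) (zr + cobS g) : ℝ) :=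
            mul_le_mul (min_le_left _ _) (by exact_mod_cast hle) (Nat.cast_nonneg _) hβ.le
        _ ≤ _ := hexp
    · have honly : ∀ s, zr s ≠ 0 → s = ρ := fun s hs => by
        obtain ⟨hsF, hsub⟩ := hzrsupp s hs
        have := (mem_faces.1 hsF).1
        exact (Finset.eq_of_subset_of_card_le hsub (by omega)).symm
      by_cases hzρ : zr ρ = 0
      · have : wsz T (k + 1) zr = 0 := by
          simp only [wsz]
          refine Finset.sum_eq_zero fun s hs => ?_
          have h := (Finset.mem_filter.1 hs).2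
          exact absurd hzρ (honly s h ▸ h)
        simp [this]
      have hρF := mem_faces.1 (hzrsupp ρ hzρ).1
      have h1 : wsz T (k + 1) zr ≤ cnt T ρ := by
        rw [wsz]
        refine (Finset.sum_le_sum_of_subset (t := {ρ}) fun s hs => ?_).trans (by simp)
        exact Finset.mem_singleton.2 (honly s (Finset.mem_filter.1 hs).2)
      have h2 : cnt T ρ ≤ wsz T (k + 2) (cobS zr) := by
        rw [cnt, Finset.card_eq_sum_ones]
        calc ∑ t ∈ T.filter (fun t => ρ ⊆ t), 1
            ≤ ∑ t ∈ T.filter (fun t => ρ ⊆ t),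
                (((facesOfSize T (k + 2)).filter (fun τ => cobS zr τ ≠ 0)).filter
                  (fun τ => τ ⊆ t)).card := by
              refine Finset.sum_le_sum fun t ht => Finset.card_pos.2 ?_
              obtain ⟨htT, hρt⟩ := Finset.mem_filter.1 ht
              obtain ⟨τ, hρτ, hτt, hτc⟩ := Finset.exists_subsuperset_card_eq hρt
                (by omega : ρ.card ≤ k + 2) (by rw [(hT t htT).1]; omega)
              refine ⟨τ, Finset.mem_filter.2 ⟨Finset.mem_filter.2
                ⟨mem_faces.2 ⟨hτc, t, htT, hτt⟩, ?_⟩, hτt⟩⟩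
              obtain ⟨v, hv, hvρ⟩ := Finset.exists_mem_notMem_of_card_lt_card
                (show ρ.card < τ.card by omega)
              have he' : τ.erase v = ρ := (Finset.eq_of_subset_of_card_le
                (fun w hw => Finset.mem_erase.2 ⟨fun hwv => hvρ (by rw [← hwv]; exact hw), hρτ hw⟩)
                (by rw [Finset.card_erase_of_mem hv]; omega)).symm
              rw [cobS, Finset.sum_eq_single v]
              · rw [he']; exact hzρ
              · intro w hw hwv
                by_contra h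
                have := honly _ h
                exact hvρ (this ▸ Finset.mem_erase.2 ⟨hwv.symm, hv⟩)
              · exact fun h => absurd hv h
          _ ≤ ∑ t ∈ T, _ := Finset.sum_le_sum_of_subset (Finset.filter_subset _ _)
          _ = wsz T (k + 2) (cobS zr) := by rw [wsz, sum_cnt]
      calc b * (wsz T (k + 1) zr : ℝ) ≤ 1 * (wsz T (k + 1) zr : ℝ) :=
            mul_le_mul_of_nonneg_right (min_le_right _ _) (Nat.cast_nonneg _)
        _ ≤ _ := by rw [one_mul]; exact_mod_cast h1.trans h2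
  -- summing up
  have hsum : ∑ ρ ∈ R, ∑ τ ∈ Badτ.filter (fun τ => ρ ⊆ τ), (cnt T τ : ℝ) ≤
      (2 : ℝ) ^ N * ∑ τ ∈ Badτ, (cnt T τ : ℝ) := by
    calc ∑ ρ ∈ R, ∑ τ ∈ Badτ.filter (fun τ => ρ ⊆ τ), (cnt T τ : ℝ)
        = ∑ τ ∈ Badτ, ∑ ρ ∈ R.filter (fun ρ => ρ ⊆ τ), (cnt T τ : ℝ) := by
          refine Finset.sum_comm' ?_
          simp only [Finset.mem_filter]
          tauto
      _ ≤ ∑ τ ∈ Badτ, (2 : ℝ) ^ N * (cnt T τ : ℝ) := by
          refine Finset.sum_le_sum fun τ hτ => ?_
          rw [Finset.sum_const, nsmul_eq_mul]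
          refine mul_le_mul_of_nonneg_right ?_ (Nat.cast_nonneg _)
          obtain ⟨hτc, -⟩ := mem_faces.1 (Finset.mem_filter.1 hτ).1
          have h : (R.filter (fun ρ => ρ ⊆ τ)).card ≤ 2 ^ τ.card := by
            rw [← Finset.card_powerset]
            exact Finset.card_le_card fun ρ hρ => Finset.mem_powerset.2 (Finset.mem_filter.1 hρ).2
          exact_mod_cast h.trans (Nat.pow_le_pow_right (by norm_num) (by omega))
      _ = _ := (Finset.mul_sum _ _ _).symm
  have hfinal : b * W ≤ (2 : ℝ) ^ N * ((N : ℝ) ^ 2 * 2 ^ N * (2 * e) * W) := by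
    calc b * W ≤ b * ∑ ρ ∈ R, (wsz T (k + 1) (linkPart T N e k z ρ) : ℝ) := by gcongr
      _ ≤ ∑ ρ ∈ R, ∑ τ ∈ Badτ.filter (fun τ => ρ ⊆ τ), (cnt T τ : ℝ) := by
          rw [Finset.mul_sum]; exact Finset.sum_le_sum hpart
      _ ≤ _ := hsum.trans (mul_le_mul_of_nonneg_left hbadbd (by positivity))
  have hhalf : (2 : ℝ) ^ N * ((N : ℝ) ^ 2 * 2 ^ N * (2 * e)) = b / 2 := by
    have h4 : (4 : ℝ) ^ N = 2 ^ N * 2 ^ N := by rw [← mul_pow]; norm_num
    rw [he, h4]; field_simp; ring
  have hW0 : W = 0 := by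
    have hWnn : 0 ≤ W := by rw [hW]; positivity
    rw [← mul_assoc, hhalf] at hfinal
    nlinarith
  intro s hs
  by_contra hne
  have hw : wsz T (k + 1) z = 0 := by rw [hW] at hW0; exact_mod_cast hW0
  rw [wsz, Finset.sum_eq_zero_iff] at hw
  have := hw s (Finset.mem_filter.2 ⟨hs, hne⟩)
  obtain ⟨-, ht⟩ := mem_faces.1 hs
  exact absurd this (cnt_pos.2 ht).ne'

end Vale.Agent.P067.L2G
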