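import Mathlib
import Vale.Agent.P067.Interface
import Vale.Agent.P067.LocalGlobalBase
import Vale.Agent.P067.LocalGlobalKey
import Vale.Agent.P067.LocalGlobalExp

/-!
From local expansion and vanishing homology to coboundary expansion of the skeleton.
-/

namespace Vale.Agent.P067.L2G

open Classical Finset

variable {V : Type} {N : ℕ} {T : Finset (Finset V)} {col : V → Fin N}

lemma cobS_add (φ ψ : Finset V → ZMod 2) : cobS (φ + ψ) = cobS φ + cobS ψ := by
  funext t
  simp [cobS, Finset.sum_add_distrib]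

lemma cobS_cobS (φ : Finset V → ZMod 2) (τ : Finset V) : cobS (cobS φ) τ = 0 := by
  simp only [cobS]
  rw [Finset.sum_sigma' τ (fun v => τ.erase v) (fun v w => φ ((τ.erase v).erase w))]
  refine Finset.sum_involution (fun q _ => ⟨q.2, q.1⟩) ?_ ?_ ?_ ?_
  · intro q _
    simp only [Finset.erase_right_comm (a := q.2) (b := q.1)]
    exact CharTwo.add_self_eq_zero _
  · rintro ⟨a, b⟩ hq - he
    simp only [Finset.mem_sigma, Finset.mem_erase] at hq
    simp only [Sigma.mk.inj_iff, heq_eq_eq] at he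
    exact hq.2.1 he.1
  · rintro ⟨a, b⟩ hq
    simp only [Finset.mem_sigma, Finset.mem_erase] at hq ⊢
    exact ⟨hq.2.2, fun e => hq.2.1 e.symm, hq.1⟩
  · rintro ⟨a, b⟩ _
    rfl

lemma wsz_add_le (n : ℕ) (φ ψ : Finset V → ZMod 2) :
    wsz T n (φ + ψ) ≤ wsz T n φ + wsz T n ψ := by
  simp only [wsz, Finset.sum_filter, ← Finset.sum_add_distrib]
  refine Finset.sum_le_sum fun s _ => ?_
  by_cases h : φ s = 0
  · simp [h]
  · rw [if_pos h]
    split <;> omega

lemma wsz_congr {n : ℕ} {φ ψ : Finset V → ZMod 2} (h : ∀ s ∈ facesOfSize T n, φ s = ψ s) :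
    wsz T n φ = wsz T n ψ := by
  simp only [wsz, Finset.sum_filter]
  exact Finset.sum_congr rfl fun s hs => by simp [h s hs]

lemma wsz_le_total (hT : IsChambers T col) (n : ℕ) (φ : Finset V → ZMod 2) :
    wsz T n φ ≤ 2 ^ N * T.card := by
  have h := sum_cnt_above hT ((facesOfSize T n).filter (fun s => φ s ≠ 0)) ∅
    (fun s _ => Finset.empty_subset s)
  rwa [cnt_empty] at h

/-- Greedy improvement: a cochain can be corrected to one whose coboundary admits no local
improvement, at a cost controlled by the size of the coboundary. -/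
lemma improve (hT : IsChambers T col) {D : ℕ} (hdeg : ∀ v, cnt T {v} ≤ D) (k : ℕ) :
    ∀ (n : ℕ) (φ : Finset V → ZMod 2), wsz T (k + 1) (cobS φ) = n →
      ∃ g : Finset V → ZMod 2,
        (∀ (r : Finset V) (g' : Finset V → ZMod 2), r.Nonempty → SuppAbove T k r g' →
          wsz T (k + 1) (cobS (φ + g)) ≤ wsz T (k + 1) (cobS (φ + g) + cobS g')) ∧
        wsz T k g + 2 ^ N * D * wsz T (k + 1) (cobS (φ + g)) ≤ 2 ^ N * D * n := by
  intro n
  induction n using Nat.strong_induction_on with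
  | _ n ih =>
    intro φ hφ
    by_cases hopt : ∀ (r : Finset V) (g' : Finset V → ZMod 2), r.Nonempty →
        SuppAbove T k r g' → wsz T (k + 1) (cobS φ) ≤ wsz T (k + 1) (cobS φ + cobS g')
    · refine ⟨0, ?_, ?_⟩
      · simpa only [add_zero] using hopt
      · have h0 : wsz T k (0 : Finset V → ZMod 2) = 0 := by simp [wsz]
        rw [h0, zero_add, add_zero, hφ]
    · push Not at hopt
      obtain ⟨r, g₀, hr, hg₀, hlt⟩ := hopt
      rw [← cobS_add] at hlt
      obtain ⟨g, hg1, hg2⟩ := ih _ (hφ ▸ hlt) (φ + g₀) rfl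
      refine ⟨g₀ + g, by rw [← add_assoc]; exact hg1, ?_⟩
      rw [← add_assoc]
      have hcost : wsz T k g₀ ≤ 2 ^ N * D := by
        obtain ⟨v, hv⟩ := hr
        refine le_trans ?_ (Nat.mul_le_mul_left _
          ((cnt_mono (Finset.singleton_subset_iff.2 hv)).trans (hdeg v)))
        exact sum_cnt_above hT _ r fun s hs => (hg₀ s (Finset.mem_filter.1 hs).2).2
      calc wsz T k (g₀ + g) + 2 ^ N * D * wsz T (k + 1) (cobS (φ + g₀ + g))
          ≤ wsz T k g₀ + (wsz T k g + 2 ^ N * D * wsz T (k + 1) (cobS (φ + g₀ + g))) := by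
            have := wsz_add_le (T := T) k g₀ g
            omega
        _ ≤ 2 ^ N * D + 2 ^ N * D * wsz T (k + 1) (cobS (φ + g₀)) := add_le_add hcost hg2
        _ = 2 ^ N * D * (wsz T (k + 1) (cobS (φ + g₀)) + 1) := by ring
        _ ≤ 2 ^ N * D * n := Nat.mul_le_mul_left _ (by omega)

variable {S : Finset (Finset V)}

lemma cob_eq_cobS {i : ℕ} (f : Coch S i) (fhat : Finset V → ZMod 2)
    (hf : ∀ s : {s // s ∈ faces S i}, fhat s.1 = f s) (t : {t // t ∈ faces S (i + 1)}) :
    cob S i f t = cobS fhat t.1 := by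
  have h1 : cob S i f t
      = ∑ s : {s // s ∈ faces S i}, if s.1 ⊆ t.1 then fhat s.1 else 0 :=
    Finset.sum_congr rfl fun s _ => by rw [hf s]
  rw [h1, Finset.sum_coe_sort (faces S i) (fun s => if s ⊆ t.1 then fhat s else 0),
    ← Finset.sum_filter]
  obtain ⟨tv, ht⟩ := t
  simp only
  simp only [faces, Finset.mem_filter, Finset.mem_biUnion, Finset.mem_powerset] at ht
  obtain ⟨⟨u, hu, htu⟩, htc⟩ := ht
  have himg : (faces S i).filter (fun s => s ⊆ tv) = tv.image (fun v => tv.erase v) := by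
    ext s
    simp only [faces, Finset.mem_filter, Finset.mem_biUnion, Finset.mem_powerset, Finset.mem_image]
    constructor
    · rintro ⟨⟨-, hc⟩, hst⟩
      obtain ⟨v, hv, hvs⟩ := Finset.exists_mem_notMem_of_card_lt_card
        (show s.card < tv.card by omega)
      refine ⟨v, hv, (Finset.eq_of_subset_of_card_le ?_ ?_).symm⟩
      · exact fun w hw => Finset.mem_erase.2 ⟨fun h => hvs (by rw [← h]; exact hw), hst hw⟩
      · rw [Finset.card_erase_of_mem hv]; omega
    · rintro ⟨v, hv, rfl⟩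
      refine ⟨⟨⟨u, hu, (Finset.erase_subset _ _).trans htu⟩, ?_⟩, Finset.erase_subset _ _⟩
      rw [Finset.card_erase_of_mem hv]; omega
  rw [himg, Finset.sum_image (fun v hv w hw h => Finset.erase_injOn tv hv hw h)]
  rfl

/-- A cochain whose coboundary vanishes on faces is a coboundary. -/
lemma coboundary_of_cocycle {N d : ℕ} {T : Finset (Finset V)} {col : V → Fin N}
    (_hT : IsChambers T col) (hN : d + 2 ≤ N) (hC : LinksConn T N)
    (hAc : ∀ n, 1 ≤ n → n ≤ d → AcycAt (cxOf T) n) {S : Finset (Finset V)}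
    (hfaces : ∀ j, j ≤ d → ∀ s, s ∈ faces S j ↔ s ∈ facesOfSize T (j + 1))
    (i : ℕ) (hi : i < d) (h : Finset V → ZMod 2)
    (hz : ∀ s ∈ facesOfSize T (i + 1 + 1), cobS h s = 0) :
    ∃ a ∈ cobs S i, ∀ s : {s // s ∈ faces S i}, a s = h s.1 := by
  cases i with
  | zero =>
    show ∃ a ∈ Submodule.span (ZMod 2) {fun _ : {s // s ∈ faces S 0} => (1 : ZMod 2)}, _
    by_cases hne : ∃ s₀ : {s // s ∈ faces S 0}, True
    · obtain ⟨s₀, -⟩ := hne
      refine ⟨h s₀.1 • (fun _ => 1), Submodule.smul_mem _ _ (Submodule.subset_span rfl),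
        fun s => ?_⟩
      simp only [Pi.smul_apply, smul_eq_mul, mul_one]
      have hsing : ∀ s : {s // s ∈ faces S 0}, ∃ v, s.1 = {v} ∧ insert v ∅ ∈ cxOf T := by
        intro s
        obtain ⟨hc, t, ht, hst⟩ := mem_faces.1 ((hfaces 0 (Nat.zero_le _) s.1).1 s.2)
        obtain ⟨v, hv⟩ := Finset.card_eq_one.1 hc
        exact ⟨v, hv, mem_cx_of_subset ht (by simpa [hv] using hst)⟩
      obtain ⟨a, ha, hacx⟩ := hsing s₀
      obtain ⟨b, hb, hbcx⟩ := hsing s
      rw [ha, hb]
      have hpath := hC ∅ (by simp; omega) (Or.inl rfl) a b (by simp) (by simp) hacx hbcx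
      clear hb hbcx
      induction hpath with
      | refl => rfl
      | @tail x y _ hxy ih =>
        rw [ih]
        obtain ⟨-, -, hxy⟩ := hxy
        by_cases he : x = y
        · rw [he]
        rcases hxy with h0 | ⟨t, ht, hst⟩
        · exact absurd h0 (Finset.insert_ne_empty _ _)
        have hm : ({x, y} : Finset V) ∈ facesOfSize T (0 + 1 + 1) :=
          mem_faces.2 ⟨Finset.card_pair he, t, ht, by simpa using hst⟩
        have h2 := hz _ hm
        have e1 : ({x, y} : Finset V).erase x = {y} := by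
          ext u; simp [Finset.mem_erase]; grind
        have e2 : ({x, y} : Finset V).erase y = {x} := by
          ext u; simp [Finset.mem_erase]; grind
        rw [cobS, Finset.sum_pair he, e1, e2] at h2
        exact (CharTwo.add_eq_zero.1 h2).symm
    · exact ⟨0, Submodule.zero_mem _, fun s => absurd ⟨s, trivial⟩ hne⟩
  | succ j =>
    show ∃ a ∈ LinearMap.range (cob S j), _
    set P := chainsOf (cxOf T) (j + 1 + 1) with hP
    set Φ : Chain V →ₗ[ZMod 2] ZMod 2 := Finsupp.linearCombination (ZMod 2) h with hΦ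
    set Dm : P →ₗ[ZMod 2] Chain V := bd.comp P.subtype with hDm
    have hker : Φ.comp P.subtype ∈ (LinearMap.ker Dm).dualAnnihilator := by
      rw [Submodule.mem_dualAnnihilator]
      rintro ⟨z, hzP⟩ hzk
      simp only [LinearMap.mem_ker, hDm, LinearMap.comp_apply, Submodule.coe_subtype] at hzk
      simp only [LinearMap.comp_apply, Submodule.coe_subtype]
      obtain ⟨b, hb, hbz⟩ := hAc (j + 1 + 1) (by omega) (by omega) z hzP hzk
      rw [← hbz]
      have hrep : Φ (bd b) = Finsupp.linearCombination (ZMod 2) (cobS h) b := by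
        rw [bd, Finsupp.linearCombination_apply (ZMod 2) (v := fun u => ∑ v ∈ u, _) b,
          Finsupp.sum, map_sum, Finsupp.linearCombination_apply, Finsupp.sum]
        refine Finset.sum_congr rfl fun u _ => ?_
        rw [map_smul, map_sum]
        simp [hΦ, cobS]
      rw [hrep, Finsupp.linearCombination_apply, Finsupp.sum]
      refine Finset.sum_eq_zero fun u hu => ?_
      obtain ⟨hucx, huc⟩ := (Finsupp.mem_supported (ZMod 2) b).1 hb hu
      rcases hucx with h0 | ⟨t, ht, hut⟩
      · simp [h0] at huc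
      rw [hz u (mem_faces.2 ⟨huc, t, ht, hut⟩), smul_zero]
    rw [← LinearMap.range_dualMap_eq_dualAnnihilator_ker] at hker
    obtain ⟨ψ, hψ⟩ := hker
    refine ⟨cob S j (fun s => ψ (Finsupp.single s.1 1)), ⟨_, rfl⟩, fun t => ?_⟩
    rw [cob_eq_cobS _ (fun s => ψ (Finsupp.single s 1)) (fun _ => rfl)]
    obtain ⟨hc, u, hu, htu⟩ := mem_faces.1 ((hfaces (j + 1) (by omega) t.1).1 t.2)
    have htP : Finsupp.single t.1 (1 : ZMod 2) ∈ P :=
      Finsupp.single_mem_supported (ZMod 2) 1 ⟨mem_cx_of_subset hu htu, hc⟩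
    have h3 := LinearMap.congr_fun hψ ⟨_, htP⟩
    simp only [LinearMap.dualMap_apply, hDm, LinearMap.comp_apply, Submodule.coe_subtype,
      hΦ, Finsupp.linearCombination_single, one_smul] at h3
    simpa [bd, cobS, map_sum] using h3

/-- Upper bound for the norm of a cochain of the skeleton. -/
lemma cochNorm_le {N d : ℕ} {T : Finset (Finset V)} {col : V → Fin N}
    (hT : IsChambers T col) (hN : d + 2 ≤ N) {S : Finset (Finset V)}
    (hS : S = facesOfSize T (d + 1))
    (hfaces : ∀ j, j ≤ d → ∀ s, s ∈ faces S j ↔ s ∈ facesOfSize T (j + 1))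
    {i : ℕ} (hi : i < d) (φ : Coch S i) (φh : Finset V → ZMod 2) (hφ : ∀ s, φh s.1 = φ s) :
    cochNorm S d i φ ≤ 2 ^ N * (wsz T (i + 1) φh : ℝ) / (S.card : ℝ) := by
  have hnum : ∀ s, ((S.filter (fun u => s ⊆ u)).card : ℝ) ≤ 2 ^ N * (cnt T s : ℝ) := by
    intro s
    have h : (S.filter (fun u => s ⊆ u)).card ≤ 2 ^ N * cnt T s := by
      refine le_trans ?_ (sum_cnt_above hT (S.filter (fun u => s ⊆ u)) s
        fun u hu => (Finset.mem_filter.1 hu).2)
      rw [Finset.card_eq_sum_ones]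
      exact Finset.sum_le_sum fun u hu =>
        cnt_pos.2 (mem_faces.1 (hS ▸ (Finset.mem_filter.1 hu).1)).2
    exact_mod_cast h
  calc cochNorm S d i φ
      ≤ ∑ s : {s // s ∈ faces S i},
          if φh s.1 = 0 then 0 else 2 ^ N * (cnt T s.1 : ℝ) / (S.card : ℝ) := by
        unfold cochNorm
        refine Finset.sum_le_sum fun s _ => ?_
        rw [hφ s]
        split
        · exact le_rfl
        · rw [faceWeight, ← div_div]
          refine div_le_div_of_nonneg_right ?_ (Nat.cast_nonneg _)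
          have hch : (1 : ℝ) ≤ ((d + 1).choose (i + 1) : ℝ) := by
            exact_mod_cast Nat.choose_pos (by omega : i + 1 ≤ d + 1)
          refine (div_le_iff₀ (by linarith)).2 ?_
          have h0 : (0 : ℝ) ≤ 2 ^ N * (cnt T s.1 : ℝ) := by positivity
          exact le_trans (hnum s.1) (le_mul_of_one_le_right h0 hch)
    _ = ∑ s ∈ (facesOfSize T (i + 1)).filter (fun s => φh s ≠ 0),
          2 ^ N * (cnt T s : ℝ) / (S.card : ℝ) := by
        rw [Finset.sum_coe_sort (faces S i)
          (fun s => if φh s = 0 then 0 else 2 ^ N * (cnt T s : ℝ) / (S.card : ℝ)),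
          Finset.sum_filter, show faces S i = facesOfSize T (i + 1) from
            Finset.ext (hfaces i hi.le)]
        refine Finset.sum_congr rfl fun s _ => ?_
        by_cases h : φh s = 0 <;> simp [h]
    _ = 2 ^ N * (wsz T (i + 1) φh : ℝ) / (S.card : ℝ) := by
        rw [wsz, Nat.cast_sum, Finset.mul_sum, Finset.sum_div]

/-- Lower bound for the norm of a coboundary in the skeleton. -/
lemma le_cochNorm_cob {N d D : ℕ} {T : Finset (Finset V)} {col : V → Fin N}
    (hT : IsChambers T col) (hN : d + 2 ≤ N) {S : Finset (Finset V)}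
    (hS : S = facesOfSize T (d + 1))
    (hfaces : ∀ j, j ≤ d → ∀ s, s ∈ faces S j ↔ s ∈ facesOfSize T (j + 1))
    {i : ℕ} (hi : i < d) (hD : 0 < D) (hdeg : ∀ v, cnt T {v} ≤ D) (f : Coch S i)
    (fhat : Finset V → ZMod 2) (hfh : ∀ s : {s // s ∈ faces S i}, fhat s.1 = f s) :
    (wsz T (i + 2) (cobS fhat) : ℝ) / (2 ^ N * (D : ℝ) * (S.card : ℝ)) ≤
      cochNorm S d (i + 1) (cob S i f) := by
  calc (wsz T (i + 2) (cobS fhat) : ℝ) / (2 ^ N * (D : ℝ) * (S.card : ℝ))
      = ∑ s ∈ faces S (i + 1),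
          if cobS fhat s = 0 then 0 else (cnt T s : ℝ) / (2 ^ N * (D : ℝ) * (S.card : ℝ)) := by
        rw [wsz, Nat.cast_sum, Finset.sum_div, Finset.sum_filter,
          show faces S (i + 1) = facesOfSize T (i + 2) from Finset.ext (hfaces (i + 1) hi)]
        refine Finset.sum_congr rfl fun s _ => ?_
        by_cases h : cobS fhat s = 0 <;> simp [h]
    _ ≤ _ := by
        unfold cochNorm
        rw [← Finset.sum_coe_sort (faces S (i + 1))]
        refine Finset.sum_le_sum fun s _ => ?_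
        rw [cob_eq_cobS f fhat hfh s]
        split
        · exact le_rfl
        · rw [faceWeight, mul_assoc, ← div_div, ← div_div, ← div_div]
          refine div_le_div_of_nonneg_right ?_ (Nat.cast_nonneg _)
          have hch : (0 : ℝ) < ((d + 1).choose (i + 1 + 1) : ℝ) := by
            exact_mod_cast Nat.choose_pos (by omega : i + 1 + 1 ≤ d + 1)
          have hch2 : ((d + 1).choose (i + 1 + 1) : ℝ) ≤ 2 ^ N := by
            have : (d + 1).choose (i + 1 + 1) ≤ 2 ^ N :=
              (Nat.choose_le_two_pow _ _).trans (Nat.pow_le_pow_right (by norm_num) (by omega))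
            exact_mod_cast this
          obtain ⟨hc, t, ht, hst⟩ := mem_faces.1 ((hfaces (i + 1) hi s.1).1 s.2)
          obtain ⟨v, hv⟩ := Finset.card_pos.1 (show 0 < s.1.card by omega)
          have hcD : (cnt T s.1 : ℝ) ≤ D := by
            exact_mod_cast (cnt_mono (Finset.singleton_subset_iff.2 hv)).trans (hdeg v)
          have h1 : (1 : ℝ) ≤ ((S.filter (fun u => s.1 ⊆ u)).card : ℝ) := by
            have : 0 < (S.filter (fun u => s.1 ⊆ u)).card := by
              obtain ⟨u, hsu, hut, huc⟩ := Finset.exists_subsuperset_card_eq hst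
                (show s.1.card ≤ d + 1 by omega) (by rw [(hT t ht).1]; omega)
              exact Finset.card_pos.2
                ⟨u, Finset.mem_filter.2 ⟨hS ▸ mem_faces.2 ⟨huc, t, ht, hut⟩, hsu⟩⟩
            exact_mod_cast this
          have hDp : (0 : ℝ) < D := by exact_mod_cast hD
          calc (cnt T s.1 : ℝ) / 2 ^ N / (D : ℝ)
              ≤ (D : ℝ) / 2 ^ N / (D : ℝ) := by gcongr
            _ = 1 / 2 ^ N := by field_simp
            _ ≤ _ := by
                refine le_trans (one_div_le_one_div_of_le hch hch2) ?_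
                exact div_le_div_of_nonneg_right h1 hch.le

theorem localToGlobal_aux {N d D : ℕ} {μ : ℝ} (hN : d + 2 ≤ N) (hD : 0 < D) (hμ : 0 < μ)
    {V : Type} {T : Finset (Finset V)} {col : V → Fin N} (hT : IsChambers T col)
    (hdeg : ∀ v, cnt T {v} ≤ D) (hC : LinksConn T N)
    (hkey : ∀ k, 1 ≤ k → k ≤ d → ∀ z : Finset V → ZMod 2,
      (∀ τ ∈ facesOfSize T (k + 2), cobS z τ = 0) →
      (wsz T (k + 1) z : ℝ) ≤ μ * (T.card : ℝ) →
      (∀ (r : Finset V) (g : Finset V → ZMod 2), r.Nonempty → SuppAbove T k r g →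
        wsz T (k + 1) z ≤ wsz T (k + 1) (z + cobS g)) →
      ∀ s ∈ facesOfSize T (k + 1), z s = 0)
    (hAc : ∀ n, 1 ≤ n → n ≤ d → AcycAt (cxOf T) n) :
    IsCobExpander (facesOfSize T (d + 1)) d
      (1 / (((4 : ℝ) ^ N / μ + 2 ^ N * (2 ^ N * (D : ℝ))) * (2 ^ N * (D : ℝ)))) := by
  intro i hi
  generalize hS' : facesOfSize T (d + 1) = S
  have hS := hS'.symm
  intro f
  have hfaces : ∀ j, j ≤ d → ∀ s, s ∈ faces S j ↔ s ∈ facesOfSize T (j + 1) := fun j hj s => by
    have e : faces S j = facesOfSize S (j + 1) := by ext; simp [faces, facesOfSize]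
    rw [e, hS, facesOfSize_facesOfSize hT (by omega) (by omega)]
  -- extension by zero
  set fhat : Finset V → ZMod 2 :=
    fun s => if h : s ∈ faces S i then f ⟨s, h⟩ else 0 with hfhat
  have hfh : ∀ s : {s // s ∈ faces S i}, fhat s.1 = f s := fun s => by simp [hfhat, s.2]
  have hup : ∀ (φ : Coch S i) (φh : Finset V → ZMod 2), (∀ s, φh s.1 = φ s) →
      cochNorm S d i φ ≤ 2 ^ N * (wsz T (i + 1) φh : ℝ) / (S.card : ℝ) :=
    fun φ φh hφ => cochNorm_le hT hN hS hfaces hi φ φh hφ
  set w : ℕ := wsz T (i + 2) (cobS fhat) with hw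
  have hlow : (w : ℝ) / (2 ^ N * (D : ℝ) * (S.card : ℝ)) ≤ cochNorm S d (i + 1) (cob S i f) :=
    le_cochNorm_cob hT hN hS hfaces hi hD hdeg f fhat hfh
  -- distance to coboundaries
  have hdist : distCobs S d i f ≤
      ((4 : ℝ) ^ N / μ + 2 ^ N * (2 ^ N * (D : ℝ))) * (w : ℝ) / (S.card : ℝ) := by
    have hle : ∀ a : cobs S i, distCobs S d i f ≤ cochNorm S d i (f - a.1) := fun a =>
      ciInf_le ((Set.finite_range _).bddBelow) a
    have hw0 : (0 : ℝ) ≤ (w : ℝ) := Nat.cast_nonneg _
    by_cases hbig : μ * (T.card : ℝ) < (w : ℝ)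
    · refine (hle 0).trans ?_
      refine (hup _ fhat (fun s => by simpa using hfh s)).trans ?_
      refine div_le_div_of_nonneg_right ?_ (Nat.cast_nonneg _)
      have h1 : (wsz T (i + 1) fhat : ℝ) ≤ 2 ^ N * (T.card : ℝ) := by
        exact_mod_cast wsz_le_total hT (i + 1) fhat
      have h4 : (4 : ℝ) ^ N = 2 ^ N * 2 ^ N := by rw [← mul_pow]; norm_num
      calc (2 : ℝ) ^ N * (wsz T (i + 1) fhat : ℝ) ≤ 2 ^ N * (2 ^ N * (T.card : ℝ)) := by gcongr
        _ = 4 ^ N / μ * (μ * (T.card : ℝ)) := by rw [h4]; field_simp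
        _ ≤ 4 ^ N / μ * (w : ℝ) := by gcongr
        _ ≤ _ := by
            refine mul_le_mul_of_nonneg_right (le_add_of_nonneg_right ?_) hw0
            positivity
    · push Not at hbig
      obtain ⟨g, hg1, hg2⟩ := improve hT hdeg (i + 1) w fhat rfl
      set h := fhat + g with hh
      have hDN : 0 < 2 ^ N * D := by positivity
      have hsm : (wsz T (i + 1 + 1) (cobS h) : ℝ) ≤ μ * (T.card : ℝ) := by
        refine le_trans ?_ hbig
        have : wsz T (i + 1 + 1) (cobS h) ≤ w :=
          Nat.le_of_mul_le_mul_left (le_trans (Nat.le_add_left _ _) hg2) hDN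
        exact_mod_cast this
      have hz : ∀ s ∈ facesOfSize T (i + 1 + 1), cobS h s = 0 :=
        hkey (i + 1) (by omega) (by omega) (cobS h) (fun τ _ => cobS_cobS h τ) hsm hg1
      have hb := coboundary_of_cocycle hT hN hC hAc hfaces i hi h hz
      obtain ⟨a, ha, hah⟩ := hb
      refine (hle ⟨a, ha⟩).trans ?_
      refine (hup _ g (fun s => ?_)).trans ?_
      · show g s.1 = f s - a s
        rw [hah s, hh, Pi.add_apply, ← hfh s]
        exact (by decide : ∀ x y : ZMod 2, y = x - (x + y)) _ _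
      · refine div_le_div_of_nonneg_right ?_ (Nat.cast_nonneg _)
        have h1 : (wsz T (i + 1) g : ℝ) ≤ 2 ^ N * (D : ℝ) * (w : ℝ) := by
          have : wsz T (i + 1) g ≤ 2 ^ N * D * w := le_trans (Nat.le_add_right _ _) hg2
          exact_mod_cast this
        calc (2 : ℝ) ^ N * (wsz T (i + 1) g : ℝ) ≤ 2 ^ N * (2 ^ N * (D : ℝ) * (w : ℝ)) := by gcongr
          _ = 2 ^ N * (2 ^ N * (D : ℝ)) * (w : ℝ) := by ring
          _ ≤ _ := mul_le_mul_of_nonneg_right (le_add_of_nonneg_left (by positivity)) hw0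
  have hDp : (0 : ℝ) < D := by exact_mod_cast hD
  set C : ℝ := (4 : ℝ) ^ N / μ + 2 ^ N * (2 ^ N * (D : ℝ)) with hCdef
  have hC0 : 0 < C := by positivity
  refine le_trans ?_ hlow
  calc 1 / (C * (2 ^ N * (D : ℝ))) * distCobs S d i f
      ≤ 1 / (C * (2 ^ N * (D : ℝ))) * (C * (w : ℝ) / (S.card : ℝ)) := by gcongr
    _ = (w : ℝ) / (2 ^ N * (D : ℝ) * (S.card : ℝ)) := by
        rw [div_mul_div_comm]
        field_simp

end Vale.Agent.P067.L2G

namespace Vale.Agent.P067

theorem localToGlobal : LocalToGlobal := by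
  intro N d β _ hN hβ
  obtain ⟨lam, hlam, μ, hμ, hkey⟩ := L2G.key N d β hN hβ
  refine ⟨lam, hlam, fun D₀ => ⟨_, ?_, fun V T col hT hdeg hL hC hB hAc =>
    L2G.localToGlobal_aux (D := D₀ + 1) hN (Nat.succ_pos _) hμ hT
      (fun v => (hdeg v).trans (Nat.le_succ _)) hC (hkey V T col hT hL hC hB) hAc⟩⟩
  positivity

end Vale.Agent.P067
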