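import Mathlib

/-!
Correlation bound for biregular incidence structures in which two points share at most one line.
-/

namespace Vale.Agent.P067

open Classical

variable {α β : Type}

theorem sum_edges_eq (A : Finset α) (L : Finset β) (R : α → β → Prop) (E : Finset (α × β))
    (hE : ∀ e, e ∈ E ↔ e.1 ∈ A ∧ e.2 ∈ L ∧ R e.1 e.2) (F : α → β → ℝ) :
    ∑ e ∈ E, F e.1 e.2 = ∑ x ∈ A, ∑ y ∈ L, if R x y then F x y else 0 := by
  have : E = (A ×ˢ L).filter (fun e => R e.1 e.2) := by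
    ext e; simp [hE, and_assoc]
  rw [this, Finset.sum_filter, Finset.sum_product]

theorem incidence_sq_le (A : Finset α) (L : Finset β) (R : α → β → Prop) (r s D : ℕ)
    (hr : ∀ x ∈ A, (L.filter (R x)).card = r) (hs : ∀ y ∈ L, (A.filter (R · y)).card = s)
    (hone : ∀ x ∈ A, ∀ x' ∈ A, x ≠ x' → (L.filter fun y => R x y ∧ R x' y).card ≤ 1)
    (hD : A.card + r ≤ D + r * s + 1) (f : α → ℝ) (hf : ∑ x ∈ A, f x = 0) :
    ∑ y ∈ L, (∑ x ∈ A, if R x y then f x else 0) ^ 2 ≤ ((r : ℝ) + D) * ∑ x ∈ A, f x ^ 2 := by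
  set c : α → α → ℝ := fun x x' => ((L.filter fun y => R x y ∧ R x' y).card : ℝ) with hc
  set d : α → α → ℝ := fun x x' => 1 + (if x = x' then (r : ℝ) - 1 else 0) - c x x' with hd
  have h1 : ∑ y ∈ L, (∑ x ∈ A, if R x y then f x else 0) ^ 2 =
      ∑ x ∈ A, ∑ x' ∈ A, c x x' * (f x * f x') := by
    simp only [pow_two, Finset.sum_mul_sum]
    rw [Finset.sum_comm]
    refine Finset.sum_congr rfl fun x _ => ?_
    rw [Finset.sum_comm]
    refine Finset.sum_congr rfl fun x' _ => ?_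
    simp only [hc, Finset.card_filter, Nat.cast_sum, Finset.sum_mul]
    refine Finset.sum_congr rfl fun y _ => ?_
    by_cases hx : R x y <;> by_cases hx' : R x' y <;> simp [hx, hx']
  have hnn : ∀ x ∈ A, ∀ x' ∈ A, 0 ≤ d x x' := by
    intro x hx x' hx'
    simp only [hd, hc]
    by_cases e : x = x'
    · subst e
      simp only [and_self, if_true]
      have := hr x hx
      rw [show (L.filter fun y => R x y).card = r from this]
      linarith
    · rw [if_neg e]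
      have := hone x hx x' hx' e
      have : ((L.filter fun y => R x y ∧ R x' y).card : ℝ) ≤ 1 := by exact_mod_cast this
      linarith
  have hsym : ∀ x x', d x x' = d x' x := by
    intro x x'
    simp only [hd, hc, eq_comm (a := x), and_comm]
  have hrow : ∀ x ∈ A, ∑ x' ∈ A, d x x' ≤ D := by
    intro x hx
    have hcsum : ∑ x' ∈ A, c x x' = (r : ℝ) * s := by
      simp only [hc]
      rw [← Nat.cast_sum]
      norm_cast
      simp only [Finset.card_filter]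
      rw [Finset.sum_comm]
      calc ∑ y ∈ L, ∑ x' ∈ A, (if R x y ∧ R x' y then 1 else 0) =
            ∑ y ∈ L, if R x y then s else 0 := by
            refine Finset.sum_congr rfl fun y hy => ?_
            by_cases h : R x y
            · simp only [h, true_and, if_true]
              rw [← Finset.card_filter]
              exact hs y hy
            · simp [h]
        _ = r * s := by
            rw [← Finset.sum_filter, Finset.sum_const, hr x hx, smul_eq_mul]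
    have hD' : (A.card : ℝ) + r ≤ D + (r : ℝ) * s + 1 := by exact_mod_cast hD
    simp only [hd, Finset.sum_sub_distrib, Finset.sum_add_distrib, Finset.sum_const, nsmul_one,
      Finset.sum_ite_eq, if_pos hx, hcsum]
    linarith
  have hsum0 : ∑ x ∈ A, ∑ x' ∈ A, f x * f x' = 0 := by
    simp [← Finset.mul_sum, hf]
  have hexp : ∑ x ∈ A, ∑ x' ∈ A, c x x' * (f x * f x') =
      ((r : ℝ) - 1) * ∑ x ∈ A, f x ^ 2 - ∑ x ∈ A, ∑ x' ∈ A, d x x' * (f x * f x') := by
    have : ∀ x x', c x x' * (f x * f x') = f x * f x' +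
        (if x = x' then ((r : ℝ) - 1) * (f x * f x') else 0) - d x x' * (f x * f x') := by
      intro x x'
      simp only [hd]
      split_ifs <;> ring
    simp only [this, Finset.sum_sub_distrib, Finset.sum_add_distrib, hsum0, zero_add]
    congr 1
    rw [Finset.mul_sum]
    refine Finset.sum_congr rfl fun x hx => ?_
    rw [Finset.sum_ite_eq, if_pos hx]
    ring
  have hbound : -(∑ x ∈ A, ∑ x' ∈ A, d x x' * (f x * f x')) ≤ (D : ℝ) * ∑ x ∈ A, f x ^ 2 := by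
    have h2 : ∑ x ∈ A, ∑ x' ∈ A, d x x' * f x' ^ 2 = ∑ x ∈ A, ∑ x' ∈ A, d x x' * f x ^ 2 := by
      rw [Finset.sum_comm]
      refine Finset.sum_congr rfl fun x _ => Finset.sum_congr rfl fun x' _ => ?_
      rw [hsym]
    have h3 : ∑ x ∈ A, ∑ x' ∈ A, d x x' * f x ^ 2 ≤ (D : ℝ) * ∑ x ∈ A, f x ^ 2 := by
      rw [Finset.mul_sum]
      refine Finset.sum_le_sum fun x hx => ?_
      rw [← Finset.sum_mul]
      exact mul_le_mul_of_nonneg_right (hrow x hx) (sq_nonneg _)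
    have h4 : -(∑ x ∈ A, ∑ x' ∈ A, d x x' * (f x * f x')) ≤
        ∑ x ∈ A, ∑ x' ∈ A, (d x x' * f x ^ 2 + d x x' * f x' ^ 2) / 2 := by
      simp only [← Finset.sum_neg_distrib]
      refine Finset.sum_le_sum fun x hx => Finset.sum_le_sum fun x' hx' => ?_
      nlinarith [mul_nonneg (hnn x hx x' hx') (sq_nonneg (f x + f x'))]
    simp only [← Finset.sum_div, Finset.sum_add_distrib] at h4
    rw [h2] at h4
    linarith
  rw [h1, hexp]
  have : 0 ≤ ∑ x ∈ A, f x ^ 2 := Finset.sum_nonneg fun x _ => sq_nonneg _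
  linarith

theorem incidence_corr (A : Finset α) (L : Finset β) (R : α → β → Prop) (E : Finset (α × β))
    (hE : ∀ e, e ∈ E ↔ e.1 ∈ A ∧ e.2 ∈ L ∧ R e.1 e.2) (r s D : ℕ)
    (hr : ∀ x ∈ A, (L.filter (R x)).card = r) (hs : ∀ y ∈ L, (A.filter (R · y)).card = s)
    (hone : ∀ x ∈ A, ∀ x' ∈ A, x ≠ x' → (L.filter fun y => R x y ∧ R x' y).card ≤ 1)
    (hD : A.card + r ≤ D + r * s + 1) (lam : ℝ) (hlam : 0 < lam)
    (hb : (r : ℝ) + D ≤ lam ^ 2 * ((r : ℝ) * s)) (f : α → ℝ) (g : β → ℝ) :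
    (E.card : ℝ) * (∑ e ∈ E, f e.1 * g e.2) - (∑ e ∈ E, f e.1) * (∑ e ∈ E, g e.2) ≤
      lam * Real.sqrt
        (((E.card : ℝ) * (∑ e ∈ E, f e.1 ^ 2) - (∑ e ∈ E, f e.1) ^ 2) *
         ((E.card : ℝ) * (∑ e ∈ E, g e.2 ^ 2) - (∑ e ∈ E, g e.2) ^ 2)) := by
  rcases E.eq_empty_or_nonempty with rfl | hne
  · simp
  set n : ℝ := (E.card : ℝ) with hn
  have hn0 : 0 < n := by rw [hn]; exact_mod_cast hne.card_pos
  set μ : ℝ := (∑ e ∈ E, f e.1) / n with hμ
  set ν : ℝ := (∑ e ∈ E, g e.2) / n with hν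
  let f0 : α → ℝ := fun x => f x - μ
  let g0 : β → ℝ := fun y => g y - ν
  set T := ∑ e ∈ E, f0 e.1 * g0 e.2 with hT
  set T₁ := ∑ e ∈ E, f0 e.1 ^ 2 with hT₁
  set T₂ := ∑ e ∈ E, g0 e.2 ^ 2 with hT₂
  have hμ' : ∑ e ∈ E, f e.1 = n * μ := by rw [hμ]; field_simp
  have hν' : ∑ e ∈ E, g e.2 = n * ν := by rw [hν]; field_simp
  have eT : n * (∑ e ∈ E, f e.1 * g e.2) - (∑ e ∈ E, f e.1) * (∑ e ∈ E, g e.2) = n * T := by
    have : T = ∑ e ∈ E, (f e.1 * g e.2 - μ * g e.2 - ν * f e.1 + μ * ν) := by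
      rw [hT]; exact Finset.sum_congr rfl fun e _ => by simp only [f0, g0]; ring
    simp only [this, Finset.sum_add_distrib, Finset.sum_sub_distrib, ← Finset.mul_sum,
      Finset.sum_const, nsmul_eq_mul, hμ', hν', ← hn]
    ring
  have eT₁ : n * (∑ e ∈ E, f e.1 ^ 2) - (∑ e ∈ E, f e.1) ^ 2 = n * T₁ := by
    have : T₁ = ∑ e ∈ E, (f e.1 ^ 2 - 2 * μ * f e.1 + μ ^ 2) := by
      rw [hT₁]; exact Finset.sum_congr rfl fun e _ => by simp only [f0]; ring
    simp only [this, Finset.sum_add_distrib, Finset.sum_sub_distrib, ← Finset.mul_sum,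
      Finset.sum_const, nsmul_eq_mul, hμ', ← hn]
    ring
  have eT₂ : n * (∑ e ∈ E, g e.2 ^ 2) - (∑ e ∈ E, g e.2) ^ 2 = n * T₂ := by
    have : T₂ = ∑ e ∈ E, (g e.2 ^ 2 - 2 * ν * g e.2 + ν ^ 2) := by
      rw [hT₂]; exact Finset.sum_congr rfl fun e _ => by simp only [g0]; ring
    simp only [this, Finset.sum_add_distrib, Finset.sum_sub_distrib, ← Finset.mul_sum,
      Finset.sum_const, nsmul_eq_mul, hν', ← hn]
    ring
  obtain ⟨e₀, he₀⟩ := hne
  obtain ⟨hxA, hyL, hRxy⟩ := (hE e₀).1 he₀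
  have hr0 : (0 : ℝ) < r := by
    rw [← hr _ hxA]
    exact_mod_cast Finset.card_pos.2 ⟨e₀.2, Finset.mem_filter.2 ⟨hyL, hRxy⟩⟩
  have hs0 : (0 : ℝ) < s := by
    rw [← hs _ hyL]
    exact_mod_cast Finset.card_pos.2 ⟨e₀.1, Finset.mem_filter.2 ⟨hxA, hRxy⟩⟩
  have hleft : ∀ F : α → ℝ, ∑ e ∈ E, F e.1 = r * ∑ x ∈ A, F x := by
    intro F
    rw [sum_edges_eq A L R E hE (fun x _ => F x), Finset.mul_sum]
    refine Finset.sum_congr rfl fun x hx => ?_
    rw [← Finset.sum_filter, Finset.sum_const, hr x hx, nsmul_eq_mul]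
  have hright : ∀ F : β → ℝ, ∑ e ∈ E, F e.2 = s * ∑ y ∈ L, F y := by
    intro F
    rw [sum_edges_eq A L R E hE (fun _ y => F y), Finset.sum_comm, Finset.mul_sum]
    refine Finset.sum_congr rfl fun y hy => ?_
    rw [← Finset.sum_filter, Finset.sum_const, hs y hy, nsmul_eq_mul]
  have hf0 : ∑ x ∈ A, f0 x = 0 := by
    have h := hleft f0
    simp only [f0, Finset.sum_sub_distrib, Finset.sum_const, nsmul_eq_mul, hμ', ← hn,
      sub_self, zero_eq_mul, hr0.ne', false_or] at h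
    simpa [f0, Finset.sum_sub_distrib] using h
  have hT' : T = ∑ y ∈ L, (∑ x ∈ A, if R x y then f0 x else 0) * g0 y := by
    rw [hT, sum_edges_eq A L R E hE (fun x y => f0 x * g0 y), Finset.sum_comm]
    refine Finset.sum_congr rfl fun y _ => ?_
    rw [Finset.sum_mul]
    refine Finset.sum_congr rfl fun x _ => ?_
    by_cases h : R x y <;> simp [h]
  have hsq : T ^ 2 ≤ lam ^ 2 * (T₁ * T₂) := by
    have h1 := Finset.sum_mul_sq_le_sq_mul_sq L
      (fun y => ∑ x ∈ A, if R x y then f0 x else 0) g0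
    rw [← hT'] at h1
    have h2 := incidence_sq_le A L R r s D hr hs hone hD f0 hf0
    have hA : (0 : ℝ) ≤ ∑ x ∈ A, f0 x ^ 2 := Finset.sum_nonneg fun x _ => sq_nonneg _
    have hL : (0 : ℝ) ≤ ∑ y ∈ L, g0 y ^ 2 := Finset.sum_nonneg fun x _ => sq_nonneg _
    rw [hT₁, hT₂, hleft (fun x => f0 x ^ 2), hright (fun y => g0 y ^ 2)]
    calc T ^ 2 ≤ _ := h1
      _ ≤ ((r : ℝ) + D) * (∑ x ∈ A, f0 x ^ 2) * ∑ y ∈ L, g0 y ^ 2 :=
        mul_le_mul_of_nonneg_right h2 hL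
      _ ≤ lam ^ 2 * ((r : ℝ) * s) * (∑ x ∈ A, f0 x ^ 2) * ∑ y ∈ L, g0 y ^ 2 :=
        mul_le_mul_of_nonneg_right (mul_le_mul_of_nonneg_right hb hA) hL
      _ = _ := by ring
  rw [eT, eT₁, eT₂]
  have hroot : Real.sqrt (n * T₁ * (n * T₂)) = n * Real.sqrt (T₁ * T₂) := by
    rw [show n * T₁ * (n * T₂) = (n * n) * (T₁ * T₂) by ring,
      Real.sqrt_mul (mul_self_nonneg n), Real.sqrt_mul_self hn0.le]
  rw [hroot]
  have := Real.abs_le_sqrt hsq
  rw [Real.sqrt_mul (sq_nonneg lam), Real.sqrt_sq hlam.le] at this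
  nlinarith [le_abs_self T]

end Vale.Agent.P067
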