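import Mathlib
import Vale.Agent.P067.SubspaceFill

/-!
Complete flags in general position: extension, adapted bases, transitivity, connectivity.
-/

namespace Vale.Agent.P067

open Classical Module

variable {p N : ℕ} [Fact p.Prime]

theorem finrank_sub_le (W : Sub p N) : finrank (ZMod p) W ≤ N := by
  simpa using Submodule.finrank_le W

theorem finrank_top_sub : finrank (ZMod p) (⊤ : Sub p N) = N := by simp [finrank_top]

theorem chain_eq_of_finrank {P : Set (Sub p N)} {c : Finset (Sub p N)} (hc : IsPChain P c)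
    {a b : Sub p N} (ha : a ∈ c) (hb : b ∈ c) (h : finrank (ZMod p) a = finrank (ZMod p) b) :
    a = b := by
  rcases chain_cases hc.2 ha hb with h' | h'
  · exact Submodule.eq_of_le_of_finrank_eq h' h
  · exact (Submodule.eq_of_le_of_finrank_eq h' h.symm).symm

theorem GP_finrank {F W : Sub p N} (h : W ∈ GP F) :
    1 ≤ finrank (ZMod p) W ∧ finrank (ZMod p) W + 1 ≤ N := by
  have h1 : (⊥ : Sub p N) < W := bot_lt_iff_ne_bot.2 h.1
  have h2 : W < ⊤ := lt_top_iff_ne_top.2 h.2.1
  have := Submodule.finrank_lt_finrank_of_lt h1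
  have := Submodule.finrank_lt_finrank_of_lt h2
  rw [finrank_top_sub] at this
  omega

/-- The dimensions missed by a chain. -/
noncomputable def missing (c : Finset (Sub p N)) : Finset ℕ :=
  Finset.Ico 1 N \ c.image (fun W : Sub p N => finrank (ZMod p) W)

theorem card_missing {F : Sub p N} {c : Finset (Sub p N)} (hc : IsPChain (GP F) c) :
    (missing c).card + (c.card + 1) = N ∨ N = 0 := by
  rcases Nat.eq_zero_or_pos N with hN | hN
  · exact Or.inr hN
  left
  have hsub : c.image (fun W : Sub p N => finrank (ZMod p) W) ⊆ Finset.Ico 1 N := by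
    intro a ha
    obtain ⟨W, hW, rfl⟩ := Finset.mem_image.1 ha
    have := GP_finrank (hc.1 W hW)
    rw [Finset.mem_Ico]
    omega
  have hcard : (c.image (fun W : Sub p N => finrank (ZMod p) W)).card = c.card :=
    Finset.card_image_of_injOn fun a ha b hb h => chain_eq_of_finrank hc ha hb h
  rw [missing, Finset.card_sdiff_of_subset hsub, hcard, Nat.card_Ico]
  have := Finset.card_le_card hsub
  rw [hcard, Nat.card_Ico] at this
  omega

/-- The gap around a missing dimension. -/
theorem gap_of_missing {P : Set (Sub p N)} {c : Finset (Sub p N)} (hc : IsPChain P c) {a : ℕ}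
    (ha : a ∈ missing c) : ∃ U x, IsGap c U x 2 ∧ finrank (ZMod p) U < a ∧
      a < finrank (ZMod p) x := by
  simp only [missing, Finset.mem_sdiff, Finset.mem_Ico, Finset.mem_image, not_exists, not_and] at ha
  obtain ⟨⟨ha1, ha2⟩, ha3⟩ := ha
  obtain ⟨U, hU, hUa, hUmax⟩ : ∃ U : Sub p N, (U = ⊥ ∨ U ∈ c) ∧ finrank (ZMod p) U < a ∧
      ∀ w ∈ c, finrank (ZMod p) w < a → w ≤ U := by
    rcases (c.filter fun w : Sub p N => finrank (ZMod p) w < a).eq_empty_or_nonempty with he | hne
    · refine ⟨⊥, Or.inl rfl, by simp; omega, fun w hw hwa => ?_⟩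
      have : w ∈ c.filter fun w : Sub p N => finrank (ZMod p) w < a := Finset.mem_filter.2 ⟨hw, hwa⟩
      rw [he] at this
      exact absurd this (Finset.notMem_empty w)
    · obtain ⟨U, hU, hmax⟩ := Finset.exists_max_image _ (fun w : Sub p N => finrank (ZMod p) w) hne
      obtain ⟨hUc, hUa⟩ := Finset.mem_filter.1 hU
      refine ⟨U, Or.inr hUc, hUa, fun w hw hwa => ?_⟩
      have := hmax w (Finset.mem_filter.2 ⟨hw, hwa⟩)
      rcases chain_cases hc.2 hw hUc with h | h
      · exact h
      · exact (Submodule.eq_of_le_of_finrank_le h this).ge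
  obtain ⟨x, hx, hxa, hxmin⟩ : ∃ x : Sub p N, (x = ⊤ ∨ x ∈ c) ∧ a < finrank (ZMod p) x ∧
      ∀ w ∈ c, a < finrank (ZMod p) w → x ≤ w := by
    rcases (c.filter fun w : Sub p N => a < finrank (ZMod p) w).eq_empty_or_nonempty with he | hne
    · refine ⟨⊤, Or.inl rfl, by rw [finrank_top_sub]; omega, fun w hw hwa => ?_⟩
      have : w ∈ c.filter fun w : Sub p N => a < finrank (ZMod p) w := Finset.mem_filter.2 ⟨hw, hwa⟩
      rw [he] at this
      exact absurd this (Finset.notMem_empty w)
    · obtain ⟨x, hx, hmin⟩ := Finset.exists_min_image _ (fun w : Sub p N => finrank (ZMod p) w) hne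
      obtain ⟨hxc, hxa⟩ := Finset.mem_filter.1 hx
      refine ⟨x, Or.inr hxc, hxa, fun w hw hwa => ?_⟩
      have := hmin w (Finset.mem_filter.2 ⟨hw, hwa⟩)
      rcases chain_cases hc.2 hxc hw with h | h
      · exact h
      · exact (Submodule.eq_of_le_of_finrank_le h this).ge
  refine ⟨U, x, ⟨hU, hx, ?_, by omega, fun w hw => ?_⟩, hUa, hxa⟩
  · rcases hU with rfl | hU
    · exact bot_le
    rcases hx with rfl | hx
    · exact le_top
    rcases chain_cases hc.2 hU hx with h | h
    · exact h
    · have := Submodule.finrank_mono h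
      omega
  · rcases lt_trichotomy (finrank (ZMod p) w) a with h | h | h
    · exact Or.inl (hUmax w hw h)
    · exact absurd h (ha3 w hw)
    · exact Or.inr (hxmin w hw h)

theorem IsVtx.finrank_mem_missing {F : Sub p N} {c : Finset (Sub p N)} (hc : IsPChain (GP F) c)
    {W : Sub p N} (hW : IsVtx (GP F) c W) : finrank (ZMod p) W ∈ missing c := by
  have := GP_finrank hW.1
  simp only [missing, Finset.mem_sdiff, Finset.mem_Ico, Finset.mem_image, not_exists, not_and]
  refine ⟨⟨this.1, by omega⟩, fun w hw h => hW.2.1 ?_⟩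
  rw [chain_eq_of_finrank (hW.isPChain_insert hc) (Finset.mem_insert_self _ _)
    (Finset.mem_insert_of_mem hw) h.symm]
  exact hw

theorem exists_vtx_in_gap {P : Set (Sub p N)} (hP : GenericAxiom P) {c : Finset (Sub p N)}
    (hc : IsPChain P c) {U x : Sub p N} (hg : IsGap c U x 2) (hp : 3 < p) :
    ∃ W, IsVtx P c W ∧ U < W ∧ W < x ∧ finrank (ZMod p) W = finrank (ZMod p) U + 1 := by
  have hd := hg.2.2.2.1
  obtain ⟨B₁, B₂, h1, h2, h3⟩ := hP.2 U U x (hg.left_mem hc) (hg.right_mem hc) le_rfl hg.2.2.1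
    (Or.inl rfl) hd
  have hUx : ¬ x ≤ U := fun h => by
    have := Submodule.finrank_mono h
    omega
  obtain ⟨v, hvx, hv⟩ := exists_avoid x {U, B₁, B₂}
    (by simp [hUx, not_le_of_gt h1, not_le_of_gt h2]) (lt_of_le_of_lt Finset.card_le_three hp)
  have hvU : v ∉ U := hv U (by simp)
  have hlt : U < U ⊔ Submodule.span (ZMod p) {v} := lt_of_le_of_ne le_sup_left fun e =>
    hvU (e ▸ Submodule.mem_sup_right (Submodule.mem_span_singleton_self v))
  exact ⟨_, hg.isVtx (h3 v hvx (hv B₁ (by simp)) (hv B₂ (by simp))) hlt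
    (sup_span_lt hg.2.2.1 hvx hd), hlt, sup_span_lt hg.2.2.1 hvx hd, finrank_sup_span hvU⟩

theorem exists_flag {F : Sub p N} (hN : 0 < N) (hp : 3 < p) :
    ∀ {c : Finset (Sub p N)}, IsPChain (GP F) c →
      ∃ t, IsPChain (GP F) t ∧ t.card + 1 = N ∧ c ⊆ t := by
  intro c
  induction h : (missing c).card using Nat.strong_induction_on generalizing c with
  | _ k IH =>
    intro hc
    rcases (missing c).eq_empty_or_nonempty with he | ⟨a, ha⟩
    · refine ⟨c, hc, ?_, subset_rfl⟩
      rcases card_missing hc with h' | h'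
      · rw [he] at h'; simpa using h'
      · omega
    obtain ⟨U, x, hg, -, -⟩ := gap_of_missing hc ha
    obtain ⟨W, hW, -, -, -⟩ := exists_vtx_in_gap (genericAxiom_GP F) hc hg hp
    have hc' := hW.isPChain_insert hc
    have hlt : (missing (insert W c)).card < k := by
      have h1 := card_missing hc
      have h2 := card_missing hc'
      rw [Finset.card_insert_of_notMem hW.2.1] at h2
      omega
    obtain ⟨t, ht1, ht2, ht3⟩ := IH _ hlt rfl hc'
    exact ⟨t, ht1, ht2, (Finset.subset_insert W c).trans ht3⟩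

/-- The member of dimension `j` of a flag, extended by `⊥` and `⊤`. -/
noncomputable def flagAt (t : Finset (Sub p N)) (j : ℕ) : Sub p N :=
  if h : ∃ W ∈ t, finrank (ZMod p) W = j then h.choose else if j = 0 then ⊥ else ⊤

theorem flagAt_eq {F : Sub p N} {t : Finset (Sub p N)} (ht : IsPChain (GP F) t) {W : Sub p N}
    (hW : W ∈ t) : flagAt t (finrank (ZMod p) W) = W := by
  have h : ∃ W' ∈ t, finrank (ZMod p) W' = finrank (ZMod p) W := ⟨W, hW, rfl⟩
  rw [flagAt, dif_pos h]
  exact chain_eq_of_finrank ht h.choose_spec.1 hW h.choose_spec.2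

theorem flagAt_cases {F : Sub p N} {t : Finset (Sub p N)} (ht : IsPChain (GP F) t)
    (hcard : t.card + 1 = N) {j : ℕ} (hj : j ≤ N) :
    finrank (ZMod p) (flagAt t j) = j ∧
      ((j = 0 ∧ flagAt t j = ⊥) ∨ (j = N ∧ flagAt t j = ⊤) ∨ flagAt t j ∈ t) := by
  by_cases h : ∃ W ∈ t, finrank (ZMod p) W = j
  · rw [flagAt, dif_pos h]
    exact ⟨h.choose_spec.2, Or.inr (Or.inr h.choose_spec.1)⟩
  rw [flagAt, dif_neg h]
  have hm : missing t = ∅ := by
    rcases card_missing ht with h' | h'
    · exact Finset.card_eq_zero.1 (by omega)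
    · omega
  have hj' : j = 0 ∨ j = N := by
    by_contra hc'
    have : j ∈ missing t := by
      simp only [missing, Finset.mem_sdiff, Finset.mem_Ico, Finset.mem_image]
      exact ⟨by omega, h⟩
    rw [hm] at this
    exact Finset.notMem_empty j this
  rcases hj' with rfl | rfl
  · rw [if_pos rfl]; exact ⟨finrank_bot _ _, Or.inl ⟨rfl, rfl⟩⟩
  · rw [if_neg (by omega)]; exact ⟨finrank_top_sub, Or.inr (Or.inl ⟨rfl, rfl⟩)⟩

theorem flagAt_mono {F : Sub p N} {t : Finset (Sub p N)} (ht : IsPChain (GP F) t)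
    (hcard : t.card + 1 = N) {i j : ℕ} (hij : i ≤ j) (hj : j ≤ N) :
    flagAt t i ≤ flagAt t j := by
  obtain ⟨h1, h2⟩ := flagAt_cases ht hcard (hij.trans hj)
  obtain ⟨g1, g2⟩ := flagAt_cases ht hcard hj
  rcases h2 with ⟨-, h2⟩ | ⟨hi, -⟩ | h2
  · rw [h2]; exact bot_le
  · rw [show j = i by omega]
  rcases g2 with ⟨hj0, -⟩ | ⟨-, g2⟩ | g2
  · rw [show i = j by omega]
  · rw [g2]; exact le_top
  rcases chain_cases ht.2 h2 g2 with h | h
  · exact h
  · exact (Submodule.eq_of_le_of_finrank_le h (by omega)).ge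

theorem flagAt_inf_finrank {F : Sub p N} {t : Finset (Sub p N)} (ht : IsPChain (GP F) t)
    (hcard : t.card + 1 = N) {j : ℕ} (hj : j ≤ N) :
    finrank (ZMod p) (flagAt t j ⊓ F : Sub p N) = j + finrank (ZMod p) F - N := by
  obtain ⟨h1, h2⟩ := flagAt_cases ht hcard hj
  have hF := finrank_sub_le F
  have hs := finrank_sub_le (flagAt t j ⊔ F)
  have := Submodule.finrank_sup_add_finrank_inf_eq (flagAt t j) F
  rcases h2 with ⟨rfl, h2⟩ | ⟨rfl, h2⟩ | h2
  · rw [h2, bot_inf_eq, finrank_bot]; omega
  · rw [h2, top_inf_eq]; omega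
  rcases (ht.1 _ h2).2.2 with h | h
  · rw [h, finrank_bot] at this ⊢; omega
  · rw [h, finrank_top_sub] at this; omega

/-- A basis adapted to a flag and to `F`. -/
theorem exists_adapted {F : Sub p N} {t : Finset (Sub p N)} (ht : IsPChain (GP F) t)
    (hcard : t.card + 1 = N) :
    ∃ b : Basis (Fin N) (ZMod p) (Fin N → ZMod p),
      (∀ j ≤ N, flagAt t j = Submodule.span (ZMod p) (b '' {i | i.1 < j})) ∧
      F = Submodule.span (ZMod p) (b '' {i | N ≤ i.1 + finrank (ZMod p) F}) := by
  set a := finrank (ZMod p) F with ha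
  have hex : ∀ i : Fin N, ∃ v, v ∈ flagAt t (i.1 + 1) ∧ v ∉ flagAt t i.1 ∧ (N ≤ i.1 + a → v ∈ F) := by
    intro i
    have hi := i.2
    by_cases hF : N ≤ i.1 + a
    · have : ¬ flagAt t (i.1 + 1) ⊓ F ≤ flagAt t i.1 := fun h => by
        have := Submodule.finrank_mono (le_inf h inf_le_right)
        rw [flagAt_inf_finrank ht hcard (by omega), flagAt_inf_finrank ht hcard (by omega)] at this
        omega
      obtain ⟨v, ⟨hv1, hv2⟩, hv3⟩ := SetLike.not_le_iff_exists.1 this
      exact ⟨v, hv1, hv3, fun _ => hv2⟩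
    · have : ¬ flagAt t (i.1 + 1) ≤ flagAt t i.1 := fun h => by
        have := Submodule.finrank_mono h
        rw [(flagAt_cases ht hcard (by omega)).1, (flagAt_cases ht hcard (by omega)).1] at this
        omega
      obtain ⟨v, hv1, hv3⟩ := SetLike.not_le_iff_exists.1 this
      exact ⟨v, hv1, hv3, fun h => absurd h hF⟩
  choose e he1 he2 he3 using hex
  have hstep : ∀ j ≤ N, flagAt t j = Submodule.span (ZMod p) (e '' {i | i.1 < j}) ∧
      flagAt t j ⊓ F = Submodule.span (ZMod p) (e '' {i | i.1 < j ∧ N ≤ i.1 + a}) := by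
    intro j
    induction j with
    | zero =>
      intro _
      obtain ⟨h1, -⟩ := flagAt_cases ht hcard (Nat.zero_le N)
      have h0 : flagAt t 0 = ⊥ := Submodule.finrank_eq_zero.1 h1
      simp [h0]
    | succ j IH =>
      intro hj
      obtain ⟨I1, I2⟩ := IH (by omega)
      have hmono := flagAt_mono ht hcard (Nat.le_succ j) hj
      let i : Fin N := ⟨j, by omega⟩
      have hset : {k : Fin N | k.1 < j + 1} = insert i {k : Fin N | k.1 < j} := by
        ext k; simp [i, Fin.ext_iff]; omega
      refine ⟨?_, ?_⟩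
      · rw [hset, Set.image_insert_eq, Submodule.span_insert, ← I1, sup_comm]
        refine (Submodule.eq_of_le_of_finrank_eq (sup_le hmono
          ((Submodule.span_singleton_le_iff_mem _ _).2 (he1 i))) ?_).symm
        rw [finrank_sup_span (show e i ∉ flagAt t j from he2 i),
          (flagAt_cases ht hcard (by omega)).1, (flagAt_cases ht hcard hj).1]
      · by_cases hF : N ≤ j + a
        · have hset' : {k : Fin N | k.1 < j + 1 ∧ N ≤ k.1 + a} =
              insert i {k : Fin N | k.1 < j ∧ N ≤ k.1 + a} := by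
            ext k; simp [i, Fin.ext_iff]; omega
          rw [hset', Set.image_insert_eq, Submodule.span_insert, ← I2, sup_comm]
          refine (Submodule.eq_of_le_of_finrank_eq (sup_le (inf_le_inf_right F hmono)
            ((Submodule.span_singleton_le_iff_mem _ _).2 ⟨he1 i, he3 i hF⟩)) ?_).symm
          rw [finrank_sup_span (show e i ∉ flagAt t j ⊓ F from fun h => he2 i h.1),
            flagAt_inf_finrank ht hcard (by omega), flagAt_inf_finrank ht hcard hj]
          omega
        · have hset' : {k : Fin N | k.1 < j + 1 ∧ N ≤ k.1 + a} =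
              {k : Fin N | k.1 < j ∧ N ≤ k.1 + a} := by
            ext k; simp; omega
          rw [hset', ← I2]
          refine (Submodule.eq_of_le_of_finrank_le (inf_le_inf_right F hmono) ?_).symm
          rw [flagAt_inf_finrank ht hcard hj, flagAt_inf_finrank ht hcard (show j ≤ N by omega)]
          omega
  obtain ⟨hN1, hN2⟩ := hstep N le_rfl
  have htop : flagAt t N = ⊤ := Submodule.eq_top_of_finrank_eq (by
    rw [(flagAt_cases ht hcard le_rfl).1]; simp)
  have hu : {i : Fin N | i.1 < N} = Set.univ := Set.eq_univ_of_forall fun i => i.2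
  rw [htop, hu, Set.image_univ] at hN1
  refine ⟨basisOfTopLeSpanOfCardEqFinrank e hN1.le (by simp), fun j hj => ?_, ?_⟩
  · rw [coe_basisOfTopLeSpanOfCardEqFinrank]; exact (hstep j hj).1
  · rw [coe_basisOfTopLeSpanOfCardEqFinrank]
    have hs : {i : Fin N | i.1 < N ∧ N ≤ i.1 + a} = {i : Fin N | N ≤ i.1 + a} :=
      Set.ext fun i => ⟨And.right, fun h => ⟨i.2, h⟩⟩
    rw [htop, top_inf_eq, hs] at hN2
    exact hN2

theorem flag_transitive {F : Sub p N} {c t t' : Finset (Sub p N)} (ht : IsPChain (GP F) t)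
    (ht' : IsPChain (GP F) t') (hcard : t.card + 1 = N) (hcard' : t'.card + 1 = N)
    (hct : c ⊆ t) (hct' : c ⊆ t') :
    ∃ g : (Fin N → ZMod p) ≃ₗ[ZMod p] (Fin N → ZMod p),
      F.map g.toLinearMap = F ∧ (∀ W ∈ c, W.map g.toLinearMap = W) ∧
        t.image (fun W => W.map g.toLinearMap) = t' := by
  obtain ⟨b, hb1, hb2⟩ := exists_adapted ht hcard
  obtain ⟨b', hb1', hb2'⟩ := exists_adapted ht' hcard'
  refine ⟨b.equiv b' (Equiv.refl _), ?_⟩
  set g := b.equiv b' (Equiv.refl (Fin N)) with hg
  have hspan : ∀ s : Set (Fin N), (Submodule.span (ZMod p) (b '' s)).map g.toLinearMap =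
      Submodule.span (ZMod p) (b' '' s) := by
    intro s
    rw [Submodule.map_span, ← Set.image_comp]
    congr 1
    refine Set.image_congr' fun i => ?_
    simp [hg]
  have hflag : ∀ W ∈ t, W.map g.toLinearMap = flagAt t' (finrank (ZMod p) W) := by
    intro W hW
    conv_lhs => rw [← flagAt_eq ht hW]
    have h := finrank_sub_le W
    rw [hb1 _ h, hspan, ← hb1' _ h]
  refine ⟨?_, fun W hW => ?_, ?_⟩
  · conv_lhs => rw [hb2]
    rw [hspan, ← hb2']
  · rw [hflag W (hct hW), flagAt_eq ht' (hct' hW)]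
  · refine Finset.eq_of_subset_of_card_le (fun W hW => ?_) ?_
    · obtain ⟨W₀, hW₀, rfl⟩ := Finset.mem_image.1 hW
      rw [hflag W₀ hW₀]
      have hd := GP_finrank (ht.1 W₀ hW₀)
      rcases (flagAt_cases ht' hcard' (finrank_sub_le W₀)).2 with ⟨h, -⟩ | ⟨h, -⟩ | h
      · omega
      · omega
      · exact h
    · rw [Finset.card_image_of_injective _ (Submodule.map_injective_of_injective g.injective)]
      omega

theorem reach_of_fill {P : Set (Sub p N)} {c : Finset (Sub p N)} (hc : IsPChain P c) {B : ℕ}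
    (hF : FillAt (chainLk P c) 1 2 B) {W W' : Sub p N} (hW : IsVtx P c W) (hW' : IsVtx P c W') :
    Relation.ReflTransGen (fun a b => {a, b} ∈ chainLk P c) W W' := by
  set r := fun a b => ({a, b} : Finset (Sub p N)) ∈ chainLk P c with hr
  by_cases hne : W = W'
  · subst hne; exact Relation.ReflTransGen.refl
  by_contra hnot
  have hsing : ∀ V, IsVtx P c V → Finsupp.single ({V} : Finset (Sub p N)) (1 : ZMod 2) ∈
      chainsOf (chainLk P c) 1 := fun V hV =>
    single_mem_chainsOf ((singleton_mem_chainLk hc).2 hV) (Finset.card_singleton V) _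
  have hbd : ∀ V : Sub p N, bd (Finsupp.single ({V} : Finset (Sub p N)) (1 : ZMod 2)) =
      Finsupp.single ∅ 1 := fun V => by simp [bd_single]
  obtain ⟨b, hb1, hb2, -⟩ := hF _ (Submodule.add_mem _ (hsing W hW) (hsing W' hW'))
    (by rw [map_add, hbd, hbd, chain_add_self]) (by
      refine (Finset.card_le_card (t := {W, W'}) (vertsOf_subset_iff.2 fun s hs => ?_)).trans
        Finset.card_le_two
      rcases Finset.mem_union.1 (Finsupp.support_add hs) with h | h <;>
        rw [Finset.mem_singleton.1 (Finsupp.support_single_subset h)] <;> simp)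
  let χ : Chain (Sub p N) →ₗ[ZMod 2] ZMod 2 := Finsupp.linearCombination (ZMod 2) fun s =>
    if ∃ a, s = {a} ∧ Relation.ReflTransGen r W a then 1 else 0
  have hχ : ∀ a, χ (Finsupp.single ({a} : Finset (Sub p N)) 1) =
      if Relation.ReflTransGen r W a then 1 else 0 := fun a => by
    simp [χ, Finset.singleton_inj]
  have h0 : χ (bd b) = 0 := by
    rw [← congrArg bd (sum_smul_single b), map_sum, map_sum]
    refine Finset.sum_eq_zero fun s hs => ?_
    obtain ⟨hsK, hs2⟩ := mem_chainsOf_iff.1 hb1 s hs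
    obtain ⟨u, v, huv, hsuv⟩ := Finset.card_eq_two.1 hs2
    have e1 : ∀ d : DecidableEq (Sub p N), @Finset.erase _ d s u = {v} := fun d => by
      rw [hsuv]; ext a; simp only [Finset.mem_erase, Finset.mem_insert, Finset.mem_singleton]; grind
    have e2 : ∀ d : DecidableEq (Sub p N), @Finset.erase _ d s v = {u} := fun d => by
      rw [hsuv]; ext a; simp only [Finset.mem_erase, Finset.mem_insert, Finset.mem_singleton]; grind
    rw [bd_single, map_smul, hsuv, Finset.sum_pair huv, ← hsuv, map_add, e1, e2, hχ, hχ]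
    rw [hsuv] at hsK
    have hiff : Relation.ReflTransGen r W u ↔ Relation.ReflTransGen r W v :=
      ⟨fun h => h.tail hsK, fun h => h.tail (by rw [hr]; simpa [Finset.pair_comm] using hsK)⟩
    simp only [hiff, CharTwo.add_self_eq_zero, smul_zero]
  rw [hb2, map_add, hχ, hχ, if_pos Relation.ReflTransGen.refl, if_neg hnot, add_zero] at h0
  exact one_ne_zero h0

theorem gpStructure : GPStructure := by
  refine ⟨fillBound 1 2 + 4, fun p N hp hB hN F c hc => ?_⟩
  have := Fact.mk hp
  have hp3 : 3 < p := by omega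
  refine ⟨exists_flag hN hp3 hc, fun t t' ht ht' h h' hct hct' =>
    flag_transitive ht ht' h h' hct hct', fun hcard W W' hW hW' => ?_⟩
  rw [singleton_mem_chainLk hc] at hW hW'
  by_cases hbig : ∃ U x, IsGap c U x 3
  · exact reach_of_fill hc
      (fillAt_chainLk 1 2 p N hp (by omega) _ (genericAxiom_GP F) c hc hbig) hW hW'
  have hsmall : ∀ {U x}, IsGap c U x 2 → finrank (ZMod p) x ≤ finrank (ZMod p) U + 2 := by
    intro U x hg
    by_contra h
    exact hbig ⟨U, x, hg.1, hg.2.1, hg.2.2.1, by omega, hg.2.2.2.2⟩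
  have hcomp : ∀ {A A'}, IsVtx (GP F) c A → IsVtx (GP F) c A' →
      finrank (ZMod p) A ≠ finrank (ZMod p) A' → {A, A'} ∈ chainLk (GP F) c := by
    intro A A' hA hA' hne
    refine (pair_mem_chainLk hc).2 ⟨hA, hA', ?_⟩
    obtain ⟨U, x, hg, hUa, hax⟩ := gap_of_missing hc (hA.finrank_mem_missing hc)
    have hx2 := hsmall hg
    have hP := (genericAxiom_GP F).1
    rcases hA.gap_cases hP hg with h | h | ⟨h1, h2⟩
    · have := Submodule.finrank_mono h; omega
    · have := Submodule.finrank_mono h; omega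
    rcases hA'.gap_cases hP hg with h | h | ⟨g1, g2⟩
    · exact Or.inr (h.trans h1.le)
    · exact Or.inl (h2.le.trans h)
    · have := Submodule.finrank_lt_finrank_of_lt g1
      have := Submodule.finrank_lt_finrank_of_lt g2
      omega
  by_cases hd : finrank (ZMod p) W = finrank (ZMod p) W'
  · have hlt : 1 < (missing c).card := by
      rcases card_missing hc with h | h <;> omega
    obtain ⟨a, ha, hne⟩ := Finset.exists_mem_ne hlt (finrank (ZMod p) W)
    obtain ⟨U, x, hg, hUa, hax⟩ := gap_of_missing hc ha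
    obtain ⟨A, hA, -, -, hdA⟩ := exists_vtx_in_gap (genericAxiom_GP F) hc hg hp3
    have := hsmall hg
    have h1 := hcomp hW hA (by omega)
    have h2 := hcomp hA hW' (by omega)
    exact Relation.ReflTransGen.trans
      (Relation.ReflTransGen.single (r := fun a b => {a, b} ∈ chainLk (GP F) c) h1)
      (Relation.ReflTransGen.single (r := fun a b => {a, b} ∈ chainLk (GP F) c) h2)
  · exact Relation.ReflTransGen.single (hcomp hW hW' hd)

end Vale.Agent.P067
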