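import Mathlib
import Vale.Agent.P067.Incidence
import Vale.Agent.P067.SubspaceFlags

/-!
Correlation in links of corank two of general position complexes.
-/

namespace Vale.Agent.P067

open Classical Module

variable {p N : ℕ} [Fact p.Prime]

theorem map_mem_GP {F : Sub p N} {g : (Fin N → ZMod p) ≃ₗ[ZMod p] (Fin N → ZMod p)}
    (hgF : F.map g.toLinearMap = F) {W : Sub p N} (hW : W ∈ GP F) :
    W.map g.toLinearMap ∈ GP F := by
  have hinj := Submodule.map_injective_of_injective (f := g.toLinearMap) g.injective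
  have htop : (⊤ : Sub p N).map g.toLinearMap = ⊤ := by
    rw [Submodule.map_top, LinearMap.range_eq_top]; exact g.surjective
  refine ⟨fun h => hW.1 (hinj (h.trans (Submodule.map_bot _).symm)),
    fun h => hW.2.1 (hinj (h.trans htop.symm)), ?_⟩
  rcases hW.2.2 with h | h
  · left
    conv_lhs => arg 2; rw [← hgF]
    rw [← Submodule.map_inf _ g.injective, h, Submodule.map_bot]
  · right
    conv_lhs => arg 2; rw [← hgF]
    rw [← Submodule.map_sup, h, htop]

theorem IsVtx.map {F : Sub p N} {c : Finset (Sub p N)}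
    {g : (Fin N → ZMod p) ≃ₗ[ZMod p] (Fin N → ZMod p)}
    (hgF : F.map g.toLinearMap = F) (hgc : ∀ W ∈ c, W.map g.toLinearMap = W) {W : Sub p N}
    (hW : IsVtx (GP F) c W) : IsVtx (GP F) c (W.map g.toLinearMap) := by
  refine ⟨map_mem_GP hgF hW.1, fun h => hW.2.1 ?_, fun w hw => ?_⟩
  · have e := hgc _ h
    rwa [Submodule.map_injective_of_injective (f := g.toLinearMap) g.injective e] at h
  · rw [← hgc w hw]
    exact (hW.2.2 w hw).imp Submodule.map_mono Submodule.map_mono

theorem exists_symmetry {F : Sub p N} (hN : 0 < N) (hp : 3 < p) {c : Finset (Sub p N)}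
    (hc : IsPChain (GP F) c) {x x' : Sub p N} (hx : IsVtx (GP F) c x) (hx' : IsVtx (GP F) c x')
    (hd : finrank (ZMod p) x = finrank (ZMod p) x') :
    ∃ g : (Fin N → ZMod p) ≃ₗ[ZMod p] (Fin N → ZMod p),
      F.map g.toLinearMap = F ∧ (∀ W ∈ c, W.map g.toLinearMap = W) ∧
        x.map g.toLinearMap = x' := by
  obtain ⟨t, ht, hcard, hsub⟩ := exists_flag hN hp (hx.isPChain_insert hc)
  obtain ⟨t', ht', hcard', hsub'⟩ := exists_flag hN hp (hx'.isPChain_insert hc)
  obtain ⟨g, h1, h2, h3⟩ := flag_transitive ht ht' hcard hcard'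
    ((Finset.subset_insert x c).trans hsub) ((Finset.subset_insert x' c).trans hsub')
  refine ⟨g, h1, h2, chain_eq_of_finrank ht' ?_ (hsub' (Finset.mem_insert_self _ _)) ?_⟩
  · rw [← h3]
    exact Finset.mem_image_of_mem _ (hsub (Finset.mem_insert_self _ _))
  · rw [LinearEquiv.finrank_map_eq, hd]

/-- The vertices of dimension `a`. -/
noncomputable def vtxDim (F : Sub p N) (c : Finset (Sub p N)) (a : ℕ) : Finset (Sub p N) :=
  have : Fintype (Sub p N) := Fintype.ofFinite _
  Finset.univ.filter fun W => IsVtx (GP F) c W ∧ finrank (ZMod p) W = a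

theorem mem_vtxDim {F : Sub p N} {c : Finset (Sub p N)} {a : ℕ} {W : Sub p N} :
    W ∈ vtxDim F c a ↔ IsVtx (GP F) c W ∧ finrank (ZMod p) W = a := by
  simp [vtxDim]

theorem adj_count_eq {F : Sub p N} (hN : 0 < N) (hp : 3 < p) {c : Finset (Sub p N)}
    (hc : IsPChain (GP F) c) {a b : ℕ} {x x' : Sub p N} (hx : x ∈ vtxDim F c a)
    (hx' : x' ∈ vtxDim F c a) :
    ((vtxDim F c b).filter fun W => x ≤ W ∨ W ≤ x).card =
      ((vtxDim F c b).filter fun W => x' ≤ W ∨ W ≤ x').card := by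
  suffices key : ∀ x ∈ vtxDim F c a, ∀ x' ∈ vtxDim F c a,
      ((vtxDim F c b).filter fun W => x ≤ W ∨ W ≤ x).card ≤
        ((vtxDim F c b).filter fun W => x' ≤ W ∨ W ≤ x').card from
    le_antisymm (key x hx x' hx') (key x' hx' x hx)
  intro x hx x' hx'
  rw [mem_vtxDim] at hx hx'
  obtain ⟨g, h1, h2, h3⟩ := exists_symmetry hN hp hc hx.1 hx'.1 (hx.2.trans hx'.2.symm)
  refine Finset.card_le_card_of_injOn (fun W => W.map g.toLinearMap) (fun W hW => ?_)
    (Submodule.map_injective_of_injective g.injective).injOn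
  simp only [Finset.coe_filter, Set.mem_ofPred_eq, mem_vtxDim] at hW ⊢
  refine ⟨⟨hW.1.1.map h1 h2, by rw [LinearEquiv.finrank_map_eq]; exact hW.1.2⟩, ?_⟩
  rw [← h3]
  exact hW.2.imp Submodule.map_mono Submodule.map_mono

/-- A two-step gap contains at least `p - 3` members of `P`. -/
theorem many_between {P : Set (Sub p N)} (hP : GenericAxiom P) {U y : Sub p N}
    (hU : U = ⊥ ∨ U ∈ P) (hy : y = ⊤ ∨ y ∈ P) (hUy : U ≤ y)
    (hd : finrank (ZMod p) U + 2 ≤ finrank (ZMod p) y) (S : Finset (Sub p N))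
    (hS : ∀ W ∈ P, U < W → W < y → finrank (ZMod p) W = finrank (ZMod p) U + 1 → W ∈ S)
    (hSy : ∀ W ∈ S, W < y) :
    p ≤ S.card + 3 := by
  obtain ⟨B₁, B₂, h1, h2, h3⟩ := hP.2 U U y hU hy le_rfl hUy (Or.inl rfl) hd
  by_contra hlt
  have hcard : ({U, B₁, B₂} ∪ S : Finset (Sub p N)).card < p := by
    have := Finset.card_union_le ({U, B₁, B₂} : Finset (Sub p N)) S
    have := Finset.card_le_three (a := U) (b := B₁) (c := B₂)
    omega
  obtain ⟨v, hvy, hv⟩ := exists_avoid y ({U, B₁, B₂} ∪ S) (by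
    intro T hT hle
    rcases Finset.mem_union.1 hT with hT | hT
    · simp only [Finset.mem_insert, Finset.mem_singleton] at hT
      rcases hT with rfl | rfl | rfl
      · have := Submodule.finrank_mono hle; omega
      · exact not_le_of_gt h1 hle
      · exact not_le_of_gt h2 hle
    · exact not_le_of_gt (hSy T hT) hle) hcard
  have hvU : v ∉ U := hv U (by simp)
  have hvW : v ∈ U ⊔ Submodule.span (ZMod p) {v} :=
    Submodule.mem_sup_right (Submodule.mem_span_singleton_self v)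
  exact hv _ (Finset.mem_union_right _ (hS _ (h3 v hvy (hv B₁ (by simp)) (hv B₂ (by simp)))
    (lt_of_le_of_ne le_sup_left fun e => hvU (e ▸ hvW)) (sup_span_lt hUy hvy hd)
    (finrank_sup_span hvU))) hvW

/-- At most `p² + p + 1` lines in a three dimensional gap through its bottom. -/
theorem few_between {U x : Sub p N} (hUx : U ≤ x)
    (hd : finrank (ZMod p) x = finrank (ZMod p) U + 3) (A : Finset (Sub p N))
    (hA : ∀ W ∈ A, U ≤ W ∧ W ≤ x ∧ finrank (ZMod p) W = finrank (ZMod p) U + 1) :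
    A.card ≤ p * p + p + 1 := by
  let vec : Sub p N → Finset (Fin N → ZMod p) := fun W => Finset.univ.filter fun v => v ∈ W
  have hcard : ∀ W : Sub p N, (vec W).card = p ^ finrank (ZMod p) W := by
    intro W
    have h := Module.natCard_eq_pow_finrank (K := ZMod p) (V := W)
    rw [Nat.card_zmod] at h
    rw [← h, Nat.card_eq_fintype_card]
    exact (Fintype.card_of_subtype (vec W) (fun v => by simp [vec])).symm
  have hsub : ∀ {W W' : Sub p N}, W ≤ W' → vec W ⊆ vec W' := fun {W W'} h v hv => by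
    simp only [vec, Finset.mem_filter] at hv ⊢
    exact ⟨hv.1, h hv.2⟩
  have hdisj : (A : Set (Sub p N)).PairwiseDisjoint fun W => vec W \ vec U := by
    intro W hW W' hW' hne
    refine Finset.disjoint_left.2 fun v hv hv' => ?_
    simp only [vec, Finset.mem_sdiff, Finset.mem_filter, Finset.mem_univ, true_and] at hv hv'
    obtain ⟨h1, -, h3⟩ := hA W hW
    obtain ⟨g1, -, g3⟩ := hA W' hW'
    have hlt : U < W ⊓ W' := lt_of_le_of_ne (le_inf h1 g1) fun e => hv.2 (e ▸ ⟨hv.1, hv'.1⟩)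
    have hfin := Submodule.finrank_lt_finrank_of_lt hlt
    have e1 := Submodule.eq_of_le_of_finrank_le (inf_le_left : W ⊓ W' ≤ W) (by omega)
    have e2 := Submodule.eq_of_le_of_finrank_le (inf_le_right : W ⊓ W' ≤ W') (by omega)
    exact hne (e1.symm.trans e2)
  have h1 : (A.biUnion fun W => vec W \ vec U) ⊆ vec x \ vec U := by
    intro v hv
    obtain ⟨W, hW, hv⟩ := Finset.mem_biUnion.1 hv
    rw [Finset.mem_sdiff] at hv ⊢
    exact ⟨hsub (hA W hW).2.1 hv.1, hv.2⟩
  have h2 := Finset.card_le_card h1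
  rw [Finset.card_biUnion hdisj, Finset.card_sdiff_of_subset (hsub hUx), hcard, hcard, hd] at h2
  have h3 : ∀ W ∈ A, (vec W \ vec U).card =
      p ^ (finrank (ZMod p) U + 1) - p ^ finrank (ZMod p) U := fun W hW => by
    rw [Finset.card_sdiff_of_subset (hsub (hA W hW).1), hcard, hcard, (hA W hW).2.2]
  rw [Finset.sum_congr rfl h3, Finset.sum_const, smul_eq_mul] at h2
  have hp := (Fact.out : p.Prime).two_le
  have hq : 0 < p ^ finrank (ZMod p) U := pow_pos (by omega) _
  set q := p ^ finrank (ZMod p) U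
  rw [pow_add, pow_add, pow_one] at h2
  have e1 : q * p - q = q * (p - 1) := by rw [Nat.mul_sub, Nat.mul_one]
  have e2 : q * p ^ 3 - q = q * ((p * p + p + 1) * (p - 1)) := by
    obtain ⟨k, rfl⟩ : ∃ k, p = k + 1 := ⟨p - 1, by omega⟩
    have : q * (k + 1) ^ 3 =
        q + q * (((k + 1) * (k + 1) + (k + 1) + 1) * k) := by ring
    simp only [Nat.add_sub_cancel]
    omega
  rw [e1, e2] at h2
  have h4 : A.card * (p - 1) * q ≤ (p * p + p + 1) * (p - 1) * q := by
    calc _ = A.card * (q * (p - 1)) := by ring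
      _ ≤ q * ((p * p + p + 1) * (p - 1)) := h2
      _ = _ := by ring
  exact Nat.le_of_mul_le_mul_right (Nat.le_of_mul_le_mul_right h4 hq) (by omega)

theorem gpCorr_lt {lam : ℝ} (hlam : 0 < lam) (hB : 17 ≤ lam ^ 2 * ((p : ℝ) - 3)) (hp : 12 ≤ p)
    (F : Sub p N) (c : Finset (Sub p N)) (hc : IsPChain (GP F) c) (hcard : c.card + 3 = N)
    {a b : ℕ} (hab : a < b) (ha : 0 < a) (hb : b < N)
    (hmiss : ∀ W ∈ c, finrank (ZMod p) W ≠ a ∧ finrank (ZMod p) W ≠ b)
    (E : Finset (Sub p N × Sub p N))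
    (hE : ∀ W W', (W, W') ∈ E ↔ ({W, W'} ∈ chainLk (GP F) c ∧
      finrank (ZMod p) W = a ∧ finrank (ZMod p) W' = b))
    (f g : Sub p N → ℝ) :
    (E.card : ℝ) * (∑ e ∈ E, f e.1 * g e.2) - (∑ e ∈ E, f e.1) * (∑ e ∈ E, g e.2) ≤
      lam * Real.sqrt
        (((E.card : ℝ) * (∑ e ∈ E, f e.1 ^ 2) - (∑ e ∈ E, f e.1) ^ 2) *
         ((E.card : ℝ) * (∑ e ∈ E, g e.2 ^ 2) - (∑ e ∈ E, g e.2) ^ 2)) := by
  have hN : 0 < N := by omega
  have hp3 : 3 < p := by omega
  have hP := genericAxiom_GP F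
  set A := vtxDim F c a with hA
  set L := vtxDim F c b with hL
  have hE' : ∀ e, e ∈ E ↔ e.1 ∈ A ∧ e.2 ∈ L ∧ (e.1 ≤ e.2 ∨ e.2 ≤ e.1) := by
    rintro ⟨W, W'⟩
    rw [hE, pair_mem_chainLk hc, hA, hL, mem_vtxDim, mem_vtxDim]
    tauto
  have hmem : a ∈ missing c := by
    simp only [missing, Finset.mem_sdiff, Finset.mem_Ico, Finset.mem_image, not_exists, not_and]
    exact ⟨⟨ha, by omega⟩, fun W hW h => (hmiss W hW).1 h⟩
  have hmiss_eq : missing c = {a, b} := by
    refine (Finset.eq_of_subset_of_card_le ?_ ?_).symm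
    · intro d hd
      simp only [Finset.mem_insert, Finset.mem_singleton] at hd
      simp only [missing, Finset.mem_sdiff, Finset.mem_Ico, Finset.mem_image, not_exists, not_and]
      rcases hd with rfl | rfl
      · exact ⟨⟨ha, by omega⟩, fun W hW h => (hmiss W hW).1 h⟩
      · exact ⟨⟨by omega, hb⟩, fun W hW h => (hmiss W hW).2 h⟩
    · rw [Finset.card_pair hab.ne]
      rcases card_missing hc with h | h <;> omega
  obtain ⟨U, x, hg, hUa, hax⟩ := gap_of_missing hc hmem
  have hbetween : ∀ d, finrank (ZMod p) U < d → d < finrank (ZMod p) x → d = a ∨ d = b := by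
    intro d h1 h2
    have hxN := finrank_sub_le x
    have : d ∈ missing c := by
      simp only [missing, Finset.mem_sdiff, Finset.mem_Ico, Finset.mem_image, not_exists, not_and]
      refine ⟨⟨by omega, by omega⟩, fun W hW h => ?_⟩
      rcases hg.2.2.2.2 W hW with h' | h' <;>
        · have := Submodule.finrank_mono h'
          omega
    rw [hmiss_eq] at this
    simpa using this
  have hin : ∀ {d W}, W ∈ vtxDim F c d → finrank (ZMod p) U < d → d < finrank (ZMod p) x →
      U < W ∧ W < x := by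
    intro d W hW h1 h2
    rw [mem_vtxDim] at hW
    rcases hW.1.gap_cases hP.1 hg with h | h | h
    · have := Submodule.finrank_mono h; omega
    · have := Submodule.finrank_mono h; omega
    · exact h
  by_cases hbig : b < finrank (ZMod p) x
  swap
  · have hfull : E = A ×ˢ L := by
      ext ⟨W, W'⟩
      rw [hE', Finset.mem_product]
      refine ⟨fun h => ⟨h.1, h.2.1⟩, fun ⟨h1, h2⟩ => ⟨h1, h2, ?_⟩⟩
      obtain ⟨hUW, hWx⟩ := hin h1 hUa hax
      have hW' := (mem_vtxDim.1 h2)
      rcases hW'.1.gap_cases hP.1 hg with h | h | ⟨-, h⟩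
      · exact Or.inr (h.trans hUW.le)
      · exact Or.inl (hWx.le.trans h)
      · have := Submodule.finrank_lt_finrank_of_lt h; omega
    subst hfull
    simp only [Finset.card_product, Nat.cast_mul, Finset.sum_product]
    simp only [Finset.sum_const, nsmul_eq_mul, ← Finset.mul_sum, ← Finset.sum_mul]
    refine le_trans (le_of_eq ?_) (mul_nonneg hlam.le (Real.sqrt_nonneg _))
    ring
  have hxd : finrank (ZMod p) x = finrank (ZMod p) U + 3 ∧ a = finrank (ZMod p) U + 1 ∧
      b = finrank (ZMod p) U + 2 := by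
    have g1 := hbetween (finrank (ZMod p) U + 1) (by omega) (by omega)
    have g2 := hbetween (finrank (ZMod p) U + 2) (by omega) (by omega)
    have hau : a = finrank (ZMod p) U + 1 := by omega
    have hbu : b = finrank (ZMod p) U + 2 := by omega
    refine ⟨?_, hau, hbu⟩
    by_contra hne
    have := hbetween (finrank (ZMod p) U + 3) (by omega) (by omega)
    omega
  obtain ⟨hxd, rfl, rfl⟩ := hxd
  set R : Sub p N → Sub p N → Prop := fun W W' => W ≤ W' ∨ W' ≤ W with hR
  have hRle : ∀ {W W'}, W ∈ A → W' ∈ L → R W W' → W ≤ W' := by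
    intro W W' hW hW' h
    rcases h with h | h
    · exact h
    · have := Submodule.finrank_mono h
      rw [(mem_vtxDim.1 hW).2, (mem_vtxDim.1 hW').2] at this
      omega
  by_cases hEe : E = ∅
  · subst hEe; simp
  obtain ⟨e₀, he₀⟩ := Finset.nonempty_of_ne_empty hEe
  obtain ⟨hx₀, hy₀, -⟩ := (hE' e₀).1 he₀
  set r := (L.filter (R e₀.1)).card with hr
  set s := (A.filter (R · e₀.2)).card with hs
  have hflip : ∀ y, A.filter (R · y) = A.filter fun W => y ≤ W ∨ W ≤ y := fun y =>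
    Finset.filter_congr fun W _ => or_comm
  have hr3 : p ≤ r + 3 := by
    obtain ⟨-, hWx⟩ := hin hx₀ hUa hax
    refine many_between hP (Or.inr (mem_vtxDim.1 hx₀).1.1) (hg.right_mem hc) hWx.le
      (by rw [(mem_vtxDim.1 hx₀).2]; omega) (L.filter (R e₀.1)) (fun W hW h1 h2 h3 => ?_)
      (fun W hW => (hin (Finset.mem_filter.1 hW).1 (by omega) hbig).2)
    refine Finset.mem_filter.2 ⟨mem_vtxDim.2 ⟨hg.isVtx hW ?_ h2, ?_⟩, Or.inl h1.le⟩
    · exact lt_trans (hin hx₀ hUa hax).1 h1
    · rw [h3, (mem_vtxDim.1 hx₀).2]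
  have hs3 : p ≤ s + 3 := by
    obtain ⟨hUy, hyx⟩ := hin hy₀ (by omega) hbig
    refine many_between hP (hg.left_mem hc) (Or.inr (mem_vtxDim.1 hy₀).1.1) hUy.le
      (by rw [(mem_vtxDim.1 hy₀).2]) (A.filter (R · e₀.2)) (fun W hW h1 h2 h3 => ?_)
      (fun W hW => ?_)
    · exact Finset.mem_filter.2
        ⟨mem_vtxDim.2 ⟨hg.isVtx hW h1 (lt_trans h2 hyx), h3⟩, Or.inl h2.le⟩
    · obtain ⟨hWA, hWR⟩ := Finset.mem_filter.1 hW
      refine lt_of_le_of_ne (hRle hWA hy₀ hWR) fun e => ?_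
      have h1 := (mem_vtxDim.1 hWA).2
      rw [e, (mem_vtxDim.1 hy₀).2] at h1
      omega
  have hr' : ∀ W ∈ A, (L.filter (R W)).card = r := fun W hW =>
    adj_count_eq hN hp3 hc hW hx₀
  have hs' : ∀ W ∈ L, (A.filter (R · W)).card = s := fun W hW => by
    rw [hflip, hs, hflip]
    exact adj_count_eq hN hp3 hc hW hy₀
  have hone : ∀ W ∈ A, ∀ W' ∈ A, W ≠ W' → (L.filter fun y => R W y ∧ R W' y).card ≤ 1 := by
    intro W hW W' hW' hne
    refine Finset.card_le_one.2 fun y hy y' hy' => ?_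
    obtain ⟨hyL, h1, h2⟩ := Finset.mem_filter.1 hy
    obtain ⟨hyL', g1, g2⟩ := Finset.mem_filter.1 hy'
    have dW := (mem_vtxDim.1 hW).2
    have dW' := (mem_vtxDim.1 hW').2
    have hlt : W < W ⊔ W' := lt_of_le_of_ne le_sup_left fun e => hne
      (Submodule.eq_of_le_of_finrank_eq (sup_eq_left.1 e.symm) (dW'.trans dW.symm)).symm
    have hsup := Submodule.finrank_lt_finrank_of_lt hlt
    have e1 : W ⊔ W' = y := Submodule.eq_of_le_of_finrank_le
      (sup_le (hRle hW hyL h1) (hRle hW' hyL h2)) (by rw [(mem_vtxDim.1 hyL).2]; omega)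
    have e2 : W ⊔ W' = y' := Submodule.eq_of_le_of_finrank_le
      (sup_le (hRle hW hyL' g1) (hRle hW' hyL' g2)) (by rw [(mem_vtxDim.1 hyL').2]; omega)
    exact e1.symm.trans e2
  have hAcard : A.card ≤ p * p + p + 1 := by
    refine few_between hg.2.2.1 hxd A fun W hW => ?_
    obtain ⟨h1, h2⟩ := hin hW hUa hax
    exact ⟨h1.le, h2.le, (mem_vtxDim.1 hW).2⟩
  obtain ⟨q, hq⟩ : ∃ q, p = q + 3 := ⟨p - 3, by omega⟩
  have hrq : q ≤ r := by omega
  have hsq : q ≤ s := by omega
  have hD : A.card + r ≤ 8 * p + r * s + 1 := by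
    obtain ⟨r', hr1⟩ := Nat.exists_eq_add_of_le hrq
    obtain ⟨s', hs1⟩ := Nat.exists_eq_add_of_le hsq
    subst hq
    rw [hr1, hs1]
    nlinarith
  refine incidence_corr A L R E hE' r s (8 * p) (fun W hW => by convert hr' W hW)
    (fun W hW => by convert hs' W hW) (fun W hW W' hW' h => by convert hone W hW W' hW' h)
    hD lam hlam ?_ f g
  have h12 : (12 : ℝ) ≤ p := by exact_mod_cast hp
  have hrR : (p : ℝ) - 3 ≤ r := by
    have : (p : ℝ) ≤ r + 3 := by exact_mod_cast hr3
    linarith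
  have hsR : (p : ℝ) - 3 ≤ s := by
    have : (p : ℝ) ≤ s + 3 := by exact_mod_cast hs3
    linarith
  have hl : 0 ≤ lam ^ 2 := sq_nonneg lam
  have h17 : 17 * (r : ℝ) ≤ lam ^ 2 * ((r : ℝ) * s) := by
    calc 17 * (r : ℝ) ≤ lam ^ 2 * ((p : ℝ) - 3) * r :=
          mul_le_mul_of_nonneg_right hB (Nat.cast_nonneg r)
      _ ≤ lam ^ 2 * s * r := mul_le_mul_of_nonneg_right
          (mul_le_mul_of_nonneg_left hsR hl) (Nat.cast_nonneg r)
      _ = _ := by ring
  push_cast
  linarith

theorem gpCorr : GPCorr := by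
  intro lam hlam
  obtain ⟨K, hK⟩ := exists_nat_ge (17 / lam ^ 2)
  refine ⟨K + 12, fun p N _ hp F c hc hcard a b hab ha hb haN hbN hmiss E hE f g => ?_⟩
  have hB : 17 ≤ lam ^ 2 * ((p : ℝ) - 3) := by
    have h1 : (17 : ℝ) ≤ lam ^ 2 * K := by
      rw [div_le_iff₀ (by positivity)] at hK
      linarith
    have h2 : (K : ℝ) + 12 ≤ p := by exact_mod_cast hp.le
    nlinarith [sq_nonneg lam]
  rcases lt_or_gt_of_ne hab with h | h
  · exact gpCorr_lt hlam hB (by omega) F c hc hcard h ha hbN hmiss E hE f g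
  · have := gpCorr_lt hlam hB (by omega) F c hc hcard h hb haN
      (fun W hW => (hmiss W hW).symm) (E.map (Equiv.prodComm _ _).toEmbedding) (fun W W' => by
        rw [Finset.mem_map_equiv, Equiv.prodComm_symm, Equiv.prodComm_apply, Prod.swap_prod_mk, hE,
          Finset.pair_comm W' W]
        tauto) g f
    simp only [Finset.sum_map, Finset.card_map, Equiv.coe_toEmbedding, Equiv.prodComm_apply,
      Prod.fst_swap, Prod.snd_swap] at this
    convert this using 1
    · simp only [mul_comm (g _)]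
      ring
    · rw [mul_comm ((E.card : ℝ) * _ - _)]

end Vale.Agent.P067
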