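import Vale.Agent.P067.SubspaceFill
import Vale.Agent.P067.SubspaceFlags
import Vale.Agent.P067.SubspaceCorr

/-!
Module M2: `genericFill`, `gpContraction`, `gpStructure`, `gpCorr`.
-/
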