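import Mathlib
import Vale.Agent.P067.Assembly
import Vale.Agent.P067.LinkConnCorr
import Vale.Agent.P067.Subspace
import Vale.Agent.P067.BldMorse
import Vale.Agent.P067.HomTransfer
import Vale.Agent.P067.LocalGlobal
import Vale.Agent.P067.LocalGlobalExp

namespace Vale.Agent.P067

/-- Question 1 in every dimension, from the two modules still to come. -/
theorem allDims_of (hLink : ThinLink) (hVan : VanishAll) (d : ℕ) (hd : 1 ≤ d) :
    ∃ (D : ℕ) (ε : ℝ) (X : ℕ → Finset (Finset ℕ)), 0 < ε ∧
      Filter.Tendsto (fun m => (faces (X m) 0).card) Filter.atTop Filter.atTop ∧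
      ∀ m, (∀ t ∈ X m, t.card = d + 1) ∧ (∀ v, ((X m).filter (fun t => v ∈ t)).card ≤ D) ∧
        IsConnectedCx (X m) ∧ IsCobExpander (X m) d ε :=
  q1_of_modules localToGlobal expOfContraction gpContraction gpStructure gpCorr thinAcyclic hLink
    gacTransfer hVan
    (fun p N _ hG h m hm ha => linksConn_facetsT hG hm h ha)
    (fun p N _ hG lam hN h m hm => corrBase_facetsT hG hN hm h) d hd

end Vale.Agent.P067
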