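import Vale.Agent.P067.BldNbr

/-!
M3, part 3: the exponents are intrinsic, and how they change at a neighbour.
-/

set_option linter.unusedSectionVars false

namespace Vale.Agent.P067

open Classical Polynomial

variable {p N : ℕ}

/-- Number of exponents at least `l`. -/
noncomputable def geCnt (b : Fin N → ℤ) (l : ℤ) : ℕ :=
  (Finset.univ.filter fun i => l ≤ b i).card

variable [Fact p.Prime]

/-- The coordinate flag of exponents at least `l`. -/
noncomputable def flag (b : Fin N → ℤ) (l : ℤ) : Sub p N where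
  carrier := {a | ∀ i, b i < l → a i = 0}
  zero_mem' := fun i _ => rfl
  add_mem' := fun ha hc i hi => by simp [ha i hi, hc i hi]
  smul_mem' := fun r a ha i hi => by simp [ha i hi]

lemma mem_flag {b : Fin N → ℤ} {l : ℤ} {a : Fin N → ZMod p} :
    a ∈ flag b l ↔ ∀ i, b i < l → a i = 0 := Iff.rfl

lemma flag_anti (b : Fin N → ℤ) {l l' : ℤ} (h : l ≤ l') : flag (p := p) b l' ≤ flag b l :=
  fun _ ha i hi => ha i (by omega)

lemma flag_eq_top {b : Fin N → ℤ} {l : ℤ} (h : ∀ i, l ≤ b i) : flag (p := p) b l = ⊤ :=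
  eq_top_iff.mpr fun _ _ i hi => absurd (h i) (by omega)

lemma flag_eq_bot {b : Fin N → ℤ} {l : ℤ} (h : ∀ i, b i < l) : flag (p := p) b l = ⊥ :=
  eq_bot_iff.mpr fun a ha => funext fun i => ha i (h i)

lemma finrank_flag (b : Fin N → ℤ) (l : ℤ) :
    Module.finrank (ZMod p) (flag (p := p) b l) = geCnt b l := by
  let e : flag (p := p) b l ≃ₗ[ZMod p] ({i : Fin N // l ≤ b i} → ZMod p) :=
    { toFun := fun a i => (a : Fin N → ZMod p) i
      map_add' := fun _ _ => rfl
      map_smul' := fun r a => rfl
      invFun := fun g => ⟨fun i => if h : l ≤ b i then g ⟨i, h⟩ else 0,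
        fun i hi => dif_neg (by omega)⟩
      left_inv := fun a => by
        ext i
        by_cases h : l ≤ b i
        · simp [h]
        · simp [h, mem_flag.mp a.2 i (by omega)]
      right_inv := fun g => by ext i; simp [i.2] }
  rw [e.finrank_eq, Module.finrank_fintype_fun_eq_card, Fintype.card_subtype]
  rfl

variable (f : Module.Basis (Fin N) (PR p) (PV p N))

/-- Constant combinations of the basis. -/
noncomputable def emb (a : Fin N → ZMod p) : PV p N := ∑ i, (C (a i) : PR p) • f i

lemma repr_emb (a : Fin N → ZMod p) (i : Fin N) : f.repr (emb f a) i = C (a i) := by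
  rw [emb, f.repr_sum_self]

lemma finrank_span_emb (Q : Sub p N) :
    Module.finrank (PR p) (Submodule.span (PR p) (emb f '' (Q : Set (Fin N → ZMod p)))) =
      Module.finrank (ZMod p) Q := by
  let v := Module.finBasis (ZMod p) Q
  have hspan : Submodule.span (PR p) (emb f '' (Q : Set (Fin N → ZMod p))) =
      Submodule.span (PR p) (Set.range fun j => emb f (v j : Fin N → ZMod p)) := by
    refine le_antisymm (Submodule.span_le.mpr ?_) (Submodule.span_mono ?_)
    · rintro _ ⟨a, ha, rfl⟩
      have h1 : emb f a = ∑ j, (C (v.repr ⟨a, ha⟩ j) : PR p) • emb f (v j : Fin N → ZMod p) := by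
        have h2 : a = ∑ j, v.repr ⟨a, ha⟩ j • (v j : Fin N → ZMod p) := by
          have h3 := congrArg Q.subtype (v.sum_repr ⟨a, ha⟩)
          rw [map_sum] at h3
          simp only [map_smul, Submodule.subtype_apply] at h3
          exact h3.symm
        apply f.repr.injective
        ext1 i
        conv_lhs => rw [repr_emb, h2]
        simp [map_sum, repr_emb, Finset.sum_apply]
      rw [h1]
      exact Submodule.sum_mem _ fun j _ =>
        Submodule.smul_mem _ _ (Submodule.subset_span ⟨j, rfl⟩)
    · rintro _ ⟨j, rfl⟩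
      exact ⟨_, (v j).2, rfl⟩
  rw [hspan, finrank_span_eq_card, Fintype.card_fin]
  rw [Fintype.linearIndependent_iff]
  intro c hc j
  refine Polynomial.ext fun n => ?_
  have h1 : ∑ k, (c k).coeff n • (v k : Fin N → ZMod p) = 0 := by
    funext i
    have h2 := congrArg (fun x => (f.repr x i).coeff n) hc
    simp only [map_sum, map_smul, Finsupp.coe_finsetSum, Finset.sum_apply, Finsupp.smul_apply,
      repr_emb, smul_eq_mul, finsetSum_coeff, coeff_mul_C, map_zero, Finsupp.zero_apply,
      coeff_zero] at h2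
    simpa [Finset.sum_apply] using h2
  have h3 : ∑ k, (c k).coeff n • v k = 0 := Subtype.ext (by simpa using h1)
  simpa using Fintype.linearIndependent_iff.mp v.linearIndependent (fun k => (c k).coeff n) h3 j

lemma f_mem_emb_flag (b : Fin N → ℤ) {l : ℤ} {i : Fin N} (hi : l ≤ b i) :
    f i ∈ emb f '' (flag (p := p) b l : Set (Fin N → ZMod p)) := by
  refine ⟨Pi.single i 1, fun j hj => Pi.single_eq_of_ne (by rintro rfl; omega) _, ?_⟩
  rw [emb, Finset.sum_eq_single i (fun j _ hj => by simp [Pi.single_eq_of_ne hj]) (by simp)]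
  simp

lemma mem_span_of_repr {Q : Sub p N} {b : Fin N → ℤ} {l : ℤ} (hQ : flag b l ≤ Q) {x : PV p N}
    (hx : ∀ i, b i < l → f.repr x i = 0) :
    x ∈ Submodule.span (PR p) (emb f '' (Q : Set (Fin N → ZMod p))) := by
  rw [← f.sum_repr x]
  refine Submodule.sum_mem _ fun i _ => ?_
  by_cases hi : l ≤ b i
  · exact Submodule.smul_mem _ _ (Submodule.subset_span
      (Set.image_mono (fun a ha => hQ ha) (f_mem_emb_flag f b hi)))
  · rw [hx i (by omega), zero_smul]
    exact Submodule.zero_mem _

variable {f}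
variable {b : Fin N → ℤ} {δ : PV p N → WithBot ℤ}

lemma span_sublevel (_hδ : IsPre δ) (hT : HasType δ f b) (l : ℤ) :
    Submodule.span (PR p) {x | δ x ≤ ((-l : ℤ) : WithBot ℤ)} =
      Submodule.span (PR p) (emb f '' ((flag b l : Sub p N) : Set (Fin N → ZMod p))) := by
  refine le_antisymm (Submodule.span_le.mpr fun x hx => ?_) (Submodule.span_le.mpr ?_)
  · exact mem_span_of_repr f le_rfl fun i hi =>
      repr_eq_zero_of_box f b (hT.le_iff.mp hx) (by omega)
  · rintro _ ⟨a, ha, rfl⟩
    refine Submodule.sum_mem _ fun i _ => ?_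
    by_cases hi : l ≤ b i
    · refine Submodule.smul_mem _ _ (Submodule.subset_span ?_)
      refine hT.le_iff.mpr fun j n hn => ?_
      rw [f.repr_self, Finsupp.single_apply]
      split
      · next h =>
        subst h
        rw [coeff_one, if_neg (by omega)]
      · simp
    · rw [mem_flag.mp ha i (by omega), C_0, zero_smul]
      exact Submodule.zero_mem _

lemma span_sublevel_nbr (hδ : IsPre δ) (hT : HasType δ f b) (W : Sub p N) (l : ℤ) :
    Submodule.span (PR p) {x | nbr f b δ W x ≤ ((-l : ℤ) : WithBot ℤ)} =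
      Submodule.span (PR p)
        (emb f '' ((flag b l ⊔ W ⊓ flag b (l - 1) : Sub p N) : Set (Fin N → ZMod p))) := by
  set Q := flag (p := p) b l ⊔ W ⊓ flag b (l - 1)
  refine le_antisymm (Submodule.span_le.mpr fun x hx => ?_) (Submodule.span_le.mpr ?_)
  · obtain ⟨h1, h2⟩ := (nbr_le_iff hδ hT W).mp hx
    have hbox := hT.le_iff.mp h1
    set a := leadF f b (-l + 1) x with ha
    have hafl : a ∈ flag b (l - 1) := fun i hi => by
      simp only [ha, leadF]
      rw [if_neg (by omega)]
    have hrest : x - emb f a ∈ Submodule.span (PR p) (emb f '' (Q : Set (Fin N → ZMod p))) := by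
      refine mem_span_of_repr f (le_sup_left : flag b l ≤ Q) fun i hi => ?_
      rw [map_sub, Finsupp.sub_apply, repr_emb]
      rcases lt_or_eq_of_le (show b i ≤ l - 1 by omega) with h | h
      · rw [repr_eq_zero_of_box f b hbox (show -l + 1 + b i < 0 by omega), hafl i h, C_0, sub_zero]
      · refine Polynomial.ext fun n => ?_
        rw [coeff_sub, coeff_C, coeff_zero]
        rcases Nat.eq_zero_or_pos n with rfl | hn
        · simp [ha, leadF, show -l + 1 + b i = 0 by omega]
        · rw [if_neg (by omega), hbox i n (by omega), sub_zero]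
    have hax : emb f a ∈ Submodule.span (PR p) (emb f '' (Q : Set (Fin N → ZMod p))) :=
      Submodule.subset_span ⟨a, (le_sup_right : W ⊓ flag b (l - 1) ≤ Q) ⟨h2, hafl⟩, rfl⟩
    have := Submodule.add_mem _ hrest hax
    simpa using this
  · rintro _ ⟨a, ha, rfl⟩
    obtain ⟨a1, h1, a2, h2, rfl⟩ := Submodule.mem_sup.mp ha
    have hflag : ∀ c ∈ flag (p := p) b l, ∀ g : Fin N → PR p,
        (∀ i, b i < l → g i = 0) →
        ∑ i, g i • f i ∈ Submodule.span (PR p) {x | nbr f b δ W x ≤ ((-l : ℤ) : WithBot ℤ)} := by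
      intro c _ g hg
      refine Submodule.sum_mem _ fun i _ => ?_
      by_cases hi : l ≤ b i
      · refine Submodule.smul_mem _ _ (Submodule.subset_span ?_)
        refine (nbr_le hδ hT W _).trans (hT.le_iff.mpr fun j n hn => ?_)
        rw [f.repr_self, Finsupp.single_apply]
        split
        · next h =>
          subst h
          rw [coeff_one, if_neg (by omega)]
        · simp
      · rw [hg i (by omega), zero_smul]
        exact Submodule.zero_mem _
    have hA : emb f a1 ∈ Submodule.span (PR p) {x | nbr f b δ W x ≤ ((-l : ℤ) : WithBot ℤ)} :=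
      hflag a1 h1 _ fun i hi => by rw [h1 i hi, C_0]
    obtain ⟨h2W, h2F⟩ := h2
    let y := liftF f b (-l + 1) a2
    have hy : y ∈ Submodule.span (PR p) {x | nbr f b δ W x ≤ ((-l : ℤ) : WithBot ℤ)} := by
      refine Submodule.subset_span ((nbr_le_iff hδ hT W).mpr ⟨?_, ?_⟩)
      · exact hT.le_iff.mpr (box_liftF f b _ _)
      · rwa [leadF_liftF f b fun i hi => h2F i (by omega)]
    have hB : emb f a2 - y ∈ Submodule.span (PR p) {x | nbr f b δ W x ≤ ((-l : ℤ) : WithBot ℤ)} := by
      simp only [emb, y, liftF, ← Finset.sum_sub_distrib, ← sub_smul]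
      refine hflag 0 (Submodule.zero_mem _) _ fun i hi => ?_
      rcases lt_or_eq_of_le (show b i ≤ l - 1 by omega) with h | h
      · simp [h2F i h]
      · simp [show -l + 1 + b i = 0 by omega]
    have hA2 : emb f (a1 + a2) = emb f a1 + ((emb f a2 - y) + y) := by
      simp [emb, add_smul, Finset.sum_add_distrib]
    rw [hA2]
    exact Submodule.add_mem _ hA (Submodule.add_mem _ hB hy)

/-- The exponents are intrinsic. -/
lemma geCnt_eq_of_hasType (hδ : IsPre δ) (hT : HasType δ f b)
    {f' : Module.Basis (Fin N) (PR p) (PV p N)} {b' : Fin N → ℤ} (hT' : HasType δ f' b') (l : ℤ) :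
    geCnt b' l = geCnt b l := by
  have h1 := congrArg (fun S : Submodule (PR p) (PV p N) => Module.finrank (PR p) S)
    ((span_sublevel hδ hT l).symm.trans (span_sublevel hδ hT' l))
  simp only [finrank_span_emb, finrank_flag] at h1
  exact h1.symm

/-- The exponents of a neighbour. -/
lemma geCnt_nbr (hδ : IsPre δ) (hT : HasType δ f b) (W : Sub p N)
    {f' : Module.Basis (Fin N) (PR p) (PV p N)} {b' : Fin N → ℤ}
    (hT' : HasType (nbr f b δ W) f' b') (l : ℤ) :
    geCnt b' l + Module.finrank (ZMod p) (W ⊓ flag b l : Sub p N) =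
      geCnt b l + Module.finrank (ZMod p) (W ⊓ flag b (l - 1) : Sub p N) := by
  have h1 := congrArg (fun S : Submodule (PR p) (PV p N) => Module.finrank (PR p) S)
    ((span_sublevel (nbr_pre hδ hT W) hT' l).symm.trans (span_sublevel_nbr hδ hT W l))
  simp only [finrank_span_emb, finrank_flag] at h1
  have h2 := Submodule.finrank_sup_add_finrank_inf_eq (flag (p := p) b l) (W ⊓ flag b (l - 1))
  have h3 : flag (p := p) b l ⊓ (W ⊓ flag b (l - 1)) = W ⊓ flag b l := by
    have := flag_anti (p := p) b (show l - 1 ≤ l by omega)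
    rw [inf_left_comm, inf_eq_left.mpr this]
  rw [h3, finrank_flag] at h2
  omega

lemma geCnt_eq_card {b : Fin N → ℤ} {l : ℤ} (h : ∀ i, l ≤ b i) : geCnt b l = N := by
  simp [geCnt, Finset.filter_eq_self.mpr (fun i _ => h i)]

lemma geCnt_eq_zero {b : Fin N → ℤ} {l : ℤ} (h : ∀ i, b i < l) : geCnt b l = 0 := by
  simp [geCnt, Finset.filter_eq_empty_iff, h]

lemma geCnt_eq_card_iff {b : Fin N → ℤ} {l : ℤ} : geCnt b l = N ↔ ∀ i, l ≤ b i := by
  refine ⟨fun h i => ?_, geCnt_eq_card⟩
  have h1 : (Finset.univ.filter fun i => l ≤ b i) = Finset.univ :=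
    Finset.eq_univ_of_card _ (by simpa [geCnt] using h)
  simpa using Finset.ext_iff.mp h1 i

lemma geCnt_eq_zero_iff {b : Fin N → ℤ} {l : ℤ} : geCnt b l = 0 ↔ ∀ i, b i < l := by
  refine ⟨fun h i => ?_, geCnt_eq_zero⟩
  by_contra hi
  have : i ∈ Finset.univ.filter fun i => l ≤ b i := by simpa using hi
  rw [geCnt, Finset.card_eq_zero] at h
  simp [h] at this

/-- The sum of exponents from the counting function. -/
lemma sum_eq_of_geCnt {b : Fin N → ℤ} {L M : ℤ} (hL : ∀ i, L ≤ b i) (hM : ∀ i, b i ≤ M) :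
    ∑ i, b i = N * L + ∑ l ∈ Finset.Ioc L M, (geCnt b l : ℤ) := by
  have h1 : ∀ i, b i - L = ∑ l ∈ Finset.Ioc L M, if l ≤ b i then (1 : ℤ) else 0 := fun i => by
    rw [Finset.sum_boole, show ((Finset.Ioc L M).filter fun l => l ≤ b i) = Finset.Ioc L (b i) by
      ext l; simp only [Finset.mem_filter, Finset.mem_Ioc]; have := hM i; omega]
    simp only [Int.card_Ioc]
    have := hL i
    omega
  have h2 : ∑ i, (b i - L) = ∑ l ∈ Finset.Ioc L M, (geCnt b l : ℤ) := by
    simp only [h1]
    rw [Finset.sum_comm]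
    exact Finset.sum_congr rfl fun l _ => by rw [Finset.sum_boole]; rfl
  rw [Finset.sum_sub_distrib, Finset.sum_const, Finset.card_univ, Fintype.card_fin,
    nsmul_eq_mul] at h2
  linarith

end Vale.Agent.P067
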