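import Vale.Agent.P067.BldHeight

/-!
M3, part 5: which neighbours are lower, and the axiom of the descending set.
-/

set_option linter.unusedSectionVars false

namespace Vale.Agent.P067

open Classical

variable {p N : ℕ} [Fact p.Prime]

/-- The descending set satisfies the generic axiom. -/
theorem genericAxiom_descSet (F₁ F₂ F' Fr : Sub p N) (h21 : F₂ ≤ F₁) (hr2 : Fr ≤ F₂)
    (h1 : F₁ ≠ ⊤) : GenericAxiom (DescSet F₁ F₂ F' Fr) := by
  refine ⟨fun W hW => ⟨hW.1, hW.2.1⟩, fun U W x hU hx hUW hWx hW hcodim => ?_⟩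
  have hxW : W < x := lt_of_le_of_ne hWx fun h => by subst h; omega
  have hx0 : ⊥ < x := lt_of_le_of_lt bot_le hxW
  have hWcase : W = ⊥ ∨ W ∈ DescSet F₁ F₂ F' Fr := by
    rcases hW with rfl | hW
    · exact hU
    · exact Or.inr hW
  have hbt : ∀ v, v ∈ x → v ≠ 0 → W ⊔ Submodule.span (ZMod p) {v} ≠ ⊥ ∧
      W ⊔ Submodule.span (ZMod p) {v} ≠ ⊤ := by
    intro v _ hv
    refine ⟨fun h => hv ?_, fun h => ?_⟩
    · have : v ∈ W ⊔ Submodule.span (ZMod p) {v} :=
        Submodule.mem_sup_right (Submodule.mem_span_singleton_self v)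
      rwa [h, Submodule.mem_bot] at this
    · have h2 := Submodule.finrank_sup_add_finrank_inf_eq W (Submodule.span (ZMod p) {v})
      rw [h, finrank_top, finrank_span_singleton hv] at h2
      have h3 := Submodule.finrank_le x
      omega
  -- membership of a vector in a join with a line
  have hline : ∀ v y, y ∈ W ⊔ Submodule.span (ZMod p) {v} → y ∉ W →
      ∀ S : Sub p N, y ∈ S → v ∈ W ⊔ S := by
    intro v y hy hyW S hyS
    obtain ⟨w, hw, c, hc, rfl⟩ := Submodule.mem_sup.mp hy
    obtain ⟨a, rfl⟩ := Submodule.mem_span_singleton.mp hc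
    have ha : a ≠ 0 := by
      rintro rfl
      simp at hyW
      exact hyW hw
    have : v = a⁻¹ • ((w + a • v) - w) := by simp [smul_smul, inv_mul_cancel₀ ha]
    rw [this]
    exact Submodule.smul_mem _ _ (Submodule.sub_mem _ (Submodule.mem_sup_right hyS)
      (Submodule.mem_sup_left hw))
  by_cases hWr : W ⊓ Fr = ⊥
  swap
  · -- `W` meets `Fr`
    have hWne : W ≠ ⊥ := fun h => hWr (by rw [h, bot_inf_eq])
    obtain ⟨-, -, hA | ⟨-, hnle, htop⟩⟩ := hWcase.resolve_left hWne
    · exact absurd hA.1 hWr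
    by_cases hB : (W ⊔ Fr) ⊓ x = x
    · refine ⟨⊥, ⊥, hx0, hx0, fun v hv hv1 _ => ?_⟩
      have hv0 : v ≠ 0 := fun h => hv1 (by simp [h])
      refine ⟨(hbt v hv hv0).1, (hbt v hv hv0).2, Or.inr ⟨?_, ?_, ?_⟩⟩
      · exact fun h => hWr (eq_bot_iff.mpr (h ▸ inf_le_inf_right Fr le_sup_left))
      · intro hle
        have hxle : x ≤ W ⊔ Fr := inf_eq_right.mp hB
        have h2 : x ≤ W ⊔ Submodule.span (ZMod p) {v} := hxle.trans (sup_le le_sup_left hle)
        have h3 := Submodule.finrank_mono h2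
        have h4 := Submodule.finrank_sup_add_finrank_inf_eq W (Submodule.span (ZMod p) {v})
        rw [finrank_span_singleton hv0] at h4
        omega
      · exact eq_top_iff.mpr (htop ▸ sup_le_sup_right le_sup_left F₂)
    · refine ⟨(W ⊔ Fr) ⊓ x, ⊥, lt_of_le_of_ne inf_le_right hB, hx0, fun v hv hv1 hv2 => ?_⟩
      have hv0 : v ≠ 0 := fun h => hv2 (by simp [h])
      refine ⟨(hbt v hv hv0).1, (hbt v hv hv0).2, Or.inr ⟨?_, ?_, ?_⟩⟩
      · exact fun h => hWr (eq_bot_iff.mpr (h ▸ inf_le_inf_right Fr le_sup_left))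
      · intro hle
        obtain ⟨y, hy, hyW⟩ := SetLike.not_le_iff_exists.mp hnle
        exact hv1 ⟨hline v y (hle hy) hyW Fr hy, hv⟩
      · exact eq_top_iff.mpr (htop ▸ sup_le_sup_right le_sup_left F₂)
  -- `W` misses `Fr`
  have hA : ¬ W ≤ F₁ ∨ W ⊓ F' = ⊥ := by
    rcases hWcase with rfl | ⟨-, -, h | h⟩
    · exact Or.inr (bot_inf_eq _)
    · exact h.2
    · exact absurd hWr h.1
  by_cases hB : (W ⊔ Fr) ⊓ x = x
  · -- the gap lies inside `W ⊔ Fr`
    have hxle : x ≤ W ⊔ Fr := inf_eq_right.mp hB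
    have hxr : x ⊓ Fr ≠ ⊥ := by
      intro h0
      refine hxW.not_ge fun y hy => ?_
      obtain ⟨w, hw, c, hc, rfl⟩ := Submodule.mem_sup.mp (hxle hy)
      have : c ∈ x ⊓ Fr := ⟨by simpa using x.sub_mem hy (hWx hw), hc⟩
      rw [h0, Submodule.mem_bot] at this
      simpa [this] using hw
    have htop : W ⊔ F₂ = ⊤ := by
      have h2 : x ⊔ F₂ = ⊤ := by
        rcases hx with rfl | ⟨-, -, hh | hh⟩
        · simp
        · exact absurd hh.1 hxr
        · exact hh.2.2
      refine eq_top_iff.mpr (h2 ▸ sup_le ?_ le_sup_right)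
      exact hxle.trans (sup_le_sup_left hr2 W)
    have hFr : 2 ≤ Module.finrank (ZMod p) Fr := by
      have h3 := Submodule.finrank_mono hxle
      have h4 := Submodule.finrank_sup_add_finrank_inf_eq W Fr
      rw [hWr, finrank_bot] at h4
      omega
    refine ⟨W, ⊥, hxW, hx0, fun v hv hv1 hv2 => ?_⟩
    have hv0 : v ≠ 0 := fun h => hv2 (by simp [h])
    refine ⟨(hbt v hv hv0).1, (hbt v hv hv0).2, Or.inr ⟨?_, ?_, ?_⟩⟩
    · intro h0
      obtain ⟨w, hw, c, hc, hwc⟩ := Submodule.mem_sup.mp (hxle hv)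
      have : c ∈ (W ⊔ Submodule.span (ZMod p) {v}) ⊓ Fr := by
        refine ⟨?_, hc⟩
        rw [show c = v - w by rw [← hwc]; abel]
        exact Submodule.sub_mem _ (Submodule.mem_sup_right (Submodule.mem_span_singleton_self v))
          (Submodule.mem_sup_left hw)
      rw [h0, Submodule.mem_bot] at this
      rw [this, add_zero] at hwc
      exact hv1 (hwc ▸ hw)
    · intro hle
      have h4 := Submodule.finrank_sup_add_finrank_inf_eq W (Submodule.span (ZMod p) {v})
      rw [finrank_span_singleton hv0] at h4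
      have h5 := Submodule.finrank_mono (sup_le (le_sup_left : W ≤ W ⊔
        Submodule.span (ZMod p) {v}) hle)
      have h6 := Submodule.finrank_sup_add_finrank_inf_eq W Fr
      rw [hWr, finrank_bot] at h6
      omega
    · exact eq_top_iff.mpr (htop ▸ sup_le_sup_right le_sup_left F₂)
  · -- a general vector of the gap
    have hinf : ∀ v, v ∉ W ⊔ Fr → (W ⊔ Submodule.span (ZMod p) {v}) ⊓ Fr = ⊥ := by
      intro v hv
      rw [eq_bot_iff]
      rintro y ⟨hy1, hy2⟩
      by_cases hyW : y ∈ W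
      · exact hWr ▸ ⟨hyW, hy2⟩
      · exact absurd (hline v y hy1 hyW Fr hy2) hv
    by_cases hxF : x ≤ F₁
    · -- inside `F₁` the gap misses `F'` or `W` already leaves `F₁`
      refine ⟨(W ⊔ Fr) ⊓ x, ⊥, lt_of_le_of_ne inf_le_right hB, hx0, fun v hv hv1 hv2 => ?_⟩
      have hv0 : v ≠ 0 := fun h => hv2 (by simp [h])
      refine ⟨(hbt v hv hv0).1, (hbt v hv hv0).2,
        Or.inl ⟨hinf v fun h => hv1 ⟨h, hv⟩, Or.inr ?_⟩⟩
      rcases hx with rfl | ⟨-, -, hh | hh⟩
      · exact absurd (top_le_iff.mp hxF) h1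
      · rcases hh.2 with h | h
        · exact absurd hxF h
        · exact eq_bot_iff.mpr (h ▸ inf_le_inf_right F'
            (sup_le hWx ((Submodule.span_singleton_le_iff_mem v x).mpr hv)))
      · exact absurd (top_le_iff.mp (hh.2.2 ▸ sup_le hxF h21)) h1
    · refine ⟨(W ⊔ Fr) ⊓ x, F₁ ⊓ x, lt_of_le_of_ne inf_le_right hB,
        lt_of_le_of_ne inf_le_right fun h => hxF (inf_eq_right.mp h), fun v hv hv1 hv2 => ?_⟩
      have hv0 : v ≠ 0 := fun h => hv2 (by simp [h])
      refine ⟨(hbt v hv hv0).1, (hbt v hv hv0).2,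
        Or.inl ⟨hinf v fun h => hv1 ⟨h, hv⟩, Or.inl fun h => hv2 ⟨?_, hv⟩⟩⟩
      exact h (Submodule.mem_sup_right (Submodule.mem_span_singleton_self v))

section Cases

variable {N' : ℕ} {r : ℕ} {n m n' : ℤ → ℕ}

/-- Same spread, some bottom exponents stay, the top is missed. -/
lemma height_case_low (hr2 : 2 ≤ r) (hrec : ∀ l : ℤ, (n' l : ℤ) = n l + m (l - 1) - m l)
    (hmn : ∀ l, m l ≤ n l) (hmneg : m (-1) = 0) (hnN : ∀ l, n l ≤ N') (hn'N : ∀ l, n' l ≤ N')
    (hex1 : ∃ l : ℕ, l ≤ r ∧ m l ≠ 0) (hb0 : m 0 < n 0) (hmr0 : m r = 0) :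
    (hval N' r (fun l => n' l) < hval N' r (fun l => n l) ↔ (m 0 ≠ 0 ∨ m (r - 1) = 0)) ∧
      hval N' r (fun l => n' l) ≠ hval N' r (fun l => n l) := by
  have r0 := hrec 0
  have r1 := hrec 1
  have rr := hrec r
  simp only [zero_sub, sub_self] at r0 r1
  have hm1 := hmn 1
  have hmr1 := hmn ((r : ℤ) - 1)
  rcases Nat.eq_zero_or_pos (m 0) with hm00 | hm00
  · rcases Nat.eq_zero_or_pos (m ((r : ℤ) - 1)) with hm1' | hm1'
    · -- first nonzero middle level decreases
      have hex : ∃ l : ℕ, m l ≠ 0 := hex1.imp fun l h => h.2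
      obtain ⟨hl0ne, hl0le⟩ : m (Nat.find hex) ≠ 0 ∧ Nat.find hex ≤ r := by
        obtain ⟨l, hl, hne⟩ := hex1
        exact ⟨Nat.find_spec hex, (Nat.find_min' hex hne).trans hl⟩
      set l0 := Nat.find hex
      have hbefore : ∀ l : ℕ, l < l0 → m l = 0 := fun l hl =>
        not_not.mp (Nat.find_min hex hl)
      have hl0a : 1 ≤ l0 := by
        rcases Nat.eq_zero_or_pos l0 with h | h
        · rw [h] at hl0ne; simp at hl0ne; omega
        · exact h
      have hl0b : l0 + 2 ≤ r := by
        rcases (show l0 + 2 ≤ r ∨ l0 = r ∨ (l0 : ℤ) = r - 1 by omega) with h | h | h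
        · exact h
        · rw [h] at hl0ne; omega
        · rw [h] at hl0ne; omega
      have hlt := hval_lt_of_eq (r := r) (n := fun l => n' l) (n' := fun l => n l)
        (fun l => hn'N _) (j₀ := l0 + 1) (by omega)
        (fun j hj => by
          unfold levelOrder
          split
          · simp only [Nat.cast_zero]; omega
          · split
            · omega
            · have e := hrec ((j - 1 : ℕ) : ℤ)
              have := hbefore (j - 1) (by omega)
              have := hbefore (j - 2) (by omega)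
              rw [show (((j - 1 : ℕ) : ℤ)) - 1 = ((j - 2 : ℕ) : ℤ) by omega] at e
              omega)
        (by
          simp only [levelOrder, Nat.add_one_sub_one, show l0 + 1 ≠ 0 by omega,
            show l0 + 1 ≠ 1 by omega, ↓reduceIte]
          have e := hrec (l0 : ℤ)
          have := hbefore (l0 - 1) (by omega)
          rw [show (l0 : ℤ) - 1 = ((l0 - 1 : ℕ) : ℤ) by omega] at e
          omega)
      exact ⟨by simp only [hlt, true_iff]; exact Or.inr hm1', hlt.ne⟩
    · have hgt := hval_lt_of_eq (r := r) (n := fun l => n l) (n' := fun l => n' l)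
        (fun l => hnN _) (j₀ := 1) (by omega)
        (fun j hj => by
          obtain rfl : j = 0 := by omega
          simp only [levelOrder, ↓reduceIte, Nat.cast_zero]
          omega)
        (by simp only [levelOrder, one_ne_zero, ↓reduceIte]; omega)
      exact ⟨by simp only [not_lt.mpr hgt.le, false_iff]; omega, hgt.ne'⟩
  · have hlt := hval_lt_of_eq (r := r) (n := fun l => n' l) (n' := fun l => n l)
      (fun l => hn'N _) (j₀ := 0) (by omega) (fun j hj => by omega)
      (by simp only [levelOrder, ↓reduceIte, Nat.cast_zero]; omega)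
    exact ⟨by simp only [hlt, true_iff]; exact Or.inl (by omega), hlt.ne⟩

/-- Same spread after every bottom exponent moved up. -/
lemma height_case_high (hr2 : 2 ≤ r) (hrec : ∀ l : ℤ, (n' l : ℤ) = n l + m (l - 1) - m l)
    (hmn : ∀ l, m l ≤ n l) (hnr : n (r + 1) = 0) (hmr' : m (r + 1) = 0) (hnN : ∀ l, n l ≤ N')
    (hn'N : ∀ l, n' l ≤ N')
    (hex2 : ∃ l : ℕ, l ≤ r ∧ m l ≠ n l) (hb0 : m 0 = n 0) (hmr0 : 0 < m r) :
    (hval N' r (fun l => n' (1 + l)) < hval N' r (fun l => n l) ↔ (m r ≠ n r ∧ m 1 = n 1)) ∧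
      hval N' r (fun l => n' (1 + l)) ≠ hval N' r (fun l => n l) := by
  have r1 := hrec 1
  have rr := hrec r
  have rr1 := hrec (r + 1)
  simp only [sub_self, add_sub_cancel_right] at r1 rr1
  have hm1 := hmn 1
  have hmr := hmn r
  rcases Nat.lt_or_ge (m 1) (n 1) with hb1 | hb1
  · have hgt := hval_lt_of_eq (r := r) (n := fun l => n l) (n' := fun l => n' (1 + l))
      (fun l => hnN _) (j₀ := 0) (by omega) (fun j hj => by omega)
      (by simp only [levelOrder, ↓reduceIte, Nat.cast_zero, add_zero]; omega)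
    exact ⟨by simp only [not_lt.mpr hgt.le, false_iff]; omega, hgt.ne'⟩
  · rcases Nat.lt_or_ge (m r) (n r) with hbr | hbr
    · have hlt := hval_lt_of_eq (r := r) (n := fun l => n' (1 + l)) (n' := fun l => n l)
        (fun l => hn'N _) (j₀ := 1) (by omega)
        (fun j hj => by
          obtain rfl : j = 0 := by omega
          simp only [levelOrder, ↓reduceIte, Nat.cast_zero, add_zero]
          omega)
        (by
          simp only [levelOrder, one_ne_zero, ↓reduceIte]
          rw [show (1 : ℤ) + (r : ℤ) = r + 1 by ring]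
          omega)
      exact ⟨by simp only [hlt, true_iff]; exact ⟨by omega,
        by omega⟩, hlt.ne⟩
    · -- some middle level is not full
      have hex : ∃ l : ℕ, m l ≠ n l := hex2.imp fun l h => h.2
      obtain ⟨hl0ne, hl0le⟩ : m (Nat.find hex) ≠ n (Nat.find hex) ∧ Nat.find hex ≤ r := by
        obtain ⟨l, hl, hne⟩ := hex2
        exact ⟨Nat.find_spec hex, (Nat.find_min' hex hne).trans hl⟩
      set l0 := Nat.find hex
      have hbefore : ∀ l : ℕ, l < l0 → m l = n l := fun l hl =>
        not_not.mp (Nat.find_min hex hl)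
      have hl0a : 2 ≤ l0 := by
        rcases (show l0 = 0 ∨ l0 = 1 ∨ 2 ≤ l0 by omega) with h | h | h
        · rw [h] at hl0ne; simp at hl0ne; omega
        · rw [h] at hl0ne; simp at hl0ne; omega
        · exact h
      have hl0b : l0 < r := by
        rcases (show l0 < r ∨ l0 = r by omega) with h | h
        · exact h
        · rw [h] at hl0ne; omega
      have hgt := hval_lt_of_eq (r := r) (n := fun l => n l) (n' := fun l => n' (1 + l))
        (fun l => hnN _) (j₀ := l0) (by omega)
        (fun j hj => by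
          unfold levelOrder
          split
          · simp only [Nat.cast_zero, add_zero]; omega
          · split
            · rw [show (1 : ℤ) + (r : ℤ) = r + 1 by ring]; omega
            · have e := hrec (1 + ((j - 1 : ℕ) : ℤ))
              have := hbefore (j - 1) (by omega)
              have := hbefore j (by omega)
              rw [show 1 + (((j - 1 : ℕ) : ℤ)) - 1 = ((j - 1 : ℕ) : ℤ) by omega,
                show 1 + ((j - 1 : ℕ) : ℤ) = (j : ℤ) by omega] at e
              rw [show 1 + ((j - 1 : ℕ) : ℤ) = (j : ℤ) by omega]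
              omega)
        (by
          simp only [levelOrder, show l0 ≠ 0 by omega, show l0 ≠ 1 by omega, ↓reduceIte]
          have e := hrec (1 + ((l0 - 1 : ℕ) : ℤ))
          have := hbefore (l0 - 1) (by omega)
          have := hmn (l0 : ℤ)
          rw [show 1 + (((l0 - 1 : ℕ) : ℤ)) - 1 = ((l0 - 1 : ℕ) : ℤ) by omega,
            show 1 + ((l0 - 1 : ℕ) : ℤ) = (l0 : ℤ) by omega] at e
          rw [show 1 + ((l0 - 1 : ℕ) : ℤ) = (l0 : ℤ) by omega]
          omega)
      exact ⟨by simp only [not_lt.mpr hgt.le, false_iff]; omega, hgt.ne'⟩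

end Cases

variable {f : Module.Basis (Fin N) (PR p) (PV p N)} {b : Fin N → ℤ}
variable {δ : PV p N → WithBot ℤ}
variable {f' : Module.Basis (Fin N) (PR p) (PV p N)} {b' : Fin N → ℤ}

/-- Comparison with the height of a neighbour, when the spread is at least two. -/
theorem heightB_nbr (hN : 0 < N) (hδ : IsPre δ) (hT : HasType δ f b) {W : Sub p N} (h0 : W ≠ ⊥)
    (h1 : W ≠ ⊤) (hT' : HasType (nbr f b δ W) f' b') (hr : 2 ≤ bHi b - bLo b) :
    (heightB b' < heightB b ↔ W ∈ DescSet (flag b (bLo b + 1)) (flag b (bLo b + 2))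
      (flag b (bHi b - 1)) (flag b (bHi b))) ∧ heightB b' ≠ heightB b := by
  obtain ⟨r, hr2, hrv⟩ : ∃ r : ℕ, 2 ≤ r ∧ bHi b = bLo b + r :=
    ⟨(bHi b - bLo b).toNat, by omega, by omega⟩
  set lo := bLo b with hlo
  let n : ℤ → ℕ := fun l => atCnt b (lo + l)
  let m : ℤ → ℕ := fun l => wCnt b W (lo + l)
  let n' : ℤ → ℕ := fun l => atCnt b' (lo + l)
  have hrec : ∀ l : ℤ, (n' l : ℤ) = n l + m (l - 1) - m l := fun l => by
    have := atCnt_nbr hδ hT W hT' (lo + l)
    simp only [n', n, m]
    rw [this, show lo + l - 1 = lo + (l - 1) by ring]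
  have hmn : ∀ l, m l ≤ n l := fun l => (wDim_succ b W _).2
  have hn0 : ∀ l : ℤ, l < 0 ∨ (r : ℤ) < l → n l = 0 ∧ m l = 0 := fun l hl =>
    ⟨atCnt_eq_zero_of_out (by omega), wCnt_eq_zero_of_out (by omega)⟩
  have hnlo : 0 < n 0 := by
    simp only [n, add_zero]
    exact atCnt_pos_iff.mpr (exists_bLo hN b)
  have hnhi : 0 < n r := by
    simp only [n, ← hrv]
    exact atCnt_pos_iff.mpr (exists_bHi hN b)
  have hle : ∀ (c : Fin N → ℤ) (l : ℤ), (fun l : ℕ => atCnt c (bLo c + l)) l.toNat ≤ N :=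
    fun c l => atCnt_le c _
  -- translation of the conditions
  have hd : ∀ l : ℤ, wDim b W (lo + l) = m l + wDim b W (lo + (l + 1)) := fun l => by
    rw [← add_assoc]; exact (wDim_succ b W _).1
  have hdtop : wDim b W (lo + (r + 1)) = 0 := wDim_above (by omega)
  have hdr : wDim b W (bHi b) = m r := by rw [hrv, hd, hdtop, add_zero]
  have hdr1 : wDim b W (bHi b - 1) = m (r - 1) + m r := by
    rw [hrv, show lo + (r : ℤ) - 1 = lo + ((r : ℤ) - 1) by ring, hd, sub_add_cancel, hd, hdtop,
      add_zero]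
  have hd0 : Module.finrank (ZMod p) W = m 0 + wDim b W (lo + 1) := by
    rw [← wDim_bLo b W, ← hlo]
    simpa using hd 0
  have hd1 : wDim b W (lo + 1) = m 1 + wDim b W (lo + 2) := by simpa using hd 1
  have hg0 : N = n 0 + geCnt b (lo + 1) := by
    have := geCnt_succ b lo
    rw [hlo, geCnt_bLo] at this
    simpa [n] using this
  have hg1 : geCnt b (lo + 1) = n 1 + geCnt b (lo + 2) := by
    have := geCnt_succ b (lo + 1)
    rwa [show lo + 1 + 1 = lo + 2 by ring] at this
  have hgr : geCnt b (bHi b) = n r := by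
    have := geCnt_succ b (bHi b)
    rw [geCnt_above (show bHi b < bHi b + 1 by omega), add_zero] at this
    rw [this, hrv]
  have cR : W ⊓ flag b (bHi b) = ⊥ ↔ m r = 0 := by rw [inf_flag_eq_bot_iff, hdr]
  have cR1 : W ⊓ flag b (bHi b - 1) = ⊥ ↔ m (r - 1) = 0 ∧ m r = 0 := by
    rw [inf_flag_eq_bot_iff, hdr1]; omega
  have c1 : W ≤ flag b (lo + 1) ↔ m 0 = 0 := by rw [le_flag_iff]; omega
  have c2 : W ⊔ flag b (lo + 2) = ⊤ ↔ m 0 = n 0 ∧ m 1 = n 1 := by
    rw [sup_flag_eq_top_iff]
    have := hmn 0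
    have := hmn 1
    omega
  have cle : flag b (bHi b) ≤ W ↔ m r = n r := by rw [flag_le_iff, hdr, hgr]
  -- a level where `W` is nonzero, one where it is not full
  have hex1 : ∃ l : ℕ, l ≤ r ∧ m l ≠ 0 := by
    by_contra! hall
    refine h0 ?_
    rw [← Submodule.finrank_eq_zero (R := ZMod p), ← wDim_bLo b W, ← hlo]
    have : ∀ k : ℕ, k ≤ r + 1 → wDim b W (lo + (((r + 1 - k : ℕ) : ℤ))) = 0 := by
      intro k
      induction k with
      | zero => intro _; simpa using hdtop
      | succ k ih =>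
        intro hk
        rw [hd, show ((r + 1 - (k + 1) : ℕ) : ℤ) + 1 = ((r + 1 - k : ℕ) : ℤ) by omega,
          ih (by omega), hall _ (by omega)]
    simpa using this (r + 1) le_rfl
  have hex2 : ∃ l : ℕ, l ≤ r ∧ m l ≠ n l := by
    by_contra! hall
    refine h1 (Submodule.eq_top_of_finrank_eq ?_)
    rw [Module.finrank_fin_fun, ← wDim_bLo b W, ← hlo]
    have : ∀ k : ℕ, k ≤ r + 1 → wDim b W (lo + (((r + 1 - k : ℕ) : ℤ))) =
        geCnt b (lo + (((r + 1 - k : ℕ) : ℤ))) := by
      intro k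
      induction k with
      | zero =>
        intro _
        rw [geCnt_above (by push_cast; omega)]
        simpa using hdtop
      | succ k ih =>
        intro hk
        have e : ((r + 1 - (k + 1) : ℕ) : ℤ) + 1 = ((r + 1 - k : ℕ) : ℤ) := by omega
        rw [geCnt_succ, hd, e, ih (by omega), hall _ (by omega), add_assoc lo, e]
    have h' := this (r + 1) le_rfl
    simp only [Nat.sub_self, Nat.cast_zero, add_zero] at h'
    rw [h', hlo, geCnt_bLo]
  -- spreads of the neighbour
  have hrange : ∀ a c : ℤ, 0 < n' a → 0 < n' c → (∀ l, l < a ∨ c < l → n' l = 0) →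
      bLo b' = lo + a ∧ bHi b' = lo + c ∧
        heightB b' = hval N (c - a).toNat fun l => n' (a + l) := by
    intro a c ha hc hout
    obtain ⟨e1, e2⟩ := range_eq_of_atCnt hN (b := b') (lo := lo + a) (hi := lo + c) ha hc
      fun l hl => by
        have := hout (l - lo) (by omega)
        simpa [n'] using this
    refine ⟨e1, e2, ?_⟩
    unfold heightB
    rw [e1, e2, show lo + c - (lo + a) = c - a by ring]
    congr 1
    funext l
    rw [add_assoc]
  have hb : heightB b = hval N r fun l => n l := by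
    unfold heightB
    rw [hrv, show lo + (r : ℤ) - lo = r by ring, Int.toNat_natCast]
  have hnN : ∀ l, n l ≤ N := fun l => atCnt_le b _
  have hn'N : ∀ l, n' l ≤ N := fun l => atCnt_le b' _
  have hmneg : m (-1) = 0 := (hn0 _ (by omega)).2
  have hn'out : ∀ l : ℤ, l < 0 ∨ (r : ℤ) + 1 < l → n' l = 0 := fun l hl => by
    have := hrec l
    have := hn0 l (by omega)
    have := hn0 (l - 1) (by omega)
    omega
  have hdesc : (W ∈ DescSet (flag b (lo + 1)) (flag b (lo + 2)) (flag b (bHi b - 1))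
      (flag b (bHi b))) ↔ (m r = 0 ∧ (m 0 ≠ 0 ∨ m (r - 1) = 0)) ∨
        (m r ≠ 0 ∧ m r ≠ n r ∧ m 0 = n 0 ∧ m 1 = n 1) := by
    show _ ∧ _ ∧ _ ↔ _
    simp only [ne_eq, cR, cR1, c1, c2, cle, h0, h1, not_false_eq_true, true_and]
    by_cases hmz : m r = 0
    · simp [hmz]
    · simp [hmz]
  rw [hdesc]
  have r0 := hrec 0
  have r1 := hrec 1
  have rr := hrec r
  have rr1 := hrec (r + 1)
  simp only [zero_sub, sub_self, add_sub_cancel_right] at r0 r1 rr1
  have hout1 := hn0 ((r : ℤ) + 1) (by omega)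
  have hm0 := hmn 0
  have hm1 := hmn 1
  have hmr := hmn r
  have hmr1 := hmn ((r : ℤ) - 1)
  rcases Nat.lt_or_ge (m 0) (n 0) with hb0 | hb0
  · -- some bottom exponents stay
    rcases Nat.eq_zero_or_pos (m r) with hmr0 | hmr0
    · obtain ⟨e1, e2, e3⟩ := hrange 0 r (by omega) (by omega) fun l hl => by
        rcases hl with hl | hl
        · exact hn'out l (Or.inl hl)
        · rcases (show l = r + 1 ∨ (r : ℤ) + 1 < l by omega) with rfl | h
          · omega
          · exact hn'out l (Or.inr h)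
      simp only [sub_zero, Int.toNat_natCast, zero_add] at e3
      obtain ⟨hiff, hne⟩ := height_case_low hr2 hrec hmn hmneg hnN hn'N hex1 hb0 hmr0
      rw [e3, hb]
      refine ⟨hiff.trans ⟨fun h => Or.inl ⟨hmr0, h⟩, fun h => ?_⟩, hne⟩
      rcases h with h | h
      · exact h.2
      · exact absurd hmr0 h.1
    · obtain ⟨e1, e2, e3⟩ := hrange 0 (r + 1) (by omega) (by omega) hn'out
      have hgt : heightB b < heightB b' := by
        rw [e3, hb]
        exact hval_lt_of_spread hN (by omega) fun l => hnN _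
      exact ⟨by simp only [not_lt.mpr hgt.le, false_iff]; omega, hgt.ne'⟩
  · -- every bottom exponent moves up
    have hout0 : n' 0 = 0 := by omega
    rcases Nat.eq_zero_or_pos (m r) with hmr0 | hmr0
    · obtain ⟨e1, e2, e3⟩ := hrange 1 r (by omega) (by omega) fun l hl => by
        rcases (show l < 0 ∨ l = 0 ∨ l = r + 1 ∨ (r : ℤ) + 1 < l by omega) with h | rfl | rfl | h
        · exact hn'out l (Or.inl h)
        · exact hout0
        · omega
        · exact hn'out l (Or.inr h)
      have hlt : heightB b' < heightB b := by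
        rw [e3, hb]
        exact hval_lt_of_spread hN (by omega) fun l => hn'N _
      exact ⟨by simp only [hlt, true_iff]; exact Or.inl ⟨hmr0, Or.inl (by omega)⟩, hlt.ne⟩
    · obtain ⟨e1, e2, e3⟩ := hrange 1 (r + 1) (by omega) (by omega) fun l hl => by
        rcases (show l < 0 ∨ l = 0 ∨ (r : ℤ) + 1 < l by omega) with h | rfl | h
        · exact hn'out l (Or.inl h)
        · exact hout0
        · exact hn'out l (Or.inr h)
      rw [show ((r : ℤ) + 1 - 1).toNat = r by omega] at e3
      obtain ⟨hiff, hne⟩ := height_case_high hr2 hrec hmn hout1.1 hout1.2 hnN hn'N hex2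
        (by omega) hmr0
      rw [e3, hb]
      refine ⟨hiff.trans ⟨fun h => Or.inr ⟨by omega, h.1, by omega, h.2⟩, fun h => ?_⟩, hne⟩
      rcases h with h | h
      · omega
      · exact ⟨h.2.1, h.2.2.2⟩

end Vale.Agent.P067
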