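import Vale.Agent.P067.BldCount

/-!
M3, part 4: the height function and the descending neighbours.
-/

set_option linter.unusedSectionVars false

namespace Vale.Agent.P067

open Classical

variable {p N : ℕ}

/-- Positional encoding of the first `k` values of `a` in base `N + 1`. -/
def digits (N : ℕ) (a : ℕ → ℕ) : ℕ → ℕ
  | 0 => 0
  | k + 1 => digits N a k * (N + 1) + a k

lemma digits_lt (N : ℕ) (a : ℕ → ℕ) (ha : ∀ j, a j ≤ N) (k : ℕ) : digits N a k < (N + 1) ^ k := by
  induction k with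
  | zero => simp [digits]
  | succ k ih =>
    rw [digits, pow_succ]
    have : (digits N a k + 1) * (N + 1) ≤ (N + 1) ^ k * (N + 1) :=
      Nat.mul_le_mul_right _ ih
    have := ha k
    linarith

lemma digits_congr (N : ℕ) {a c : ℕ → ℕ} {k : ℕ} (h : ∀ j, j < k → a j = c j) :
    digits N a k = digits N c k := by
  induction k with
  | zero => rfl
  | succ k ih =>
    rw [digits, digits, ih (fun j hj => h j (by omega)), h k (by omega)]

lemma digits_lt_digits (N : ℕ) {a c : ℕ → ℕ} (ha : ∀ j, a j ≤ N) {k j₀ : ℕ} (hj : j₀ < k)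
    (heq : ∀ j, j < j₀ → a j = c j) (hlt : a j₀ < c j₀) : digits N a k < digits N c k := by
  induction k with
  | zero => omega
  | succ k ih =>
    rw [digits, digits]
    rcases Nat.lt_or_ge j₀ k with h | h
    · have h1 : (digits N a k + 1) * (N + 1) ≤ digits N c k * (N + 1) :=
        Nat.mul_le_mul_right _ (ih h)
      have := ha k
      linarith
    · obtain rfl : j₀ = k := by omega
      rw [digits_congr N heq]
      omega

/-- The order in which levels are compared: bottom, top, then the middle ones upwards. -/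
def levelOrder (r j : ℕ) : ℕ := if j = 0 then 0 else if j = 1 then r else j - 1

/-- Height from the spread and the level sizes. -/
def hval (N r : ℕ) (n : ℕ → ℕ) : ℕ :=
  (N + 1) ^ (r + 2) + digits N (fun j => n (levelOrder r j)) (r + 1)

lemma hval_lt_of_spread (hN : 0 < N) {r r' : ℕ} (h : r < r') {n n' : ℕ → ℕ} (hn : ∀ l, n l ≤ N) :
    hval N r n < hval N r' n' := by
  have h1 := digits_lt N (fun j => n (levelOrder r j)) (fun j => hn _) (r + 1)
  have h2 : (N + 1) ^ (r + 1) ≤ (N + 1) ^ (r + 2) := Nat.pow_le_pow_right (by omega) (by omega)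
  have h3 : (N + 1) ^ (r + 3) ≤ (N + 1) ^ (r' + 2) := Nat.pow_le_pow_right (by omega) (by omega)
  have h4 : 2 * (N + 1) ^ (r + 2) ≤ (N + 1) ^ (r + 3) := by
    rw [pow_succ (N + 1) (r + 2), mul_comm _ (N + 1)]
    exact Nat.mul_le_mul_right _ (by omega)
  unfold hval
  linarith [Nat.zero_le (digits N (fun j => n' (levelOrder r' j)) (r' + 1))]

lemma hval_lt_of_eq {r : ℕ} {n n' : ℕ → ℕ} (hn : ∀ l, n l ≤ N) {j₀ : ℕ} (hj : j₀ ≤ r)
    (heq : ∀ j, j < j₀ → n (levelOrder r j) = n' (levelOrder r j))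
    (hlt : n (levelOrder r j₀) < n' (levelOrder r j₀)) : hval N r n < hval N r n' := by
  unfold hval
  have := digits_lt_digits N (a := fun j => n (levelOrder r j)) (c := fun j => n' (levelOrder r j))
    (fun j => hn _) (show j₀ < r + 1 by omega) heq hlt
  omega

/-- Number of exponents equal to `l`. -/
noncomputable def atCnt (b : Fin N → ℤ) (l : ℤ) : ℕ :=
  (Finset.univ.filter fun i => b i = l).card

lemma atCnt_le (b : Fin N → ℤ) (l : ℤ) : atCnt b l ≤ N :=
  (Finset.card_filter_le _ _).trans (by simp)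

lemma geCnt_succ (b : Fin N → ℤ) (l : ℤ) : geCnt b l = atCnt b l + geCnt b (l + 1) := by
  rw [geCnt, geCnt, atCnt, ← Finset.card_union_of_disjoint]
  · congr 1
    ext i
    simp only [Finset.mem_filter, Finset.mem_univ, true_and, Finset.mem_union]
    omega
  · rw [Finset.disjoint_filter]
    intro i _ h1 h2
    omega

lemma atCnt_pos_iff {b : Fin N → ℤ} {l : ℤ} : 0 < atCnt b l ↔ ∃ i, b i = l := by
  simp [atCnt, Finset.card_pos, Finset.Nonempty]

/-- Smallest exponent. -/
noncomputable def bLo (b : Fin N → ℤ) : ℤ :=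
  if h : (Finset.univ : Finset (Fin N)).Nonempty then Finset.univ.inf' h b else 0

/-- Largest exponent. -/
noncomputable def bHi (b : Fin N → ℤ) : ℤ :=
  if h : (Finset.univ : Finset (Fin N)).Nonempty then Finset.univ.sup' h b else 0

lemma bLo_le (b : Fin N → ℤ) (i : Fin N) : bLo b ≤ b i := by
  have h : (Finset.univ : Finset (Fin N)).Nonempty := ⟨i, Finset.mem_univ i⟩
  rw [bLo, dif_pos h]
  exact Finset.inf'_le _ (Finset.mem_univ i)

lemma le_bHi (b : Fin N → ℤ) (i : Fin N) : b i ≤ bHi b := by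
  have h : (Finset.univ : Finset (Fin N)).Nonempty := ⟨i, Finset.mem_univ i⟩
  rw [bHi, dif_pos h]
  exact Finset.le_sup' _ (Finset.mem_univ i)

lemma exists_bLo (hN : 0 < N) (b : Fin N → ℤ) : ∃ i, b i = bLo b := by
  have h : (Finset.univ : Finset (Fin N)).Nonempty := ⟨⟨0, hN⟩, Finset.mem_univ _⟩
  rw [bLo, dif_pos h]
  obtain ⟨i, -, hi⟩ := Finset.exists_mem_eq_inf' h b
  exact ⟨i, hi.symm⟩

lemma exists_bHi (hN : 0 < N) (b : Fin N → ℤ) : ∃ i, b i = bHi b := by
  have h : (Finset.univ : Finset (Fin N)).Nonempty := ⟨⟨0, hN⟩, Finset.mem_univ _⟩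
  rw [bHi, dif_pos h]
  obtain ⟨i, -, hi⟩ := Finset.exists_mem_eq_sup' h b
  exact ⟨i, hi.symm⟩

/-- Height of an exponent vector. -/
noncomputable def heightB (b : Fin N → ℤ) : ℕ :=
  hval N (bHi b - bLo b).toNat fun l => atCnt b (bLo b + l)

lemma range_eq_of_atCnt (hN : 0 < N) {b : Fin N → ℤ} {lo hi : ℤ} (hlo : 0 < atCnt b lo)
    (hhi : 0 < atCnt b hi) (hout : ∀ l, l < lo ∨ hi < l → atCnt b l = 0) :
    bLo b = lo ∧ bHi b = hi := by
  have key : ∀ i, lo ≤ b i ∧ b i ≤ hi := fun i => by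
    have h1 : 0 < atCnt b (b i) := atCnt_pos_iff.mpr ⟨i, rfl⟩
    by_contra hn
    have := hout (b i) (by omega)
    omega
  obtain ⟨i, hi1⟩ := atCnt_pos_iff.mp hlo
  obtain ⟨j, hj1⟩ := atCnt_pos_iff.mp hhi
  obtain ⟨i', hi'⟩ := exists_bLo hN b
  obtain ⟨j', hj'⟩ := exists_bHi hN b
  have := bLo_le b i
  have := le_bHi b j
  have := key i'
  have := key j'
  omega

lemma atCnt_eq_zero_of_out {b : Fin N → ℤ} {l : ℤ} (h : l < bLo b ∨ bHi b < l) :
    atCnt b l = 0 := by
  by_contra hc
  obtain ⟨i, hi⟩ := atCnt_pos_iff.mp (Nat.pos_of_ne_zero hc)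
  have := bLo_le b i
  have := le_bHi b i
  omega

lemma atCnt_eq_of_geCnt {b c : Fin N → ℤ} {t : ℤ} (h : ∀ l, geCnt c (l + t) = geCnt b l) (l : ℤ) :
    atCnt c (l + t) = atCnt b l := by
  have h1 := geCnt_succ c (l + t)
  have h2 := geCnt_succ b l
  have h3 := h l
  have h4 := h (l + 1)
  rw [show l + 1 + t = l + t + 1 by ring] at h4
  omega

lemma heightB_congr (hN : 0 < N) {b c : Fin N → ℤ} {t : ℤ}
    (h : ∀ l, geCnt c (l + t) = geCnt b l) :
    bLo c = bLo b + t ∧ bHi c = bHi b + t ∧ heightB c = heightB b := by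
  have ha := atCnt_eq_of_geCnt h
  obtain ⟨h1, h2⟩ : bLo c = bLo b + t ∧ bHi c = bHi b + t := by
    refine range_eq_of_atCnt hN ?_ ?_ fun l hl => ?_
    · rw [ha]; exact atCnt_pos_iff.mpr (exists_bLo hN b)
    · rw [ha]; exact atCnt_pos_iff.mpr (exists_bHi hN b)
    · rw [show l = (l - t) + t by ring, ha]
      exact atCnt_eq_zero_of_out (by omega)
  refine ⟨h1, h2, ?_⟩
  unfold heightB
  rw [h1, h2, show bHi b + t - (bLo b + t) = bHi b - bLo b by ring]
  congr 1
  funext l
  rw [show bLo b + t + (l : ℤ) = bLo b + (l : ℤ) + t by ring, ha]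

lemma geCnt_shift (b : Fin N → ℤ) (t l : ℤ) : geCnt (fun i => b i + t) (l + t) = geCnt b l := by
  simp [geCnt]

variable [Fact p.Prime]

/-- Level sizes of a subspace with respect to the flag. -/
noncomputable def wCnt (b : Fin N → ℤ) (W : Sub p N) (l : ℤ) : ℕ :=
  Module.finrank (ZMod p) (W ⊓ flag b l : Sub p N) -
    Module.finrank (ZMod p) (W ⊓ flag b (l + 1) : Sub p N)

/-- Dimension of the part of `W` in the flag. -/
noncomputable def wDim (b : Fin N → ℤ) (W : Sub p N) (l : ℤ) : ℕ :=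
  Module.finrank (ZMod p) (W ⊓ flag b l : Sub p N)

lemma wDim_succ (b : Fin N → ℤ) (W : Sub p N) (l : ℤ) :
    wDim b W l = wCnt b W l + wDim b W (l + 1) ∧ wCnt b W l ≤ atCnt b l := by
  have hle : flag (p := p) b (l + 1) ≤ flag b l := flag_anti b (by omega)
  have h0 : Module.finrank (ZMod p) (W ⊓ flag b (l + 1) : Sub p N) ≤
      Module.finrank (ZMod p) (W ⊓ flag b l : Sub p N) :=
    Submodule.finrank_mono (inf_le_inf_left W hle)
  refine ⟨by unfold wDim wCnt; omega, ?_⟩
  have h1 := Submodule.finrank_sup_add_finrank_inf_eq (W ⊓ flag b l) (flag (p := p) b (l + 1))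
  have h2 : W ⊓ flag b l ⊓ flag b (l + 1) = W ⊓ flag (p := p) b (l + 1) := by
    rw [inf_assoc, inf_eq_right.mpr hle]
  have h3 : Module.finrank (ZMod p) (W ⊓ flag b l ⊔ flag b (l + 1) : Sub p N) ≤
      Module.finrank (ZMod p) (flag (p := p) b l) :=
    Submodule.finrank_mono (sup_le inf_le_right hle)
  rw [h2, finrank_flag] at h1
  rw [finrank_flag] at h3
  have := geCnt_succ b l
  unfold wCnt
  omega

section Nbr

variable {f : Module.Basis (Fin N) (PR p) (PV p N)} {b : Fin N → ℤ}
variable {δ : PV p N → WithBot ℤ} (hδ : IsPre δ) (hT : HasType δ f b)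
variable {f' : Module.Basis (Fin N) (PR p) (PV p N)} {b' : Fin N → ℤ} (W : Sub p N)
variable (hT' : HasType (nbr f b δ W) f' b')

include hδ hT hT'

lemma atCnt_nbr (l : ℤ) :
    (atCnt b' l : ℤ) = atCnt b l + wCnt b W (l - 1) - wCnt b W l := by
  have h1 := geCnt_nbr hδ hT W hT' l
  have h2 := geCnt_nbr hδ hT W hT' (l + 1)
  have h3 := geCnt_succ b' l
  have h4 := geCnt_succ b l
  have h5 := (wDim_succ b W l).1
  have h6 := (wDim_succ b W (l - 1)).1
  simp only [wDim] at h5 h6
  rw [sub_add_cancel] at h6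
  rw [add_sub_cancel_right] at h2
  omega

lemma sum_nbr : ∑ i, b' i = (∑ i, b i) + Module.finrank (ZMod p) W := by
  set L := min (bLo b') (bLo b) - 1
  set M := max (bHi b') (bHi b) + 2
  have h1 := sum_eq_of_geCnt (b := b') (L := L) (M := M)
    (fun i => by have := bLo_le b' i; omega) (fun i => by have := le_bHi b' i; omega)
  have h2 := sum_eq_of_geCnt (b := b) (L := L) (M := M)
    (fun i => by have := bLo_le b i; omega) (fun i => by have := le_bHi b i; omega)
  have h3 : ∀ k : ℕ, (∑ l ∈ Finset.Ioc L (L + k), (geCnt b' l : ℤ)) =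
      (∑ l ∈ Finset.Ioc L (L + k), (geCnt b l : ℤ)) + wDim b W L - wDim b W (L + k) := by
    intro k
    induction k with
    | zero => simp
    | succ k ih =>
      have hins : Finset.Ioc L (L + (k + 1 : ℕ)) = insert (L + k + 1) (Finset.Ioc L (L + k)) := by
        ext l
        simp only [Finset.mem_Ioc, Finset.mem_insert]
        push_cast
        omega
      rw [hins, Finset.sum_insert (by simp), Finset.sum_insert (by simp), ih]
      have h4 := geCnt_nbr hδ hT W hT' (L + k + 1)
      rw [add_sub_cancel_right] at h4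
      rw [show L + ((k + 1 : ℕ) : ℤ) = L + k + 1 by push_cast; ring]
      simp only [wDim]
      omega
  obtain ⟨k, hk⟩ : ∃ k : ℕ, M = L + k := by
    refine ⟨(M - L).toNat, ?_⟩
    rcases Nat.eq_zero_or_pos N with hN | hN
    · subst hN
      simp [M, L, bLo, bHi]
    · obtain ⟨i, -⟩ := exists_bLo hN b
      have := bLo_le b i
      have := le_bHi b i
      omega
  have hL : wDim b W L = Module.finrank (ZMod p) W := by
    have : flag (p := p) b L = ⊤ := flag_eq_top fun i => by have := bLo_le b i; omega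
    unfold wDim
    rw [this, inf_top_eq]
  have hM : wDim b W M = 0 := by
    have : flag (p := p) b M = ⊥ := flag_eq_bot fun i => by have := le_bHi b i; omega
    unfold wDim
    rw [this, inf_bot_eq, finrank_bot]
  rw [h1, h2, hk, h3 k, hL, ← hk, hM]
  push_cast
  ring

end Nbr

lemma wCnt_eq_zero_of_out {b : Fin N → ℤ} {W : Sub p N} {l : ℤ} (h : l < bLo b ∨ bHi b < l) :
    wCnt b W l = 0 := by
  have := (wDim_succ b W l).2
  have := atCnt_eq_zero_of_out h
  omega

lemma finrank_sup_flag (b : Fin N → ℤ) (W : Sub p N) (l : ℤ) :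
    Module.finrank (ZMod p) (W ⊔ flag b l : Sub p N) + wDim b W l =
      Module.finrank (ZMod p) W + geCnt b l := by
  have h := Submodule.finrank_sup_add_finrank_inf_eq W (flag (p := p) b l)
  rwa [finrank_flag] at h

lemma sup_flag_eq_top_iff (b : Fin N → ℤ) (W : Sub p N) (l : ℤ) :
    W ⊔ flag b l = ⊤ ↔ Module.finrank (ZMod p) W + geCnt b l = N + wDim b W l := by
  rw [← finrank_sup_flag]
  constructor
  · intro h
    rw [h, finrank_top, Module.finrank_fin_fun]
  · intro h
    refine Submodule.eq_top_of_finrank_eq ?_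
    rw [Module.finrank_fin_fun]
    omega

lemma le_flag_iff (b : Fin N → ℤ) (W : Sub p N) (l : ℤ) :
    W ≤ flag b l ↔ wDim b W l = Module.finrank (ZMod p) W := by
  constructor
  · intro h
    unfold wDim
    rw [inf_eq_left.mpr h]
  · intro h
    exact inf_eq_left.mp (Submodule.eq_of_le_of_finrank_eq inf_le_left h)

lemma flag_le_iff (b : Fin N → ℤ) (W : Sub p N) (l : ℤ) :
    flag b l ≤ W ↔ wDim b W l = geCnt b l := by
  rw [← finrank_flag (p := p)]
  constructor
  · intro h
    unfold wDim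
    rw [inf_eq_right.mpr h]
  · intro h
    exact inf_eq_right.mp (Submodule.eq_of_le_of_finrank_eq inf_le_right h)

lemma inf_flag_eq_bot_iff (b : Fin N → ℤ) (W : Sub p N) (l : ℤ) :
    W ⊓ flag b l = ⊥ ↔ wDim b W l = 0 := Submodule.finrank_eq_zero.symm

lemma flag_bLo (b : Fin N → ℤ) : flag (p := p) b (bLo b) = ⊤ := flag_eq_top (bLo_le b)

lemma wDim_bLo (b : Fin N → ℤ) (W : Sub p N) :
    wDim b W (bLo b) = Module.finrank (ZMod p) W := by
  unfold wDim
  rw [flag_bLo, inf_top_eq]

lemma wDim_above {b : Fin N → ℤ} {W : Sub p N} {l : ℤ} (h : bHi b < l) : wDim b W l = 0 := by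
  have : flag (p := p) b l = ⊥ := flag_eq_bot fun i => by have := le_bHi b i; omega
  unfold wDim
  rw [this, inf_bot_eq, finrank_bot]

lemma geCnt_bLo (b : Fin N → ℤ) : geCnt b (bLo b) = N := geCnt_eq_card (bLo_le b)

lemma geCnt_above {b : Fin N → ℤ} {l : ℤ} (h : bHi b < l) : geCnt b l = 0 :=
  geCnt_eq_zero fun i => by have := le_bHi b i; omega

end Vale.Agent.P067
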