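import Vale.Agent.P067.BldMorse

/-!
M3, part 7: colours and links of thin vertices.
-/

set_option linter.unusedSectionVars false

namespace Vale.Agent.P067

open Classical

variable {p N : ℕ} [Fact p.Prime]

/-- The colour of a vertex. -/
noncomputable def nrmCol (hN : 0 < N) (u : Nrm p N) : Fin N :=
  ⟨((∑ i, vExp u i) % (N : ℤ)).toNat, by
    have h1 := Int.emod_lt_of_pos (∑ i, vExp u i) (show (0 : ℤ) < N by exact_mod_cast hN)
    have h2 := Int.emod_nonneg (∑ i, vExp u i) (show (N : ℤ) ≠ 0 by omega)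
    omega⟩

lemma nrmCol_val (hN : 0 < N) (u : Nrm p N) :
    ((nrmCol hN u : ℕ) : ℤ) = (∑ i, vExp u i) % (N : ℤ) :=
  Int.toNat_of_nonneg (Int.emod_nonneg _ (by omega))

lemma nrmCol_eq (hN : 0 < N) {u : Nrm p N} {f : Module.Basis (Fin N) (PR p) (PV p N)}
    {b : Fin N → ℤ} (hT : HasType u.1 f b) :
    ((nrmCol hN u : ℕ) : ℤ) = (∑ i, b i) % (N : ℤ) := by
  obtain ⟨-, -, -, e⟩ := vExp_congr hN (sh_zero u.1).symm (Nrm.pre u) hT
  rw [nrmCol_val, e, mul_zero, sub_zero]

lemma nrmCol_nbrV (hN : 0 < N) (u : Nrm p N) (W : Sub p N) :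
    (nrmCol hN (nbrV hN u W) : ℕ) =
      ((nrmCol hN u : ℕ) + Module.finrank (ZMod p) W) % N := by
  obtain ⟨f', b', c, hT', -, -, -, e⟩ := nbrV_exp hN u W
  have h := sum_nbr (Nrm.pre u) (vType u) W hT'
  rw [← Nat.cast_inj (R := ℤ), Int.natCast_emod, Nat.cast_add, nrmCol_val, nrmCol_val, e, h]
  rw [Int.emod_add_emod, sub_eq_add_neg, ← mul_neg, Int.add_mul_emod_self_left]

/-- The thin neighbours of a thin vertex are those in general position with its flag. -/
lemma thin_nbrV_iff (hN : 0 < N) {u : Nrm p N} (hu : Thin u) (W : Sub p N) :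
    Thin (nbrV hN u W) ↔
      W ⊓ flag (vExp u) (bLo (vExp u) + 1) = ⊥ ∨ W ⊔ flag (vExp u) (bLo (vExp u) + 1) = ⊤ := by
  rw [thin_iff hN] at hu ⊢
  obtain ⟨f', b', c, hT', e1, e2, -, -⟩ := nbrV_exp hN u W
  rw [e1, e2, inf_flag_eq_bot_iff, sup_flag_eq_top_iff]
  set b := vExp u with hb
  set L := bLo b with hL
  have hat : ∀ l, (atCnt b' l : ℤ) = atCnt b l + wCnt b W (l - 1) - wCnt b W l :=
    atCnt_nbr (Nrm.pre u) (vType u) W hT'
  have hout : ∀ l, l < L ∨ L + 1 < l → atCnt b l = 0 ∧ wCnt b W l = 0 := fun l hl =>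
    ⟨atCnt_eq_zero_of_out (by omega), wCnt_eq_zero_of_out (by omega)⟩
  have hm := geCnt_succ b L
  rw [geCnt_bLo] at hm
  have hw0 := (wDim_succ b W L).1
  rw [wDim_bLo] at hw0
  have hw1 := (wDim_succ b W (L + 1)).1
  rw [wDim_above (l := L + 1 + 1) (by omega)] at hw1
  have hle := (wDim_succ b W L).2
  -- the three possible levels
  have hA : (atCnt b' L : ℤ) = atCnt b L - wCnt b W L := by
    have h1 := hat L
    have h2 := (hout (L - 1) (by omega)).2
    omega
  have hC : atCnt b' (L + 2) = wCnt b W (L + 1) := by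
    have h1 := hat (L + 2)
    obtain ⟨h2, h3⟩ := hout (L + 2) (by omega)
    rw [show L + 2 - 1 = L + 1 by ring] at h1
    omega
  have hrange : ∀ i, L ≤ b' i ∧ b' i ≤ L + 2 := by
    intro i
    have hpos : 0 < atCnt b' (b' i) := atCnt_pos_iff.mpr ⟨i, rfl⟩
    by_contra hn
    have h1 := hat (b' i)
    obtain ⟨h2, h3⟩ := hout (b' i) (by omega)
    have h4 : wCnt b W (b' i - 1) = 0 := (hout _ (by omega)).2
    omega
  obtain ⟨i, hi⟩ := exists_bLo hN b'
  obtain ⟨j, hj⟩ := exists_bHi hN b'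
  constructor
  · intro hsp
    by_contra hn
    obtain ⟨h1, h2⟩ := not_or.mp hn
    obtain ⟨i', hi'⟩ := atCnt_pos_iff.mp (show 0 < atCnt b' L by omega)
    obtain ⟨j', hj'⟩ := atCnt_pos_iff.mp (show 0 < atCnt b' (L + 2) by omega)
    have := bLo_le b' i'
    have := le_bHi b' j'
    omega
  · intro h
    have hi1 := hrange i
    have hj1 := hrange j
    rcases h with h | h
    · have hne : b' j ≠ L + 2 := fun he => by
        have := atCnt_pos_iff.mpr ⟨j, he⟩
        omega
      omega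
    · have hne : b' i ≠ L := fun he => by
        have := atCnt_pos_iff.mpr ⟨i, he⟩
        omega
      omega

/-- Colours and links of thin vertices. -/
theorem thinLink : ThinLink := by
  intro p N hp hN2
  have := Fact.mk hp
  have hN : 0 < N := by omega
  refine ⟨nrmCol hN, fun u f b hT => nrmCol_eq hN hT, fun u hu => ?_⟩
  refine ⟨flag (vExp u) (bLo (vExp u) + 1), nbrV hN u, ?_, fun W hW => ?_, fun s hs => ?_,
    fun v hv hvu => ?_⟩
  · intro W hW W' hW' h
    exact nbrV_inj hN hW'.1 hW'.2.1 h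
  · exact ⟨nbrV_ne hN hW.1 hW.2.1, nrmCol_nbrV hN u W⟩
  · constructor
    · intro hc
      refine ⟨mem_bld_iff.mpr fun a ha c hc' => ?_, fun a ha => ?_⟩
      · simp only [Finset.mem_insert, Finset.mem_image] at ha hc'
        rcases ha with rfl | ⟨W, hW, rfl⟩ <;> rcases hc' with rfl | ⟨W', hW', rfl⟩
        · exact adjP_refl _
        · exact adjP_nbrV hN _ _
        · exact (adjP_nbrV hN _ _).symm
        · refine (nbrV_adj_iff hN).mpr ?_
          rcases eq_or_ne W W' with rfl | hne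
          · exact Or.inl le_rfl
          · exact hc (by simpa using hW) (by simpa using hW') hne
      · simp only [Finset.mem_insert, Finset.mem_image] at ha
        rcases ha with rfl | ⟨W, hW, rfl⟩
        · exact hu
        · exact (thin_nbrV_iff hN hu W).mpr (hs W hW).2.2
    · intro hX W hW W' hW' _
      refine (nbrV_adj_iff hN (u := u)).mp (mem_bld_iff.mp hX.1 _ ?_ _ ?_)
      · exact Finset.mem_insert_of_mem (Finset.mem_image_of_mem _ hW)
      · exact Finset.mem_insert_of_mem (Finset.mem_image_of_mem _ hW')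
  · have hadj : AdjP u.1 v.1 := mem_bld_iff.mp hvu.1 u (by simp) v (by simp)
    obtain ⟨W, h0, h1, rfl⟩ := eq_nbrV_of_adjP hN hadj hv
    exact ⟨W, ⟨h0, h1, (thin_nbrV_iff hN hu W).mp (hvu.2 _ (by simp))⟩, rfl⟩

end Vale.Agent.P067
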