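import Vale.Agent.P067.BldNorm
import Vale.Agent.P067.SubspaceDefs

/-!
M3, part 2: neighbours of a vertex correspond to subspaces of `(ZMod p)^N`.
-/

set_option linter.unusedSectionVars false

namespace Vale.Agent.P067

open Classical Polynomial

variable {p N : ℕ}

/-- The two norms are adjacent up to shift. -/
def AdjP (a c : PV p N → WithBot ℤ) : Prop :=
  ∃ t : ℤ, (∀ x, sh t c x ≤ a x) ∧ ∀ x, a x ≤ sh (t + 1) c x

lemma sh_le_sh {a c : PV p N → WithBot ℤ} (t : ℤ) (h : ∀ x, a x ≤ c x) (x : PV p N) :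
    sh t a x ≤ sh t c x := add_le_add_left (h x) _

lemma AdjP.symm {a c : PV p N → WithBot ℤ} (h : AdjP a c) : AdjP c a := by
  obtain ⟨t, h1, h2⟩ := h
  refine ⟨-t - 1, fun x => ?_, fun x => ?_⟩
  · have := sh_le_sh (-t - 1) h2 x
    simp only [sh_sh, show t + 1 + (-t - 1) = 0 by ring, sh_zero] at this
    exact this
  · have := sh_le_sh (-t - 1 + 1) h1 x
    simp only [sh_sh, show t + (-t - 1 + 1) = 0 by ring, sh_zero] at this
    exact this

lemma AdjP.shift_left {a c : PV p N → WithBot ℤ} (h : AdjP a c) (m : ℤ) : AdjP (sh m a) c := by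
  obtain ⟨t, h1, h2⟩ := h
  refine ⟨t + m, fun x => ?_, fun x => ?_⟩
  · have := sh_le_sh m h1 x
    simpa only [sh_sh] using this
  · have := sh_le_sh m h2 x
    simpa only [sh_sh, show t + 1 + m = t + m + 1 by ring] using this

lemma adjP_shift_left_iff {a c : PV p N → WithBot ℤ} (m : ℤ) : AdjP (sh m a) c ↔ AdjP a c :=
  ⟨fun h => by simpa only [sh_sh, add_neg_cancel, sh_zero] using h.shift_left (-m),
    fun h => h.shift_left m⟩

lemma adjP_shift_right_iff {a c : PV p N → WithBot ℤ} (m : ℤ) : AdjP a (sh m c) ↔ AdjP a c :=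
  ⟨fun h => ((adjP_shift_left_iff m).mp h.symm).symm,
    fun h => (h.symm.shift_left m).symm⟩

/-- For normalised norms adjacency up to shift is adjacency in the building. -/
lemma near_or_iff_adjP {u v : Nrm p N} : (Near u v ∨ Near v u) ↔ AdjP u.1 v.1 := by
  have base : ∀ u v : Nrm p N, Near v u → AdjP u.1 v.1 := fun u v h =>
    ⟨0, fun x => by rw [sh_zero]; exact h.1 x, fun x => h.2 x⟩
  constructor
  · rintro (h | h)
    · exact (base v u h).symm
    · exact base u v h
  · rintro ⟨t, h1, h2⟩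
    obtain ⟨x, hx, ex⟩ := u.2.touch
    obtain ⟨y, hy, ey⟩ := v.2.touch
    have a1 := h2 x
    have a2 := h1 y
    simp only [sh] at a1 a2
    rw [ex] at a1
    rw [ey] at a2
    have b1 := a1.trans (add_le_add_left (v.2.le_std x) _)
    have b2 := a2.trans (u.2.le_std y)
    obtain ⟨sx, hsx⟩ := WithBot.ne_bot_iff_exists.mp
      (ne_of_gt (lt_of_lt_of_le (WithBot.bot_lt_coe (0 : ℤ)) (std_nonneg hx)))
    obtain ⟨sy, hsy⟩ := WithBot.ne_bot_iff_exists.mp
      (ne_of_gt (lt_of_lt_of_le (WithBot.bot_lt_coe (0 : ℤ)) (std_nonneg hy)))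
    rw [← hsx, ← WithBot.coe_add, WithBot.coe_le_coe] at b1
    rw [← hsy, ← WithBot.coe_add, WithBot.coe_le_coe] at b2
    rcases (show t = 0 ∨ t = -1 by omega) with rfl | rfl
    · refine Or.inr ⟨fun z => by simpa [sh_zero] using h1 z, fun z => ?_⟩
      simpa [sh] using h2 z
    · refine Or.inl ⟨fun z => by simpa [sh_zero] using h2 z, fun z => ?_⟩
      have := add_le_add_left (h1 z) ((1 : ℤ) : WithBot ℤ)
      simp only [sh, add_assoc, ← WithBot.coe_add, neg_add_cancel, WithBot.coe_zero, add_zero]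
        at this
      exact this

section Frame

variable [Fact p.Prime]
variable (f : Module.Basis (Fin N) (PR p) (PV p N)) (b : Fin N → ℤ)

/-- Leading coefficients at level `s`. -/
noncomputable def leadF (s : ℤ) (x : PV p N) : Fin N → ZMod p :=
  fun i => if 0 ≤ s + b i then (f.repr x i).coeff (s + b i).toNat else 0

lemma leadF_add (s : ℤ) (x y : PV p N) : leadF f b s (x + y) = leadF f b s x + leadF f b s y := by
  funext i
  simp only [leadF, map_add, Finsupp.add_apply, Pi.add_apply, coeff_add]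
  split <;> simp

lemma leadF_C_smul (s : ℤ) (a : ZMod p) (x : PV p N) :
    leadF f b s ((C a : PR p) • x) = a • leadF f b s x := by
  funext i
  simp [leadF, coeff_C_mul]

lemma leadF_zero (s : ℤ) : leadF f b s 0 = 0 := by
  funext i; simp [leadF]

lemma leadF_sub (s : ℤ) (x y : PV p N) : leadF f b s (x - y) = leadF f b s x - leadF f b s y := by
  rw [eq_sub_iff_add_eq, ← leadF_add, sub_add_cancel]

lemma box_mono {s t : ℤ} (h : s ≤ t) {x : PV p N} (hx : Box f b s x) : Box f b t x :=
  fun i n hn => hx i n (by omega)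

lemma box_pred_iff {s : ℤ} {x : PV p N} :
    Box f b (s - 1) x ↔ Box f b s x ∧ leadF f b s x = 0 := by
  constructor
  · intro h
    refine ⟨box_mono f b (by omega) h, funext fun i => ?_⟩
    simp only [leadF, Pi.zero_apply]
    split
    · exact h i _ (by omega)
    · rfl
  · rintro ⟨h, h0⟩ i n hn
    rcases (show s + b i < n ∨ s + b i = n by omega) with h' | h'
    · exact h i n h'
    · have := congrFun h0 i
      simp only [leadF, h', Int.toNat_natCast, Pi.zero_apply] at this
      rwa [if_pos (by omega)] at this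

lemma leadF_eq_zero_of_lt {s t : ℤ} (h : s < t) {x : PV p N} (hx : Box f b s x) :
    leadF f b t x = 0 :=
  ((box_pred_iff f b).mp (box_mono f b (show s ≤ t - 1 by omega) hx)).2

lemma repr_eq_zero_of_box {s : ℤ} {x : PV p N} (hx : Box f b s x) {i : Fin N}
    (hi : s + b i < 0) : f.repr x i = 0 :=
  Polynomial.ext fun n => by rw [coeff_zero]; exact hx i n (by omega)

lemma leadF_smul {s : ℤ} {x : PV p N} (hx : Box f b s x) (c : PR p) :
    leadF f b (s + c.natDegree) (c • x) = c.leadingCoeff • leadF f b s x := by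
  funext i
  simp only [leadF, map_smul, Finsupp.smul_apply, Pi.smul_apply, smul_eq_mul]
  by_cases hi : 0 ≤ s + b i
  · rw [if_pos hi, if_pos (by omega),
      show (s + c.natDegree + b i).toNat = c.natDegree + (s + b i).toNat by omega]
    exact coeff_mul_add_eq_of_natDegree_le le_rfl
      (natDegree_le_iff_coeff_eq_zero.mpr fun n hn => hx i n (by omega))
  · rw [if_neg hi, repr_eq_zero_of_box f b hx (by omega)]
    simp

/-- A level at which every vector of leading coefficients lifts. -/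
noncomputable def topLevel : ℤ := ∑ i, |b i|

lemma topLevel_add_nonneg (i : Fin N) : 0 ≤ topLevel b + b i := by
  have := Finset.single_le_sum (f := fun j => |b j|) (fun j _ => abs_nonneg _) (Finset.mem_univ i)
  have := neg_abs_le (b i)
  unfold topLevel
  linarith

/-- A vector at level `S` with prescribed leading coefficients on the available coordinates. -/
noncomputable def liftF (S : ℤ) (a : Fin N → ZMod p) : PV p N :=
  ∑ i, (if 0 ≤ S + b i then C (a i) * X ^ (S + b i).toNat else 0 : PR p) • f i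

lemma repr_liftF (S : ℤ) (a : Fin N → ZMod p) (i : Fin N) :
    f.repr (liftF f b S a) i = if 0 ≤ S + b i then C (a i) * X ^ (S + b i).toNat else 0 := by
  rw [liftF, f.repr_sum_self]

lemma box_liftF (S : ℤ) (a : Fin N → ZMod p) : Box f b S (liftF f b S a) := by
  intro i n hn
  rw [repr_liftF]
  split
  · rw [coeff_C_mul_X_pow, if_neg (by omega)]
  · simp

lemma leadF_liftF {S : ℤ} {a : Fin N → ZMod p} (ha : ∀ i, S + b i < 0 → a i = 0) :
    leadF f b S (liftF f b S a) = a := by
  funext i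
  simp only [leadF]
  split
  · next h => rw [repr_liftF, if_pos h, coeff_C_mul_X_pow, if_pos rfl]
  · next h => exact (ha i (by omega)).symm

lemma leadF_liftF_top (a : Fin N → ZMod p) :
    leadF f b (topLevel b) (liftF f b (topLevel b) a) = a :=
  leadF_liftF f b fun i h => absurd (topLevel_add_nonneg b i) (by omega)

/-- The neighbour attached to a subspace. -/
noncomputable def nbr (δ : PV p N → WithBot ℤ) (W : Sub p N) : PV p N → WithBot ℤ := fun x =>
  if x = 0 then ⊥ else
    if leadF f b (vl δ x) x ∈ W then ((vl δ x - 1 : ℤ) : WithBot ℤ) else (vl δ x : WithBot ℤ)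

variable {f b}
variable {δ : PV p N → WithBot ℤ} (hδ : IsPre δ) (hT : HasType δ f b)

include hδ hT

lemma nbr_le_iff (W : Sub p N) {x : PV p N} {s : ℤ} :
    nbr f b δ W x ≤ s ↔ δ x ≤ ((s + 1 : ℤ) : WithBot ℤ) ∧ leadF f b (s + 1) x ∈ W := by
  by_cases hx : x = 0
  · simp [nbr, hx, hδ.zero, leadF_zero]
  have hbox : Box f b (vl δ x) x := hT.le_iff.mp (hδ.eq_vl hx).le
  rw [hδ.le_iff hx]
  rcases lt_trichotomy (s + 1) (vl δ x) with h | h | h
  · have : ¬ nbr f b δ W x ≤ s := by
      simp only [nbr, if_neg hx]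
      split <;> rw [WithBot.coe_le_coe] <;> omega
    simp [this, not_le.mpr h]
  · rw [h]
    simp only [nbr, if_neg hx]
    constructor
    · intro h'
      refine ⟨le_rfl, ?_⟩
      by_contra hW
      rw [if_neg hW, WithBot.coe_le_coe] at h'
      omega
    · rintro ⟨-, hW⟩
      rw [if_pos hW, WithBot.coe_le_coe]
      omega
  · rw [leadF_eq_zero_of_lt f b h hbox]
    have : nbr f b δ W x ≤ s := by
      simp only [nbr, if_neg hx]
      split <;> rw [WithBot.coe_le_coe] <;> omega
    simp [this, h.le]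

lemma nbr_le (W : Sub p N) (x : PV p N) : nbr f b δ W x ≤ δ x := by
  refine wb_le_of_forall fun s hs => (nbr_le_iff hδ hT W).mpr ?_
  have hb := hT.le_iff.mp hs
  rw [leadF_eq_zero_of_lt f b (by omega) hb]
  exact ⟨hs.trans (WithBot.coe_le_coe.mpr (by omega)), W.zero_mem⟩

lemma le_nbr_add_one (W : Sub p N) (x : PV p N) : δ x ≤ sh 1 (nbr f b δ W) x := by
  refine wb_le_of_forall fun s hs => ?_
  rw [sh_le_iff] at hs
  simpa using ((nbr_le_iff hδ hT W).mp hs).1

lemma nbr_pre (W : Sub p N) : IsPre (nbr f b δ W) where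
  add_le x y := by
    refine wb_le_of_forall fun s hs => ?_
    obtain ⟨hx, hy⟩ := max_le_iff.mp hs
    rw [nbr_le_iff hδ hT] at hx hy ⊢
    exact ⟨hδ.add_le_of hx.1 hy.1, by rw [leadF_add]; exact W.add_mem hx.2 hy.2⟩
  smul_eq c x := by
    by_cases hx : x = 0
    · simp [nbr, hx]
    by_cases hc : c = 0
    · simp [nbr, hc]
    have hbox : Box f b (vl δ x) x := hT.le_iff.mp (hδ.eq_vl hx).le
    have h1 := leadF_smul f b hbox c
    have hmem : c.leadingCoeff • leadF f b (vl δ x) x ∈ W ↔ leadF f b (vl δ x) x ∈ W :=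
      W.smul_mem_iff (leadingCoeff_ne_zero.mpr hc)
    simp only [nbr, if_neg hx, if_neg (smul_ne_zero hc hx), hδ.smul_vl hx hc,
      add_comm (c.natDegree : ℤ) (vl δ x), h1, hmem, degZ_of_ne hc]
    split <;> rw [← WithBot.coe_add] <;> congr 1 <;> ring
  below := by
    obtain ⟨K, hK⟩ := hδ.below
    exact ⟨K, fun x => (nbr_le hδ hT W x).trans (hK x)⟩
  above := by
    obtain ⟨K, hK⟩ := hδ.above
    refine ⟨1 + K, fun x => (hK x).trans ?_⟩
    rw [WithBot.coe_add, ← add_assoc]
    exact add_le_add_left (le_nbr_add_one hδ hT W x) _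

lemma adjP_nbr (W : Sub p N) : AdjP δ (nbr f b δ W) :=
  ⟨0, fun x => by rw [sh_zero]; exact nbr_le hδ hT W x, le_nbr_add_one hδ hT W⟩

lemma vl_liftF_top {a : Fin N → ZMod p} :
    δ (liftF f b (topLevel b) a) ≤ topLevel b ∧
      (δ (liftF f b (topLevel b) a) ≤ ((topLevel b - 1 : ℤ) : WithBot ℤ) → a = 0) :=
  ⟨hT.le_iff.mpr (box_liftF f b _ a), fun h => by
    rw [← leadF_liftF_top f b a]
    exact ((box_pred_iff f b).mp (hT.le_iff.mp h)).2⟩

lemma nbr_lift_le_iff (W : Sub p N) (a : Fin N → ZMod p) :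
    nbr f b δ W (liftF f b (topLevel b) a) ≤ ((topLevel b - 1 : ℤ) : WithBot ℤ) ↔ a ∈ W := by
  rw [nbr_le_iff hδ hT, sub_add_cancel, leadF_liftF_top]
  exact and_iff_right (vl_liftF_top hδ hT).1

lemma nbr_lift_eq {W : Sub p N} {a : Fin N → ZMod p} (ha : a ≠ 0) :
    nbr f b δ W (liftF f b (topLevel b) a) =
      if a ∈ W then ((topLevel b - 1 : ℤ) : WithBot ℤ) else (topLevel b : WithBot ℤ) := by
  set x := liftF f b (topLevel b) a with hxdef
  have h := vl_liftF_top hδ hT (a := a)
  have hx : x ≠ 0 := by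
    intro h0
    refine ha (h.2 ?_)
    rw [← hxdef, h0, hδ.zero]
    exact bot_le
  have hv : vl δ x = topLevel b := by
    refine le_antisymm ((hδ.le_iff hx).mp h.1) ?_
    by_contra hlt
    exact ha (h.2 ((hδ.le_iff hx).mpr (by omega)))
  simp only [nbr, if_neg hx, hv]
  rw [hxdef, leadF_liftF_top]

/-- Every norm between `δ - 1` and `δ` is a neighbour attached to a subspace. -/
lemma exists_nbr_eq {w : PV p N → WithBot ℤ} (hw : IsPre w) (h1 : ∀ x, w x ≤ δ x)
    (h2 : ∀ x, δ x ≤ sh 1 w x) : ∃ W : Sub p N, w = nbr f b δ W := by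
  set T := topLevel b with hTop
  let W : Sub p N :=
    { carrier := {a | w (liftF f b T a) ≤ ((T - 1 : ℤ) : WithBot ℤ)}
      zero_mem' := by
        have : liftF f b T (0 : Fin N → ZMod p) = 0 := by simp [liftF]
        simp [this, hw.zero]
      add_mem' := fun {a c} ha hc => by
        have : liftF f b T (a + c) = liftF f b T a + liftF f b T c := by
          simp only [liftF, ← Finset.sum_add_distrib, ← add_smul]
          refine Finset.sum_congr rfl fun i _ => ?_
          split <;> simp [add_mul]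
        simp only [Set.mem_ofPred_eq, this]
        exact hw.add_le_of ha hc
      smul_mem' := fun r a ha => by
        have : liftF f b T (r • a) = (C r : PR p) • liftF f b T a := by
          simp only [liftF, Finset.smul_sum, smul_smul]
          refine Finset.sum_congr rfl fun i _ => ?_
          split <;> simp [mul_assoc]
        simp only [Set.mem_ofPred_eq, this]
        by_cases hr : r = 0
        · simp [hr, hw.zero]
        · rw [hw.Cmul_eq hr]; exact ha }
  refine ⟨W, funext fun x => wb_ext fun s => ?_⟩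
  rw [nbr_le_iff hδ hT]
  have key : δ x ≤ ((s + 1 : ℤ) : WithBot ℤ) →
      (w x ≤ s ↔ leadF f b (s + 1) x ∈ W) := by
    intro hx
    set a := leadF f b (s + 1) x
    set n := (T - (s + 1)).toNat
    set m := (s + 1 - T).toNat
    have hnm : s + 1 + n = T + m := by omega
    set r := (X ^ n : PR p) • x - (X ^ m : PR p) • liftF f b T a
    have hr : w r ≤ ((s + n : ℤ) : WithBot ℤ) := by
      refine (h1 r).trans (hT.le_iff.mpr ?_)
      have hb1 : δ ((X ^ n : PR p) • x) ≤ ((s + 1 + n : ℤ) : WithBot ℤ) := (hδ.X_pow_le n).mpr hx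
      have hb2 : δ ((X ^ m : PR p) • liftF f b T a) ≤ ((s + 1 + n : ℤ) : WithBot ℤ) := by
        rw [hnm]
        exact (hδ.X_pow_le m).mpr (hT.le_iff.mpr (box_liftF f b _ a))
      have hs : s + n = s + 1 + n - 1 := by ring
      rw [hs, box_pred_iff]
      refine ⟨hT.le_iff.mp (hδ.sub_le_of hb1 hb2), ?_⟩
      have e1 := leadF_smul f b (hT.le_iff.mp hx) (X ^ n : PR p)
      have e2 := leadF_smul f b (box_liftF f b T a) (X ^ m : PR p)
      rw [natDegree_X_pow, leadingCoeff_X_pow, one_smul] at e1 e2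
      rw [leadF_sub, e1, hnm, e2, leadF_liftF_top, sub_self]
    have hmemW : a ∈ W ↔ w ((X ^ m : PR p) • liftF f b T a) ≤ ((s + n : ℤ) : WithBot ℤ) := by
      rw [show (s + n : ℤ) = T - 1 + m by omega, hw.X_pow_le]
      rfl
    rw [hmemW, ← hw.X_pow_le n]
    constructor
    · intro h
      have := hw.sub_le_of h hr
      simpa [r] using this
    · intro h
      have := hw.add_le_of hr h
      simpa [r] using this
  constructor
  · intro h
    have hx : δ x ≤ ((s + 1 : ℤ) : WithBot ℤ) := by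
      refine (h2 x).trans ?_
      rw [sh_le_iff, add_sub_cancel_right]
      exact h
    exact ⟨hx, (key hx).mp h⟩
  · rintro ⟨hx, ha⟩
    exact (key hx).mpr ha

lemma nbr_bot : nbr f b δ (⊥ : Sub p N) = δ := by
  funext x
  refine wb_ext fun s => ?_
  rw [nbr_le_iff hδ hT, Submodule.mem_bot, hT.le_iff, hT.le_iff,
    ← box_pred_iff f b (s := s + 1), add_sub_cancel_right]

lemma nbr_top : nbr f b δ (⊤ : Sub p N) = sh (-1) δ := by
  funext x
  refine wb_ext fun s => ?_
  rw [nbr_le_iff hδ hT, sh_le_iff]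
  simp [sub_neg_eq_add]

lemma nbr_shift_inj {W W' : Sub p N} (h0 : W ≠ ⊥) (h1 : W ≠ ⊤)
    {t : ℤ} (h : nbr f b δ W' = sh t (nbr f b δ W)) : W' = W ∧ t = 0 := by
  have hev : ∀ a : Fin N → ZMod p, a ≠ 0 →
      (if a ∈ W' then topLevel b - 1 else topLevel b) =
        (if a ∈ W then topLevel b - 1 else topLevel b) + t := fun a ha => by
    have := congrFun h (liftF f b (topLevel b) a)
    rw [nbr_lift_eq hδ hT ha, sh, nbr_lift_eq hδ hT ha] at this
    by_cases hA : a ∈ W' <;> by_cases hB : a ∈ W <;>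
      simp only [hA, hB, ↓reduceIte, ← WithBot.coe_add, WithBot.coe_inj] at this ⊢ <;> exact this
  have ht : t = 0 := by
    obtain ⟨a, haW, ha⟩ := (Submodule.ne_bot_iff W).mp h0
    obtain ⟨c, hcW, hc⟩ : ∃ c, c ∉ W ∧ c ≠ 0 := by
      obtain ⟨c, -, hcW⟩ := SetLike.exists_of_lt h1.lt_top
      exact ⟨c, hcW, fun h0 => hcW (h0 ▸ W.zero_mem)⟩
    have e1 := hev a ha
    have e2 := hev c hc
    rw [if_pos haW] at e1
    rw [if_neg hcW] at e2
    split at e1 <;> split at e2 <;> omega
  refine ⟨Submodule.ext fun a => ?_, ht⟩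
  by_cases ha : a = 0
  · simp [ha]
  · have e := hev a ha
    constructor <;> intro hm
    · by_contra hn
      rw [if_pos hm, if_neg hn] at e
      omega
    · by_contra hn
      rw [if_neg hn, if_pos hm] at e
      omega

lemma not_shift_nbr {W : Sub p N} (h0 : W ≠ ⊥) (h1 : W ≠ ⊤) (t : ℤ) :
    nbr f b δ W ≠ sh t δ := by
  intro h
  obtain ⟨a, haW, ha⟩ := (Submodule.ne_bot_iff W).mp h0
  obtain ⟨c, -, hcW⟩ := SetLike.exists_of_lt h1.lt_top
  have hc : c ≠ 0 := fun h0 => hcW (h0 ▸ W.zero_mem)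
  have hev : ∀ a : Fin N → ZMod p, a ≠ 0 →
      (if a ∈ W then topLevel b - 1 else topLevel b) = topLevel b + t := fun a ha => by
    have := congrFun h (liftF f b (topLevel b) a)
    rw [nbr_lift_eq hδ hT ha] at this
    have h2 : δ (liftF f b (topLevel b) a) = (topLevel b : WithBot ℤ) := by
      have := nbr_lift_eq hδ hT (W := (⊥ : Sub p N)) ha
      rw [nbr_bot hδ hT] at this
      simpa [ha] using this
    rw [sh, h2] at this
    by_cases hA : a ∈ W <;>
      simp only [hA, ↓reduceIte, ← WithBot.coe_add, WithBot.coe_inj] at this ⊢ <;> exact this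
  have e1 := hev a ha
  have e2 := hev c hc
  rw [if_pos haW] at e1
  rw [if_neg hcW] at e2
  omega

lemma adjP_nbr_nbr_iff {W W' : Sub p N} :
    AdjP (nbr f b δ W) (nbr f b δ W') ↔ W ≤ W' ∨ W' ≤ W := by
  have mono : ∀ W W' : Sub p N, W ≤ W' → AdjP (nbr f b δ W) (nbr f b δ W') := by
    intro W W' hle
    refine ⟨0, fun x => ?_, fun x => ?_⟩
    · rw [sh_zero]
      refine wb_le_of_forall fun s hs => ?_
      rw [nbr_le_iff hδ hT] at hs ⊢
      exact ⟨hs.1, hle hs.2⟩
    · exact (nbr_le hδ hT W x).trans (le_nbr_add_one hδ hT W' x)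
  constructor
  · intro h
    by_contra hn
    obtain ⟨ht1, ht2⟩ := not_or.mp hn
    obtain ⟨a, haW, haW'⟩ := SetLike.not_le_iff_exists.mp ht1
    obtain ⟨c, hcW', hcW⟩ := SetLike.not_le_iff_exists.mp ht2
    obtain ⟨t, h1, h2⟩ := h
    have ha : a ≠ 0 := fun h0 => haW' (h0 ▸ W'.zero_mem)
    have hc : c ≠ 0 := fun h0 => hcW (h0 ▸ W.zero_mem)
    have e1 := h1 (liftF f b (topLevel b) a)
    have e2 := h2 (liftF f b (topLevel b) c)
    rw [sh, nbr_lift_eq hδ hT ha, nbr_lift_eq hδ hT ha, if_pos haW, if_neg haW',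
      ← WithBot.coe_add, WithBot.coe_le_coe] at e1
    rw [sh, nbr_lift_eq hδ hT hc, nbr_lift_eq hδ hT hc, if_neg hcW, if_pos hcW',
      ← WithBot.coe_add, WithBot.coe_le_coe] at e2
    omega
  · rintro (h | h)
    · exact mono W W' h
    · exact (mono W' W h).symm

/-- Every neighbour up to shift is attached to a proper nonzero subspace. -/
lemma exists_nbr_of_adjP {v : PV p N → WithBot ℤ} (hv : IsPre v) (h : AdjP δ v)
    (hne : ∀ t, v ≠ sh t δ) :
    ∃ W : Sub p N, W ≠ ⊥ ∧ W ≠ ⊤ ∧ ∃ t, nbr f b δ W = sh t v := by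
  obtain ⟨t, h1, h2⟩ := h
  obtain ⟨W, hW⟩ := exists_nbr_eq hδ hT (hv.sh t) h1 (fun x => by
    rw [sh_sh]
    exact h2 x)
  refine ⟨W, ?_, ?_, t, hW.symm⟩
  · rintro rfl
    rw [nbr_bot hδ hT] at hW
    refine hne (-t) ?_
    rw [← hW, sh_sh, add_neg_cancel, sh_zero]
  · rintro rfl
    rw [nbr_top hδ hT] at hW
    refine hne (-1 - t) ?_
    have := congrArg (sh (-t)) hW
    rw [sh_sh, add_neg_cancel, sh_zero, sh_sh] at this
    exact this.trans (by rw [show -1 + -t = -1 - t by ring])

end Frame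

end Vale.Agent.P067
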