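import Vale.Agent.P067.Act

/-!
M3, part 1: norms on `(ZMod p)[t]^N` up to shift, and reduced bases.
-/

set_option linter.unusedSectionVars false

namespace Vale.Agent.P067

open Classical Polynomial

variable {p N : ℕ}

@[simp] lemma degZ_zero : degZ (0 : PR p) = ⊥ := by simp [degZ]

lemma degZ_of_ne {c : PR p} (hc : c ≠ 0) : degZ c = ((c.natDegree : ℤ) : WithBot ℤ) := by
  simp [degZ, degree_eq_natDegree hc]

lemma wb_ext {a b : WithBot ℤ} (h : ∀ s : ℤ, a ≤ s ↔ b ≤ s) : a = b := by
  induction a with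
  | bot =>
    induction b with
    | bot => rfl
    | coe b =>
      have := (h (b - 1)).mp bot_le
      rw [WithBot.coe_le_coe] at this
      omega
  | coe a =>
    induction b with
    | bot =>
      have := (h (a - 1)).mpr bot_le
      rw [WithBot.coe_le_coe] at this
      omega
    | coe b =>
      have h1 := (h a).mp le_rfl
      have h2 := (h b).mpr le_rfl
      rw [WithBot.coe_le_coe] at h1 h2
      exact congrArg _ (le_antisymm h2 h1)

lemma wb_shift_le_iff {a : WithBot ℤ} {c s : ℤ} : a + (c : WithBot ℤ) ≤ s ↔ a ≤ ((s - c : ℤ) : WithBot ℤ) := by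
  induction a with
  | bot => simp
  | coe a => rw [← WithBot.coe_add, WithBot.coe_le_coe, WithBot.coe_le_coe]; omega

lemma wb_le_of_forall {a b : WithBot ℤ} (h : ∀ s : ℤ, b ≤ s → a ≤ s) : a ≤ b := by
  induction b with
  | bot =>
    induction a with
    | bot => exact le_rfl
    | coe a =>
      have := h (a - 1) bot_le
      rw [WithBot.coe_le_coe] at this
      omega
  | coe b => exact h b le_rfl

lemma Nrm.pre (u : Nrm p N) : IsPre u.1 := by
  obtain ⟨K, hK⟩ := u.2.bounded
  exact ⟨u.2.add_le, u.2.smul_eq, ⟨0, fun x => by simpa using u.2.le_std x⟩, ⟨K, hK⟩⟩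

lemma std_eq_sup (x : PV p N) : std p N x = Finset.univ.sup fun i => degZ (x i) := rfl

lemma std_zero : std p N (0 : PV p N) = ⊥ := by simp [std_eq_sup]

lemma std_nonneg {x : PV p N} (hx : x ≠ 0) : ((0 : ℤ) : WithBot ℤ) ≤ std p N x := by
  obtain ⟨i, hi⟩ := Function.ne_iff.mp hx
  rw [std_eq_sup]
  refine le_trans ?_ (Finset.le_sup (Finset.mem_univ i))
  rw [degZ_of_ne hi, WithBot.coe_le_coe]
  omega

/-- The integer value of a norm at a nonzero vector. -/
noncomputable def vl (δ : PV p N → WithBot ℤ) (x : PV p N) : ℤ := (δ x).unbotD 0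

namespace IsPre

variable {δ : PV p N → WithBot ℤ} (h : IsPre δ)

include h

lemma zero : δ 0 = ⊥ := by
  have := h.smul_eq 0 0
  simpa using this

lemma ne_bot {x : PV p N} (hx : x ≠ 0) : δ x ≠ ⊥ := by
  obtain ⟨K, hK⟩ := h.above
  intro hb
  have := (std_nonneg hx).trans (hK x)
  rw [hb, WithBot.bot_add] at this
  exact absurd this (WithBot.bot_lt_coe _).not_ge

lemma eq_vl {x : PV p N} (hx : x ≠ 0) : δ x = (vl δ x : WithBot ℤ) := by
  obtain ⟨a, ha⟩ := WithBot.ne_bot_iff_exists.mp (h.ne_bot hx)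
  simp [vl, ← ha]

lemma le_iff {x : PV p N} (hx : x ≠ 0) {s : ℤ} : δ x ≤ s ↔ vl δ x ≤ s := by
  rw [h.eq_vl hx, WithBot.coe_le_coe]

lemma eq_zero_of_forall {x : PV p N} (hx : ∀ s : ℤ, δ x ≤ s) : x = 0 := by
  by_contra h0
  have := (h.le_iff h0).mp (hx (vl δ x - 1))
  omega

lemma add_le_of {x y : PV p N} {s : ℤ} (hx : δ x ≤ s) (hy : δ y ≤ s) : δ (x + y) ≤ s :=
  (h.add_le x y).trans (max_le hx hy)

lemma sum_le {ι : Type*} {S : Finset ι} {x : ι → PV p N} {s : ℤ} (hx : ∀ i ∈ S, δ (x i) ≤ s) :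
    δ (∑ i ∈ S, x i) ≤ s := by
  induction S using Finset.induction_on with
  | empty => simp [h.zero]
  | insert a S ha ih =>
    rw [Finset.sum_insert ha]
    exact h.add_le_of (hx a (Finset.mem_insert_self a S))
      (ih fun i hi => hx i (Finset.mem_insert_of_mem hi))

variable [Fact p.Prime]

lemma smul_vl {x : PV p N} (hx : x ≠ 0) {c : PR p} (hc : c ≠ 0) :
    vl δ (c • x) = c.natDegree + vl δ x := by
  have h1 := h.smul_eq c x
  rw [h.eq_vl hx, degZ_of_ne hc, ← WithBot.coe_add, h.eq_vl (smul_ne_zero hc hx)] at h1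
  exact WithBot.coe_injective h1

lemma Cmul_eq {a : ZMod p} (ha : a ≠ 0) (x : PV p N) : δ ((C a : PR p) • x) = δ x := by
  rw [h.smul_eq, degZ_of_ne (C_ne_zero.mpr ha), natDegree_C]
  simp

lemma neg_eq (x : PV p N) : δ (-x) = δ x := by
  have hx : -x = (C (-1 : ZMod p) : PR p) • x := by simp
  rw [hx, h.Cmul_eq (by simp)]

lemma sub_le_of {x y : PV p N} {s : ℤ} (hx : δ x ≤ s) (hy : δ y ≤ s) : δ (x - y) ≤ s := by
  rw [sub_eq_add_neg]
  exact h.add_le_of hx (by rwa [h.neg_eq])

lemma X_pow_le {x : PV p N} {s : ℤ} (n : ℕ) :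
    δ ((X ^ n : PR p) • x) ≤ ((s + n : ℤ) : WithBot ℤ) ↔ δ x ≤ s := by
  by_cases hx : x = 0
  · simp [hx, h.zero]
  · have hX : (X ^ n : PR p) ≠ 0 := pow_ne_zero _ X_ne_zero
    rw [h.le_iff (smul_ne_zero hX hx), h.le_iff hx, h.smul_vl hx hX, natDegree_X_pow]
    omega

end IsPre

/-- Coordinates all of whose degrees are bounded by `s + b`. -/
def Box (f : Module.Basis (Fin N) (PR p) (PV p N)) (b : Fin N → ℤ) (s : ℤ) (x : PV p N) : Prop :=
  ∀ (i : Fin N) (n : ℕ), s + b i < n → (f.repr x i).coeff n = 0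

lemma degZ_sub_le_iff {c : PR p} {b s : ℤ} :
    c.degree.map (fun n : ℕ => (n : ℤ) - b) ≤ (s : WithBot ℤ) ↔
      ∀ n : ℕ, s + b < n → c.coeff n = 0 := by
  by_cases hc : c = 0
  · simp [hc]
  · rw [degree_eq_natDegree hc]
    change (((c.natDegree : ℤ) - b : ℤ) : WithBot ℤ) ≤ _ ↔ _
    rw [WithBot.coe_le_coe]
    constructor
    · intro h n hn
      exact coeff_eq_zero_of_natDegree_lt (by omega)
    · intro h
      by_contra h1
      exact leadingCoeff_ne_zero.mpr hc (h c.natDegree (by omega))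

lemma HasType.le_iff {δ : PV p N → WithBot ℤ} {f : Module.Basis (Fin N) (PR p) (PV p N)}
    {b : Fin N → ℤ} (h : HasType δ f b) {x : PV p N} {s : ℤ} : δ x ≤ s ↔ Box f b s x := by
  rw [h x, Finset.sup_le_iff]
  exact ⟨fun h' i => degZ_sub_le_iff.mp (h' i (Finset.mem_univ i)),
    fun h' i _ => degZ_sub_le_iff.mpr (h' i)⟩

lemma hasType_of_le_iff {δ : PV p N → WithBot ℤ} {f : Module.Basis (Fin N) (PR p) (PV p N)}
    {b : Fin N → ℤ} (h : ∀ (x : PV p N) (s : ℤ), δ x ≤ s ↔ Box f b s x) : HasType δ f b := by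
  intro x
  refine wb_ext fun s => ?_
  rw [h x s, Finset.sup_le_iff]
  exact ⟨fun h' i _ => degZ_sub_le_iff.mpr (h' i),
    fun h' i => degZ_sub_le_iff.mp (h' i (Finset.mem_univ i))⟩

/-- Shift of a norm. -/
noncomputable def sh (c : ℤ) (δ : PV p N → WithBot ℤ) : PV p N → WithBot ℤ :=
  fun x => δ x + (c : WithBot ℤ)

lemma sh_le_iff {c : ℤ} {δ : PV p N → WithBot ℤ} {x : PV p N} {s : ℤ} :
    sh c δ x ≤ s ↔ δ x ≤ ((s - c : ℤ) : WithBot ℤ) := wb_shift_le_iff

lemma sh_zero (δ : PV p N → WithBot ℤ) : sh 0 δ = δ := by funext x; simp [sh]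

lemma sh_sh (a c : ℤ) (δ : PV p N → WithBot ℤ) : sh a (sh c δ) = sh (c + a) δ := by
  funext x; simp [sh, add_assoc]

lemma HasType.sh {δ : PV p N → WithBot ℤ} {f : Module.Basis (Fin N) (PR p) (PV p N)}
    {b : Fin N → ℤ} (h : HasType δ f b) (c : ℤ) :
    HasType (Vale.Agent.P067.sh c δ) f (fun i => b i - c) := by
  refine hasType_of_le_iff fun x s => ?_
  rw [sh_le_iff, h.le_iff]
  exact forall_congr' fun i => forall_congr' fun n =>
    ⟨fun h' hn => h' (by dsimp only at *; omega), fun h' hn => h' (by dsimp only at *; omega)⟩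

lemma IsPre.sh {δ : PV p N → WithBot ℤ} (h : IsPre δ) (c : ℤ) :
    IsPre (Vale.Agent.P067.sh c δ) where
  add_le x y := by
    simp only [Vale.Agent.P067.sh]
    rw [max_add_add_right]
    exact add_le_add_left (h.add_le x y) _
  smul_eq r x := by simp [Vale.Agent.P067.sh, h.smul_eq, add_assoc]
  below := by
    obtain ⟨K, hK⟩ := h.below
    refine ⟨K + c, fun x => ?_⟩
    simp only [Vale.Agent.P067.sh, WithBot.coe_add, ← add_assoc]
    exact add_le_add_left (hK x) _
  above := by
    obtain ⟨K, hK⟩ := h.above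
    refine ⟨K - c, fun x => ?_⟩
    simp only [Vale.Agent.P067.sh]
    rw [add_assoc, ← WithBot.coe_add, add_sub_cancel]
    exact hK x

lemma IsPre.exists_norm [Fact p.Prime] (hN : 0 < N) {δ : PV p N → WithBot ℤ} (h : IsPre δ) :
    ∃ c : ℤ, IsNrm p N (Vale.Agent.P067.sh c δ) := by
  obtain ⟨K, hK⟩ := h.below
  obtain ⟨L, hL⟩ := h.above
  -- the largest difference to the standard norm
  let P : ℤ → Prop := fun m => ∃ x : PV p N, x ≠ 0 ∧ ((m : ℤ) : WithBot ℤ) + std p N x ≤ δ x
  have hbd : ∀ m, P m → m ≤ K := by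
    rintro m ⟨x, hx, hm⟩
    obtain ⟨a, ha⟩ := WithBot.ne_bot_iff_exists.mp
      (ne_of_gt (lt_of_lt_of_le (WithBot.bot_lt_coe (0 : ℤ)) (std_nonneg hx)))
    have := hm.trans (hK x)
    rw [← ha, ← WithBot.coe_add, ← WithBot.coe_add, WithBot.coe_le_coe] at this
    omega
  have hne : ∃ m, P m := by
    have : NeZero N := ⟨hN.ne'⟩
    refine ⟨-L, fun _ => 1, fun h0 => one_ne_zero (congrFun h0 0), ?_⟩
    rw [add_comm]
    refine (add_le_add_left (hL _) _).trans ?_
    rw [add_assoc, ← WithBot.coe_add, add_neg_cancel, WithBot.coe_zero, add_zero]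
  obtain ⟨m, hm, hmax⟩ := Int.exists_greatest_of_bdd (P := P) ⟨K, hbd⟩ hne
  refine ⟨-m, (h.sh _).add_le, (h.sh _).smul_eq, fun x => ?_, ?_, ?_⟩
  · refine wb_le_of_forall fun s hs => ?_
    rw [sh_le_iff]
    by_cases hx : x = 0
    · simp [hx, h.zero]
    · by_contra hgt
      rw [h.le_iff hx] at hgt
      have := hmax (m + 1) ⟨x, hx, by
        refine (add_le_add_right hs _).trans ?_
        rw [h.eq_vl hx, ← WithBot.coe_add, WithBot.coe_le_coe]
        omega⟩
      omega
  · refine ⟨(L + m).toNat, fun x => (hL x).trans ?_⟩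
    simp only [Vale.Agent.P067.sh]
    rw [add_assoc, ← WithBot.coe_add]
    exact add_le_add_right (WithBot.coe_le_coe.mpr (by omega)) _
  · obtain ⟨x, hx, hxm⟩ := hm
    refine ⟨x, hx, le_antisymm ?_ ?_⟩
    · refine wb_le_of_forall fun s hs => ?_
      rw [sh_le_iff]
      by_contra hgt
      rw [h.le_iff hx] at hgt
      have := hmax (m + 1) ⟨x, hx, by
        refine (add_le_add_right hs _).trans ?_
        rw [h.eq_vl hx, ← WithBot.coe_add, WithBot.coe_le_coe]
        omega⟩
      omega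
    · refine wb_le_of_forall fun s hs => ?_
      rw [sh_le_iff] at hs
      have h2 := hxm.trans hs
      obtain ⟨a, ha⟩ := WithBot.ne_bot_iff_exists.mp
        (ne_of_gt (lt_of_lt_of_le (WithBot.bot_lt_coe (0 : ℤ)) (std_nonneg hx)))
      rw [← ha, ← WithBot.coe_add, WithBot.coe_le_coe] at h2
      rw [← ha, WithBot.coe_le_coe]
      omega

lemma IsNrm.shift_eq_zero [Fact p.Prime] {δ : PV p N → WithBot ℤ} {c : ℤ} (h : IsNrm p N δ)
    (h' : IsNrm p N (Vale.Agent.P067.sh c δ)) : c = 0 := by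
  obtain ⟨x, hx, ex⟩ := h.touch
  obtain ⟨y, hy, ey⟩ := h'.touch
  have e1 := h'.le_std x
  have e2 := h.le_std y
  simp only [Vale.Agent.P067.sh, ← ex] at e1
  simp only [Vale.Agent.P067.sh] at ey
  rw [← ey] at e2
  have hp : IsPre δ := Nrm.pre (⟨δ, h⟩ : Nrm p N)
  rw [hp.eq_vl hx, ← WithBot.coe_add, WithBot.coe_le_coe] at e1
  rw [hp.eq_vl hy, ← WithBot.coe_add, WithBot.coe_le_coe] at e2
  omega

/-- The normalised representative of a norm. -/
noncomputable def nrmz [Fact p.Prime] (hN : 0 < N) {δ : PV p N → WithBot ℤ} (h : IsPre δ) :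
    Nrm p N :=
  ⟨Vale.Agent.P067.sh (h.exists_norm hN).choose δ, (h.exists_norm hN).choose_spec⟩

lemma nrmz_spec [Fact p.Prime] (hN : 0 < N) {δ : PV p N → WithBot ℤ} (h : IsPre δ) :
    ∃ c : ℤ, (nrmz hN h).1 = Vale.Agent.P067.sh c δ := ⟨_, rfl⟩

lemma nrm_eq_of_sh [Fact p.Prime] {u v : Nrm p N} {c : ℤ} (h : v.1 = Vale.Agent.P067.sh c u.1) :
    v = u := by
  have h0 : c = 0 := u.2.shift_eq_zero (h ▸ v.2)
  subst h0
  exact Subtype.ext (h.trans (sh_zero _))

/-- Existence of reduced bases. -/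
theorem exists_hasType [Fact p.Prime] {δ : PV p N → WithBot ℤ} (h : IsPre δ) :
    ∃ (f : Module.Basis (Fin N) (PR p) (PV p N)) (b : Fin N → ℤ), HasType δ f b := by
  obtain ⟨K, hK⟩ := h.above
  have hlow : ∀ x : PV p N, x ≠ 0 → -K ≤ vl δ x := fun x hx => by
    have := (std_nonneg hx).trans (hK x)
    rw [h.eq_vl hx, ← WithBot.coe_add, WithBot.coe_le_coe] at this
    omega
  let P : ℤ → Prop := fun m =>
    ∃ f : Module.Basis (Fin N) (PR p) (PV p N), ∑ i, vl δ (f i) = m
  obtain ⟨m, ⟨f, hf⟩, hmin⟩ := Int.exists_least_of_bdd (P := P)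
    ⟨∑ _i : Fin N, -K, by
      rintro m ⟨f, rfl⟩
      exact Finset.sum_le_sum fun i _ => hlow _ (f.ne_zero i)⟩
    ⟨_, Pi.basisFun (PR p) (Fin N), rfl⟩
  refine ⟨f, fun i => -vl δ (f i), hasType_of_le_iff fun x s => ?_⟩
  constructor
  · -- reducedness
    intro hx
    by_contra hbox
    set c := f.repr x
    let I0 : Finset (Fin N) := Finset.univ.filter fun i => c i ≠ 0
    have hex : ∃ i ∈ I0, s < (c i).natDegree + vl δ (f i) := by
      simp only [Box, not_forall] at hbox
      obtain ⟨i, n, hn, hne⟩ := hbox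
      refine ⟨i, by simp only [I0, Finset.mem_filter, Finset.mem_univ, true_and]
                    intro h0; exact hne (by rw [h0, coeff_zero]), ?_⟩
      have := le_natDegree_of_ne_zero hne
      change s < ((f.repr x i).natDegree : ℤ) + vl δ (f i)
      omega
    obtain ⟨i1, hi1, hlt⟩ := hex
    obtain ⟨i2, hi2, hi2max⟩ := I0.exists_max_image
      (fun i => ((c i).natDegree : ℤ) + vl δ (f i)) ⟨i1, hi1⟩
    set S := ((c i2).natDegree : ℤ) + vl δ (f i2) with hS
    have hsS : s < S := lt_of_lt_of_le hlt (hi2max i1 hi1)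
    let I : Finset (Fin N) := I0.filter fun i => ((c i).natDegree : ℤ) + vl δ (f i) = S
    obtain ⟨i0, hi0, hi0max⟩ := I.exists_max_image (fun i => vl δ (f i))
      ⟨i2, by simp [I, hi2, hS]⟩
    have hi0S : ((c i0).natDegree : ℤ) + vl δ (f i0) = S := (Finset.mem_filter.mp hi0).2
    have hi0ne : c i0 ≠ 0 := (Finset.mem_filter.mp (Finset.mem_filter.mp hi0).1).2
    set e := (c i0).natDegree
    let g : PV p N := ∑ i ∈ I, (C (c i).leadingCoeff * X ^ ((c i).natDegree - e) : PR p) • f i
    have hge : ∀ i ∈ I, e ≤ (c i).natDegree := fun i hi => by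
      have h1 := hi0max i hi
      have h2 := (Finset.mem_filter.mp hi).2
      omega
    -- the top part has small norm
    have hrest : δ (x - (X ^ e : PR p) • g) ≤ ((S - 1 : ℤ) : WithBot ℤ) := by
      have h1 : x - (X ^ e : PR p) • g =
          ∑ i, (if i ∈ I then c i - C (c i).leadingCoeff * X ^ (c i).natDegree else c i) • f i := by
        conv_lhs => rw [← f.sum_repr x]
        rw [Finset.smul_sum, ← Finset.sum_ite_mem_eq I, ← Finset.sum_sub_distrib]
        refine Finset.sum_congr rfl fun i _ => ?_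
        split
        · next hi =>
          rw [smul_smul, ← mul_assoc, mul_comm (X ^ e) (C _), mul_assoc, ← pow_add,
            Nat.add_sub_cancel' (hge i hi), sub_smul]
        · simp [c]
      rw [h1]
      refine h.sum_le fun i _ => ?_
      set r := if i ∈ I then c i - C (c i).leadingCoeff * X ^ (c i).natDegree else c i with hr
      by_cases hr0 : r = 0
      · simp [hr0, h.zero]
      · rw [h.le_iff (smul_ne_zero hr0 (f.ne_zero i)), h.smul_vl (f.ne_zero i) hr0]
        by_cases hi : i ∈ I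
        · rw [if_pos hi] at hr
          have hlt' : r.natDegree < (c i).natDegree := by
            have h1 : r.natDegree ≤ (c i).natDegree := by
              rw [hr, C_mul_X_pow_eq_monomial]
              exact (natDegree_sub_le _ _).trans (max_le le_rfl (natDegree_monomial_le _))
            refine lt_of_le_of_ne h1 fun he => leadingCoeff_ne_zero.mpr hr0 ?_
            rw [leadingCoeff, he, hr, C_mul_X_pow_eq_monomial, coeff_sub, coeff_monomial,
              if_pos rfl, sub_eq_zero]
            rfl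
          have := (Finset.mem_filter.mp hi).2
          omega
        · rw [if_neg hi] at hr
          have hne : c i ≠ 0 := hr ▸ hr0
          have h2 := hi2max i (by simp [I0, hne])
          have h3 : ((c i).natDegree : ℤ) + vl δ (f i) ≠ S := fun hh =>
            hi (by simp [I, I0, hne, hh])
          rw [hr]
          omega
    have hg : δ ((X ^ e : PR p) • g) ≤ ((S - 1 : ℤ) : WithBot ℤ) := by
      have := h.sub_le_of (hx.trans (WithBot.coe_le_coe.mpr (show s ≤ S - 1 by omega))) hrest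
      simpa using this
    have hg' : δ g ≤ ((vl δ (f i0) - 1 : ℤ) : WithBot ℤ) := by
      have h1 : (S - 1 : ℤ) = (vl δ (f i0) - 1) + e := by omega
      rw [h1] at hg
      exact (h.X_pow_le e).mp hg
    -- the improved basis
    have hcoef : f.repr g i0 = C (c i0).leadingCoeff := by
      simp only [g, map_sum, map_smul, Finsupp.coe_finsetSum, Finset.sum_apply]
      rw [Finset.sum_eq_single i0
        (fun j _ hj => by simp [Module.Basis.repr_self, hj])
        (fun hn => absurd hi0 hn)]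
      simp [e, Module.Basis.repr_self]
    have hunit : IsUnit (f.det (Function.update f i0 g)) := by
      have h2 : f.det (Function.update f i0 g) = f.repr g i0 := by
        conv_lhs => rw [← f.sum_repr g]
        rw [f.det.map_update_sum, Finset.sum_eq_single i0]
        · rw [f.det.map_update_smul, Function.update_eq_self, f.det_self, smul_eq_mul, mul_one]
        · intro j _ hj
          rw [f.det.map_update_smul, f.det.map_update_self f hj.symm, smul_zero]
        · simp
      rw [h2, hcoef]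
      exact isUnit_C.mpr (IsUnit.mk0 _ (leadingCoeff_ne_zero.mpr hi0ne))
    obtain ⟨hli, hsp⟩ := (f.is_basis_iff_det).mpr hunit
    have hgne : g ≠ 0 := by
      have := hli.ne_zero i0
      rwa [Function.update_self] at this
    have hm := hmin _ ⟨Module.Basis.mk hli hsp.ge, rfl⟩
    have hsum : ∑ i, vl δ (Function.update f i0 g i) < ∑ i, vl δ (f i) := by
      refine Finset.sum_lt_sum (fun i _ => ?_) ⟨i0, Finset.mem_univ _, ?_⟩
      · by_cases hi : i = i0
        · subst hi
          rw [Function.update_self]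
          have := (h.le_iff hgne).mp hg'
          omega
        · rw [Function.update_of_ne hi]
      · rw [Function.update_self]
        have := (h.le_iff hgne).mp hg'
        omega
    simp only [Module.Basis.coe_mk] at hm
    omega
  · intro hbox
    rw [← f.sum_repr x]
    refine h.sum_le fun i _ => ?_
    by_cases hc : f.repr x i = 0
    · simp [hc, h.zero]
    · rw [h.le_iff (smul_ne_zero hc (f.ne_zero i)), h.smul_vl (f.ne_zero i) hc]
      by_contra hgt
      exact leadingCoeff_ne_zero.mpr hc (hbox i (f.repr x i).natDegree (by dsimp only; omega))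

end Vale.Agent.P067
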