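import Vale.Agent.P067.CongrBasis

/-!
Common cone points for boundedly many partial bases, and the resulting acyclicity.
-/

namespace Vale.Agent.P067.Congr

open Polynomial Matrix Hom

noncomputable section

variable {p m : ℕ} [Fact p.Prime] {ι : Type} [Fintype ι] [DecidableEq ι]

local instance (priority := 2000) avoidVecDecEq : DecidableEq (ι → PR p) :=
  fun a b => Classical.propDecidable (a = b)

local instance (priority := 2000) avoidResDecEq : DecidableEq (ι → AR p m) :=
  fun a b => Classical.propDecidable (a = b)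

/-- Constant vectors. -/
def cst (x : ι → ZMod p) : ι → PR p := fun i => C (x i)

/-- A constant vector outside boundedly many proper subspaces. -/
lemma exists_outside {γ : Type} (F : Finset γ) (S : γ → Submodule (ZMod p) (ι → ZMod p))
    (hS : ∀ a ∈ F, S a ≠ ⊤) (hp : F.card < p) : ∃ x, ∀ a ∈ F, x ∉ S a := by
  have h := Submodule.iUnion_ssubset_of_forall_ne_top_of_card_lt (K := ZMod p)
    (Finset.univ : Finset {a // a ∈ F}) (fun a => S a.1) (fun a => hS a.1 a.2) (by
      rw [ENat.card_eq_coe_fintype_card, ZMod.card, Finset.card_univ, Fintype.card_coe]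
      exact_mod_cast hp)
  obtain ⟨x, -, hx⟩ := Set.exists_of_ssubset h
  exact ⟨x, fun a ha hxa => hx (Set.mem_iUnion₂.2 ⟨⟨a, ha⟩, Finset.mem_univ _, hxa⟩)⟩

/-- Every vector is a combination of constant vectors. -/
lemma cst_span (v : ι → PR p) :
    v ∈ Submodule.span (PR p) (Set.range (cst (p := p) (ι := ι))) := by
  rw [pi_eq_sum_univ v]
  refine Submodule.sum_mem _ fun i _ => Submodule.smul_mem _ _
    (Submodule.subset_span ⟨fun j => if i = j then 1 else 0, ?_⟩)
  funext j
  simp [cst, apply_ite (C : ZMod p →+* PR p)]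

/-- A set of linear conditions on constants that fails somewhere fails on a constant. -/
lemma exists_cst_of_exists {γ : Type} {f : γ → (ι → PR p) →ₗ[PR p] PR p}
    {Q : Ideal (PR p)} {v : ι → PR p} {a : γ} (hv : f a v ∉ Q) :
    ∃ x : ι → ZMod p, f a (cst x) ∉ Q := by
  by_contra h
  push Not at h
  refine hv ?_
  have : Submodule.span (PR p) (Set.range (cst (p := p) (ι := ι))) ≤ Submodule.comap (f a) Q :=
    Submodule.span_le.2 (by rintro _ ⟨x, rfl⟩; exact h x)
  exact this (cst_span v)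

/-- The constants on which all the given forms lie in an ideal. -/
def badSub {γ : Type} (f : γ → (ι → PR p) →ₗ[PR p] PR p) (Q : Ideal (PR p)) :
    Submodule (ZMod p) (ι → ZMod p) where
  carrier := {x | ∀ a, f a (cst x) ∈ Q}
  zero_mem' := fun a => by
    rw [show cst (0 : ι → ZMod p) = 0 from funext fun i => by simp [cst], map_zero]
    exact Q.zero_mem
  add_mem' := fun {x y} hx hy a => by
    rw [show cst (x + y) = cst x + cst y from funext fun i => by simp [cst], map_add]
    exact Q.add_mem (hx a) (hy a)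
  smul_mem' := fun c x hx a => by
    rw [show cst (c • x) = C c • cst x from funext fun i => by simp [cst], map_smul]
    exact Q.smul_mem _ (hx a)

lemma badSub_ne_top {γ : Type} {f : γ → (ι → PR p) →ₗ[PR p] PR p} {Q : Ideal (PR p)}
    {v : ι → PR p} {a : γ} (hv : f a v ∉ Q) : badSub f Q ≠ ⊤ := by
  obtain ⟨x, hx⟩ := exists_cst_of_exists hv
  exact fun h => hx ((h ▸ Submodule.mem_top : x ∈ badSub f Q) a)

/-- The coordinate forms of a frame. -/
def coordF (g : SLI p ι) (i : ι) : (ι → PR p) →ₗ[PR p] PR p :=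
  (LinearMap.proj i).comp (Matrix.mulVecLin (g⁻¹ : SLI p ι).1)

lemma coordF_apply (g : SLI p ι) (i : ι) (v : ι → PR p) :
    coordF g i v = ((g⁻¹ : SLI p ι) • v) i := rfl

lemma coordF_col (g : SLI p ι) (i j : ι) : coordF g i (col g j) = if i = j then 1 else 0 := by
  rw [coordF_apply, smul_col, inv_mul_cancel, col_one, Pi.single_apply]

lemma finite_maximals {a : PR p} (ha : a ≠ 0) :
    {Q : Ideal (PR p) | Q.IsMaximal ∧ a ∈ Q}.Finite := by
  classical
  refine ((UniqueFactorizationMonoid.normalizedFactors a).toFinset.image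
    (fun b => Ideal.span {b})).finite_toSet.subset fun Q ⟨hQ, haQ⟩ => ?_
  obtain ⟨b, rfl⟩ := (IsPrincipalIdealRing.principal Q).principal
  have hb0 : b ≠ 0 := fun h => ha (by
    rw [h, Ideal.mem_span_singleton, zero_dvd_iff] at haQ; exact haQ)
  have hb : Prime b := (Ideal.span_singleton_prime hb0).1 hQ.isPrime
  obtain ⟨q, hq, hq'⟩ := UniqueFactorizationMonoid.exists_mem_normalizedFactors_of_dvd ha
    hb.irreducible (Ideal.mem_span_singleton.1 haQ)
  simp only [Finset.coe_image, Set.mem_image, Finset.mem_coe, Multiset.mem_toFinset]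
  exact ⟨q, hq, (Ideal.span_singleton_eq_span_singleton.2 hq').symm⟩

/-- Chinese remainders for maximal ideals. -/
lemma crt (S : Finset (Ideal (PR p))) (hS : ∀ Q ∈ S, Q.IsMaximal) (x : Ideal (PR p) → PR p) :
    ∃ r, ∀ Q ∈ S, r - x Q ∈ Q := by
  obtain ⟨r, hr⟩ := Ideal.exists_forall_sub_mem_ideal
    (I := fun Q : {Q // Q ∈ S} => Q.1)
    (fun Q Q' h => Ideal.isCoprime_iff_sup_eq.2
      ((hS _ Q.2).coprime_of_ne (hS _ Q'.2) (fun e => h (Subtype.ext e))))
    (fun Q => x Q.1)
  exact ⟨r, fun Q hQ => hr ⟨Q, hQ⟩⟩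

/-- A constant in a maximal ideal is zero. -/
lemma cst_mem_iff {Q : Ideal (PR p)} (hQ : Q.IsMaximal) {c : ZMod p} (h : C c ∈ Q) : c = 0 := by
  by_contra hc
  exact hQ.ne_top (Ideal.eq_top_of_isUnit_mem _ h (isUnit_C.2 (isUnit_iff_ne_zero.2 hc)))

/-- A vector unimodular in the quotients by boundedly many frames. -/
lemma exists_generic {γ : Type} (F : Finset γ) (hp : F.card < p) (g : γ → SLI p ι)
    (I : γ → Finset ι) (hI : ∀ a ∈ F, (I a).card + 2 ≤ Fintype.card ι) :
    ∃ w : ι → PR p, ∀ a ∈ F, ∀ Q : Ideal (PR p), Q.IsMaximal →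
      ∃ i ∉ I a, coordF (g a) i w ∉ Q := by
  classical
  let f : ∀ a, {i // i ∉ I a} → (ι → PR p) →ₗ[PR p] PR p := fun a i => coordF (g a) i.1
  have htwo : ∀ a ∈ F, ∀ i, ∃ j, j ∉ I a ∧ j ≠ i := by
    intro a ha i
    have hc : 1 < (I a)ᶜ.card := by rw [Finset.card_compl]; have := hI a ha; omega
    obtain ⟨j, hj, hj'⟩ := Finset.exists_mem_ne hc i
    exact ⟨j, Finset.mem_compl.1 hj, hj'⟩
  rcases F.eq_empty_or_nonempty with hF | ⟨a₀, ha₀⟩
  · exact ⟨0, fun a ha => absurd ha (by simp [hF])⟩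
  have : Nonempty ι := Fintype.card_pos_iff.1 (by have := hI a₀ ha₀; omega)
  -- first vector
  obtain ⟨x1, hx1⟩ := exists_outside F (fun a => badSub (f a) ⊥) (fun a ha => by
    obtain ⟨j, hj, -⟩ := htwo a ha (Classical.arbitrary ι)
    exact badSub_ne_top (a := ⟨j, hj⟩) (v := col (g a) j) (by simp [f, coordF_col])) hp
  set w1 := cst x1
  have h1 : ∀ a ∈ F, ∃ i, i ∉ I a ∧ coordF (g a) i w1 ≠ 0 := by
    intro a ha
    by_contra h
    push Not at h
    exact hx1 a ha fun i => (Submodule.mem_bot _).2 (h i.1 i.2)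
  choose! i1 hi1 hi1' using h1
  let S1 : Finset (Ideal (PR p)) :=
    F.attach.biUnion fun a => (finite_maximals (hi1' a.1 a.2)).toFinset
  have hS1 : ∀ Q, Q ∈ S1 ↔ ∃ a ∈ F, Q.IsMaximal ∧ coordF (g a) (i1 a) w1 ∈ Q := by
    intro Q
    simp only [S1, Finset.mem_biUnion, Finset.mem_attach, true_and, Set.Finite.mem_toFinset,
      Set.mem_ofPred_eq, Subtype.exists]
    exact ⟨fun ⟨a, ha, h⟩ => ⟨a, ha, h⟩, fun ⟨a, ha, h⟩ => ⟨a, ha, h⟩⟩
  have hS1max : ∀ Q ∈ S1, Q.IsMaximal := fun Q hQ => by
    obtain ⟨a, -, h, -⟩ := (hS1 Q).1 hQ; exact h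
  -- second vector: good on S1
  have hxQ : ∀ Q : Ideal (PR p), ∃ x : ι → ZMod p, Q.IsMaximal →
      ∀ a ∈ F, x ∉ badSub (f a) Q := by
    intro Q
    by_cases hQ : Q.IsMaximal
    · obtain ⟨x, hx⟩ := exists_outside F (fun a => badSub (f a) Q) (fun a ha => by
        obtain ⟨j, hj, -⟩ := htwo a ha (i1 a)
        refine badSub_ne_top (a := ⟨j, hj⟩) (v := col (g a) j) ?_
        simp [f, coordF_col, ← Ideal.ne_top_iff_one, hQ.ne_top]) hp
      exact ⟨x, fun _ => hx⟩
    · exact ⟨0, fun h => absurd h hQ⟩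
  choose xQ hxQ using hxQ
  have hu : ∀ j, ∃ r, ∀ Q ∈ S1, r - C (xQ Q j) ∈ Q := fun j => crt S1 hS1max _
  choose u0 hu0 using hu
  let q : PR p := ∏ a ∈ F, coordF (g a) (i1 a) w1
  have hq0 : q ≠ 0 := Finset.prod_ne_zero_iff.2 fun a ha => hi1' a ha
  -- the minors
  let mi : ∀ a, {i // i ∉ I a} × {i // i ∉ I a} → (ι → PR p) →ₗ[PR p] PR p := fun a ij =>
    coordF (g a) ij.1.1 w1 • coordF (g a) ij.2.1 - coordF (g a) ij.2.1 w1 • coordF (g a) ij.1.1
  obtain ⟨x2, hx2⟩ := exists_outside F (fun a => badSub (mi a) ⊥) (fun a ha => by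
    obtain ⟨j, hj, hne⟩ := htwo a ha (i1 a)
    refine badSub_ne_top (a := (⟨i1 a, hi1 a ha⟩, ⟨j, hj⟩)) (v := col (g a) j) ?_
    simp [mi, coordF_col, hne.symm, hi1' a ha]) hp
  have h2 : ∀ a ∈ F, ∃ ij, mi a ij (cst x2) ≠ 0 := by
    intro a ha
    by_contra h
    push Not at h
    exact hx2 a ha fun ij => (Submodule.mem_bot _).2 (h ij)
  choose ij hij using h2
  have hlam : ∃ c : ZMod p, ∀ a (ha : a ∈ F),
      mi a (ij a ha) u0 + C c * q * mi a (ij a ha) (cst x2) ≠ 0 := by
    by_contra h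
    push Not at h
    choose bad hbad hbad' using h
    have hinj : Function.Injective fun c : ZMod p => (⟨bad c, hbad c⟩ : {a // a ∈ F}) := by
      intro c c' hcc
      simp only [Subtype.mk.injEq] at hcc
      have e1 := hbad' c
      have e2 := hbad' c'
      have key : ∀ (a b : γ) (ha : a ∈ F) (hb : b ∈ F), a = b →
          mi a (ij a ha) (cst x2) ≠ 0 ∧
          (mi a (ij a ha) u0 + C c * q * mi a (ij a ha) (cst x2) = 0 →
            mi b (ij b hb) u0 + C c' * q * mi b (ij b hb) (cst x2) = 0 → c = c') := by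
        rintro a _ ha hb rfl
        refine ⟨hij a ha, fun ea eb => ?_⟩
        have e : C (c - c') * (q * mi a (ij a ha) (cst x2)) = 0 := by
          rw [C_sub]; linear_combination ea - eb
        rcases mul_eq_zero.1 e with h | h
        · exact sub_eq_zero.1 (C_eq_zero.1 h)
        · exact absurd h (mul_ne_zero hq0 (hij a ha))
      exact (key _ _ (hbad c) (hbad c') hcc).2 e1 e2
    have := Fintype.card_le_of_injective _ hinj
    rw [ZMod.card, Fintype.card_coe] at this
    omega
  obtain ⟨lam, hlam⟩ := hlam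
  set u : ι → PR p := u0 + (C lam * q) • cst x2
  have hD : ∀ a (ha : a ∈ F), mi a (ij a ha) u ≠ 0 := fun a ha => by
    simpa [u, map_add, map_smul] using hlam a ha
  have hu1 : ∀ Q ∈ S1, ∀ a ∈ F, ∃ i : {i // i ∉ I a}, f a i u ∉ Q := by
    intro Q hQ a ha
    by_contra h
    push Not at h
    refine hxQ Q (hS1max Q hQ) a ha fun i => ?_
    have hqQ : q ∈ Q := by
      obtain ⟨b, hb, -, hbQ⟩ := (hS1 Q).1 hQ
      exact Q.mem_of_dvd (Finset.dvd_prod_of_mem _ hb) hbQ
    have e : f a i (u0 - cst (xQ Q)) ∈ Q := by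
      rw [show u0 - cst (xQ Q) = ∑ j, (u0 j - C (xQ Q j)) • (Pi.single j 1 : ι → PR p) from
        pi_eq_sum_univ' _, map_sum]
      exact Q.sum_mem fun j _ => by rw [map_smul]; exact Q.mul_mem_right _ (hu0 j Q hQ)
    have e2 : f a i u0 ∈ Q := by
      have := h i
      rw [show u = u0 + (C lam * q) • cst x2 from rfl, map_add, map_smul, smul_eq_mul] at this
      exact (Q.add_mem_iff_left (Q.mul_mem_right _ (Q.mul_mem_left _ hqQ))).1 this
    have := Q.sub_mem e2 e
    rwa [map_sub, sub_sub_cancel] at this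
  -- the multiplier
  let S2 : Finset (Ideal (PR p)) :=
    F.attach.biUnion fun a => (finite_maximals (hD a.1 a.2)).toFinset
  have hS2 : ∀ Q, Q ∈ S2 ↔ ∃ a, ∃ ha : a ∈ F, Q.IsMaximal ∧ mi a (ij a ha) u ∈ Q := by
    intro Q; simp [S2]
  have hlQ : ∀ Q : Ideal (PR p), ∃ c : ZMod p, Q ∈ S1 →
      ∀ a ∈ F, ∃ i : {i // i ∉ I a}, f a i w1 + C c * f a i u ∉ Q := by
    intro Q
    by_cases hQ : Q ∈ S1
    · by_contra h
      push Not at h
      have h' := fun c => (h c).2
      choose bad hbad hbad' using h'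
      have hinj : Function.Injective fun c : ZMod p => (⟨bad c, hbad c⟩ : {a // a ∈ F}) := by
        intro c c' hcc
        simp only [Subtype.mk.injEq] at hcc
        obtain ⟨i, hi⟩ := hu1 Q hQ (bad c) (hbad c)
        have key : ∀ a b : γ, a = b → (∀ i, f b i w1 + C c' * f b i u ∈ Q) →
            ∀ i, f a i w1 + C c' * f a i u ∈ Q := by
          rintro a _ rfl h
          exact h
        have e := Q.sub_mem (hbad' c i) (key _ _ hcc (hbad' c') i)
        rw [add_sub_add_left_eq_sub, ← sub_mul, ← C_sub] at e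
        rcases (hS1max Q hQ).isPrime.mem_or_mem e with h | h
        · exact sub_eq_zero.1 (cst_mem_iff (hS1max Q hQ) h)
        · exact absurd h hi
      have := Fintype.card_le_of_injective _ hinj
      rw [ZMod.card, Fintype.card_coe] at this
      omega
    · exact ⟨0, fun h => absurd h hQ⟩
  choose cQ hcQ using hlQ
  obtain ⟨t, ht⟩ := crt (S1 ∪ S2) (fun Q hQ => (Finset.mem_union.1 hQ).elim (hS1max Q)
    (fun h => by obtain ⟨a, ha, h', -⟩ := (hS2 Q).1 h; exact h'))
    (fun Q => if Q ∈ S1 then C (cQ Q) else 0)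
  refine ⟨w1 + t • u, fun a ha Q hQ => ?_⟩
  by_contra h
  push Not at h
  have hall : ∀ i : {i // i ∉ I a}, f a i w1 + t * f a i u ∈ Q := fun i => by
    simpa [f, map_add, map_smul] using h i.1 i.2
  by_cases h1 : Q ∈ S1
  · obtain ⟨i, hi⟩ := hcQ Q h1 a ha
    refine hi ?_
    have e := ht Q (Finset.mem_union_left _ h1)
    rw [if_pos h1] at e
    have := Q.sub_mem (hall i) (Q.mul_mem_right (f a i u) e)
    convert this using 1
    ring
  · have hne : coordF (g a) (i1 a) w1 ∉ Q := fun hh => h1 ((hS1 Q).2 ⟨a, ha, hQ, hh⟩)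
    by_cases h2 : Q ∈ S2
    · have e := ht Q (Finset.mem_union_right _ h2)
      rw [if_neg h1, sub_zero] at e
      exact hne ((Q.add_mem_iff_left (Q.mul_mem_right _ e)).1 (hall ⟨i1 a, hi1 a ha⟩))
    · refine h2 ((hS2 Q).2 ⟨a, ha, hQ, ?_⟩)
      have e1 := hall (ij a ha).1
      have e2 := hall (ij a ha).2
      have := Q.sub_mem (Q.mul_mem_right (f a (ij a ha).2 u) e1)
        (Q.mul_mem_right (f a (ij a ha).1 u) e2)
      convert this using 1
      simp only [mi, f, LinearMap.sub_apply, LinearMap.smul_apply, smul_eq_mul]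
      ring

/-- A unimodular vector over a principal ideal domain is a column. -/
lemma complete_vec {κ R : Type} [Fintype κ] [DecidableEq κ] [CommRing R] [IsDomain R]
    [IsPrincipalIdealRing R] (hκ : 2 ≤ Fintype.card κ) (v : κ → R)
    (hv : Ideal.span (Set.range v) = ⊤) (a : κ) :
    ∃ M : Matrix.SpecialLinearGroup κ R, ∀ i, M.1 i a = v i := by
  obtain ⟨c, hc⟩ := Ideal.mem_span_range_iff_exists_fun.1 (hv ▸ Submodule.mem_top : (1 : R) ∈ _)
  let φ : (κ → R) →ₗ[R] R := ∑ i, c i • LinearMap.proj i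
  have hφ : φ v = 1 := by
    rw [← hc]
    simp [φ, LinearMap.coe_sum, Finset.sum_apply]
  let P : (κ → R) →ₗ[R] LinearMap.ker φ :=
    LinearMap.codRestrict (LinearMap.ker φ) (LinearMap.id - φ.smulRight v)
      (fun x => by simp [hφ])
  have hP : ∀ y, ((P y : LinearMap.ker φ) : κ → R) = y - φ y • v := fun y => rfl
  let E : (κ → R) ≃ₗ[R] R × LinearMap.ker φ :=
    LinearEquiv.ofLinearMap
      (φ.prod P)
      ((LinearMap.toSpanSingleton R _ v).coprod (LinearMap.ker φ).subtype)
      (by
        refine LinearMap.ext fun ⟨r, k⟩ => ?_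
        have hk : φ k.1 = 0 := k.2
        refine Prod.ext (by simp [hφ, hk]) (Subtype.ext ?_)
        simp [hP, hφ, hk])
      (by refine LinearMap.ext fun x => ?_; simp [hP])
  have hrank : Module.finrank R (LinearMap.ker φ) + 1 = Fintype.card κ := by
    have := E.finrank_eq
    rw [Module.finrank_pi, Module.finrank_prod, Module.finrank_self] at this
    omega
  let κ' := {i // i ≠ a}
  have hcard : Fintype.card κ' = Module.finrank R (LinearMap.ker φ) := by
    simp only [κ', Fintype.card_subtype_compl, Fintype.card_subtype_eq]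
    omega
  let b0 : Module.Basis κ' R (LinearMap.ker φ) :=
    (Module.finBasis R (LinearMap.ker φ)).reindex
      ((finCongr hcard.symm).trans (Fintype.equivFin κ').symm)
  let cols : κ → (κ → R) := fun i => if h : i = a then v else (b0 ⟨i, h⟩ : κ → R)
  have hspan : ⊤ ≤ Submodule.span R (Set.range cols) := by
    intro x _
    rw [← E.symm_apply_apply x]
    show (LinearMap.toSpanSingleton R _ v).coprod (LinearMap.ker φ).subtype (E x) ∈ _
    rw [LinearMap.coprod_apply]
    refine Submodule.add_mem _ ?_ ?_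
    · rw [LinearMap.toSpanSingleton_apply]
      exact Submodule.smul_mem _ _ (Submodule.subset_span ⟨a, by simp [cols]⟩)
    · rw [← b0.sum_repr (E x).2, map_sum]
      refine Submodule.sum_mem _ fun i _ => ?_
      rw [map_smul]
      exact Submodule.smul_mem _ _ (Submodule.subset_span ⟨i.1, by simp [cols, i.2]⟩)
  let M : Matrix κ κ R := Matrix.of fun i j => cols j i
  have hM : IsUnit M.det := by
    obtain ⟨N, hN⟩ : ∃ N : Matrix κ κ R, M * N = 1 := by
      have hj : ∀ j : κ, ∃ d : κ → R, ∑ i, d i • cols i = Pi.single j 1 := fun j =>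
        Submodule.mem_span_range_iff_exists_fun _ |>.1 (hspan Submodule.mem_top)
      choose d hd using hj
      refine ⟨Matrix.of fun i j => d j i, Matrix.ext fun i j => ?_⟩
      have e := congrFun (hd j) i
      rw [Finset.sum_apply] at e
      rw [Matrix.mul_apply, Matrix.one_apply, ← Pi.single_apply j (1 : R) i, ← e]
      exact Finset.sum_congr rfl fun k _ => by simp [M, mul_comm]
    exact Matrix.isUnit_det_of_right_inverse hN
  obtain ⟨b, hb⟩ : ∃ b, b ≠ a := Fintype.exists_ne_of_one_lt_card (by omega) a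
  refine ⟨⟨M * Matrix.diagonal (fun i => if i = b then (↑hM.unit⁻¹ : R) else 1), ?_⟩, fun i => ?_⟩
  · rw [Matrix.det_mul, Matrix.det_diagonal,
      Finset.prod_eq_single b (fun i _ h => if_neg h) (by simp), if_pos rfl]
    exact IsUnit.mul_val_inv hM
  · show (M * Matrix.diagonal (fun i => if i = b then (↑hM.unit⁻¹ : R) else 1)) i a = v i
    rw [Matrix.mul_diagonal, if_neg (Ne.symm hb), mul_one]
    simp [M, cols]

/-- Extend a frame by a vector unimodular in the quotient. -/
lemma extend_frame (g : SLI p ι) (I : Finset ι) (hI : I.card + 2 ≤ Fintype.card ι) (w : ι → PR p)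
    (hw : ∀ Q : Ideal (PR p), Q.IsMaximal → ∃ i ∉ I, coordF g i w ∉ Q) :
    w ∉ I.image (col g) ∧ insert w (I.image (col g)) ∈ pb p ι := by
  classical
  obtain ⟨a0, ha0⟩ : ∃ a, a ∉ I := by
    by_contra hne
    push Not at hne
    rw [Finset.eq_univ_iff_forall.2 hne, Finset.card_univ] at hI
    omega
  let κ := {i // i ∉ I}
  have hκ : 2 ≤ Fintype.card κ := by
    simp only [κ, Fintype.card_subtype_compl, Fintype.card_coe]; omega
  let v : κ → PR p := fun i => coordF g i.1 w
  have hv : Ideal.span (Set.range v) = ⊤ := by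
    by_contra hne
    obtain ⟨Q, hQ, hQ'⟩ := Ideal.exists_le_maximal _ hne
    obtain ⟨i, hi, hi'⟩ := hw Q hQ
    exact hi' (hQ' (Ideal.subset_span ⟨⟨i, hi⟩, rfl⟩))
  obtain ⟨M, hM⟩ := complete_vec hκ v hv ⟨a0, ha0⟩
  let e : κ ⊕ {i // i ∈ I} ≃ ι := (Equiv.sumComm _ _).trans (Equiv.sumCompl fun i => i ∈ I)
  let c : Matrix {i // i ∈ I} κ (PR p) := Matrix.of fun x y =>
    if y.1 = a0 then coordF g x.1 w else 0
  let u0 : SLI p (κ ⊕ {i // i ∈ I}) :=
    ⟨fromBlocks M.1 0 c 1, by rw [det_fromBlocks_zero₁₂, M.2, det_one, mul_one]⟩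
  have hcols : ∀ i ∈ I, col (g * tr e u0) i = col g i := by
    intro i hi
    rw [← smul_col, show col (tr e u0) i = col (1 : SLI p ι) i from ?_, smul_col, mul_one]
    funext j
    obtain ⟨x, rfl⟩ := e.surjective j
    rw [col_apply, tr_apply, e.symm_apply_apply,
      show e.symm i = Sum.inr ⟨i, hi⟩ from e.symm_apply_eq.2 rfl, col_apply,
      Matrix.SpecialLinearGroup.coe_one, Matrix.one_apply]
    rcases x with x | x
    · rw [if_neg (fun h => x.2 (by rw [show x.1 = i from h]; exact hi))]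
      rfl
    · show (1 : Matrix {a // a ∈ I} {a // a ∈ I} (PR p)) x ⟨i, hi⟩ = _
      rw [Matrix.one_apply]
      exact if_congr Subtype.ext_iff rfl rfl
  have hw' : col (g * tr e u0) a0 = w := by
    rw [← smul_col, show col (tr e u0) a0 = g⁻¹ • w from ?_, smul_inv_smul]
    funext j
    obtain ⟨x, rfl⟩ := e.surjective j
    rw [col_apply, tr_apply, e.symm_apply_apply,
      show e.symm a0 = Sum.inl ⟨a0, ha0⟩ from e.symm_apply_eq.2 rfl]
    rcases x with x | x
    · exact hM x
    · show c x ⟨a0, ha0⟩ = _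
      simp only [c, Matrix.of_apply, if_true]
      rfl
  refine ⟨fun hmem => ?_, ?_⟩
  · obtain ⟨i, hi, hi'⟩ := Finset.mem_image.1 hmem
    rw [← hcols i hi, ← hw'] at hi'
    exact ha0 (col_injective _ hi' ▸ hi)
  · have : insert w (I.image (col g)) = (insert a0 I).image (col (g * tr e u0)) := by
      rw [Finset.image_insert, hw', Finset.image_congr (fun i hi => hcols i hi)]
    rw [this]
    exact mem_pb _ (by rw [Finset.card_insert_of_notMem ha0]; omega)

/-- Acyclicity of the partial basis complex and of its residue complex. -/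
lemma pb_acyclic (n : ℕ) : ∃ B : ℕ, ∀ (p : ℕ) [Fact p.Prime] (ι : Type) [Fintype ι]
    [DecidableEq ι] (m : ℕ), B < p → n + 2 ≤ Fintype.card ι → 1 ≤ m →
    (∀ j, j ≤ n → AcycAt (pb p ι) j) ∧ (∀ j, j ≤ n → AcycAt (pbRed p m ι) j) := by
  classical
  obtain ⟨B, hB⟩ := cone_acyclic n
  refine ⟨B, fun p _ ι _ _ m hp hι hm => ?_⟩
  have : Nonempty ι := Fintype.card_pos_iff.1 (by omega)
  refine ⟨hB _ _ isCx_pb.2 ?_, hB _ _ ?_ ?_⟩
  · intro F hF hFK
    have hfr : ∀ s ∈ F, ∃ (g : SLI p ι) (I : Finset ι), I.card ≤ n ∧ s = I.image (col g) := by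
      intro s hs
      obtain ⟨g, I, hc, -, he⟩ := pb_frame (hFK s hs).1
      exact ⟨g, I, hc ▸ (hFK s hs).2, he⟩
    choose! g I hI he using hfr
    obtain ⟨w, hw⟩ := exists_generic F (by omega) g I (fun s hs => by have := hI s hs; omega)
    refine ⟨w, fun s hs => ?_⟩
    have h := extend_frame (g s) (I s) (by have := hI s hs; omega) w (hw s hs)
    rw [← he s hs] at h
    exact ⟨h.1, by convert h.2⟩
  · intro t ht t' htt
    obtain ⟨s, hs, rfl⟩ := mem_pbRed.1 ht
    refine mem_pbRed.2 ⟨s.filter fun v => vred p m v ∈ t', isCx_pb.2 s hs _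
      (Finset.filter_subset _ _), ?_⟩
    ext y
    simp only [Finset.mem_image, Finset.mem_filter]
    constructor
    · intro hy
      obtain ⟨v, hv, rfl⟩ := Finset.mem_image.1 (htt hy)
      exact ⟨v, ⟨hv, hy⟩, rfl⟩
    · rintro ⟨v, ⟨-, hv⟩, rfl⟩
      exact hv
  · intro F hF hFK
    have hfr : ∀ t ∈ F, ∃ (g : SLI p ι) (I : Finset ι),
        I.card ≤ n ∧ t = (I.image (col g)).image (vred p m) := by
      intro t ht
      obtain ⟨s, hs, rfl⟩ := mem_pbRed.1 (hFK t ht).1
      obtain ⟨g, I, hc, -, rfl⟩ := pb_frame hs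
      refine ⟨g, I, ?_, rfl⟩
      have := (hFK _ ht).2
      rw [card_vred hm hs] at this
      omega
    choose! g I hI he using hfr
    let ev : ∀ t, {i // i ∉ I t} → (ι → PR p) →ₗ[PR p] PR p := fun t i => coordF (g t) i.1
    let Q0 : Ideal (PR p) := Ideal.span {X}
    have hQ0 : (1 : PR p) ∉ Q0 := fun h => Polynomial.not_isUnit_X
      (isUnit_of_dvd_one (Ideal.mem_span_singleton.1 h))
    obtain ⟨x, hx⟩ := exists_outside F (fun t => badSub (ev t) Q0) (fun t ht => by
      obtain ⟨j, hj⟩ : ∃ j, j ∉ I t := by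
        by_contra hne
        push Not at hne
        have := hI t ht
        rw [Finset.eq_univ_iff_forall.2 hne, Finset.card_univ] at this
        omega
      exact badSub_ne_top (a := ⟨j, hj⟩) (v := col (g t) j) (by simpa [ev, coordF_col] using hQ0))
      (by omega)
    refine ⟨vred p m (cst x), fun t ht => ?_⟩
    obtain ⟨i, hi⟩ : ∃ i : {i // i ∉ I t}, ev t i (cst x) ∉ Q0 := by
      by_contra h
      push Not at h
      exact hx t ht h
    have hunit : IsUnit (red p m (ev t i (cst x))) := by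
      have := isLocalRing_AR (p := p) hm
      by_contra hn
      refine hi ?_
      obtain ⟨r, hr⟩ : X ∣ ev t i (cst x) := by
        rw [X_dvd_iff]
        by_contra h0
        refine hn ?_
        rw [← X_mul_divX_add (ev t i (cst x)), map_add, map_mul, add_comm]
        refine IsNilpotent.isUnit_add_left_of_commute ?_ ?_ (Commute.all _ _)
        · refine ⟨m, ?_⟩
          rw [mul_pow, ← map_pow, Ideal.Quotient.eq_zero_iff_mem.2
            (Ideal.mem_span_singleton_self _), zero_mul]
        · exact ((isUnit_C).2 (isUnit_iff_ne_zero.2 h0)).map _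
      exact Ideal.mem_span_singleton.2 ⟨r, hr⟩
    -- a lift of the residue extending the frame
    have hIc : (I t).card + 2 ≤ Fintype.card ι := by have := hI t ht; omega
    let κ := {j // j ∉ I t}
    obtain ⟨c, hc⟩ : ∃ c : κ, c ≠ i := Fintype.exists_ne_of_one_lt_card (by
      simp only [κ, Fintype.card_subtype_compl, Fintype.card_coe]; omega) i
    let v : ι → AR p m := fun j => red p m (coordF (g t) j (cst x))
    let U : Matrix ι ι (AR p m) := (1 : Matrix ι ι (AR p m)).updateCol i.1 v *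
      Matrix.diagonal (fun j => if j = c.1 then (↑hunit.unit⁻¹ : AR p m) else 1)
    have hci : c.1 ≠ i.1 := fun h => hc (Subtype.ext h)
    have hUd : U.det = 1 := by
      have e := Matrix.cramer_apply (1 : Matrix ι ι (AR p m)) v i.1
      rw [Matrix.cramer_one, Module.End.one_apply] at e
      rw [Matrix.det_mul, ← e, Matrix.det_diagonal,
        Finset.prod_eq_single c.1 (fun j _ h => if_neg h) (by simp), if_pos rfl]
      exact IsUnit.mul_val_inv hunit
    have hUI : ∀ j ∈ I t, ∀ k, U k j = if k = j then 1 else 0 := by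
      intro j hj k
      have h1 : j ≠ c.1 := fun h => c.2 (h ▸ hj)
      have h2 : j ≠ i.1 := fun h => i.2 (h ▸ hj)
      simp only [U, Matrix.mul_diagonal, if_neg h1, mul_one, Matrix.updateCol_ne h2,
        Matrix.one_apply]
    obtain ⟨u, hu, hu'⟩ := lift_block hm (I t) ⟨U, hUd⟩ hUI
    have hcols : ∀ j ∈ I t, col (g t * u) j = col (g t) j := fun j hj => by
      rw [← smul_col, hu' j hj, ← col_one, smul_col, mul_one]
    have hnew : vred p m (col (g t * u) i.1) = vred p m (cst x) := by
      rw [← smul_col, ← smul_inv_smul (g t) (cst x), vred_smul, vred_smul]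
      congr 1
      funext k
      have := congrFun (congrFun (congrArg Subtype.val hu) k) i.1
      show red p m (u.1 k i.1) = red p m (coordF (g t) k (cst x))
      rw [show red p m (u.1 k i.1) = U k i.1 from this]
      simp [U, v, Matrix.mul_diagonal, hci.symm]
    have htimg : (I t).image (fun j => vred p m (col (g t * u) j)) = t := by
      conv_rhs => rw [he t ht, Finset.image_image]
      exact Finset.image_congr fun j hj => by simp [hcols j hj]
    refine ⟨fun hmem => ?_, mem_pbRed.2 ⟨(insert i.1 (I t)).image (col (g t * u)),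
      mem_pb _ (by rw [Finset.card_insert_of_notMem i.2]; omega), ?_⟩⟩
    · rw [← htimg, ← hnew, Finset.mem_image] at hmem
      obtain ⟨j, hj, hj'⟩ := hmem
      exact i.2 (vred_col_injective hm _ hj' ▸ hj)
    · rw [Finset.image_image, Finset.image_insert]
      simp only [Function.comp_def, hnew, htimg]

end

end Vale.Agent.P067.Congr
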