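import Vale.Agent.P067.HomGroup
import Vale.Agent.P067.CongrDefs

/-!
Congruence subgroups of `SL` over `(ZMod p)[t]` for an arbitrary index type:
block subgroups and finiteness properties.
-/

namespace Vale.Agent.P067.Congr

open Polynomial Matrix Hom

noncomputable section

/-- The polynomial ring. -/
abbrev PR (p : ℕ) : Type := Polynomial (ZMod p)

/-- The ideal of the level. -/
abbrev lev (p m : ℕ) : Ideal (PR p) := Ideal.span {(X : PR p) ^ m}

/-- The finite quotient ring. -/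
abbrev AR (p m : ℕ) : Type := PR p ⧸ lev p m

/-- The reduction map. -/
abbrev red (p m : ℕ) : PR p →+* AR p m := Ideal.Quotient.mk (lev p m)

/-- `SL` for an index type. -/
abbrev SLI (p : ℕ) (ι : Type) [Fintype ι] [DecidableEq ι] : Type := Matrix.SpecialLinearGroup ι (PR p)

variable {p m : ℕ} {ι κ α β : Type} [Fintype ι] [Fintype κ] [Fintype α] [Fintype β]
  [DecidableEq ι] [DecidableEq κ] [DecidableEq α] [DecidableEq β]

variable (p) in
/-- The principal congruence subgroup. -/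
def gam (ι : Type) [Fintype ι] [DecidableEq ι] (m : ℕ) : Subgroup (SLI p ι) :=
  MonoidHom.ker (Matrix.SpecialLinearGroup.map (n := ι) (red p m))

lemma gam_normal : (gam p ι m).Normal := MonoidHom.normal_ker _

lemma mem_gam {g : SLI p ι} : g ∈ gam p ι m ↔ g.1.map (red p m) = 1 := by
  rw [gam, MonoidHom.mem_ker]
  exact Subtype.ext_iff.trans Iff.rfl

lemma gam_le_one (hm : 1 ≤ m) : gam p ι m ≤ gam p ι 1 := by
  intro g hg
  rw [mem_gam] at hg ⊢
  have hle : lev p m ≤ lev p 1 := by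
    rw [Ideal.span_singleton_le_span_singleton]
    exact pow_dvd_pow _ hm
  have := congrArg (fun M : Matrix ι ι (AR p m) => M.map (Ideal.Quotient.factor hle)) hg
  simpa [Matrix.map_map, Function.comp_def] using this

/-- Transport of indices. -/
def tr (e : κ ≃ ι) : SLI p κ →* SLI p ι where
  toFun g := ⟨Matrix.reindexAlgEquiv (PR p) (PR p) e g.1, by
    rw [Matrix.det_reindexAlgEquiv]; exact g.2⟩
  map_one' := Subtype.ext (map_one _)
  map_mul' a b := Subtype.ext (map_mul _ _ _)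

lemma tr_apply (e : κ ≃ ι) (g : SLI p κ) (i j : ι) : (tr e g).1 i j = g.1 (e.symm i) (e.symm j) :=
  rfl

lemma tr_injective (e : κ ≃ ι) : Function.Injective (tr (p := p) e) := fun a b h =>
  Subtype.ext ((Matrix.reindexAlgEquiv (PR p) (PR p) e).injective (congrArg Subtype.val h))

lemma tr_symm (e : κ ≃ ι) (g : SLI p ι) : tr e (tr e.symm g) = g :=
  Subtype.ext (Matrix.ext fun i j => by simp [tr_apply])

lemma tr_mem (e : κ ≃ ι) {g : SLI p κ} : tr e g ∈ gam p ι m ↔ g ∈ gam p κ m := by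
  simp only [mem_gam, ← Matrix.ext_iff, Matrix.map_apply, tr_apply, Matrix.one_apply]
  constructor
  · intro h i j
    simpa using h (e i) (e j)
  · intro h i j
    simpa using h (e.symm i) (e.symm j)

variable [Fact p.Prime]

lemma noTwo_gam (hp : p ≠ 2) (hm : 1 ≤ m) : NoTwo (gam p ι m) := by
  intro g hg hgg
  have h1 := mem_gam.1 (gam_le_one hm hg)
  have hgg' : g.1 * g.1 = 1 := congrArg Subtype.val hgg
  set D : Matrix ι ι (PR p) := g.1 - 1
  have hD : D * (g.1 + 1) = 0 := by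
    simp only [D, sub_mul, mul_add, hgg', mul_one, one_mul]
    abel
  have hdet : (g.1 + 1).det ≠ 0 := by
    intro h0
    have h2 := congrArg (red p 1) h0
    rw [RingHom.map_det, RingHom.mapMatrix_apply, map_zero,
      Matrix.map_add _ (fun a b => map_add _ a b), h1, Matrix.map_one _ (map_zero _) (map_one _),
      show (1 : Matrix ι ι (AR p 1)) + 1 = (2 : AR p 1) • (1 : Matrix ι ι (AR p 1)) by
        rw [two_smul],
      Matrix.det_smul, Matrix.det_one, mul_one] at h2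
    rw [← map_ofNat (red p 1) 2, ← map_pow, Ideal.Quotient.eq_zero_iff_mem,
      Ideal.mem_span_singleton, pow_one, X_dvd_iff] at h2
    rw [← map_ofNat (C : ZMod p →+* PR p) 2, ← C_pow, coeff_C_zero] at h2
    have h3 : ((2 : ℕ) : ZMod p) = 0 := by exact_mod_cast eq_zero_of_pow_eq_zero h2
    rw [ZMod.natCast_eq_zero_iff] at h3
    exact hp ((Nat.prime_dvd_prime_iff_eq (Fact.out) Nat.prime_two).1 h3)
  have h3 : (g.1 + 1).det • D = 0 := by
    have := congrArg (fun M => M * (g.1 + 1).adjugate) hD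
    simpa [Matrix.mul_assoc, Matrix.mul_adjugate] using this
  exact Subtype.ext (sub_eq_zero.1 ((smul_eq_zero.1 h3).resolve_left hdet))

lemma finite_AR (hm : 1 ≤ m) : Finite (AR p m) := by
  have : Module.Finite (ZMod p) (AR p m) := (monic_X_pow m).finite_quotient
  exact Module.finite_of_finite (ZMod p)

/-! ### Blocks -/

/-- The upper left block. -/
def blk : SLI p α →* SLI p (α ⊕ β) where
  toFun h := ⟨fromBlocks h.1 0 0 1, by rw [det_fromBlocks_zero₁₂, h.2, det_one, mul_one]⟩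
  map_one' := Subtype.ext fromBlocks_one
  map_mul' a b := Subtype.ext (by
    show fromBlocks (a * b).1 0 0 1 = fromBlocks a.1 0 0 1 * fromBlocks b.1 0 0 1
    rw [fromBlocks_multiply]
    simp)

lemma blk_val (h : SLI p α) : (blk (β := β) h).1 = fromBlocks h.1 0 0 1 := rfl

/-- Lower unipotent elements. -/
def low (c : Matrix β α (PR p)) : SLI p (α ⊕ β) :=
  ⟨fromBlocks 1 0 c 1, by rw [det_fromBlocks_zero₁₂, det_one, det_one, mul_one]⟩

/-- Upper unipotent elements. -/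
def upp (c : Matrix α β (PR p)) : SLI p (α ⊕ β) :=
  ⟨fromBlocks 1 c 0 1, by rw [det_fromBlocks_zero₂₁, det_one, det_one, mul_one]⟩

lemma low_val (c : Matrix β α (PR p)) : (low c).1 = fromBlocks 1 0 c 1 := rfl

lemma upp_val (c : Matrix α β (PR p)) : (upp c).1 = fromBlocks 1 c 0 1 := rfl

lemma low_inv (c : Matrix β α (PR p)) : (low c)⁻¹ = low (-c) :=
  inv_eq_of_mul_eq_one_left (Subtype.ext (by simp [low_val, fromBlocks_multiply]))

lemma upp_inv (c : Matrix α β (PR p)) : (upp c)⁻¹ = upp (-c) :=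
  inv_eq_of_mul_eq_one_left (Subtype.ext (by simp [upp_val, fromBlocks_multiply]))

lemma fromBlocks_inj_one {A : Matrix α α (AR p m)} {B : Matrix α β (AR p m)}
    {C : Matrix β α (AR p m)} {D : Matrix β β (AR p m)} :
    fromBlocks A B C D = 1 ↔ A = 1 ∧ B = 0 ∧ C = 0 ∧ D = 1 := by
  rw [← fromBlocks_one, fromBlocks_inj]

lemma blk_mem {h : SLI p α} : blk (β := β) h ∈ gam p (α ⊕ β) m ↔ h ∈ gam p α m := by
  rw [mem_gam, mem_gam, blk_val, fromBlocks_map, fromBlocks_inj_one]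
  simp [Matrix.map_one]

/-- Stabiliser of the last coordinate vectors. -/
def sGrp (α β : Type) [Fintype α] [Fintype β] [DecidableEq α] [DecidableEq β] (p m : ℕ) : Subgroup (SLI p (α ⊕ β)) where
  carrier := {g | g ∈ gam p (α ⊕ β) m ∧ g.1.toBlocks₁₂ = 0 ∧ g.1.toBlocks₂₂ = 1}
  one_mem' := ⟨Subgroup.one_mem _, by simp [← fromBlocks_one], by simp [← fromBlocks_one]⟩
  mul_mem' := fun {a b} ha hb => by
    refine ⟨Subgroup.mul_mem _ ha.1 hb.1, ?_⟩
    rw [Matrix.SpecialLinearGroup.coe_mul, ← fromBlocks_toBlocks a.1, ← fromBlocks_toBlocks b.1,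
      ha.2.1, hb.2.1, ha.2.2, hb.2.2, fromBlocks_multiply]
    simp
  inv_mem' := fun {a} ha => by
    refine ⟨Subgroup.inv_mem _ ha.1, ?_⟩
    have h : a.1 * (a⁻¹ : SLI p (α ⊕ β)).1 = 1 := by
      rw [← Matrix.SpecialLinearGroup.coe_mul, mul_inv_cancel, Matrix.SpecialLinearGroup.coe_one]
    rw [← fromBlocks_toBlocks a.1, ha.2.1, ha.2.2,
      ← fromBlocks_toBlocks (a⁻¹ : SLI p (α ⊕ β)).1, fromBlocks_multiply, ← fromBlocks_one,
      fromBlocks_inj] at h
    have hu : IsUnit a.1.toBlocks₁₁.det := by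
      have := a.2
      conv at this => lhs; rw [← fromBlocks_toBlocks a.1, ha.2.1, det_fromBlocks_zero₁₂,
        ha.2.2, det_one, mul_one]
      rw [this]; exact isUnit_one
    obtain ⟨-, h12, -, h22⟩ := h
    rw [Matrix.zero_mul, add_zero] at h12
    have hB : (a⁻¹ : SLI p (α ⊕ β)).1.toBlocks₁₂ = 0 := by
      have := congrArg (fun M => a.1.toBlocks₁₁⁻¹ * M) h12
      simpa [← Matrix.mul_assoc, Matrix.nonsing_inv_mul _ hu] using this
    refine ⟨hB, ?_⟩
    rw [hB, Matrix.mul_zero, Matrix.one_mul, zero_add] at h22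
    exact h22

omit [Fact p.Prime] in
lemma mem_sGrp {g : SLI p (α ⊕ β)} : g ∈ sGrp α β p m ↔
    g ∈ gam p (α ⊕ β) m ∧ g.1.toBlocks₁₂ = 0 ∧ g.1.toBlocks₂₂ = 1 := Iff.rfl

/-- The block subgroup. -/
def lGrp (α β : Type) [Fintype α] [Fintype β] [DecidableEq α] [DecidableEq β] (p m : ℕ) [Fact p.Prime] :
    Subgroup (SLI p (α ⊕ β)) := (gam p α m).map blk

/-- Lower unipotent part of the stabiliser. -/
def aLow (α β : Type) [Fintype α] [Fintype β] [DecidableEq α] [DecidableEq β] (p m : ℕ) : Subgroup (SLI p (α ⊕ β)) where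
  carrier := {g | g ∈ gam p (α ⊕ β) m ∧ ∃ c, g.1 = fromBlocks 1 0 c 1}
  one_mem' := ⟨Subgroup.one_mem _, 0, by simp⟩
  mul_mem' := fun {a b} ⟨ha, c, hc⟩ ⟨hb, d, hd⟩ => ⟨Subgroup.mul_mem _ ha hb, c + d, by
    rw [Matrix.SpecialLinearGroup.coe_mul, hc, hd, fromBlocks_multiply]; simp⟩
  inv_mem' := fun {a} ⟨ha, c, hc⟩ => ⟨Subgroup.inv_mem _ ha, -c, by
    have h : (a.1).adjugate * a.1 = 1 := by rw [Matrix.adjugate_mul, a.2, one_smul]
    rw [Matrix.SpecialLinearGroup.coe_inv]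
    calc a.1.adjugate = a.1.adjugate * (a.1 * fromBlocks 1 0 (-c) 1) := by
          rw [hc, fromBlocks_multiply]; simp
      _ = _ := by rw [← Matrix.mul_assoc, h, Matrix.one_mul]⟩

/-- Upper unipotent part. -/
def aUpp (α β : Type) [Fintype α] [Fintype β] [DecidableEq α] [DecidableEq β] (p m : ℕ) : Subgroup (SLI p (α ⊕ β)) where
  carrier := {g | g ∈ gam p (α ⊕ β) m ∧ ∃ c, g.1 = fromBlocks 1 c 0 1}
  one_mem' := ⟨Subgroup.one_mem _, 0, by simp⟩
  mul_mem' := fun {a b} ⟨ha, c, hc⟩ ⟨hb, d, hd⟩ => ⟨Subgroup.mul_mem _ ha hb, d + c, by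
    rw [Matrix.SpecialLinearGroup.coe_mul, hc, hd, fromBlocks_multiply]; simp⟩
  inv_mem' := fun {a} ⟨ha, c, hc⟩ => ⟨Subgroup.inv_mem _ ha, -c, by
    have h : (a.1).adjugate * a.1 = 1 := by rw [Matrix.adjugate_mul, a.2, one_smul]
    rw [Matrix.SpecialLinearGroup.coe_inv]
    calc a.1.adjugate = a.1.adjugate * (a.1 * fromBlocks 1 (-c) 0 1) := by
          rw [hc, fromBlocks_multiply]; simp
      _ = _ := by rw [← Matrix.mul_assoc, h, Matrix.one_mul]⟩

/-- A unipotent abelian subgroup of a congruence subgroup is locally odd. -/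
lemma locOdd_of_sq (hp : p ≠ 2) (hm : 1 ≤ m) {A : Subgroup (SLI p ι)} (hA : A ≤ gam p ι m)
    (hsq : ∀ g ∈ A, ∀ h ∈ A, (g.1 - 1) * (h.1 - 1) = 0) : LocOdd A := by
  intro s hs
  let V : Submodule (ZMod p) (Matrix ι ι (PR p)) :=
    Submodule.span (ZMod p) (s.image fun g => g.1 - 1 : Finset _)
  have hadd : ∀ g ∈ A, ∀ h ∈ A, (g * h).1 - 1 = (g.1 - 1) + (h.1 - 1) := by
    intro g hg h hh
    have h0 := hsq g hg h hh
    simp only [sub_mul, mul_sub, mul_one, one_mul] at h0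
    rw [Matrix.SpecialLinearGroup.coe_mul]
    rw [← sub_eq_zero]
    calc g.1 * h.1 - 1 - (g.1 - 1 + (h.1 - 1)) = g.1 * h.1 - h.1 - (g.1 - 1) := by abel
      _ = 0 := h0
  let F : Subgroup (SLI p ι) :=
    { carrier := {g | g ∈ A ∧ g.1 - 1 ∈ V}
      one_mem' := ⟨A.one_mem, by simp⟩
      mul_mem' := fun {a b} ha hb => ⟨A.mul_mem ha.1 hb.1, by
        rw [hadd a ha.1 b hb.1]; exact V.add_mem ha.2 hb.2⟩
      inv_mem' := fun {a} ha => ⟨A.inv_mem ha.1, by
        have h := hadd a ha.1 a⁻¹ (A.inv_mem ha.1)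
        rw [mul_inv_cancel, Matrix.SpecialLinearGroup.coe_one, sub_self] at h
        rw [eq_neg_of_add_eq_zero_right h.symm]
        exact V.neg_mem ha.2⟩ }
  have : Finite V := Module.finite_of_finite (ZMod p)
  have hfin : Finite F := Finite.of_injective (fun g : F => (⟨g.1.1 - 1, g.2.2⟩ : V))
    fun a b h => Subtype.ext (Subtype.ext (sub_left_inj.1 (congrArg Subtype.val h)))
  have : Fintype F := Fintype.ofFinite F
  refine ⟨Finset.univ.map ⟨fun g : F => g.1, Subtype.val_injective⟩, ?_, ?_, ?_, ?_, ?_, ?_⟩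
  · intro g hg
    obtain ⟨⟨x, hx⟩, -, rfl⟩ := Finset.mem_map.1 hg
    exact hx.1
  · intro g hg
    exact Finset.mem_map.2 ⟨⟨g, hs g hg, Submodule.subset_span
      (Finset.mem_coe.2 (Finset.mem_image_of_mem (fun g : SLI p ι => g.1 - 1) hg))⟩,
      Finset.mem_univ _, rfl⟩
  · exact Finset.mem_map.2 ⟨1, Finset.mem_univ _, rfl⟩
  · intro g hg h hh
    obtain ⟨x, -, rfl⟩ := Finset.mem_map.1 hg
    obtain ⟨y, -, rfl⟩ := Finset.mem_map.1 hh
    exact Finset.mem_map.2 ⟨x * y, Finset.mem_univ _, rfl⟩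
  · intro g hg
    obtain ⟨x, -, rfl⟩ := Finset.mem_map.1 hg
    exact Finset.mem_map.2 ⟨x⁻¹, Finset.mem_univ _, rfl⟩
  · rw [Finset.card_map, Finset.card_univ, ← Nat.card_eq_fintype_card]
    rcases Nat.even_or_odd (Nat.card F) with he | ho
    · exfalso
      obtain ⟨x, hx⟩ := exists_prime_orderOf_dvd_card' (G := F) 2 he.two_dvd
      have h1 : x ^ 2 = 1 := hx ▸ pow_orderOf_eq_one x
      have h2 : x = 1 := Subtype.ext (noTwo_gam hp hm x.1 (hA x.2.1) (by
        have := congrArg Subtype.val h1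
        simpa [pow_two] using this))
      rw [h2, orderOf_one] at hx
      omega
    · exact ho

lemma locOdd_aLow (hp : p ≠ 2) (hm : 1 ≤ m) : LocOdd (aLow α β p m) :=
  locOdd_of_sq hp hm (fun _ h => h.1) fun g ⟨_, c, hc⟩ h ⟨_, d, hd⟩ => by
    have e1 : g.1 - 1 = fromBlocks 0 0 c 0 := by
      rw [sub_eq_iff_eq_add, hc, ← fromBlocks_one, fromBlocks_add]; simp
    have e2 : h.1 - 1 = fromBlocks 0 0 d 0 := by
      rw [sub_eq_iff_eq_add, hd, ← fromBlocks_one, fromBlocks_add]; simp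
    rw [e1, e2, fromBlocks_multiply]
    simp

lemma locOdd_aUpp (hp : p ≠ 2) (hm : 1 ≤ m) : LocOdd (aUpp α β p m) :=
  locOdd_of_sq hp hm (fun _ h => h.1) fun g ⟨_, c, hc⟩ h ⟨_, d, hd⟩ => by
    have e1 : g.1 - 1 = fromBlocks 0 c 0 0 := by
      rw [sub_eq_iff_eq_add, hc, ← fromBlocks_one, fromBlocks_add]; simp
    have e2 : h.1 - 1 = fromBlocks 0 d 0 0 := by
      rw [sub_eq_iff_eq_add, hd, ← fromBlocks_one, fromBlocks_add]; simp
    rw [e1, e2, fromBlocks_multiply]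
    simp

/-- The retraction of the stabiliser onto the block. -/
def retr (g : SLI p (α ⊕ β)) : SLI p (α ⊕ β) :=
  if h : g.1.toBlocks₁₁.det = 1 then blk ⟨g.1.toBlocks₁₁, h⟩ else 1

lemma sGrp_eq {g : SLI p (α ⊕ β)} (hg : g ∈ sGrp α β p m) :
    ∃ a : SLI p α, a ∈ gam p α m ∧ g.1 = fromBlocks a.1 0 g.1.toBlocks₂₁ 1 ∧
      retr g = blk a := by
  have he : g.1 = fromBlocks g.1.toBlocks₁₁ 0 g.1.toBlocks₂₁ 1 := by
    conv_lhs => rw [← fromBlocks_toBlocks g.1, hg.2.1, hg.2.2]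
  have hd : g.1.toBlocks₁₁.det = 1 := by
    have := g.2
    rwa [he, det_fromBlocks_zero₁₂, det_one, mul_one] at this
  refine ⟨⟨g.1.toBlocks₁₁, hd⟩, ?_, he, dif_pos hd⟩
  have := mem_gam.1 hg.1
  rw [he, fromBlocks_map, fromBlocks_inj_one] at this
  exact mem_gam.2 this.1

lemma retr_mul {g h : SLI p (α ⊕ β)} (hg : g ∈ sGrp α β p m) (hh : h ∈ sGrp α β p m) :
    retr (g * h) = retr g * retr h := by
  obtain ⟨a, -, ha, ea⟩ := sGrp_eq hg
  obtain ⟨b, -, hb, eb⟩ := sGrp_eq hh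
  have : (g * h).1.toBlocks₁₁ = (a * b).1 := by
    rw [Matrix.SpecialLinearGroup.coe_mul, ha, hb, fromBlocks_multiply, toBlocks_fromBlocks₁₁]
    simp
  rw [ea, eb, ← map_mul, retr, dif_pos (by rw [this]; exact (a * b).2)]
  congr 1
  exact Subtype.ext this

lemma retr_mem {g : SLI p (α ⊕ β)} (hg : g ∈ sGrp α β p m) : retr g ∈ lGrp α β p m := by
  obtain ⟨a, ha, -, e⟩ := sGrp_eq hg
  exact ⟨a, ha, e.symm⟩

lemma lGrp_le : lGrp α β p m ≤ sGrp α β p m := by
  rintro _ ⟨a, ha, rfl⟩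
  exact ⟨blk_mem.2 ha, by simp [blk_val], by simp [blk_val]⟩

lemma aLow_le : aLow α β p m ≤ sGrp α β p m := by
  rintro g ⟨hg, c, hc⟩
  exact ⟨hg, by simp [hc], by simp [hc]⟩

lemma retr_div {g : SLI p (α ⊕ β)} (hg : g ∈ sGrp α β p m) :
    g * (retr g)⁻¹ ∈ aLow α β p m := by
  obtain ⟨a, ha, he, e⟩ := sGrp_eq hg
  rw [e]
  refine ⟨Subgroup.mul_mem _ hg.1 (Subgroup.inv_mem _ (blk_mem.2 ha)),
    g.1.toBlocks₂₁ * (a⁻¹ : SLI p α).1, ?_⟩
  rw [← map_inv, Matrix.SpecialLinearGroup.coe_mul, blk_val]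
  conv_lhs => rw [he, fromBlocks_multiply]
  rw [← Matrix.SpecialLinearGroup.coe_mul, mul_inv_cancel, Matrix.SpecialLinearGroup.coe_one]
  simp

lemma lGrp_norm_low {l a : SLI p (α ⊕ β)} (hl : l ∈ lGrp α β p m) (ha : a ∈ aLow α β p m) :
    l * a * l⁻¹ ∈ aLow α β p m := by
  obtain ⟨h, hh, rfl⟩ := hl
  obtain ⟨ha, c, hc⟩ := ha
  refine ⟨gam_normal.conj_mem _ ha _, c * (h⁻¹ : SLI p α).1, ?_⟩
  rw [← map_inv, Matrix.SpecialLinearGroup.coe_mul, Matrix.SpecialLinearGroup.coe_mul, hc,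
    blk_val, blk_val, fromBlocks_multiply, fromBlocks_multiply]
  simp [Matrix.mul_adjugate, Matrix.SpecialLinearGroup.det_coe]

lemma lGrp_norm_upp {l a : SLI p (α ⊕ β)} (hl : l ∈ lGrp α β p m) (ha : a ∈ aUpp α β p m) :
    l * a * l⁻¹ ∈ aUpp α β p m := by
  obtain ⟨h, hh, rfl⟩ := hl
  obtain ⟨ha, c, hc⟩ := ha
  refine ⟨gam_normal.conj_mem _ ha _, h.1 * c, ?_⟩
  rw [← map_inv, Matrix.SpecialLinearGroup.coe_mul, Matrix.SpecialLinearGroup.coe_mul, hc,
    blk_val, blk_val, fromBlocks_multiply, fromBlocks_multiply]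
  simp [Matrix.mul_adjugate, Matrix.SpecialLinearGroup.det_coe]

lemma low_comm {l : SLI p (α ⊕ β)} (hl : l ∈ lGrp α β p m) (c : Matrix β α (PR p)) :
    low c * l * (low c)⁻¹ * l⁻¹ ∈ aLow α β p m := by
  obtain ⟨h, hh, rfl⟩ := hl
  have e : (low c * blk (β := β) h * (low c)⁻¹ * (blk h)⁻¹).1
      = fromBlocks 1 0 (c - c * (h⁻¹ : SLI p α).1) 1 := by
    rw [low_inv, ← map_inv]
    simp only [Matrix.SpecialLinearGroup.coe_mul, low_val, blk_val, fromBlocks_multiply]
    simp [Matrix.add_mul, Matrix.mul_assoc, Matrix.mul_adjugate, Matrix.SpecialLinearGroup.det_coe, sub_eq_add_neg]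
  refine ⟨Subgroup.mul_mem _ (gam_normal.conj_mem _ (blk_mem.2 hh) _)
    (Subgroup.inv_mem _ (blk_mem.2 hh)), _, e⟩

lemma upp_comm {l : SLI p (α ⊕ β)} (hl : l ∈ lGrp α β p m) (c : Matrix α β (PR p)) :
    upp c * l * (upp c)⁻¹ * l⁻¹ ∈ aUpp α β p m := by
  obtain ⟨h, hh, rfl⟩ := hl
  have e : (upp c * blk (β := β) h * (upp c)⁻¹ * (blk h)⁻¹).1
      = fromBlocks 1 (c - h.1 * c) 0 1 := by
    rw [upp_inv, ← map_inv]
    simp only [Matrix.SpecialLinearGroup.coe_mul, upp_val, blk_val, fromBlocks_multiply]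
    simp [Matrix.mul_adjugate, Matrix.SpecialLinearGroup.det_coe, sub_eq_add_neg, add_comm]
  refine ⟨Subgroup.mul_mem _ (gam_normal.conj_mem _ (blk_mem.2 hh) _)
    (Subgroup.inv_mem _ (blk_mem.2 hh)), _, e⟩

/-! ### The index -/

omit [Fact p.Prime] in
lemma pow_add_one_char {S : Type} [Ring S] [CharP S p] [Fact p.Prime] (x : S) (k : ℕ) :
    (x + 1) ^ (p ^ k) = x ^ (p ^ k) + 1 := by
  rw [add_pow_char_pow_of_commute p k (Commute.one_right x), one_pow]

lemma index_odd (hp : p ≠ 2) (hm : 1 ≤ m) :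
    Finite (gam p ι 1 ⧸ (gam p ι m).subgroupOf (gam p ι 1)) ∧
      Odd (Nat.card (gam p ι 1 ⧸ (gam p ι m).subgroupOf (gam p ι 1))) := by
  have : Finite (AR p m) := finite_AR hm
  let f : gam p ι 1 →* Matrix.SpecialLinearGroup ι (AR p m) :=
    (Matrix.SpecialLinearGroup.map (red p m)).comp (gam p ι 1).subtype
  have hker : f.ker = (gam p ι m).subgroupOf (gam p ι 1) := by
    ext g
    exact Iff.rfl
  have : Finite (gam p ι 1 ⧸ f.ker) :=
    Finite.of_injective _ (QuotientGroup.kerLift_injective f)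
  rw [← hker]
  refine ⟨inferInstance, ?_⟩
  have hP : IsPGroup p (gam p ι 1 ⧸ f.ker) := by
    intro x
    obtain ⟨g, rfl⟩ := QuotientGroup.mk_surjective x
    refine ⟨m, ?_⟩
    rw [← QuotientGroup.mk_pow, QuotientGroup.eq_one_iff, hker, Subgroup.mem_subgroupOf,
      SubgroupClass.coe_pow, mem_gam, Matrix.SpecialLinearGroup.coe_pow]
    have h1 := mem_gam.1 g.2
    have hdvd : ∀ i j, ∃ d, (g.1.1 - 1) i j = X * d := by
      intro i j
      have := congrFun (congrFun h1 i) j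
      rw [Matrix.map_apply, Matrix.one_apply] at this
      have h2 : red p 1 ((g.1.1 - 1) i j) = 0 := by
        rw [Matrix.sub_apply, map_sub, this, Matrix.one_apply]
        split <;> simp
      rw [Ideal.Quotient.eq_zero_iff_mem, Ideal.mem_span_singleton, pow_one] at h2
      exact h2
    choose d hd using hdvd
    have hg : g.1.1 = (X : PR p) • Matrix.of d + 1 := by
      rw [← sub_eq_iff_eq_add]
      exact Matrix.ext fun i j => by simp [hd i j]
    rcases isEmpty_or_nonempty ι with hι | hι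
    · exact Subsingleton.elim _ _
    rw [hg, pow_add_one_char, _root_.smul_pow]
    refine Matrix.ext fun i j => ?_
    rw [Matrix.map_apply, Matrix.add_apply, Matrix.smul_apply, map_add, smul_eq_mul, map_mul]
    have hx : red p m ((X : PR p) ^ p ^ m) = 0 :=
      Ideal.Quotient.eq_zero_iff_mem.2 (Ideal.mem_span_singleton.2 (pow_dvd_pow _
        (Nat.lt_pow_self (Fact.out (p := p.Prime)).one_lt).le))
    rw [hx, zero_mul, zero_add, Matrix.one_apply, Matrix.one_apply]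
    split <;> simp
  obtain ⟨k, hk⟩ := IsPGroup.iff_card.1 hP
  rw [hk]
  exact ((Fact.out : p.Prime).odd_of_ne_two hp).pow

end

end Vale.Agent.P067.Congr
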