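import Vale.Agent.P067.ChainLemmas

/-!
Acyclicity from common cone points for boundedly many faces.
-/

namespace Vale.Agent.P067.Hom

open Classical

/-- If any boundedly many small faces have a common cone point, the complex is acyclic. -/
lemma cone_acyclic (n : ℕ) : ∃ B : ℕ, ∀ (V : Type) (K : Set (Finset V)),
    (∀ s ∈ K, ∀ t ⊆ s, t ∈ K) →
    (∀ F : Finset (Finset V), F.card ≤ B → (∀ s ∈ F, s ∈ K ∧ s.card ≤ n) →
      ∃ w, ∀ s ∈ F, w ∉ s ∧ insert w s ∈ K) →
    ∀ j, j ≤ n → AcycAt K j := by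
  obtain ⟨Mx, B0, h⟩ := contraction_of_fillAt (fun _ M => M + 1) n
  refine ⟨2 ^ ((Finset.range (n + 1)).sup Mx), fun V K hK hcone j hj => ?_⟩
  obtain ⟨c, hc⟩ := h V K hK (fun m hm z hz hz0 hv => by
    have hcard : z.support.card ≤ 2 ^ ((Finset.range (n + 1)).sup Mx) :=
      (card_support_le z).trans (Nat.pow_le_pow_right (by omega)
        (hv.trans (Finset.le_sup (Finset.mem_range.2 (by omega)))))
    have hz' := mem_chainsOf_iff.1 hz
    obtain ⟨w, hw⟩ := hcone z.support hcard (fun s hs => ⟨(hz' s hs).1, by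
      rw [(hz' s hs).2]; exact hm⟩)
    obtain ⟨h1, h2, h3⟩ := cone_fill w hz0 (fun s hs => (hz' s hs).2) (fun s hs _ => (hw s hs).2)
    refine ⟨cone w z, h1, h2, ?_⟩
    refine (Finset.card_le_card h3).trans ((Finset.card_insert_le _ _).trans ?_)
    omega)
  intro z hz hz0
  refine ⟨Finsupp.linearCombination (ZMod 2) c z, ?_, ?_⟩
  · rw [Finsupp.linearCombination_apply, Finsupp.sum]
    refine Submodule.sum_mem _ fun s hs => Submodule.smul_mem _ _ ?_
    obtain ⟨h1, h2⟩ := mem_chainsOf_iff.1 hz s hs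
    exact h2 ▸ (hc s h1 (h2 ▸ hj)).1
  · have key : bd (Finsupp.linearCombination (ZMod 2) c z) +
        Finsupp.linearCombination (ZMod 2) c (bd z) = z := by
      rw [← sum_smul_single z]
      simp only [map_sum, ← Finset.sum_add_distrib]
      refine Finset.sum_congr rfl fun s hs => ?_
      obtain ⟨h1, h2⟩ := mem_chainsOf_iff.1 hz s hs
      have e := (hc s h1 (h2 ▸ hj)).2.2
      rw [show Finsupp.single s (z s) = z s • Finsupp.single s (1 : ZMod 2) from by simp]
      simp only [map_smul, ← smul_add, Finsupp.linearCombination_single, one_smul]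
      rw [e]
    simpa [hz0] using key

end Vale.Agent.P067.Hom
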