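import Vale.Agent.P067.CongrElem
import Vale.Agent.P067.HomCone

/-!
The complex of partial bases and its quotient by a congruence subgroup.
-/

namespace Vale.Agent.P067.Congr

open Polynomial Matrix Hom

noncomputable section

variable {p m : ℕ} {ι : Type} [Fintype ι] [DecidableEq ι]

/-- Equality of vectors is decided classically, as in the definitions of chains. -/
local instance (priority := 2000) vecDecEq : DecidableEq (ι → PR p) :=
  fun a b => Classical.propDecidable (a = b)

/-- Equality of residue vectors is decided classically. -/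
local instance (priority := 2000) resDecEq : DecidableEq (ι → AR p m) :=
  fun a b => Classical.propDecidable (a = b)

lemma smul_eq (g : SLI p ι) (v : ι → PR p) : g • v = g.1 *ᵥ v := rfl

/-- A column. -/
def col (g : SLI p ι) (i : ι) : ι → PR p := g.1.col i

lemma col_apply (g : SLI p ι) (i j : ι) : col g i j = g.1 j i := rfl

lemma smul_col (g h : SLI p ι) (i : ι) : g • col h i = col (g * h) i := by
  funext j
  rw [smul_eq, col_apply, Matrix.SpecialLinearGroup.coe_mul, Matrix.mul_apply]
  rfl

lemma col_one (i : ι) : col (1 : SLI p ι) i = Pi.single i 1 := by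
  funext j
  rw [col_apply, Matrix.SpecialLinearGroup.coe_one, Matrix.one_apply, Pi.single_apply]

/-- Coordinatewise reduction of a vector. -/
def vred (p m : ℕ) (v : ι → PR p) : ι → AR p m := fun i => red p m (v i)

lemma vred_smul (g : SLI p ι) (v : ι → PR p) :
    vred p m (g • v) = (g.1.map (red p m)) *ᵥ vred p m v := by
  funext i
  exact RingHom.map_mulVec (red p m) g.1 v i

lemma vred_gam {g : SLI p ι} (hg : g ∈ gam p ι m) (v : ι → PR p) :
    vred p m (g • v) = vred p m v := by
  rw [vred_smul, mem_gam.1 hg, Matrix.one_mulVec]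

/-- The partial bases: sets of columns, not a whole basis. -/
def pb (p : ℕ) (ι : Type) [Fintype ι] [DecidableEq ι] : Set (Finset (ι → PR p)) :=
  {s | s.card < Fintype.card ι ∧ ∃ g : SLI p ι, ∀ v ∈ s, ∃ i, col g i = v}

lemma isCx_pb [Nonempty ι] : IsCx (pb p ι) :=
  ⟨⟨by simpa using Fintype.card_pos, 1, by simp⟩,
    fun _ ⟨hs, g, hg⟩ _ ht => ⟨(Finset.card_le_card ht).trans_lt hs, g, fun v hv => hg v (ht hv)⟩⟩

lemma invCx_pb (H : Subgroup (SLI p ι)) : InvCx H (pb p ι) := by
  rintro h _ s ⟨hs, g, hg⟩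
  refine ⟨Finset.card_image_le.trans_lt hs, h * g, fun v hv => ?_⟩
  obtain ⟨u, hu, rfl⟩ := Finset.mem_image.1 hv
  obtain ⟨i, rfl⟩ := hg u hu
  exact ⟨i, (smul_col h g i).symm⟩

variable [Fact p.Prime]

lemma vred_col_injective (hm : 1 ≤ m) (g : SLI p ι) :
    Function.Injective fun i => vred p m (col g i) := by
  intro i j hij
  by_contra hne
  have := isLocalRing_AR (p := p) hm
  have h0 : (g.1.map (red p m)).det = 0 :=
    Matrix.det_zero_of_column_eq hne fun k => congrFun hij k
  rw [← RingHom.mapMatrix_apply, ← RingHom.map_det, g.2, map_one] at h0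
  exact one_ne_zero h0

lemma col_injective (g : SLI p ι) : Function.Injective (col g) := fun _ _ h =>
  vred_col_injective (m := 1) le_rfl g (congrArg (vred p 1) h)

lemma pb_frame {s : Finset (ι → PR p)} (hs : s ∈ pb p ι) :
    ∃ (g : SLI p ι) (I : Finset ι), I.card = s.card ∧ I.card < Fintype.card ι ∧
      s = I.image (col g) := by
  obtain ⟨hc, g, hg⟩ := hs
  let I : Finset ι := Finset.univ.filter fun i => col g i ∈ s
  have he : s = I.image (col g) := by
    ext v
    simp only [I, Finset.mem_image, Finset.mem_filter, Finset.mem_univ, true_and]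
    constructor
    · intro hv
      obtain ⟨i, rfl⟩ := hg v hv
      exact ⟨i, hv, rfl⟩
    · rintro ⟨i, hi, rfl⟩
      exact hi
  have hcard : I.card = s.card := by
    rw [he, Finset.card_image_of_injective _ (col_injective g)]
  exact ⟨g, I, hcard, hcard ▸ hc, he⟩

lemma mem_pb (g : SLI p ι) {I : Finset ι} (hI : I.card < Fintype.card ι) :
    I.image (col g) ∈ pb p ι :=
  ⟨Finset.card_image_le.trans_lt hI, g, fun v hv => by
    obtain ⟨i, -, rfl⟩ := Finset.mem_image.1 hv; exact ⟨i, rfl⟩⟩

/-- Permute the columns, fixing the determinant at `a0`. -/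
lemma reorder (g : SLI p ι) (σ : Equiv.Perm ι) (a0 : ι) :
    ∃ g' : SLI p ι, ∀ i, i ≠ a0 → col g' i = col g (σ i) := by
  let ε : PR p := ((Equiv.Perm.sign σ : ℤ) : PR p)
  let M : Matrix ι ι (PR p) := g.1.submatrix id σ *
    Matrix.diagonal (fun i => if i = a0 then ε else 1)
  have hM : M.det = 1 := by
    rw [Matrix.det_mul, Matrix.det_permute', g.2, Matrix.det_diagonal,
      Finset.prod_eq_single a0 (fun i _ h => if_neg h) (by simp), if_pos rfl, mul_one]
    simp only [ε, ← Int.cast_mul, ← Units.val_mul, Int.units_mul_self, Units.val_one,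
      Int.cast_one]
  refine ⟨⟨M, hM⟩, fun i hi => funext fun j => ?_⟩
  show M j i = g.1 j (σ i)
  simp [M, Matrix.mul_diagonal, hi]

/-- Prescribing a block of a matrix congruent to a given one. -/
lemma lift_block (hm : 1 ≤ m) (I : Finset ι) (U : Matrix.SpecialLinearGroup ι (AR p m))
    (hU : ∀ i ∈ I, ∀ j, U.1 j i = if j = i then 1 else 0) :
    ∃ u : SLI p ι, Matrix.SpecialLinearGroup.map (red p m) u = U ∧
      ∀ i ∈ I, col u i = Pi.single i 1 := by
  let e : {i // i ∉ I} ⊕ {i // i ∈ I} ≃ ι :=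
    (Equiv.sumComm _ _).trans (Equiv.sumCompl fun i => i ∈ I)
  set B : Matrix ({i // i ∉ I} ⊕ {i // i ∈ I}) ({i // i ∉ I} ⊕ {i // i ∈ I}) (AR p m) :=
    U.1.submatrix e e with hB
  have h12 : B.toBlocks₁₂ = 0 := by
    ext x y
    simp only [hB, Matrix.toBlocks₁₂, Matrix.of_apply, Matrix.submatrix_apply, Matrix.zero_apply]
    rw [show e (Sum.inr y) = y.1 from rfl, show e (Sum.inl x) = x.1 from rfl, hU _ y.2,
      if_neg (fun h => x.2 (by rw [h]; exact y.2))]
  have h22 : B.toBlocks₂₂ = 1 := by
    ext x y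
    simp only [hB, Matrix.toBlocks₂₂, Matrix.of_apply, Matrix.submatrix_apply, Matrix.one_apply]
    rw [show e (Sum.inr y) = y.1 from rfl, show e (Sum.inr x) = x.1 from rfl, hU _ y.2]
    exact if_congr Subtype.ext_iff.symm rfl rfl
  have hBe : B = fromBlocks B.toBlocks₁₁ 0 B.toBlocks₂₁ 1 := by
    conv_lhs => rw [← fromBlocks_toBlocks B, h12, h22]
  have hd : B.toBlocks₁₁.det = 1 := by
    have : B.det = 1 := by rw [hB, Matrix.det_submatrix_equiv_self, U.2]
    rwa [hBe, det_fromBlocks_zero₁₂, det_one, mul_one] at this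
  obtain ⟨a, -, ha⟩ := red_surjective
    (⟨B.toBlocks₁₁, hd⟩ : Matrix.SpecialLinearGroup {i // i ∉ I} (AR p m)) hm
  have ha' : a.1.map (red p m) = B.toBlocks₁₁ := congrArg Subtype.val ha
  choose c hc using fun x y => Ideal.Quotient.mk_surjective (B.toBlocks₂₁ x y)
  let u0 : SLI p ({i // i ∉ I} ⊕ {i // i ∈ I}) :=
    ⟨fromBlocks a.1 0 (Matrix.of c) 1, by rw [det_fromBlocks_zero₁₂, a.2, det_one, mul_one]⟩
  refine ⟨tr e u0, Subtype.ext (Matrix.ext fun i j => ?_), fun i hi => funext fun j => ?_⟩
  · show red p m ((tr e u0).1 i j) = U.1 i j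
    have h1 : u0.1.map (red p m) = B := by
      rw [hBe]
      show (fromBlocks a.1 0 (Matrix.of c) 1).map _ = _
      rw [fromBlocks_map, ha', Matrix.map_zero _ (map_zero _),
        Matrix.map_one _ (map_zero _) (map_one _)]
      exact congrArg (fun C => fromBlocks _ 0 C 1) (Matrix.ext hc)
    have h2 := congrFun (congrFun h1 (e.symm i)) (e.symm j)
    rw [Matrix.map_apply] at h2
    rw [tr_apply, h2, hB, Matrix.submatrix_apply, e.apply_symm_apply, e.apply_symm_apply]
  · obtain ⟨x, rfl⟩ := e.surjective j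
    rw [col_apply, tr_apply, e.symm_apply_apply,
      show e.symm i = Sum.inr ⟨i, hi⟩ from e.symm_apply_eq.2 rfl, Pi.single_apply]
    rcases x with x | x
    · rw [if_neg (fun h => x.2 (by
        rw [show x.1 = i from h]; exact hi))]
      rfl
    · show (1 : Matrix {a // a ∈ I} {a // a ∈ I} (PR p)) x ⟨i, hi⟩ = _
      rw [Matrix.one_apply]
      exact if_congr Subtype.ext_iff rfl rfl

/-- Faces with equal residues are conjugate. -/
lemma same_residue (hm : 1 ≤ m) {s s' : Finset (ι → PR p)} (hs : s ∈ pb p ι) (hs' : s' ∈ pb p ι)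
    (h : s.image (vred p m) = s'.image (vred p m)) :
    ∃ γ ∈ gam p ι m, s.image (fun v => γ • v) = s' := by
  obtain ⟨g, I, -, hIlt, rfl⟩ := pb_frame hs
  obtain ⟨g', I', -, -, rfl⟩ := pb_frame hs'
  have hex : ∀ i ∈ I, ∃ k ∈ I', vred p m (col g' k) = vred p m (col g i) := by
    intro i hi
    have h1 : vred p m (col g i) ∈ (I'.image (col g')).image (vred p m) := by
      rw [← h]; exact Finset.mem_image_of_mem _ (Finset.mem_image_of_mem _ hi)
    obtain ⟨v, hv, hv'⟩ := Finset.mem_image.1 h1
    obtain ⟨k, hk, rfl⟩ := Finset.mem_image.1 hv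
    exact ⟨k, hk, hv'⟩
  choose f hf hf' using hex
  have hcard : I.card = I'.card := by
    have h1 := congrArg Finset.card h
    rwa [Finset.image_image, Finset.image_image,
      Finset.card_image_of_injective I (show Function.Injective (vred p m ∘ col g) from vred_col_injective hm g),
      Finset.card_image_of_injective I' (show Function.Injective (vred p m ∘ col g') from vred_col_injective hm g')] at h1
  have hbij : Function.Bijective (fun i : {i // i ∈ I} => Subtype.mk (p := fun x => x ∈ I') (f i.1 i.2) (hf i.1 i.2)) := by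
    refine (Fintype.bijective_iff_injective_and_card _).2 ⟨fun a b hab => ?_, by simp [hcard]⟩
    have e1 := hf' a.1 a.2
    rw [show f a.1 a.2 = f b.1 b.2 from congrArg Subtype.val hab, hf' b.1 b.2] at e1
    exact Subtype.ext (vred_col_injective hm g e1.symm)
  let E : {i // i ∈ I} ≃ {i // i ∈ I'} := Equiv.ofBijective _ hbij
  let σ : Equiv.Perm ι := E.extendSubtype
  obtain ⟨a0, ha0⟩ : ∃ a0, a0 ∉ I := by
    by_contra hne
    push Not at hne
    rw [Finset.eq_univ_iff_forall.2 hne, Finset.card_univ] at hIlt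
    omega
  obtain ⟨g2, hg2⟩ := reorder g' σ a0
  have hσ : ∀ i (hi : i ∈ I), σ i = f i hi := fun i hi =>
    Equiv.extendSubtype_apply_of_mem E i hi
  have hg2' : ∀ i (hi : i ∈ I), col g2 i = col g' (f i hi) := fun i hi => by
    rw [hg2 i (fun e => ha0 (e ▸ hi)), hσ i hi]
  obtain ⟨u, hu, hu'⟩ := lift_block hm I (Matrix.SpecialLinearGroup.map (red p m) (g⁻¹ * g2))
    (fun i hi j => by
      show red p m (col (g⁻¹ * g2) i j) = _
      rw [← smul_col]
      show vred p m (g⁻¹ • col g2 i) j = _
      rw [vred_smul, hg2' i hi, hf' i hi, ← vred_smul, smul_col, inv_mul_cancel, col_one]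
      simp [vred, Pi.single_apply, apply_ite (red p m)])
  refine ⟨g2 * u⁻¹ * g⁻¹, ?_, ?_⟩
  · rw [gam, MonoidHom.mem_ker, map_mul, map_mul, map_inv, map_inv, hu, map_mul, map_inv]
    group
  · have key : ∀ i (hi : i ∈ I), (g2 * u⁻¹ * g⁻¹) • col g i = col g' (f i hi) := by
      intro i hi
      rw [smul_col, mul_assoc, inv_mul_cancel, mul_one, ← smul_col]
      have h1 : u⁻¹ • col u i = col (1 : SLI p ι) i := by rw [smul_col, inv_mul_cancel]
      rw [hu' i hi, ← col_one, smul_col, mul_one] at h1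
      rw [h1, smul_col, mul_one, hg2' i hi]
    rw [Finset.image_image]
    ext v
    simp only [Finset.mem_image, Function.comp_apply]
    constructor
    · rintro ⟨i, hi, rfl⟩
      exact ⟨f i hi, hf i hi, (key i hi).symm⟩
    · rintro ⟨k, hk, rfl⟩
      obtain ⟨⟨i, hi⟩, he⟩ := hbij.2 ⟨k, hk⟩
      refine ⟨i, hi, ?_⟩
      rw [key i hi, show f i hi = k from congrArg Subtype.val he]

/-- Stabiliser elements fix each vertex. -/
lemma stab_fix (hm : 1 ≤ m) {s : Finset (ι → PR p)} (hs : s ∈ pb p ι) {h : SLI p ι}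
    (hh : h ∈ gam p ι m) (hfix : s.image (fun v => h • v) = s) : ∀ v ∈ s, h • v = v := by
  obtain ⟨g, I, -, -, rfl⟩ := pb_frame hs
  intro v hv
  obtain ⟨i, hi, rfl⟩ := Finset.mem_image.1 hv
  have h1 : h • col g i ∈ I.image (col g) := by
    have := Finset.mem_image_of_mem (fun v => h • v) hv
    rwa [hfix] at this
  obtain ⟨k, hk, hk'⟩ := Finset.mem_image.1 h1
  have h2 := congrArg (vred p m) hk'
  rw [vred_gam hh] at h2
  rw [← hk', vred_col_injective hm g h2]

/-- The residue complex. -/
def pbRed (p m : ℕ) (ι : Type) [Fintype ι] [DecidableEq ι] : Set (Finset (ι → AR p m)) :=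
  {t | ∃ s ∈ pb p ι, t = s.image (vred p m)}

lemma mem_pbRed {t : Finset (ι → AR p m)} :
    t ∈ pbRed p m ι ↔ ∃ s ∈ pb p ι, t = s.image (vred p m) := by
  exact Iff.rfl

lemma card_vred (hm : 1 ≤ m) {s : Finset (ι → PR p)} (hs : s ∈ pb p ι) :
    (s.image (vred p m)).card = s.card := by
  obtain ⟨g, I, hc, -, rfl⟩ := pb_frame hs
  rw [Finset.image_image, Finset.card_image_of_injective I (show Function.Injective (vred p m ∘ col g) from vred_col_injective hm g), hc]

/-- Vanishing of the coinvariant homology of the partial basis complex. -/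
lemma gac_pb_of_acyc [Nonempty ι] (hm : 1 ≤ m) {n : ℕ} (hac : AcycAt (pbRed p m ι) n) :
    GAC (gam p ι m) (pb p ι) n := by
  intro z hz hbz
  let ρ : Chain (ι → PR p) →ₗ[ZMod 2] Chain (ι → AR p m) :=
    Finsupp.lmapDomain (ZMod 2) (ZMod 2) fun s => s.image (vred p m)
  have hρ : ∀ c ∈ relI (V := ι → PR p) (gam p ι m), ρ c = 0 := by
    intro c hc
    have := relI_map (S := (⊥ : Submodule (ZMod 2) (Chain (ι → AR p m)))) (f := ρ)
      (fun g hg s => by
        simp only [ρ, Finsupp.lmapDomain_apply, Finsupp.mapDomain_single, Submodule.mem_bot]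
        have he : (fun v => vred p m (g • v)) = vred p m := funext fun v => vred_gam hg v
        rw [Finset.image_image, Function.comp_def, he]
        exact Hom.char_two _) hc
    simpa using this
  have hρbd : ∀ j, ∀ c ∈ chainsOf (pb p ι) j, ρ (bd c) = bd (ρ c) := by
    intro j c hc
    have := Hom.map_mem (S := (⊥ : Submodule (ZMod 2) (Chain (ι → AR p m))))
      (f := ρ ∘ₗ bd + bd ∘ₗ ρ) (fun s hs _ => by
        simp only [LinearMap.add_apply, LinearMap.comp_apply, Hom.bd_single, map_sum, ρ,
          Finsupp.lmapDomain_apply, Finsupp.mapDomain_single, Submodule.mem_bot]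
        obtain ⟨g, I, -, -, rfl⟩ := pb_frame hs
        rw [Finset.image_image, Finset.sum_image (fun a _ b _ h => col_injective g h),
          Finset.sum_image (f := fun v => Finsupp.single ((I.image (vred p m ∘ col g)).erase v)
            (1 : ZMod 2)) (fun a _ b _ (h : (vred p m ∘ col g) a = (vred p m ∘ col g) b) =>
              vred_col_injective hm g h),
          ← Finset.sum_add_distrib]
        refine Finset.sum_eq_zero fun i _ => ?_
        rw [← Finset.image_erase (col_injective g), Finset.image_image,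
          ← Finset.image_erase (show Function.Injective (vred p m ∘ col g) from vred_col_injective hm g)]
        exact Hom.char_two _) hc
    simpa [add_eq_zero_iff_eq_neg, Hom.neg_self] using this
  have hz' : ρ z ∈ chainsOf (pbRed p m ι) n := Hom.map_mem (fun s hs hn => by
    simp only [ρ, Finsupp.lmapDomain_apply, Finsupp.mapDomain_single]
    exact Hom.single_mem_chainsOf 1 (mem_pbRed.2 ⟨s, hs, rfl⟩) ((card_vred hm hs).trans hn)) hz
  obtain ⟨b, hb, hb'⟩ := hac _ hz' (by rw [← hρbd n z hz, hρ _ hbz])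
  let pick : Finset (ι → AR p m) → Finset (ι → PR p) := fun t =>
    Classical.epsilon fun s => s ∈ pb p ι ∧ t = s.image (vred p m)
  have hpick : ∀ t ∈ pbRed p m ι, pick t ∈ pb p ι ∧ (pick t).image (vred p m) = t := by
    intro t ht
    have h := mem_pbRed.1 ht
    obtain ⟨h1, h2⟩ := Classical.epsilon_spec
      (p := fun s => s ∈ pb p ι ∧ t = s.image (vred p m)) h
    exact ⟨h1, h2.symm⟩
  let sec : Chain (ι → AR p m) →ₗ[ZMod 2] Chain (ι → PR p) :=
    Finsupp.lmapDomain (ZMod 2) (ZMod 2) pick
  have hsec : ∀ j, ∀ c ∈ chainsOf (pbRed p m ι) j,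
      sec c ∈ chainsOf (pb p ι) j ∧ ρ (sec c) = c := by
    intro j c hc
    refine ⟨Hom.map_mem (fun t ht hn => ?_) hc, ?_⟩
    · simp only [sec, Finsupp.lmapDomain_apply, Finsupp.mapDomain_single]
      obtain ⟨h1, h2⟩ := hpick t ht
      exact Hom.single_mem_chainsOf 1 h1 (by rw [← card_vred (m := m) hm h1, h2, hn])
    · have := Hom.map_mem (S := (⊥ : Submodule (ZMod 2) (Chain (ι → AR p m))))
        (f := ρ ∘ₗ sec + LinearMap.id) (fun t ht _ => by
          simp only [LinearMap.add_apply, LinearMap.comp_apply, LinearMap.id_apply, ρ, sec,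
            Finsupp.lmapDomain_apply, Finsupp.mapDomain_single, (hpick t ht).2,
            Submodule.mem_bot]
          exact Hom.char_two _) hc
      simpa [add_eq_zero_iff_eq_neg, Hom.neg_self] using this
  obtain ⟨h1, h2⟩ := hsec _ b hb
  refine ⟨sec b, h1, ?_⟩
  have hsum : z + bd (sec b) ∈ chainsOf (pb p ι) n :=
    Submodule.add_mem _ hz (Hom.bd_mem isCx_pb h1)
  have h0 : ρ (z + bd (sec b)) = 0 := by
    rw [map_add, hρbd _ _ h1, h2, hb', Hom.char_two]
  have h3 : z + bd (sec b) + sec (ρ (z + bd (sec b))) ∈ relI (V := ι → PR p) (gam p ι m) :=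
    Hom.map_mem (f := LinearMap.id + sec ∘ₗ ρ) (fun s hs _ => by
      simp only [LinearMap.add_apply, LinearMap.comp_apply, LinearMap.id_apply, ρ, sec,
        Finsupp.lmapDomain_apply, Finsupp.mapDomain_single]
      obtain ⟨hp1, hp2⟩ := hpick _ (mem_pbRed.2 ⟨s, hs, rfl⟩)
      obtain ⟨γ, hγ, hγ'⟩ := same_residue hm hp1 hs hp2
      conv in (occs := 1) Finsupp.single s (1 : ZMod 2) => rw [← hγ']
      exact single_image_mem_relI hγ _) hsum
  rwa [h0, map_zero, add_zero] at h3

end

end Vale.Agent.P067.Congr
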