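import Vale.Agent.P067.CongrBasic

/-!
Elementary matrices generate `SL` over a local ring; surjectivity of reduction.
-/

namespace Vale.Agent.P067.Congr

open Polynomial Matrix

noncomputable section

variable {ι : Type} [Fintype ι] [DecidableEq ι] {A : Type} [CommRing A]

/-- The subgroup generated by transvections. -/
def elemGrp (ι A : Type) [Fintype ι] [DecidableEq ι] [CommRing A] :
    Subgroup (Matrix.SpecialLinearGroup ι A) :=
  Subgroup.closure {g | ∃ (i j : ι) (h : i ≠ j) (c : A),
    g = Matrix.SpecialLinearGroup.transvection h c}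

lemma transvection_mem {i j : ι} (h : i ≠ j) (c : A) :
    Matrix.SpecialLinearGroup.transvection h c ∈ elemGrp ι A :=
  Subgroup.subset_closure ⟨i, j, h, c, rfl⟩

lemma row_op {a b : ι} (h : a ≠ b) (c : A) (M : Matrix.SpecialLinearGroup ι A) (i j : ι) :
    (Matrix.SpecialLinearGroup.transvection h c * M).1 i j =
      if i = a then M.1 a j + c * M.1 b j else M.1 i j := by
  rw [Matrix.SpecialLinearGroup.coe_mul]
  change (Matrix.transvection a b c * M.1) i j = _
  by_cases hi : i = a
  · subst hi; simp
  · simp [hi]

lemma col_op {a b : ι} (h : a ≠ b) (c : A) (M : Matrix.SpecialLinearGroup ι A) (i j : ι) :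
    (M * Matrix.SpecialLinearGroup.transvection h c).1 i j =
      if j = b then M.1 i b + c * M.1 i a else M.1 i j := by
  rw [Matrix.SpecialLinearGroup.coe_mul]
  change (M.1 * Matrix.transvection a b c) i j = _
  by_cases hj : j = b
  · subst hj; simp
  · simp [hj]

/-- Trivial outside the rows and columns in `U`. -/
def TrivOutside (U : Finset ι) (M : Matrix ι ι A) : Prop :=
  ∀ i j, i ∉ U ∨ j ∉ U → M i j = if i = j then 1 else 0

lemma TrivOutside.row {U : Finset ι} {M : Matrix.SpecialLinearGroup ι A}
    (hM : TrivOutside U M.1) {a b : ι} (h : a ≠ b) (ha : a ∈ U) (hb : b ∈ U) (c : A) :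
    TrivOutside U (Matrix.SpecialLinearGroup.transvection h c * M).1 := by
  intro i j hij
  rw [row_op]
  by_cases hi : i = a
  · subst hi
    have hj : j ∉ U := hij.resolve_left (fun h => h ha)
    have h1 : b ≠ j := fun e => hj (e ▸ hb)
    rw [if_pos rfl, hM i j hij, hM b j (Or.inr hj), if_neg h1]
    simp
  · rw [if_neg hi, hM i j hij]

variable [IsLocalRing A]

lemma mem_elemGrp_of_triv : ∀ (k : ℕ) (U : Finset ι) (M : Matrix.SpecialLinearGroup ι A),
    U.card = k → TrivOutside U M.1 → M ∈ elemGrp ι A := by
  intro k
  induction k with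
  | zero =>
    intro U M hU hM
    rw [Finset.card_eq_zero] at hU
    have : M = 1 := Subtype.ext (Matrix.ext fun i j => by
      rw [hM i j (Or.inl (by simp [hU])), Matrix.SpecialLinearGroup.coe_one, Matrix.one_apply])
    exact this ▸ Subgroup.one_mem _
  | succ k ih =>
    intro U M hU hM
    obtain ⟨a, ha⟩ : U.Nonempty := Finset.card_pos.1 (by omega)
    by_cases hk : k = 0
    · have hUa : U = {a} := by
        obtain ⟨x, hx⟩ := Finset.card_eq_one.1 (by omega : U.card = 1)
        subst hx
        rw [Finset.mem_singleton.1 ha]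
      have hdiag : M.1 = Matrix.diagonal fun i => M.1 i i := Matrix.ext fun i j => by
        rw [Matrix.diagonal_apply]
        by_cases hij : i = j
        · rw [if_pos hij, hij]
        · rw [if_neg hij, hM i j ?_, if_neg hij]
          subst hUa
          simp only [Finset.mem_singleton]
          by_cases hi : i = a
          · exact Or.inr fun hj => hij (hi.trans hj.symm)
          · exact Or.inl hi
      have haa : M.1 a a = 1 := by
        have h := M.2
        rw [hdiag, Matrix.det_diagonal, Finset.prod_eq_single a] at h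
        · exact h
        · intro i _ hi
          rw [hM i i (Or.inl (by simp [hUa, hi])), if_pos rfl]
        · simp
      have : M = 1 := Subtype.ext (Matrix.ext fun i j => by
        rw [Matrix.SpecialLinearGroup.coe_one, Matrix.one_apply]
        by_cases hij : i ∉ U ∨ j ∉ U
        · exact hM i j hij
        · simp only [not_or, not_not, hUa, Finset.mem_singleton] at hij
          rw [hij.1, hij.2, if_pos rfl, haa])
      exact this ▸ Subgroup.one_mem _
    obtain ⟨c, hc, hca⟩ : ∃ c ∈ U, c ≠ a := Finset.exists_mem_ne (by omega) a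
    obtain ⟨b, hb, hbu⟩ : ∃ b ∈ U, IsUnit (M.1 b a) := by
      by_contra hne
      push Not at hne
      have hcol : ∀ i, IsLocalRing.residue A (M.1 i a) = 0 := by
        intro i
        rw [IsLocalRing.residue_eq_zero_iff, IsLocalRing.mem_maximalIdeal]
        by_cases hi : i ∈ U
        · exact hne i hi
        · rw [hM i a (Or.inl hi), if_neg (fun (h : i = a) => hi (h ▸ ha))]
          exact not_isUnit_zero
      have := Matrix.det_eq_zero_of_column_eq_zero
        (A := M.1.map (IsLocalRing.residue A)) a hcol
      rw [← RingHom.mapMatrix_apply, ← RingHom.map_det, M.2, map_one] at this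
      exact one_ne_zero this
    -- make the entry at (c, a) a unit
    obtain ⟨e1, he1, hM1, hu1⟩ : ∃ e ∈ elemGrp ι A, TrivOutside U (e * M).1 ∧
        IsUnit ((e * M).1 c a) := by
      by_cases hcu : IsUnit (M.1 c a)
      · exact ⟨1, Subgroup.one_mem _, by rw [one_mul]; exact hM, by rw [one_mul]; exact hcu⟩
      · have hbc : c ≠ b := fun e => hcu (e ▸ hbu)
        refine ⟨_, transvection_mem hbc (1 : A), hM.row hbc hc hb 1, ?_⟩
        rw [row_op, if_pos rfl, one_mul]
        by_contra hn
        rcases IsLocalRing.isUnit_or_isUnit_of_isUnit_add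
          (a := M.1 c a + M.1 b a) (b := - M.1 c a) (by simpa using hbu) with h | h
        · exact hn h
        · exact hcu (by simpa using h)
    -- make the entry at (a, a) one
    set M1 := e1 * M
    set t : A := (1 - M1.1 a a) * ↑hu1.unit⁻¹
    obtain ⟨hM2, haa⟩ : TrivOutside U (Matrix.SpecialLinearGroup.transvection hca.symm t * M1).1 ∧
        (Matrix.SpecialLinearGroup.transvection hca.symm t * M1).1 a a = 1 :=
      ⟨hM1.row hca.symm ha hc t, by
        rw [row_op, if_pos rfl, mul_assoc, IsUnit.val_inv_mul]
        ring⟩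
    set M2 := Matrix.SpecialLinearGroup.transvection hca.symm t * M1
    -- clear the column
    have clearCol : ∀ S : Finset ι, a ∉ S → S ⊆ U → ∃ e ∈ elemGrp ι A,
        TrivOutside U (e * M2).1 ∧ (e * M2).1 a a = 1 ∧ ∀ i ∈ S, (e * M2).1 i a = 0 := by
      intro S
      induction S using Finset.induction_on with
      | empty => exact fun _ _ => ⟨1, Subgroup.one_mem _, by rw [one_mul]; exact hM2,
          by rw [one_mul]; exact haa, by simp⟩
      | @insert i S hi ihS =>
        intro hS hsub
        obtain ⟨e, he, h1, h2, h3⟩ := ihS (fun h => hS (Finset.mem_insert_of_mem h))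
          ((Finset.subset_insert _ _).trans hsub)
        have hia : i ≠ a := fun h => hS (h ▸ Finset.mem_insert_self _ _)
        refine ⟨Matrix.SpecialLinearGroup.transvection hia (-(e * M2).1 i a) * e,
          Subgroup.mul_mem _ (transvection_mem _ _) he, ?_, ?_, ?_⟩
        · rw [mul_assoc]; exact h1.row hia (hsub (Finset.mem_insert_self _ _)) ha _
        · rw [mul_assoc, row_op, if_neg (Ne.symm hia), h2]
        · intro k hk
          rw [mul_assoc, row_op]
          rcases Finset.mem_insert.1 hk with rfl | hk
          · rw [if_pos rfl, h2]; ring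
          · rw [if_neg (fun h : k = i => hi (h ▸ hk)), h3 k hk]
    obtain ⟨e3, he3, hM3, haa3, hcol⟩ :=
      clearCol (U.erase a) (Finset.notMem_erase a U) (Finset.erase_subset _ _)
    set M3 := e3 * M2
    have hcol' : ∀ i, i ≠ a → M3.1 i a = 0 := by
      intro i hi
      by_cases hiU : i ∈ U
      · exact hcol i (Finset.mem_erase.2 ⟨hi, hiU⟩)
      · rw [hM3 i a (Or.inl hiU), if_neg hi]
    -- clear the row
    have clearRow : ∀ S : Finset ι, a ∉ S → ∃ e ∈ elemGrp ι A,
        TrivOutside U (M3 * e).1 ∧ (∀ i, (M3 * e).1 i a = if i = a then 1 else 0) ∧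
          ∀ j ∈ S, (M3 * e).1 a j = 0 := by
      intro S
      induction S using Finset.induction_on with
      | empty => exact fun _ => ⟨1, Subgroup.one_mem _, by rw [mul_one]; exact hM3,
          fun i => by
            rw [mul_one]
            by_cases hi : i = a
            · rw [hi, if_pos rfl]; exact haa3
            · rw [if_neg hi]; exact hcol' i hi, by simp⟩
      | @insert j S hj ihS =>
        intro hS
        obtain ⟨e, he, h1, h2, h3⟩ := ihS (fun h => hS (Finset.mem_insert_of_mem h))
        have hja : a ≠ j := fun h => hS (h ▸ Finset.mem_insert_self _ _)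
        refine ⟨e * Matrix.SpecialLinearGroup.transvection hja (-(M3 * e).1 a j),
          Subgroup.mul_mem _ he (transvection_mem _ _), ?_, ?_, ?_⟩
        · intro i k hik
          rw [← mul_assoc, col_op]
          by_cases hk : k = j
          · subst hk
            rw [if_pos rfl, h2 i, h1 i k hik]
            by_cases hia : i = a
            · subst hia
              rw [if_pos rfl, h1 i k hik]
              simp
              exact hja
            · simp [hia]
          · rw [if_neg hk, h1 i k hik]
        · intro i
          rw [← mul_assoc, col_op, if_neg hja, h2 i]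
        · intro k hk
          rw [← mul_assoc, col_op]
          rcases Finset.mem_insert.1 hk with rfl | hk
          · rw [if_pos rfl, h2 a, if_pos rfl]; ring
          · rw [if_neg (fun h : k = j => hj (h ▸ hk)), h3 k hk]
    obtain ⟨e4, he4, hM4, hc4, hr4⟩ :=
      clearRow (Finset.univ.erase a) (Finset.notMem_erase _ _)
    have hmem : M3 * e4 ∈ elemGrp ι A := by
      refine ih (U.erase a) _ (by rw [Finset.card_erase_of_mem ha, hU]; omega) ?_
      intro i j hij
      by_cases hj : j = a
      · subst hj; exact hc4 i
      by_cases hi : i = a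
      · subst hi
        rw [hr4 j (Finset.mem_erase.2 ⟨hj, Finset.mem_univ _⟩), if_neg (Ne.symm hj)]
      exact hM4 i j (by simpa [hi, hj] using hij)
    have : M = e1⁻¹ * ((Matrix.SpecialLinearGroup.transvection hca.symm t)⁻¹ *
        (e3⁻¹ * (M3 * e4 * e4⁻¹))) := by
      simp only [M3, M2, M1]
      group
    rw [this]
    exact Subgroup.mul_mem _ (Subgroup.inv_mem _ he1) (Subgroup.mul_mem _
      (Subgroup.inv_mem _ (transvection_mem _ _)) (Subgroup.mul_mem _ (Subgroup.inv_mem _ he3)
        (Subgroup.mul_mem _ hmem (Subgroup.inv_mem _ he4))))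

lemma elemGrp_eq_top : elemGrp ι A = ⊤ :=
  eq_top_iff.2 fun M _ => mem_elemGrp_of_triv _ Finset.univ M rfl
    (fun i j h => absurd h (by simp))

variable {p m : ℕ} [Fact p.Prime]

lemma isLocalRing_AR (hm : 1 ≤ m) : IsLocalRing (AR p m) := by
  have : Nontrivial (AR p m) := by
    refine Ideal.Quotient.nontrivial_iff.2 fun h => ?_
    rw [Ideal.eq_top_iff_one, Ideal.mem_span_singleton] at h
    exact Polynomial.not_isUnit_X ((isUnit_pow_iff (by omega)).1 (isUnit_of_dvd_one h))
  refine IsLocalRing.of_isUnit_or_isUnit_one_sub_self fun a => ?_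
  obtain ⟨f, rfl⟩ := Ideal.Quotient.mk_surjective a
  have key : ∀ g : PR p, g.coeff 0 ≠ 0 → IsUnit (red p m g) := by
    intro g hg
    have hsplit := congrArg (red p m) (X_mul_divX_add g).symm
    rw [map_add, map_mul, add_comm] at hsplit
    rw [hsplit]
    refine IsNilpotent.isUnit_add_left_of_commute ?_ ?_ (Commute.all _ _)
    · refine ⟨m, ?_⟩
      rw [mul_pow, ← map_pow, Ideal.Quotient.eq_zero_iff_mem.2
        (Ideal.mem_span_singleton_self _), zero_mul]
    · exact ((isUnit_C).2 (isUnit_iff_ne_zero.2 hg)).map _
  by_cases h : f.coeff 0 = 0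
  · refine Or.inr ?_
    rw [← map_one (red p m), ← map_sub]
    exact key _ (by simp [h])
  · exact Or.inl (key f h)

lemma red_surjective (g : Matrix.SpecialLinearGroup ι (AR p m)) (hm : 1 ≤ m) :
    ∃ e ∈ elemGrp ι (PR p), Matrix.SpecialLinearGroup.map (red p m) e = g := by
  have := isLocalRing_AR (p := p) hm
  have h : elemGrp ι (AR p m) ≤
      (elemGrp ι (PR p)).map (Matrix.SpecialLinearGroup.map (n := ι) (red p m)) := by
    refine (Subgroup.closure_le _).2 ?_
    rintro _ ⟨i, j, hij, c, rfl⟩
    obtain ⟨c, rfl⟩ := Ideal.Quotient.mk_surjective c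
    refine ⟨Matrix.SpecialLinearGroup.transvection hij c, transvection_mem _ _, ?_⟩
    refine Subtype.ext (Matrix.ext fun a b => ?_)
    show red p m ((Matrix.transvection i j c) a b) = Matrix.transvection i j (red p m c) a b
    simp only [Matrix.transvection, Matrix.add_apply, Matrix.one_apply, Matrix.single_apply,
      map_add, apply_ite (red p m), map_one, map_zero]
  rw [elemGrp_eq_top] at h
  obtain ⟨e, he, he'⟩ := h (Subgroup.mem_top g)
  exact ⟨e, he, he'⟩

lemma elem_sup_gam (hm : 1 ≤ m) : elemGrp ι (PR p) ⊔ gam p ι m = ⊤ := by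
  refine eq_top_iff.2 fun g _ => ?_
  obtain ⟨e, he, he'⟩ := red_surjective (Matrix.SpecialLinearGroup.map (red p m) g) hm
  rw [← mul_inv_cancel_left e g]
  refine Subgroup.mul_mem_sup he ?_
  rw [gam, MonoidHom.mem_ker, map_mul, map_inv, he', inv_mul_cancel]

end

end Vale.Agent.P067.Congr
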