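import Vale.Agent.P067.CongrAvoid
import Vale.Agent.P067.Interface

/-!
Vanishing of the mod 2 homology of congruence subgroups in a stable range.
-/

namespace Vale.Agent.P067.Congr

open Polynomial Matrix Hom

noncomputable section

variable {p m : ℕ} [Fact p.Prime]

local instance (priority := 2000) vanishVecDecEq {ι : Type} :
    DecidableEq (ι → PR p) := fun a b => Classical.propDecidable (a = b)

local instance (priority := 2000) vanishSLDecEq {ι : Type} [Fintype ι] [DecidableEq ι] :
    DecidableEq (SLI p ι) := fun a b => Classical.propDecidable (a = b)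

variable {ι κ α β : Type} [Fintype ι] [Fintype κ] [Fintype α] [Fintype β]
  [DecidableEq ι] [DecidableEq κ] [DecidableEq α] [DecidableEq β]

/-- Vanishing for an index type. -/
def Van (p m : ℕ) (ι : Type) [Fintype ι] [DecidableEq ι] (n : ℕ) : Prop :=
  GAC (V := SLI p ι) (gam p ι m) Set.univ n

/-- Moving vanishing along an injective homomorphism. -/
lemma gac_univ_hom {G G' : Type} [Group G] [Group G'] {H : Subgroup G} {H' : Subgroup G'}
    {π : G → G'} (hH : NoTwo H) (hH' : NoTwo H') (hπ : ∀ g ∈ H, π g ∈ H')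
    (hsurj : ∀ g' ∈ H', ∃ g ∈ H, π g = g')
    (hmul : ∀ g ∈ H, ∀ h ∈ H, π (g * h) = π g * π h)
    (hinj : ∀ g ∈ H, ∀ h ∈ H, π g = π h → g = h) {n : ℕ} (hn : 1 ≤ n)
    (hg : GAC (V := G) H Set.univ n) : GAC (V := G') H' Set.univ n :=
  gac_transfer_hom hπ hsurj hmul hinj hn isCx_univ isCx_univ (invCx_univ _) (invCx_univ _)
    (oddStab_univ hH) (oddStab_univ hH') (fun j _ => acycAt_univ j) (fun j _ => acycAt_univ j) hg

lemma van_iso (hp : p ≠ 2) (hm : 1 ≤ m) (e : κ ≃ ι) {n : ℕ} (hn : 1 ≤ n) (h : Van p m κ n) :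
    Van p m ι n :=
  gac_univ_hom (π := tr e) (noTwo_gam hp hm) (noTwo_gam hp hm) (fun _ hg => (tr_mem e).2 hg)
    (fun g hg => ⟨tr e.symm g, (tr_mem e.symm).2 hg, tr_symm e g⟩)
    (fun a _ b _ => map_mul _ a b) (fun _ _ _ _ h => tr_injective e h) hn h

lemma noTwo_sGrp (hp : p ≠ 2) (hm : 1 ≤ m) : NoTwo (sGrp α β p m) :=
  fun g hg => noTwo_gam hp hm g hg.1

/-- The stabiliser of the last vectors inherits vanishing from its block. -/
lemma gac_sGrp (hp : p ≠ 2) (hm : 1 ≤ m) {n : ℕ} (hn : 1 ≤ n) (h : Van p m α n) :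
    GAC (V := SLI p (α ⊕ β)) (sGrp α β p m) Set.univ n := by
  refine gac_of_bdry fun z hz hbz => ?_
  obtain ⟨y, hy, hby, hzy⟩ := retract (noTwo_sGrp hp hm) lGrp_le aLow_le (locOdd_aLow hp hm)
    (fun g hg h hh => retr_mul hg hh) (fun g hg => retr_mem hg) (fun g hg => retr_div hg)
    (fun l hl a ha => lGrp_norm_low hl ha) hn hz hbz
  have hL : GAC (V := SLI p (α ⊕ β)) (lGrp α β p m) Set.univ n :=
    gac_univ_hom (π := blk) (noTwo_gam hp hm)
      (fun g hg => noTwo_sGrp hp hm g (lGrp_le hg))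
      (fun g hg => ⟨g, hg, rfl⟩) (fun g ⟨x, hx, hx'⟩ => ⟨x, hx, hx'⟩)
      (fun a _ b _ => map_mul _ a b)
      (fun a _ b _ hab => Subtype.ext ((fromBlocks_inj.1 (congrArg Subtype.val hab)).1)) hn h
  have hy' : y ∈ bdry (sGrp α β p m) n :=
    bdry_mono lGrp_le n (mem_bdry_iff.2 (hL y hy hby))
  have := Submodule.add_mem _ hzy hy'
  rwa [add_assoc, Hom.char_two, add_zero] at this

lemma mem_sGrp_iff_cols {x : SLI p (α ⊕ β)} :
    x ∈ sGrp α β p m ↔ x ∈ gam p (α ⊕ β) m ∧ ∀ b, col x (Sum.inr b) = Pi.single (Sum.inr b) 1 := by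
  rw [mem_sGrp]
  refine and_congr_right fun _ => ⟨fun ⟨h1, h2⟩ b => funext fun k => ?_, fun h => ⟨?_, ?_⟩⟩
  · rcases k with k | k
    · have := congrFun (congrFun h1 k) b
      simpa [Matrix.toBlocks₁₂, col_apply] using this
    · have := congrFun (congrFun h2 k) b
      rw [Matrix.one_apply] at this
      simp only [Matrix.toBlocks₂₂, Matrix.of_apply] at this
      simp [col_apply, this, Pi.single_apply]
  · refine Matrix.ext fun k b => ?_
    have := congrFun (h b) (Sum.inl k)
    simpa [Matrix.toBlocks₁₂, col_apply] using this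
  · refine Matrix.ext fun k b => ?_
    have := congrFun (h b) (Sum.inr k)
    simp [Pi.single_apply, col_apply] at this
    simp [Matrix.toBlocks₂₂, Matrix.one_apply, this]

lemma smul_col_eq_iff {g h : SLI p ι} {i : ι} :
    h • col g i = col g i ↔ col (g⁻¹ * h * g) i = Pi.single i 1 := by
  rw [← col_one, ← inv_mul_cancel g, ← smul_col (g⁻¹ * h) g, ← smul_col g⁻¹ g, mul_smul]
  exact (smul_left_cancel_iff g⁻¹).symm

/-- Vanishing for the stabiliser of a face. -/
lemma gac_stab (hp : p ≠ 2) (hm : 1 ≤ m) {s : Finset (ι → PR p)} (hs : s ∈ pb p ι) {n : ℕ}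
    (hn : 1 ≤ n)
    (h : ∀ (α : Type) [Fintype α] [DecidableEq α], Fintype.card α + s.card = Fintype.card ι →
      Van p m α n) :
    GAC (V := SLI p ι) (stabF (gam p ι m) s) Set.univ n := by
  obtain ⟨g, I, hc, -, rfl⟩ := pb_frame hs
  let e : {i // i ∉ I} ⊕ {i // i ∈ I} ≃ ι :=
    (Equiv.sumComm _ _).trans (Equiv.sumCompl fun i => i ∈ I)
  have hα : Van p m {i // i ∉ I} n := h _ (by
    rw [← hc, Fintype.card_subtype_compl, Fintype.card_coe]
    have := Finset.card_le_univ I
    omega)
  have hcol : ∀ x : SLI p ({i // i ∉ I} ⊕ {i // i ∈ I}),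
      x ∈ sGrp {i // i ∉ I} {i // i ∈ I} p m ↔
        tr e x ∈ gam p ι m ∧ ∀ i ∈ I, col (tr e x) i = Pi.single i 1 := by
    intro x
    rw [mem_sGrp_iff_cols, tr_mem]
    refine and_congr_right fun _ => ⟨fun h i hi => funext fun j => ?_, fun h b => funext fun k => ?_⟩
    · rw [col_apply, tr_apply, show e.symm i = Sum.inr ⟨i, hi⟩ from e.symm_apply_eq.2 rfl]
      have := congrFun (h ⟨i, hi⟩) (e.symm j)
      rw [col_apply] at this
      rw [this, Pi.single_apply, Pi.single_apply]
      exact if_congr (by rw [e.symm_apply_eq]; exact Iff.rfl) rfl rfl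
    · have := congrFun (h b.1 b.2) (e k)
      rw [col_apply, tr_apply, e.symm_apply_apply,
        show e.symm b.1 = Sum.inr b from e.symm_apply_eq.2 rfl] at this
      rw [col_apply, this, Pi.single_apply, Pi.single_apply]
      exact if_congr ⟨fun h => e.injective (h.trans rfl), fun h => by rw [h]; rfl⟩ rfl rfl
  have hs' : ∀ y : SLI p ι, y ∈ stabF (gam p ι m) (I.image (col g)) ↔
      y ∈ gam p ι m ∧ ∀ i ∈ I, col (g⁻¹ * y * g) i = Pi.single i 1 := by
    intro y
    refine ⟨fun ⟨h1, h2⟩ => ⟨h1, fun i hi => smul_col_eq_iff.1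
      (stab_fix hm hs h1 (by convert h2) _ (Finset.mem_image_of_mem _ hi))⟩, fun ⟨h1, h2⟩ => ⟨h1, ?_⟩⟩
    have hfix : ∀ v ∈ I.image (col g), y • v = v := by
      intro v hv
      obtain ⟨i, hi, rfl⟩ := Finset.mem_image.1 hv
      exact smul_col_eq_iff.2 (h2 i hi)
    convert Finset.image_id using 1
    exact Finset.image_congr fun v hv => hfix v hv
  have hnorm : ∀ x : SLI p ι, g * x * g⁻¹ ∈ gam p ι m ↔ x ∈ gam p ι m := by
    intro x
    refine ⟨fun h => ?_, fun h => gam_normal.conj_mem _ h g⟩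
    have := gam_normal.conj_mem _ h g⁻¹
    simpa [mul_assoc] using this
  refine gac_univ_hom (H := sGrp {i // i ∉ I} {i // i ∈ I} p m)
    (H' := stabF (gam p ι m) (I.image (col g))) (π := fun x => g * tr e x * g⁻¹) (noTwo_sGrp hp hm)
    (fun y hy => noTwo_gam hp hm y hy.1) (fun x hx => (hs' _).2 ?_)
    (fun y hy => ⟨tr e.symm (g⁻¹ * y * g), (hcol _).2 ?_, ?_⟩)
    (fun a _ b _ => by simp only [map_mul]; group) (fun a _ b _ hab => ?_) hn
    (gac_sGrp hp hm hn hα)
  · obtain ⟨h1, h2⟩ := (hcol x).1 hx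
    refine ⟨(hnorm _).2 h1, fun i hi => ?_⟩
    rw [show g⁻¹ * (g * tr e x * g⁻¹) * g = tr e x by group]
    exact h2 i hi
  · obtain ⟨h1, h2⟩ := (hs' y).1 hy
    rw [tr_symm]
    refine ⟨?_, h2⟩
    have := gam_normal.conj_mem _ h1 g⁻¹
    simpa using this
  · simp only [tr_symm]
    group
  · exact tr_injective e (mul_left_cancel (mul_right_cancel hab))

/-- Block transvections generate. -/
lemma fix_top [Unique β] (hm : 1 ≤ m) {T : Subgroup (SLI p (α ⊕ β))}
    (hgam : gam p (α ⊕ β) m ≤ T) (hlow : ∀ c, low c ∈ T) (hupp : ∀ c, upp c ∈ T) : T = ⊤ := by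
  refine eq_top_iff.2 ?_
  rw [← elem_sup_gam (p := p) (ι := α ⊕ β) hm, sup_le_iff]
  refine ⟨(Subgroup.closure_le _).2 ?_, hgam⟩
  rintro _ ⟨i, j, hij, c, rfl⟩
  rcases i with a | a <;> rcases j with b | b
  · have hab : a ≠ b := fun h => hij (by rw [h])
    let x : Matrix α β (PR p) := Matrix.single a default c
    let y : Matrix β α (PR p) := Matrix.single default b 1
    have hyx : y * x = 0 := Matrix.single_mul_single_of_ne (1 : PR p) default b a hab.symm c
    have e : Matrix.SpecialLinearGroup.transvection hij c =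
        upp x * low y * (upp x)⁻¹ * (low y)⁻¹ := by
      rw [upp_inv, low_inv]
      refine Subtype.ext ?_
      simp only [Matrix.SpecialLinearGroup.coe_mul, upp_val, low_val, fromBlocks_multiply]
      have hxy : x * y = Matrix.single a b c := by simp [x, y]
      show Matrix.transvection (Sum.inl a) (Sum.inl b) c = _
      have h2 : Matrix.transvection (Sum.inl a : α ⊕ β) (Sum.inl b) c =
          fromBlocks (1 + Matrix.single a b c) 0 0 1 := by
        ext (k | k) (l | l) <;> simp [Matrix.transvection, Matrix.one_apply, Matrix.single_apply]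
      rw [h2]
      have h3 : Matrix.single a b c * Matrix.single a b c = (0 : Matrix α α (PR p)) :=
        Matrix.single_mul_single_of_ne c a b a hab.symm c
      have h4 : Matrix.single a b c * x = 0 :=
        Matrix.single_mul_single_of_ne c a b a hab.symm c
      simp [hxy, hyx, h3, h4, Matrix.mul_assoc, Matrix.add_mul]
    rw [e]
    exact T.mul_mem (T.mul_mem (T.mul_mem (hupp x) (hlow y)) (T.inv_mem (hupp x)))
      (T.inv_mem (hlow y))
  · have e : Matrix.SpecialLinearGroup.transvection hij c = upp (Matrix.single a b c) := by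
      refine Subtype.ext ?_
      show Matrix.transvection (Sum.inl a) (Sum.inr b) c = fromBlocks 1 _ 0 1
      ext (k | k) (l | l) <;> simp [Matrix.transvection, Matrix.one_apply, Matrix.single_apply]
    rw [e]; exact hupp _
  · have e : Matrix.SpecialLinearGroup.transvection hij c = low (Matrix.single a b c) := by
      refine Subtype.ext ?_
      show Matrix.transvection (Sum.inr a) (Sum.inl b) c = fromBlocks 1 0 _ 1
      ext (k | k) (l | l) <;> simp [Matrix.transvection, Matrix.one_apply, Matrix.single_apply]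
    rw [e]; exact hlow _
  · exact absurd (congrArg Sum.inr (Subsingleton.elim a b)) hij

/-- The induction step, with one index marked. -/
lemma van_step [Nonempty α] [Unique β] (hp : p ≠ 2) (hm : 1 ≤ m) {n : ℕ} (hn : 2 ≤ n)
    (hac : ∀ j, j ≤ n → AcycAt (pb p (α ⊕ β)) j)
    (hred : AcycAt (pbRed p m (α ⊕ β)) n)
    (hone : Van p 1 (α ⊕ β) n)
    (hlow : ∀ (γ : Type) [Fintype γ] [DecidableEq γ] (q : ℕ), 2 ≤ q → q ≤ n →
      Fintype.card γ + q = Fintype.card (α ⊕ β) → Van p m γ (n + 1 - q)) :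
    Van p m (α ⊕ β) n := by
  have : Nonempty (α ⊕ β) := ⟨Sum.inr default⟩
  refine gac_of_bdry fun z hz hbz => ?_
  obtain ⟨l⟩ := (inferInstance : Nonempty (α ⊕ β))
  obtain ⟨R, c, hc, hsum⟩ := stair (K := pb p (α ⊕ β)) (L := (Set.univ : Set (Finset _)))
    isCx_pb isCx_univ (invCx_pb _) (invCx_univ _) (oddStab_univ (noTwo_gam hp hm))
    (1 : SLI p (α ⊕ β)) trivial (col 1 l) ⟨by
      rw [Finset.card_singleton, Fintype.card_sum]
      have := Fintype.card_pos (α := α)
      have := Fintype.card_pos (α := β)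
      omega, 1, fun v hv => ⟨l, (Finset.mem_singleton.1 hv).symm⟩⟩
    (by omega) hac (gac_pb_of_acyc hm hred)
    (fun s hs h2 h3 => gac_stab hp hm hs (by omega) fun γ _ _ hγ => hlow γ s.card h2 h3 hγ)
    hz hbz
  -- every class is fixed by the whole group
  have hfix : ∀ σ ∈ R, ∀ h : SLI p (α ⊕ β), act h (c σ) + c σ ∈ bdry (gam p (α ⊕ β) m) n := by
    intro σ hσ
    obtain ⟨hσK, hσ1, hcm, hcb⟩ := hc σ hσ
    obtain ⟨g, I, hI, -, rfl⟩ := pb_frame hσK
    obtain ⟨i0, rfl⟩ := Finset.card_eq_one.1 (hI.trans hσ1)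
    set x := c (({i0} : Finset (α ⊕ β)).image (col g))
    rw [Finset.image_singleton] at hcb
    obtain ⟨a0⟩ := (inferInstance : Nonempty α)
    obtain ⟨g', hg'⟩ := reorder g (Equiv.swap (Sum.inr default) i0) (Sum.inl a0)
    have hv : col g' (Sum.inr default) = col g i0 := by
      rw [hg' _ (by simp), Equiv.swap_apply_left]
    rw [← hv] at hcb
    have hc' : bd (act g'⁻¹ x) ∈ relI (V := SLI p (α ⊕ β)) (sGrp α β p m) := by
      rw [bd_act]
      refine relI_map (fun h hh s => ?_) hcb
      rw [← act_single h, ← act_mul, show g'⁻¹ * h = (g'⁻¹ * h * g') * g'⁻¹ by group, act_mul]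
      refine act_add_mem_relI ?_ _
      have hfix : h • col g' (Sum.inr default) = col g' (Sum.inr default) := by
        have := hh.2
        rw [Finset.image_singleton, Finset.singleton_inj] at this
        exact this
      refine mem_sGrp_iff_cols.2 ⟨?_, fun b => ?_⟩
      · have := gam_normal.conj_mem _ hh.1 g'⁻¹
        simpa using this
      · rw [Subsingleton.elim b default]
        exact smul_col_eq_iff.1 hfix
    have hx' : act g'⁻¹ x ∈ chainsOf (Set.univ : Set (Finset (SLI p (α ⊕ β)))) n :=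
      Hom.act_mem (H := ⊤) (invCx_univ _) trivial hcm
    obtain ⟨y, hy, hby, hxy⟩ := retract (noTwo_sGrp hp hm) lGrp_le aLow_le (locOdd_aLow hp hm)
      (fun g hg h hh => retr_mul hg hh) (fun g hg => retr_mem hg) (fun g hg => retr_div hg)
      (fun l hl a ha => lGrp_norm_low hl ha) (by omega) hx' hc'
    have hLg : lGrp α β p m ≤ gam p (α ⊕ β) m := fun g hg => (lGrp_le hg).1
    have hAl : aLow α β p m ≤ gam p (α ⊕ β) m := fun g hg => hg.1
    have hAu : aUpp α β p m ≤ gam p (α ⊕ β) m := fun g hg => hg.1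
    have hSg : sGrp α β p m ≤ gam p (α ⊕ β) m := fun g hg => hg.1
    have hL2 : NoTwo (lGrp α β p m) := fun g hg => noTwo_gam hp hm g (hLg hg)
    have htop : fixGroup (gam p (α ⊕ β) m) gam_normal n y = ⊤ :=
      fix_top hm (le_fixGroup _ _ _ _)
        (fun d => mem_fixGroup.2 (conj_fix hL2 hLg hAl (locOdd_aLow hp hm)
          (fun l hl a ha => lGrp_norm_low hl ha) (fun l hl => low_comm hl d) (by omega) hy hby))
        (fun d => mem_fixGroup.2 (conj_fix hL2 hLg hAu (locOdd_aUpp hp hm)
          (fun l hl a ha => lGrp_norm_upp hl ha) (fun l hl => upp_comm hl d) (by omega) hy hby))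
    have hyfix : ∀ h : SLI p (α ⊕ β), act h y + y ∈ bdry (gam p (α ⊕ β) m) n := fun h =>
      mem_fixGroup.1 (htop ▸ Subgroup.mem_top h)
    have hconj : ∀ k : SLI p (α ⊕ β), ∀ {w}, w ∈ bdry (gam p (α ⊕ β) m) n →
        act k w ∈ bdry (gam p (α ⊕ β) m) n := fun k _ hw =>
      act_bdry (fun h hh => gam_normal.conj_mem h hh k) hw
    have hle : bdry (sGrp α β p m) n ≤ bdry (gam p (α ⊕ β) m) n :=
      bdry_mono hSg n
    have hxy' : x + y ∈ bdry (gam p (α ⊕ β) m) n := by
      have h1 := hconj g' (hle hxy)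
      rw [map_add, ← act_mul, mul_inv_cancel, act_one] at h1
      have h2 := Submodule.add_mem _ h1 (hyfix g')
      rwa [add_assoc, ← add_assoc (act g' y), Hom.char_two, zero_add] at h2
    intro h
    have h3 := Submodule.add_mem _ (Submodule.add_mem _ (hconj h hxy') hxy') (hyfix h)
    convert h3 using 1
    rw [map_add, show act h x + act h y + (x + y) + (act h y + y)
      = act h x + x + (act h y + act h y) + (y + y) by abel, Hom.char_two, Hom.char_two]
    simp
  have hzfix : ∀ h : SLI p (α ⊕ β), act h z + z ∈ bdry (gam p (α ⊕ β) m) n := by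
    intro h
    have h0 := relI_le_bdry (gam p (α ⊕ β) m) n hsum
    have h1 := act_bdry (fun k hk => gam_normal.conj_mem k hk h) h0
    have h2 := Submodule.sum_mem _ fun σ hσ => hfix σ hσ h
    have h3 := Submodule.add_mem _ (Submodule.add_mem _ h1 h0) h2
    convert h3 using 1
    rw [map_add, map_sum, Finset.sum_add_distrib]
    generalize ∑ σ ∈ R, c σ = S
    generalize ∑ σ ∈ R, act h (c σ) = S'
    rw [show act h z + S' + (z + S) + (S' + S) = act h z + z + (S' + S') + (S + S) by abel,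
      Hom.char_two, Hom.char_two]
    simp
  obtain ⟨hfin, hodd⟩ := index_odd (ι := α ⊕ β) hp hm
  exact trace_bdry gam_normal hodd
    (mem_bdry_iff.2 (hone z hz (relI_mono (gam_le_one hm) hbz))) fun h _ => hzfix h

end

end Vale.Agent.P067.Congr

namespace Vale.Agent.P067

open Congr

theorem vanishAll : VanishAll := by
  intro d
  choose Bf hBf using pb_acyclic
  refine ⟨max 2 ((Finset.range (d + 2)).sup Bf), fun p hp hBp hone => ?_⟩
  have : Fact p.Prime := ⟨hp⟩
  have hp2 : p ≠ 2 := by omega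
  have main : ∀ n, 1 ≤ n → n ≤ d + 1 → ∀ m, 1 ≤ m → ∀ (ι : Type) [Fintype ι] [DecidableEq ι],
      (2 ≤ n → d + 2 * n ≤ Fintype.card ι) → Van p m ι n := by
    intro n
    induction n using Nat.strong_induction_on with
    | _ n ih =>
      intro hn1 hn m hm ι _ _ hι
      rcases eq_or_lt_of_le hn1 with rfl | hn2
      · exact Hom.gac_one
      have hcard := hι hn2
      obtain ⟨l⟩ : Nonempty ι := Fintype.card_pos_iff.1 (by omega)
      let e : {i // i ≠ l} ⊕ {i // i = l} ≃ ι :=
        (Equiv.sumComm _ _).trans (Equiv.sumCompl fun i => i = l)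
      have hκ : Fintype.card ({i // i ≠ l} ⊕ {i // i = l}) = Fintype.card ι :=
        Fintype.card_congr e
      have : Nonempty {i // i ≠ l} := by
        obtain ⟨a, ha⟩ := Fintype.exists_ne_of_one_lt_card (by omega : 1 < Fintype.card ι) l
        exact ⟨⟨a, ha⟩⟩
      have hB : Bf n < p := lt_of_le_of_lt
        ((Finset.le_sup (Finset.mem_range.2 (by omega))).trans (le_max_right _ _)) hBp
      obtain ⟨hA, hR⟩ := hBf n p ({i // i ≠ l} ⊕ {i // i = l}) m hB (by omega) hm
      refine van_iso hp2 hm e (by omega) (van_step hp2 hm hn2 hA (hR n le_rfl) ?_ ?_)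
      · exact van_iso hp2 le_rfl ((finCongr hκ.symm).trans (Fintype.equivFin _).symm) (by omega)
          (hone (Fintype.card ι) (by omega) n hn2 hn)
      · intro γ _ _ q hq hqn hγ
        exact ih (n + 1 - q) (by omega) (by omega) (by omega) m hm γ (by omega)
  intro M hM m hm n hn hn'
  exact main n (by omega) hn' m hm (Fin M) (fun _ => by rw [Fintype.card_fin]; omega)

end Vale.Agent.P067
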