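import Vale.Agent.P067.HomBasic

/-!
Pairs of simplices of two complexes and the staircase argument.
-/

namespace Vale.Agent.P067.Hom

open Classical Finsupp

variable {V W : Type} {G : Type} [Group G] [MulAction G V] [MulAction G W]

noncomputable section

/-- Chains on pairs of simplices. -/
abbrev PChains (V W : Type) : Type := (Finset V × Finset W) →₀ ZMod 2

/-- Pairing with a fixed simplex on the left. -/
def embR (σ : Finset V) : Chain W →ₗ[ZMod 2] PChains V W :=
  lmapDomain (ZMod 2) (ZMod 2) fun s => (σ, s)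

/-- Pairing with a fixed simplex on the right. -/
def embL (s : Finset W) : Chain V →ₗ[ZMod 2] PChains V W :=
  lmapDomain (ZMod 2) (ZMod 2) fun σ => (σ, s)

/-- Boundary in the right factor. -/
def dR : PChains V W →ₗ[ZMod 2] PChains V W :=
  linearCombination (ZMod 2) fun p => embR p.1 (bd (single p.2 1))

/-- Boundary in the left factor. -/
def dL : PChains V W →ₗ[ZMod 2] PChains V W :=
  linearCombination (ZMod 2) fun p => embL p.2 (bd (single p.1 1))

/-- Exchange of the factors. -/
def swapD : PChains V W →ₗ[ZMod 2] PChains W V :=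
  lmapDomain (ZMod 2) (ZMod 2) Prod.swap

/-- The diagonal action. -/
def actD (g : G) : PChains V W →ₗ[ZMod 2] PChains V W :=
  lmapDomain (ZMod 2) (ZMod 2) fun p => (p.1.image (g • ·), p.2.image (g • ·))

/-- Relations of the diagonal action. -/
def relD (H : Subgroup G) : Submodule (ZMod 2) (PChains V W) :=
  Submodule.span (ZMod 2) {c | ∃ h ∈ H, ∃ b : PChains V W, c = actD h b + b}

/-- Pairs of faces of given sizes. -/
def pchainsOf (K : Set (Finset V)) (L : Set (Finset W)) (a b : ℕ) :
    Submodule (ZMod 2) (PChains V W) :=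
  supported (ZMod 2) (ZMod 2) {p | p.1 ∈ K ∧ p.1.card = a ∧ p.2 ∈ L ∧ p.2.card = b}

/-- Setwise stabiliser in `H` of a finite set. -/
def stabF (H : Subgroup G) (s : Finset V) : Subgroup G where
  carrier := {g | g ∈ H ∧ s.image (fun v => g • v) = s}
  one_mem' := ⟨H.one_mem, image_one s⟩
  mul_mem' := fun {a b} ha hb => ⟨H.mul_mem ha.1 hb.1, by rw [image_mul, hb.2, ha.2]⟩
  inv_mem' := fun {a} ha => ⟨H.inv_mem ha.1, by
    conv_lhs => rw [← ha.2]
    rw [← image_mul, inv_mul_cancel, image_one]⟩

lemma pext {M : Type*} [AddCommGroup M] [Module (ZMod 2) M] {f g : PChains V W →ₗ[ZMod 2] M}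
    (h : ∀ σ s, f (single (σ, s) 1) = g (single (σ, s) 1)) : f = g := by
  refine Finsupp.lhom_ext' fun p => ?_
  ext
  simpa using h p.1 p.2

lemma pmap_mem {S0 : Set (Finset V × Finset W)} {M : Type*} [AddCommGroup M] [Module (ZMod 2) M]
    {S : Submodule (ZMod 2) M} {f : PChains V W →ₗ[ZMod 2] M}
    (h : ∀ p ∈ S0, f (single p 1) ∈ S) {c : PChains V W}
    (hc : c ∈ supported (ZMod 2) (ZMod 2) S0) : f c ∈ S := by
  rw [← Finsupp.sum_single c, Finsupp.sum, map_sum]
  refine S.sum_mem fun s hs => ?_
  rw [show single s (c s) = c s • single s (1 : ZMod 2) from by simp, map_smul]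
  exact S.smul_mem _ (h s (hc hs))

lemma relD_map {H : Subgroup G} {M : Type*} [AddCommGroup M] [Module (ZMod 2) M]
    {S : Submodule (ZMod 2) M} {f : PChains V W →ₗ[ZMod 2] M}
    (h : ∀ g ∈ H, ∀ (σ : Finset V) (s : Finset W),
      f (single (σ.image (g • ·), s.image (g • ·)) 1) + f (single (σ, s) 1) ∈ S)
    {c : PChains V W} (hc : c ∈ relD H) : f c ∈ S := by
  refine (Submodule.span_le (p := S.comap f)).2 ?_ hc
  rintro _ ⟨g, hg, b, rfl⟩
  simp only [SetLike.mem_coe, Submodule.mem_comap]
  rw [← Finsupp.sum_single b, Finsupp.sum]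
  simp only [map_sum, ← Finset.sum_add_distrib]
  refine S.sum_mem fun p _ => ?_
  rw [show single p (b p) = b p • single p (1 : ZMod 2) from by simp, map_smul, ← smul_add,
    map_smul, map_add]
  simp only [actD, lmapDomain_apply, mapDomain_single]
  exact S.smul_mem _ (h g hg p.1 p.2)

lemma single_mem_relD {H : Subgroup G} {g : G} (hg : g ∈ H) (σ : Finset V) (s : Finset W) :
    single (σ.image (g • ·), s.image (g • ·)) (1 : ZMod 2) + single (σ, s) 1
      ∈ relD (V := V) (W := W) H :=
  Submodule.subset_span ⟨g, hg, single (σ, s) 1, by simp [actD]⟩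

omit [MulAction G V] [MulAction G W] in
@[simp] lemma embR_single (σ : Finset V) (s : Finset W) (a : ZMod 2) :
    embR σ (single s a) = single (σ, s) a := by simp [embR]

omit [MulAction G V] [MulAction G W] in
@[simp] lemma embL_single (σ : Finset V) (s : Finset W) (a : ZMod 2) :
    embL s (single σ a) = single (σ, s) a := by simp [embL]

@[simp] lemma dR_single (σ : Finset V) (s : Finset W) :
    dR (single (σ, s) 1) = embR σ (bd (single s 1)) := by simp [dR]

@[simp] lemma dL_single (σ : Finset V) (s : Finset W) :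
    dL (single (σ, s) 1) = embL s (bd (single σ 1)) := by simp [dL]

lemma dR_embR (σ : Finset V) (c : Chain W) : dR (embR σ c) = embR σ (bd c) := by
  have : (dR : PChains V W →ₗ[ZMod 2] PChains V W) ∘ₗ embR σ = embR σ ∘ₗ bd :=
    chain_ext fun s => by simp
  exact LinearMap.congr_fun this c

lemma dL_embL (s : Finset W) (c : Chain V) : dL (embL s c) = embL s (bd c) := by
  have : (dL : PChains V W →ₗ[ZMod 2] PChains V W) ∘ₗ embL s = embL s ∘ₗ bd :=
    chain_ext fun σ => by simp
  exact LinearMap.congr_fun this c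

lemma dR_dR (c : PChains V W) : dR (dR c) = 0 := by
  have : (dR : PChains V W →ₗ[ZMod 2] PChains V W) ∘ₗ dR = 0 :=
    pext fun σ s => by simp [dR_embR, bd_bd]
  exact LinearMap.congr_fun this c

lemma dL_dL (c : PChains V W) : dL (dL c) = 0 := by
  have : (dL : PChains V W →ₗ[ZMod 2] PChains V W) ∘ₗ dL = 0 :=
    pext fun σ s => by simp [dL_embL, bd_bd]
  exact LinearMap.congr_fun this c

lemma dR_dL (c : PChains V W) : dR (dL c) = dL (dR c) := by
  have : (dR : PChains V W →ₗ[ZMod 2] PChains V W) ∘ₗ dL = dL ∘ₗ dR := by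
    refine pext fun σ s => ?_
    simp only [LinearMap.comp_apply, dL_single, dR_single, bd_single, map_sum, embR_single,
      embL_single]
    exact Finset.sum_comm
  exact LinearMap.congr_fun this c

lemma dR_relD {H : Subgroup G} {c : PChains V W} (hc : c ∈ relD H) : dR c ∈ relD H := by
  refine relD_map (fun g hg σ s => ?_) hc
  simp only [dR_single, bd_single, map_sum, embR_single]
  rw [Finset.sum_image (fun a _ b _ h => MulAction.injective g h), ← Finset.sum_add_distrib]
  refine Submodule.sum_mem _ fun v _ => ?_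
  rw [← Finset.image_erase (MulAction.injective g)]
  exact single_mem_relD hg _ _

lemma dL_relD {H : Subgroup G} {c : PChains V W} (hc : c ∈ relD H) : dL c ∈ relD H := by
  refine relD_map (fun g hg σ s => ?_) hc
  simp only [dL_single, bd_single, map_sum, embL_single]
  rw [Finset.sum_image (fun a _ b _ h => MulAction.injective g h), ← Finset.sum_add_distrib]
  refine Submodule.sum_mem _ fun v _ => ?_
  rw [← Finset.image_erase (MulAction.injective g)]
  exact single_mem_relD hg _ _

lemma swapD_relD {H : Subgroup G} {c : PChains V W} (hc : c ∈ relD H) : swapD c ∈ relD H :=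
  relD_map (fun g hg σ s => by simpa [swapD] using single_mem_relD hg s σ) hc

lemma swapD_swapD (c : PChains V W) : swapD (swapD c) = c := by
  have : (swapD : PChains W V →ₗ[ZMod 2] PChains V W) ∘ₗ swapD = LinearMap.id :=
    pext fun σ s => by simp [swapD]
  exact LinearMap.congr_fun this c

lemma swapD_dL (c : PChains V W) : swapD (dL c) = dR (swapD c) := by
  have : (swapD : PChains V W →ₗ[ZMod 2] PChains W V) ∘ₗ dL = dR ∘ₗ swapD :=
    pext fun σ s => by simp [swapD, bd_single]
  exact LinearMap.congr_fun this c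

lemma pchains_mem {K : Set (Finset V)} {L : Set (Finset W)} {a b : ℕ} {σ : Finset V}
    {s : Finset W} (h1 : σ ∈ K) (h2 : σ.card = a) (h3 : s ∈ L) (h4 : s.card = b) :
    single (σ, s) (1 : ZMod 2) ∈ pchainsOf K L a b :=
  single_mem_supported _ _ ⟨h1, h2, h3, h4⟩

lemma dR_mem {K : Set (Finset V)} {L : Set (Finset W)} (hL : IsCx L) {a b : ℕ}
    {c : PChains V W} (hc : c ∈ pchainsOf K L a (b + 1)) : dR c ∈ pchainsOf K L a b := by
  refine pmap_mem (fun p hp => ?_) hc
  obtain ⟨σ, s⟩ := p
  simp only [dR_single, bd_single, map_sum, embR_single]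
  exact Submodule.sum_mem _ fun v hv => pchains_mem hp.1 hp.2.1
    (hL.2 s hp.2.2.1 _ (Finset.erase_subset _ _))
    (by have := hp.2.2.2; rw [Finset.card_erase_of_mem hv]; simp only at this; omega)

lemma dL_mem {K : Set (Finset V)} {L : Set (Finset W)} (hK : IsCx K) {a b : ℕ}
    {c : PChains V W} (hc : c ∈ pchainsOf K L (a + 1) b) : dL c ∈ pchainsOf K L a b := by
  refine pmap_mem (fun p hp => ?_) hc
  obtain ⟨σ, s⟩ := p
  simp only [dL_single, bd_single, map_sum, embL_single]
  exact Submodule.sum_mem _ fun v hv => pchains_mem (hK.2 σ hp.1 _ (Finset.erase_subset _ _))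
    (by have := hp.2.1; rw [Finset.card_erase_of_mem hv]; simp only at this; omega)
    hp.2.2.1 hp.2.2.2

lemma embR_relI {H : Subgroup G} {σ : Finset V} {c : Chain W}
    (hc : c ∈ relI (stabF H σ)) : embR σ c ∈ relD H :=
  relI_map (fun g hg s => by
    simp only [embR_single]
    conv in (occs := 1) σ => rw [← hg.2]
    exact single_mem_relD hg.1 σ s) hc

/-- Decomposition according to the orbits of the left factor. -/
lemma components {H : Subgroup G} {K : Set (Finset V)} {L : Set (Finset W)}
    (hK : InvCx H K) (hL : InvCx H L) {a b : ℕ} {w : PChains V W}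
    (hw : w ∈ pchainsOf K L a b) (hd : dR w ∈ relD H) :
    ∃ (R : Finset (Finset V)) (c : Finset V → Chain W),
      (∀ σ ∈ R, σ ∈ K ∧ σ.card = a ∧ c σ ∈ chainsOf L b ∧ bd (c σ) ∈ relI (stabF H σ)) ∧
      w + ∑ σ ∈ R, embR σ (c σ) ∈ relD H := by
  let st : Setoid (Finset V) :=
    { r := fun x y => ∃ g ∈ H, x.image (fun v => g • v) = y
      iseqv :=
        ⟨fun x => ⟨1, H.one_mem, image_one _⟩,
          fun {x y} ⟨g, hg, hxy⟩ => ⟨g⁻¹, H.inv_mem hg, by
            rw [← hxy, ← image_mul, inv_mul_cancel, image_one]⟩,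
          fun {x y z} ⟨g, hg, hxy⟩ ⟨h, hh, hyz⟩ => ⟨h * g, H.mul_mem hh hg, by
            rw [image_mul, hxy, hyz]⟩⟩ }
  let rep : Finset V → Finset V := fun σ => Quotient.out (Quotient.mk st σ)
  have hrep : ∀ σ, ∃ g ∈ H, (rep σ).image (fun v => g • v) = σ :=
    fun σ => Quotient.mk_out (s := st) σ
  choose g hg1 hg2 using hrep
  have rep_eq : ∀ h ∈ H, ∀ σ : Finset V, rep (σ.image fun v => h • v) = rep σ := by
    intro h hh σ
    simp only [rep]
    congr 1
    exact Quotient.sound ⟨h⁻¹, H.inv_mem hh, by rw [← image_mul, inv_mul_cancel, image_one]⟩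
  let P : Finset V → PChains V W →ₗ[ZMod 2] Chain W := fun ρ =>
    linearCombination (ZMod 2) fun p =>
      if rep p.1 = ρ then act (g p.1)⁻¹ (single p.2 1) else 0
  have hP : ∀ ρ σ s, P ρ (single (σ, s) 1) =
      if rep σ = ρ then act (g σ)⁻¹ (single s 1) else 0 := fun ρ σ s => by simp [P]
  have hPd : ∀ ρ (c : PChains V W), P ρ (dR c) = bd (P ρ c) := by
    intro ρ c
    have : P ρ ∘ₗ dR = bd ∘ₗ P ρ := by
      refine pext fun σ s => ?_
      simp only [LinearMap.comp_apply, dR_single, hP, bd_single, map_sum, embR_single]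
      by_cases h : rep σ = ρ
      · simp only [if_pos h]
        rw [bd_act, bd_single, map_sum]
      · simp [h]
    exact LinearMap.congr_fun this c
  have hPr : ∀ ρ (c : PChains V W), c ∈ relD H → P ρ c ∈ relI (stabF H ρ) := by
    intro ρ c hc
    refine relD_map (fun h hh σ s => ?_) hc
    rw [hP, hP, rep_eq h hh σ]
    by_cases hσ : rep σ = ρ
    · simp only [if_pos hσ]
      set σ' := σ.image (fun v => h • v)
      have hm : (g σ')⁻¹ * h * g σ ∈ stabF H ρ := by
        refine ⟨H.mul_mem (H.mul_mem (H.inv_mem (hg1 _)) hh) (hg1 _), ?_⟩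
        have e1 := hg2 σ
        have e2 := hg2 σ'
        rw [hσ] at e1
        rw [rep_eq h hh σ, hσ] at e2
        rw [image_mul, image_mul, e1]
        conv_lhs => arg 2; rw [show σ.image (fun v => h • v) = σ' from rfl, ← e2]
        rw [← image_mul, inv_mul_cancel, image_one]
      have h2 := act_add_mem_relI (V := W) hm (act (g σ)⁻¹ (single s 1))
      rw [← act_mul, mul_inv_cancel_right, act_mul] at h2
      rwa [act_single] at h2
    · simp [hσ]
  refine ⟨w.support.image fun p => rep p.1, fun ρ => P ρ w, ?_, ?_⟩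
  · intro ρ hρ
    obtain ⟨p, hp, rfl⟩ := Finset.mem_image.1 hρ
    obtain ⟨h1, h2, -, -⟩ := hw hp
    have e := hg2 p.1
    have e' : p.1.image (fun v => (g p.1)⁻¹ • v) = rep p.1 := by
      conv_lhs => arg 2; rw [← e]
      rw [← image_mul, inv_mul_cancel, image_one]
    refine ⟨e' ▸ hK _ (H.inv_mem (hg1 _)) _ h1,
      by rw [← e', Finset.card_image_of_injective _ (MulAction.injective _), h2], ?_,
      by rw [← hPd]; exact hPr _ _ hd⟩
    refine pmap_mem (fun q hq => ?_) hw
    obtain ⟨σ, s⟩ := q
    rw [hP]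
    split
    · exact act_mem hL (H.inv_mem (hg1 _)) (single_mem_chainsOf 1 hq.2.2.1 hq.2.2.2)
    · exact Submodule.zero_mem _
  · set R := w.support.image fun p => rep p.1 with hR
    have hmem : w ∈ supported (ZMod 2) (ZMod 2) (↑w.support : Set (Finset V × Finset W)) :=
      (Finsupp.mem_supported _ _).2 subset_rfl
    have := pmap_mem (S := relD (V := V) (W := W) H)
      (f := LinearMap.id + ∑ ρ ∈ R, embR ρ ∘ₗ P ρ) (fun p hp => ?_) hmem
    · simpa using this
    · obtain ⟨σ, s⟩ := p
      simp only [LinearMap.add_apply, LinearMap.id_apply, LinearMap.coe_sum, Finset.sum_apply,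
        LinearMap.comp_apply, hP, apply_ite, map_zero, act_single, embR_single]
      rw [Finset.sum_ite_eq, if_pos (Finset.mem_image_of_mem (fun p => rep p.1) hp)]
      have h3 := single_mem_relD (H := H) (hg1 σ) (rep σ) (s.image fun x => (g σ)⁻¹ • x)
      rw [hg2 σ, ← image_mul, mul_inv_cancel, image_one] at h3
      exact h3

/-- The rows are exact when the stabilisers on the right are finite of odd order. -/
lemma row_exact {H : Subgroup G} {K : Set (Finset V)} {L : Set (Finset W)}
    (hKi : InvCx H K) (hLi : InvCx H L) (hLo : OddStab H L) {a b : ℕ}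
    (hb : 1 ≤ b) (hKa : AcycAt K a) {w : PChains V W} (hw : w ∈ pchainsOf K L a b)
    (hd : dL w ∈ relD H) : ∃ y ∈ pchainsOf K L (a + 1) b, w + dL y ∈ relD H := by
  have hw' : swapD w ∈ pchainsOf L K b a := by
    refine pmap_mem (fun p hp => ?_) hw
    simp only [swapD, lmapDomain_apply, mapDomain_single]
    exact pchains_mem hp.2.2.1 hp.2.2.2 hp.1 hp.2.1
  obtain ⟨R, c, hc, hsum⟩ := components hLi hKi hw' (swapD_dL w ▸ swapD_relD hd)
  have key : ∀ s ∈ R, ∃ y ∈ chainsOf K (a + 1), c s + bd y ∈ relI (stabF H s) := by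
    intro s hs
    obtain ⟨h1, h2, h3, h4⟩ := hc s hs
    obtain ⟨hfin, hodd⟩ := hLo s h1 (Finset.card_pos.1 (by omega))
    rw [Nat.card_eq_card_finite_toFinset hfin] at hodd
    have hmem : ∀ {g}, g ∈ hfin.toFinset ↔ g ∈ stabF H s := by
      intro g
      rw [Set.Finite.mem_toFinset]
      exact Iff.rfl
    set av : Chain V →ₗ[ZMod 2] Chain V := ∑ g ∈ hfin.toFinset, act g with hav
    have hkill : ∀ x ∈ relI (V := V) (stabF H s), av x = 0 := by
      intro x hx
      have := relI_map (S := (⊥ : Submodule (ZMod 2) (Chain V))) (f := av)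
        (fun k hk t => by
          simp only [hav, LinearMap.coe_sum, Finset.sum_apply, Submodule.mem_bot]
          rw [← act_single]
          simp only [← act_mul]
          rw [Finset.sum_nbij' (t := hfin.toFinset) (g := fun g => act g (single t 1))
            (fun g => g * k) (fun g => g * k⁻¹)
            (fun g hg => hmem.2 (mul_mem (hmem.1 hg) hk))
            (fun g hg => hmem.2 (mul_mem (hmem.1 hg) (inv_mem hk)))
            (fun g _ => by simp) (fun g _ => by simp) (fun g _ => rfl), char_two]) hx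
      simpa using this
    have hb0 : bd (av (c s)) = 0 := by
      have := hkill _ h4
      rw [hav] at this ⊢
      simpa [LinearMap.coe_sum, Finset.sum_apply, map_sum, bd_act] using this
    have hav_mem : av (c s) ∈ chainsOf K a := by
      simp only [hav, LinearMap.coe_sum, Finset.sum_apply]
      exact Submodule.sum_mem _ fun g hg => act_mem hKi (hmem.1 hg).1 h3
    obtain ⟨y, hy1, hy2⟩ := hKa _ hav_mem hb0
    refine ⟨y, hy1, ?_⟩
    rw [hy2, hav]
    simp only [LinearMap.coe_sum, Finset.sum_apply]
    conv in c s + _ => arg 1; rw [← sum_odd hodd (c s)]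
    rw [← Finset.sum_add_distrib]
    refine Submodule.sum_mem _ fun g hg => ?_
    rw [add_comm]
    exact act_add_mem_relI (hmem.1 hg) _
  choose! y hy1 hy2 using key
  refine ⟨swapD (∑ s ∈ R, embR s (y s)), ?_, ?_⟩
  · rw [map_sum]
    refine Submodule.sum_mem _ fun s hs => ?_
    obtain ⟨h1, h2, -, -⟩ := hc s hs
    refine Hom.map_mem (f := swapD ∘ₗ embR s) (fun t ht he => ?_) (hy1 s hs)
    simp only [LinearMap.comp_apply, embR_single, swapD, lmapDomain_apply, mapDomain_single]
    exact pchains_mem ht he h1 h2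
  · have h1 : swapD (w + dL (swapD (∑ s ∈ R, embR s (y s)))) ∈ relD (V := W) (W := V) H := by
      rw [map_add, swapD_dL, swapD_swapD, map_sum]
      simp only [dR_embR]
      have h2 : ∑ s ∈ R, embR s (c s) + ∑ s ∈ R, embR s (bd (y s))
          ∈ relD (V := W) (W := V) H := by
        rw [← Finset.sum_add_distrib]
        exact Submodule.sum_mem _ fun s hs => by
          rw [← map_add]; exact embR_relI (hy2 s hs)
      have h3 := Submodule.add_mem _ hsum h2
      convert h3 using 1
      rw [add_assoc, ← add_assoc (∑ s ∈ R, embR s (c s)), char_two, zero_add]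
    simpa [swapD_swapD] using swapD_relD h1

/-- The staircase. -/
lemma stair {H : Subgroup G} {K : Set (Finset V)} {L : Set (Finset W)}
    (hK : IsCx K) (hL : IsCx L) (hKi : InvCx H K) (hLi : InvCx H L) (hLo : OddStab H L)
    (w0 : W) (hw0 : {w0} ∈ L) (v0 : V) (hv0 : {v0} ∈ K) {n : ℕ} (hn : 1 ≤ n)
    (hKa : ∀ a, a ≤ n → AcycAt K a) (hKg : GAC H K n)
    (hst : ∀ σ ∈ K, 2 ≤ σ.card → σ.card ≤ n → GAC (stabF H σ) L (n + 1 - σ.card))
    {z : Chain W} (hz : z ∈ chainsOf L n) (hbz : bd z ∈ relI H) :
    ∃ (R : Finset (Finset V)) (c : Finset V → Chain W),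
      (∀ σ ∈ R, σ ∈ K ∧ σ.card = 1 ∧ c σ ∈ chainsOf L n ∧ bd (c σ) ∈ relI (stabF H σ)) ∧
      z + ∑ σ ∈ R, c σ ∈ relI H := by
  have down : ∀ b, ∀ q, q + b = n → ∀ w ∈ pchainsOf K L (q + 1) (b), 1 ≤ b →
      dR (dL w) ∈ relD H → ∃ w' ∈ pchainsOf K L (q + 1) b,
        dL w' + dL w ∈ relD H ∧ dR w' ∈ relD H := by
    intro b
    induction b with
    | zero => intro q _ w _ h; omega
    | succ b ih =>
      intro q hq w hw _ hd
      have hdw : dR w ∈ pchainsOf K L (q + 1) b := dR_mem hL hw
      have hld : dL (dR w) ∈ relD H := by rw [← dR_dL]; exact hd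
      have fin : ∀ x ∈ pchainsOf K L (q + 2) (b + 1), dR w + dL (dR x) ∈ relD H →
          ∃ w' ∈ pchainsOf K L (q + 1) (b + 1), dL w' + dL w ∈ relD H ∧ dR w' ∈ relD H := by
        intro x hx hx'
        refine ⟨w + dL x, Submodule.add_mem _ hw (dL_mem hK hx), ?_, ?_⟩
        · rw [map_add, dL_dL, add_zero, char_two]
          exact Submodule.zero_mem _
        · rwa [map_add, dR_dL]
      rcases Nat.eq_zero_or_pos b with rfl | hb
      · let pr : PChains V W →ₗ[ZMod 2] Chain V :=
          linearCombination (ZMod 2) fun p => single p.1 1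
        have hpr : dR w = embL ∅ (pr (dR w)) := by
          have h0 := pmap_mem (S := (⊥ : Submodule (ZMod 2) (PChains V W)))
            (f := LinearMap.id + embL ∅ ∘ₗ pr) (fun p hp => by
              obtain ⟨σ, s⟩ := p
              have : s = ∅ := Finset.card_eq_zero.1 hp.2.2.2
              subst this
              simp [pr, char_two]) hdw
          simpa [add_eq_zero_iff_eq_neg, neg_self] using h0
        have hκ : pr (dR w) ∈ chainsOf K (q + 1) := pmap_mem (fun p hp => by
          simp only [pr, linearCombination_single, one_smul]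
          exact single_mem_chainsOf 1 hp.1 hp.2.1) hdw
        have hκb : bd (pr (dR w)) ∈ relI (V := V) H := by
          rw [hpr, dL_embL] at hld
          have h1 := relD_map (S := relI (V := V) H) (f := pr)
            (fun g hg σ s => by simpa [pr] using single_image_mem_relI hg σ) hld
          have h2 : pr ∘ₗ embL ∅ = LinearMap.id := chain_ext fun σ => by simp [pr]
          rwa [show pr (embL ∅ (bd (pr (dR w)))) = bd (pr (dR w)) from
            LinearMap.congr_fun h2 _] at h1
        have hn' : n = q + 1 := by omega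
        obtain ⟨l, hl, hl'⟩ := hKg _ (hn' ▸ hκ) hκb
        refine fin (embL {w0} l) ?_ ?_
        · refine Hom.map_mem (fun σ hσ he => ?_) hl
          rw [embL_single]
          exact pchains_mem hσ (he.trans (by omega)) hw0 (Finset.card_singleton w0)
        · have e : dR (embL {w0} l) = embL ∅ l := by
            have : (dR : PChains V W →ₗ[ZMod 2] PChains V W) ∘ₗ embL {w0} = embL ∅ :=
              chain_ext fun σ => by simp [bd_single]
            exact LinearMap.congr_fun this l
          rw [e, dL_embL, hpr, ← map_add]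
          exact relI_map (f := embL ∅) (fun g hg σ => by
            simpa using single_mem_relD hg σ (∅ : Finset W)) hl'
      · obtain ⟨w2, hw2, hw2'⟩ := row_exact hKi hLi hLo hb (hKa (q + 1) (by omega)) hdw hld
        have hd2 : dR (dL w2) ∈ relD H := by
          have := dR_relD hw2'
          rwa [map_add, dR_dR, zero_add] at this
        obtain ⟨w3, hw3, h3a, h3b⟩ := ih (q + 1) (by omega) w2 hw2 hb hd2
        obtain ⟨R, c, hc, hsum⟩ := components hKi hLi hw3 h3b
        have key : ∀ σ ∈ R, ∃ y ∈ chainsOf L (b + 1), c σ + bd y ∈ relI (stabF H σ) := by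
          intro σ hσ
          obtain ⟨h1, h2, h3, h4⟩ := hc σ hσ
          have hg := hst σ h1 (by omega) (by omega)
          rw [show n + 1 - σ.card = b by omega] at hg
          exact hg _ h3 h4
        choose! y hy1 hy2 using key
        refine fin (∑ σ ∈ R, embR σ (y σ)) (Submodule.sum_mem _ fun σ hσ => ?_) ?_
        · obtain ⟨h1, h2, -, -⟩ := hc σ hσ
          exact Hom.map_mem (fun s hs he => by
            rw [embR_single]; exact pchains_mem h1 h2 hs he) (hy1 σ hσ)
        · have e1 : ∑ σ ∈ R, embR σ (c σ) + ∑ σ ∈ R, embR σ (bd (y σ)) ∈ relD H := by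
            rw [← Finset.sum_add_distrib]
            exact Submodule.sum_mem _ fun σ hσ => by
              rw [← map_add]; exact embR_relI (hy2 σ hσ)
          have e2 := dL_relD (Submodule.add_mem _ hsum e1)
          have e3 := Submodule.add_mem _ (Submodule.add_mem _ hw2' h3a) e2
          convert e3 using 1
          rw [map_sum dR]
          simp only [dR_embR, map_add]
          generalize dR w = A
          generalize dL w2 = B
          generalize dL w3 = C
          generalize dL (∑ σ ∈ R, embR σ (c σ)) = D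
          generalize dL (∑ σ ∈ R, embR σ (bd (y σ))) = E
          rw [show A + B + (C + B) + (C + D + (D + E)) = A + E + (B + B) + (C + C) + (D + D)
            by abel, char_two, char_two, char_two]
          simp
  let w : PChains V W := embR {v0} z
  have hw : w ∈ pchainsOf K L 1 n := Hom.map_mem (fun s hs he => by
    rw [embR_single]; exact pchains_mem hv0 (Finset.card_singleton v0) hs he) hz
  have hLw : dL w = embR ∅ z := by
    have : (dL : PChains V W →ₗ[ZMod 2] PChains V W) ∘ₗ embR {v0} = embR ∅ :=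
      chain_ext fun s => by simp [bd_single]
    exact LinearMap.congr_fun this z
  obtain ⟨w', hw', h1, h2⟩ := down n 0 (by omega) w hw hn (by
    rw [hLw, dR_embR]
    exact relI_map (f := embR ∅) (fun g hg s => by
      simpa using single_mem_relD hg (∅ : Finset V) s) hbz)
  obtain ⟨R, c, hc, hsum⟩ := components hKi hLi hw' h2
  refine ⟨R, c, hc, ?_⟩
  let pr : PChains V W →ₗ[ZMod 2] Chain W := linearCombination (ZMod 2) fun p => single p.2 1
  have hp : ∀ {x : PChains V W}, x ∈ relD H → pr x ∈ relI (V := W) H := fun hx =>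
    relD_map (fun g hg σ s => by simpa [pr] using single_image_mem_relI hg s) hx
  have h3 := Submodule.add_mem _ (hp h1) (hp (dL_relD hsum))
  have e0 : pr (embR ∅ z) = z := by
    have : pr ∘ₗ embR ∅ = LinearMap.id := chain_ext fun s => by simp [pr]
    exact LinearMap.congr_fun this z
  have e : ∀ σ ∈ R, pr (dL (embR σ (c σ))) = c σ := by
    intro σ hσ
    obtain ⟨v, rfl⟩ := Finset.card_eq_one.1 (hc σ hσ).2.1
    have : pr ∘ₗ (dL : PChains V W →ₗ[ZMod 2] PChains V W) ∘ₗ embR {v} = LinearMap.id :=
      chain_ext fun s => by simp [pr, bd_single]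
    exact LinearMap.congr_fun this _
  rw [map_add, map_add, hLw, e0, map_add, map_sum, map_sum, Finset.sum_congr rfl e] at h3
  convert h3 using 1
  rw [show pr (dL w') + z + (pr (dL w') + ∑ σ ∈ R, c σ)
    = z + ∑ σ ∈ R, c σ + (pr (dL w') + pr (dL w')) by abel, char_two, add_zero]

end

end Vale.Agent.P067.Hom
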