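import Vale.Agent.P067.HomTransfer
import Vale.Agent.P067.ChainLemmas
import Vale.Agent.P067.HomStair

/-!
Group-theoretic tools for mod 2 homology computed on the full simplex over the group:
locally odd normal parts are invisible, and the transfer argument for odd index.
-/

namespace Vale.Agent.P067.Hom

open Classical Finsupp

noncomputable section

/-- No elements of order two. -/
def NoTwo {G : Type} [Group G] (H : Subgroup G) : Prop := ∀ g ∈ H, g * g = 1 → g = 1

/-- Every finite subset lies in a finite subgroup of odd order. -/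
def LocOdd {G : Type} [Group G] (A : Subgroup G) : Prop :=
  ∀ s : Finset G, (∀ g ∈ s, g ∈ A) →
    ∃ F : Finset G, (∀ g ∈ F, g ∈ A) ∧ s ⊆ F ∧ (1 : G) ∈ F ∧
      (∀ g ∈ F, ∀ h ∈ F, g * h ∈ F) ∧ (∀ g ∈ F, g⁻¹ ∈ F) ∧ Odd F.card

lemma acycAt_univ {V : Type} [Nonempty V] (n : ℕ) : AcycAt (Set.univ : Set (Finset V)) n := by
  intro z hz hb
  obtain ⟨v0⟩ := (inferInstance : Nonempty V)
  refine ⟨cone v0 z, ?_, bd_cone_of_cycle v0 hb⟩
  exact (cone_fill (K := Set.univ) v0 hb (fun s hs => (mem_chainsOf.1 hz s hs).2)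
    (fun _ _ _ => trivial)).1

variable {G : Type} [Group G]

lemma oddStab_univ {H : Subgroup G} (hH : NoTwo H) :
    OddStab (V := G) H (Set.univ : Set (Finset G)) := by
  intro s _ hne
  obtain ⟨v0, hv0⟩ := hne
  let St := stabF (V := G) H s
  have hinj : ∀ g : St, g.1 * v0 ∈ s := fun g => by
    have h : g.1 * v0 ∈ s.image (fun v => g.1 • v) := Finset.mem_image.2 ⟨v0, hv0, rfl⟩
    rwa [g.2.2] at h
  have hfin : Finite St := Finite.of_injective
    (fun g : St => (⟨g.1 * v0, hinj g⟩ : {x // x ∈ s})) fun a b h => by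
      simpa using congrArg Subtype.val h
  refine ⟨(Set.finite_coe_iff.1 hfin : (St : Set G).Finite), ?_⟩
  rcases Nat.even_or_odd (Nat.card St) with he | ho
  · exfalso
    obtain ⟨x, hx⟩ := exists_prime_orderOf_dvd_card' (G := St) 2 he.two_dvd
    have h1 : x ^ 2 = 1 := hx ▸ pow_orderOf_eq_one x
    have h2 : x = 1 := Subtype.ext (hH x.1 x.2.1 (by
      have := congrArg Subtype.val h1
      simpa [pow_two] using this))
    rw [h2, orderOf_one] at hx
    omega
  · exact ho

lemma gac_one {H : Subgroup G} : GAC (V := G) H Set.univ 1 := by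
  intro z hz hbz
  refine ⟨cone (1 : G) z, ?_, ?_⟩
  · refine mem_chainsOf.2 fun u hu => ⟨trivial, ?_⟩
    obtain ⟨s, hs, hx, rfl⟩ := cone_support (1 : G) z hu
    rw [Finset.card_insert_of_notMem hx, (mem_chainsOf.1 hz s hs).2]
  · have hbd : bd z = 0 := by
      have hcx : bd z ∈ chainsOf (Set.univ : Set (Finset G)) 0 := bd_mem isCx_univ hz
      let f : Chain G →ₗ[ZMod 2] Chain G :=
        linearCombination (ZMod 2) fun s => if s = ∅ then single ∅ 1 else 0
      have h1 : f (bd z) = 0 := by
        have := relI_map (S := (⊥ : Submodule (ZMod 2) (Chain G))) (f := f)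
          (fun g _ s => by
            simp only [f, linearCombination_single, one_smul, Submodule.mem_bot,
              Finset.image_eq_empty]
            exact Hom.char_two _) hbz
        simpa using this
      have h2 := Hom.map_mem (S := (⊥ : Submodule (ZMod 2) (Chain G))) (f := f + LinearMap.id)
        (fun s _ hs => by
          rw [Finset.card_eq_zero] at hs
          subst hs
          simp [f, Hom.char_two]) hcx
      simpa [h1] using h2
    rw [bd_cone_of_cycle _ hbd, Hom.char_two]
    exact Submodule.zero_mem _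

lemma relI_finite {V : Type} [MulAction G V] {A : Subgroup G} {c : Chain V} (hc : c ∈ relI A) :
    ∃ s : Finset G, (∀ g ∈ s, g ∈ A) ∧
      c ∈ Submodule.span (ZMod 2) {x | ∃ g ∈ s, ∃ b : Chain V, x = act g b + b} := by
  induction hc using Submodule.span_induction with
  | mem x hx =>
    obtain ⟨g, hg, b, rfl⟩ := hx
    exact ⟨{g}, by simpa using hg, Submodule.subset_span ⟨g, by simp, b, rfl⟩⟩
  | zero => exact ⟨∅, by simp, Submodule.zero_mem _⟩
  | add x y _ _ hx hy =>
    obtain ⟨s, hs, hs'⟩ := hx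
    obtain ⟨t, ht, ht'⟩ := hy
    refine ⟨s ∪ t, fun g hg => (Finset.mem_union.1 hg).elim (hs g) (ht g),
      Submodule.add_mem _ (Submodule.span_mono ?_ hs') (Submodule.span_mono ?_ ht')⟩
    · rintro _ ⟨g, hg, b, rfl⟩; exact ⟨g, Finset.mem_union_left _ hg, b, rfl⟩
    · rintro _ ⟨g, hg, b, rfl⟩; exact ⟨g, Finset.mem_union_right _ hg, b, rfl⟩
  | smul a x _ hx =>
    obtain ⟨s, hs, hs'⟩ := hx
    exact ⟨s, hs, Submodule.smul_mem _ a hs'⟩

/-- The target `chains on G` modulo the relations of a locally odd subgroup is exact. -/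
lemma target_relI {H A : Subgroup G} {π : G → G} (hmul : ∀ g ∈ H, ∀ h ∈ H, π (g * h) = π g * π h)
    (hA : LocOdd A) (hn : ∀ g ∈ H, ∀ a ∈ A, π g * a * (π g)⁻¹ ∈ A) (n : ℕ) :
    Target H π (Set.univ : Set (Finset G)) (relI (V := G) A) n :=
  { cx := isCx_univ
    inv := fun _ _ _ _ => trivial
    map_mul := hmul
    stable := fun g hg c hc => act_relI_normal (hn g hg) hc
    bd_stable := fun c hc => bd_relI hc
    exact' := fun j _ z hz hb => by
      obtain ⟨s, hs, hs'⟩ := relI_finite hb
      obtain ⟨F, hFA, hsF, -, hFm, hFi, hodd⟩ := hA s hs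
      set av : Chain G →ₗ[ZMod 2] Chain G := ∑ g ∈ F, act g with hav
      have hkill : ∀ c : Chain G, ∀ h ∈ F, av (act h c) = av c := by
        intro c h hh
        simp only [hav, LinearMap.coe_sum, Finset.sum_apply, ← act_mul]
        refine Finset.sum_nbij' (fun g => g * h) (fun g => g * h⁻¹) ?_ ?_ ?_ ?_ ?_
        · exact fun g hg => hFm g hg h hh
        · exact fun g hg => hFm g hg _ (hFi h hh)
        · exact fun g _ => by simp
        · exact fun g _ => by simp
        · exact fun g _ => rfl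
      have hzero : bd (av z) = 0 := by
        have h1 : av (bd z) = 0 := by
          have hle : Submodule.span (ZMod 2)
              {x | ∃ g ∈ s, ∃ b : Chain G, x = act g b + b} ≤ LinearMap.ker av := by
            refine Submodule.span_le.2 ?_
            rintro _ ⟨g, hg, b, rfl⟩
            simp [hkill b g (hsF hg), Hom.char_two]
          exact hle hs'
        rw [← h1]
        simp [hav, LinearMap.coe_sum, Finset.sum_apply, bd_act]
      have hmem : av z ∈ chainsOf (Set.univ : Set (Finset G)) j := by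
        simp only [hav, LinearMap.coe_sum, Finset.sum_apply]
        exact Submodule.sum_mem _ fun g _ => Hom.act_mem (H := ⊤) (invCx_univ _) trivial hz
      obtain ⟨b, hb1, hb2⟩ := acycAt_univ j _ hmem hzero
      refine ⟨b, hb1, ?_⟩
      rw [hb2, hav]
      simp only [LinearMap.coe_sum, Finset.sum_apply]
      conv in z + _ => arg 1; rw [← sum_odd hodd z]
      rw [← Finset.sum_add_distrib]
      exact Submodule.sum_mem _ fun g hg => by
        rw [add_comm]; exact act_add_mem_relI (hFA g hg) _ }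

/-- Classes that vanish in the homology of `H`. -/
def bdry (H : Subgroup G) (n : ℕ) : Submodule (ZMod 2) (Chain G) :=
  (chainsOf (Set.univ : Set (Finset G)) (n + 1)).map bd ⊔ relI H

lemma mem_bdry_iff {H : Subgroup G} {n : ℕ} {x : Chain G} :
    x ∈ bdry H n ↔ ∃ b ∈ chainsOf (Set.univ : Set (Finset G)) (n + 1),
      x + bd b ∈ relI (V := G) H := by
  simp only [bdry, Submodule.mem_sup, Submodule.mem_map]
  constructor
  · rintro ⟨_, ⟨b, hb, rfl⟩, y, hy, rfl⟩
    refine ⟨b, hb, ?_⟩
    rwa [show bd b + y + bd b = y + (bd b + bd b) by abel, Hom.char_two, add_zero]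
  · rintro ⟨b, hb, h⟩
    refine ⟨bd b, ⟨b, hb, rfl⟩, x + bd b, h, ?_⟩
    rw [show bd b + (x + bd b) = x + (bd b + bd b) by abel, Hom.char_two, add_zero]

lemma relI_le_bdry (H : Subgroup G) (n : ℕ) : relI (V := G) H ≤ bdry H n := le_sup_right

lemma bdry_mono {H H' : Subgroup G} (h : H ≤ H') (n : ℕ) : bdry H n ≤ bdry H' n :=
  sup_le_sup_left (relI_mono h) _

lemma bd_mem_bdry {H : Subgroup G} {n : ℕ} {b : Chain G}
    (hb : b ∈ chainsOf (Set.univ : Set (Finset G)) (n + 1)) : bd b ∈ bdry H n :=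
  le_sup_left (α := Submodule (ZMod 2) (Chain G)) (Submodule.mem_map_of_mem hb)

lemma act_bdry {H : Subgroup G} {n : ℕ} {g : G} (hn : ∀ h ∈ H, g * h * g⁻¹ ∈ H) {x : Chain G}
    (hx : x ∈ bdry H n) : act g x ∈ bdry H n := by
  obtain ⟨b, hb, h⟩ := mem_bdry_iff.1 hx
  refine mem_bdry_iff.2 ⟨act g b, Hom.act_mem (H := ⊤) (invCx_univ _) trivial hb, ?_⟩
  rw [bd_act, ← map_add]
  exact act_relI_normal hn h

lemma gac_of_bdry {H : Subgroup G} {n : ℕ}
    (h : ∀ z ∈ chainsOf (Set.univ : Set (Finset G)) n, bd z ∈ relI (V := G) H → z ∈ bdry H n) :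
    GAC (V := G) H Set.univ n := fun z hz hb => mem_bdry_iff.1 (h z hz hb)

/-- A cycle of `S = L * A` is homologous to a cycle of `L`. -/
lemma retract {S L A : Subgroup G} {π : G → G} (hS : NoTwo S) (hLS : L ≤ S) (hAS : A ≤ S)
    (hA : LocOdd A) (hmul : ∀ g ∈ S, ∀ h ∈ S, π (g * h) = π g * π h)
    (hπ : ∀ g ∈ S, π g ∈ L) (hπA : ∀ g ∈ S, g * (π g)⁻¹ ∈ A)
    (hnorm : ∀ l ∈ L, ∀ a ∈ A, l * a * l⁻¹ ∈ A)
    {n : ℕ} (hn : 1 ≤ n) {z : Chain G} (hz : z ∈ chainsOf Set.univ n)
    (hbz : bd z ∈ relI (V := G) S) :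
    ∃ y ∈ chainsOf (Set.univ : Set (Finset G)) n,
      bd y ∈ relI (V := G) L ∧ z + y ∈ bdry S n := by
  have T0 : Target S π (Set.univ : Set (Finset G)) (⊥ : Submodule (ZMod 2) (Chain G)) n :=
    target_bot isCx_univ (fun _ _ _ _ => trivial) hmul (fun j _ => acycAt_univ j)
  have T : Target S π (Set.univ : Set (Finset G)) (relI (V := G) A) n :=
    target_relI hmul hA (fun g hg a ha => hnorm _ (hπ g hg) a ha) n
  obtain ⟨Ψ, hΨ⟩ := exists_map T0 isCx_univ (invCx_univ S) (oddStab_univ hS) n (by omega)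
  have hid : IsMap S π (Set.univ : Set (Finset G)) Set.univ (relI (V := G) A) n
      LinearMap.id :=
    { empty := rfl
      mem := fun _ _ _ => single_mem_chainsOf 1 trivial rfl
      chain := fun s _ _ => by simp [Hom.char_two]
      equiv := fun g hg s _ _ => by
        simp only [LinearMap.id_apply]
        rw [← act_single]
        conv in (occs := 1) act g _ => rw [← inv_mul_cancel_right g (π g), act_mul]
        exact act_add_mem_relI (hπA g hg) _ }
  have hΨ' : IsMap S π (Set.univ : Set (Finset G)) Set.univ (relI (V := G) A) n Ψ :=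
    { empty := hΨ.empty
      mem := hΨ.mem
      chain := fun s hs hs' => (bot_le : ⊥ ≤ relI (V := G) A) (hΨ.chain s hs hs')
      equiv := fun g hg s hs hs' => (bot_le : ⊥ ≤ relI (V := G) A) (hΨ.equiv g hg s hs hs') }
  refine ⟨Ψ z, hΨ.map_mem le_rfl hz, ?_, ?_⟩
  · obtain ⟨i, rfl⟩ : ∃ i, n = i + 1 := ⟨n - 1, by omega⟩
    have h1 : bd (Ψ z) + Ψ (bd z) = 0 := by simpa using hΨ.map_chain le_rfl hz
    rw [add_eq_zero_iff_eq_neg, Hom.neg_self] at h1
    rw [h1]
    exact hΨ.map_relI (invCx_univ S) hπ bot_le (by omega) (Hom.bd_mem isCx_univ hz) hbz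
  · obtain ⟨b, hb, h⟩ := homotopic_on_cycle T isCx_univ (invCx_univ S) (oddStab_univ hS)
      hid hΨ' (relI_mono hAS) (fun g hg c => act_add_mem_relI (hLS (hπ g hg)) c) hn hz hbz
    exact mem_bdry_iff.2 ⟨b, hb, h⟩

/-- An element normalising the retraction fixes the classes coming from `L`. -/
lemma conj_fix {H L A : Subgroup G} {e : G} (hL : NoTwo L) (hLH : L ≤ H) (hAH : A ≤ H)
    (hA : LocOdd A) (hnorm : ∀ l ∈ L, ∀ a ∈ A, l * a * l⁻¹ ∈ A)
    (he : ∀ l ∈ L, e * l * e⁻¹ * l⁻¹ ∈ A) {n : ℕ} (hn : 1 ≤ n) {y : Chain G}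
    (hy : y ∈ chainsOf Set.univ n) (hby : bd y ∈ relI (V := G) L) :
    act e y + y ∈ bdry H n := by
  have T : Target L (fun g => g) (Set.univ : Set (Finset G)) (relI (V := G) A) n :=
    target_relI (fun _ _ _ _ => rfl) hA hnorm n
  have hid : IsMap L (fun g => g) (Set.univ : Set (Finset G)) Set.univ (relI (V := G) A) n
      LinearMap.id := IsMap.id _ _
  have hact : IsMap L (fun g => g) (Set.univ : Set (Finset G)) Set.univ (relI (V := G) A) n
      (act e) :=
    { empty := by simp [act_single]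
      mem := fun s hs _ => by
        rw [act_single]
        exact single_mem_chainsOf 1 trivial
          (Finset.card_image_of_injective _ (MulAction.injective e))
      chain := fun s _ _ => by simp [bd_act, Hom.char_two]
      equiv := fun g hg s _ _ => by
        have h := act_add_mem_relI (V := G) (he g hg) (act (g * e) (single s 1))
        rw [← act_mul] at h
        have e1 : e * g * e⁻¹ * g⁻¹ * (g * e) = e * g := by group
        rw [e1, act_mul, act_mul] at h
        rwa [← act_single g] }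
  obtain ⟨b, hb, h⟩ := homotopic_on_cycle T isCx_univ (invCx_univ L) (oddStab_univ hL)
    hact hid (relI_mono hAH) (fun g hg c => act_add_mem_relI (hLH hg) c) hn hy hby
  exact mem_bdry_iff.2 ⟨b, hb, h⟩

/-- The elements fixing a class form a subgroup. -/
def fixGroup (H : Subgroup G) (hnormal : H.Normal) (n : ℕ) (y : Chain G) : Subgroup G where
  carrier := {g | act g y + y ∈ bdry H n}
  one_mem' := by
    simp only [Set.mem_ofPred_eq, act_one, Hom.char_two]
    exact Submodule.zero_mem _
  mul_mem' := fun {a b} ha hb => by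
    simp only [Set.mem_ofPred_eq] at *
    have h := (bdry H n).add_mem (act_bdry (fun h hh => hnormal.conj_mem h hh a) hb) ha
    rw [map_add, ← act_mul] at h
    convert h using 1
    rw [show act (a * b) y + act a y + (act a y + y) = act (a * b) y + y + (act a y + act a y)
      by abel, Hom.char_two, add_zero]
  inv_mem' := fun {a} ha => by
    simp only [Set.mem_ofPred_eq] at *
    have h := act_bdry (fun h hh => hnormal.conj_mem h hh a⁻¹) ha
    rw [map_add, act_inv_act] at h
    rwa [add_comm]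

lemma mem_fixGroup {H : Subgroup G} {hnormal : H.Normal} {n : ℕ} {y : Chain G} {g : G} :
    g ∈ fixGroup H hnormal n y ↔ act g y + y ∈ bdry H n := Iff.rfl

lemma le_fixGroup (H : Subgroup G) (hnormal : H.Normal) (n : ℕ) (y : Chain G) :
    H ≤ fixGroup H hnormal n y := fun _ hg => relI_le_bdry H n (act_add_mem_relI hg y)

/-- Transfer: if the classes are fixed by `H₁` and `H` has odd index in `H₁`, vanishing for
`H₁` implies vanishing for `H`. -/
lemma trace_bdry {H H₁ : Subgroup G} (hnormal : H.Normal) [Finite (H₁ ⧸ H.subgroupOf H₁)] (hodd : Odd (Nat.card (H₁ ⧸ H.subgroupOf H₁)))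
    {n : ℕ} {z : Chain G} (hz : z ∈ bdry H₁ n)
    (hfix : ∀ g ∈ H₁, act g z + z ∈ bdry H n) : z ∈ bdry H n := by
  have : Fintype (H₁ ⧸ H.subgroupOf H₁) := Fintype.ofFinite _
  have : (H.subgroupOf H₁).Normal := hnormal.subgroupOf H₁
  let Q := H₁ ⧸ H.subgroupOf H₁
  let tr : Chain G →ₗ[ZMod 2] Chain G := ∑ q : Q, act (q.out : G)
  have htr : ∀ c ∈ relI (V := G) H₁, tr c ∈ relI (V := G) H := by
    refine fun c hc => relI_map (fun g hg s => ?_) hc
    simp only [tr, LinearMap.coe_sum, Finset.sum_apply]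
    rw [← Equiv.sum_comp (Equiv.mulRight (QuotientGroup.mk (⟨g, hg⟩ : H₁) : Q))
      (fun q : Q => act (q.out : G) (single s 1)), ← Finset.sum_add_distrib]
    refine Submodule.sum_mem _ fun q _ => ?_
    rw [← act_single, ← act_mul]
    set r : Q := q * QuotientGroup.mk (⟨g, hg⟩ : H₁)
    have hk : ((q.out : G) * g) * (r.out : G)⁻¹ ∈ H := by
      have : (QuotientGroup.mk (q.out * ⟨g, hg⟩ * r.out⁻¹) : Q) = 1 := by
        rw [QuotientGroup.mk_mul, QuotientGroup.mk_mul, QuotientGroup.mk_inv,
          QuotientGroup.out_eq', QuotientGroup.out_eq']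
        simp [r]
      rw [QuotientGroup.eq_one_iff] at this
      simpa [Subgroup.mem_subgroupOf] using this
    have := act_add_mem_relI (V := G) hk (act (r.out : G) (single s 1))
    rw [← act_mul, inv_mul_cancel_right] at this
    exact this
  obtain ⟨b, hb, h⟩ := mem_bdry_iff.1 hz
  have h1 := relI_le_bdry H n (htr _ h)
  rw [map_add] at h1
  have h2 : tr (bd b) ∈ bdry H n := by
    have : bd (tr b) = tr (bd b) := by simp [tr, LinearMap.coe_sum, Finset.sum_apply, bd_act]
    rw [← this]
    refine bd_mem_bdry ?_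
    simp only [tr, LinearMap.coe_sum, Finset.sum_apply]
    exact Submodule.sum_mem _ fun q _ => Hom.act_mem (H := ⊤) (invCx_univ _) trivial hb
  have h3 : tr z + z ∈ bdry H n := by
    have hc : Odd (Finset.univ : Finset Q).card := by
      rwa [Finset.card_univ, ← Nat.card_eq_fintype_card]
    simp only [tr, LinearMap.coe_sum, Finset.sum_apply]
    conv in _ + z => arg 2; rw [← sum_odd hc z]
    rw [← Finset.sum_add_distrib]
    exact Submodule.sum_mem _ fun q _ => hfix _ q.out.2
  have := (bdry H n).add_mem ((bdry H n).add_mem h1 h2) h3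
  convert this using 1
  rw [show tr z + tr (bd b) + tr (bd b) + (tr z + z)
    = z + (tr z + tr z) + (tr (bd b) + tr (bd b)) by abel, Hom.char_two, Hom.char_two]
  simp

end

end Vale.Agent.P067.Hom
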