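import Vale.Agent.P067.HomBasic

/-!
Equivariant chain maps out of a complex with odd stabilisers, and their homotopies.
-/

namespace Vale.Agent.P067.Hom

open Classical Finsupp

variable {V W : Type} {G G' : Type} [Group G] [MulAction G V] [Group G'] [MulAction G' W]

noncomputable section

/-- The hypotheses on a target: a complex `L`, a stable submodule `I` modulo which it is exact
up to `n`, acted on through `π`. -/
structure Target (H : Subgroup G) (π : G → G') (L : Set (Finset W))
    (I : Submodule (ZMod 2) (Chain W)) (n : ℕ) : Prop where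
  cx : IsCx L
  inv : ∀ g ∈ H, ∀ s ∈ L, s.image (fun w => π g • w) ∈ L
  map_mul : ∀ g ∈ H, ∀ h ∈ H, π (g * h) = π g * π h
  stable : ∀ g ∈ H, ∀ c ∈ I, act (π g) c ∈ I
  bd_stable : ∀ c ∈ I, bd c ∈ I
  exact' : ∀ j, j ≤ n → ∀ z ∈ chainsOf L j, bd z ∈ I → ∃ b ∈ chainsOf L (j + 1), z + bd b ∈ I

variable {H : Subgroup G} {π : G → G'} {K : Set (Finset V)} {L : Set (Finset W)}
  {I : Submodule (ZMod 2) (Chain W)} {n : ℕ}

lemma Target.map_one (T : Target H π L I n) : π 1 = 1 := by
  simpa using T.map_mul 1 H.one_mem 1 H.one_mem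

lemma Target.act_mem (T : Target H π L I n) {g : G} (hg : g ∈ H) {j : ℕ} {c : Chain W}
    (hc : c ∈ chainsOf L j) : act (π g) c ∈ chainsOf L j := by
  refine map_mem (fun s hs hn => ?_) hc
  rw [act_single]
  exact single_mem_chainsOf 1 (T.inv g hg s hs)
    (by rw [Finset.card_image_of_injective _ (MulAction.injective (π g)), hn])

/-- Equivariant lifting through the boundary. -/
lemma lift (T : Target H π L I n) (hK : InvCx H K) (hodd : OddStab H K) {j k : ℕ} (hj : 1 ≤ j)
    (hk : k ≤ n) (u : Finset V → Chain W)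
    (hu : ∀ s ∈ K, s.card = j → u s ∈ chainsOf L k)
    (hbd : ∀ s ∈ K, s.card = j → bd (u s) ∈ I)
    (heq : ∀ g ∈ H, ∀ s ∈ K, s.card = j →
      u (s.image fun v => g • v) + act (π g) (u s) ∈ I) :
    ∃ v : Finset V → Chain W, ∀ s ∈ K, s.card = j →
      v s ∈ chainsOf L (k + 1) ∧ u s + bd (v s) ∈ I ∧
      ∀ g ∈ H, v (s.image fun x => g • x) = act (π g) (v s) := by
  let st : Setoid {s : Finset V // s ∈ K ∧ s.card = j} :=
    { r := fun a b => ∃ g ∈ H, a.1.image (fun x => g • x) = b.1
      iseqv :=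
        ⟨fun a => ⟨1, H.one_mem, image_one _⟩,
          fun {a b} ⟨g, hg, hab⟩ => ⟨g⁻¹, H.inv_mem hg, by
            rw [← hab, ← image_mul, inv_mul_cancel, image_one]⟩,
          fun {a b c} ⟨g, hg, hab⟩ ⟨h, hh, hbc⟩ => ⟨h * g, H.mul_mem hh hg, by
            rw [image_mul, hab, hbc]⟩⟩ }
  have key : ∀ r : {s : Finset V // s ∈ K ∧ s.card = j}, ∃ b ∈ chainsOf L (k + 1),
      u r.1 + bd b ∈ I ∧ ∀ g ∈ H, r.1.image (fun x => g • x) = r.1 → act (π g) b = b := by
    intro r
    obtain ⟨b, hb, hb'⟩ := T.exact' k hk (u r.1) (hu _ r.2.1 r.2.2) (hbd _ r.2.1 r.2.2)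
    obtain ⟨hfin, hod⟩ := hodd r.1 r.2.1 (Finset.card_pos.1 (by rw [r.2.2]; omega))
    rw [Nat.card_eq_card_finite_toFinset hfin] at hod
    set St : Finset G := hfin.toFinset with hSt
    have hmem : ∀ {g}, g ∈ St ↔ g ∈ H ∧ r.1.image (fun x => g • x) = r.1 := by
      simp [hSt]
    refine ⟨∑ g ∈ St, act (π g) b,
      Submodule.sum_mem _ fun g hg => T.act_mem (hmem.1 hg).1 hb, ?_, ?_⟩
    · rw [map_sum]
      conv in u r.1 => rw [← sum_odd hod (u r.1)]
      rw [← Finset.sum_add_distrib]
      refine I.sum_mem fun g hg => ?_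
      obtain ⟨hgH, hgr⟩ := hmem.1 hg
      have h1 := heq g hgH r.1 r.2.1 r.2.2
      rw [hgr] at h1
      have h2 := I.add_mem h1 (T.stable g hgH _ hb')
      rw [map_add, ← bd_act] at h2
      convert h2 using 1
      rw [add_assoc, ← add_assoc (act (π g) (u r.1)), char_two, zero_add]
    · intro g hg hgr
      rw [map_sum]
      refine Finset.sum_nbij' (fun x => g * x) (fun x => g⁻¹ * x) ?_ ?_ ?_ ?_ ?_
      · intro x hx
        obtain ⟨h1, h2⟩ := hmem.1 hx
        exact hmem.2 ⟨H.mul_mem hg h1, by rw [image_mul, h2, hgr]⟩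
      · intro x hx
        obtain ⟨h1, h2⟩ := hmem.1 hx
        refine hmem.2 ⟨H.mul_mem (H.inv_mem hg) h1, ?_⟩
        rw [image_mul, h2]
        conv_lhs => rw [← hgr]
        rw [← image_mul, inv_mul_cancel, image_one]
      · intro x _; simp
      · intro x _; simp
      · intro x hx
        rw [T.map_mul g hg x (hmem.1 hx).1, act_mul]
  choose b hb1 hb2 hb3 using key
  have hrep : ∀ s : {s : Finset V // s ∈ K ∧ s.card = j},
      ∃ g ∈ H, (Quotient.out (Quotient.mk st s)).1.image (fun x => g • x) = s.1 :=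
    fun s => Quotient.mk_out (s := st) s
  choose g hg1 hg2 using hrep
  refine ⟨fun s => if h : s ∈ K ∧ s.card = j then
      act (π (g ⟨s, h⟩)) (b (Quotient.out (Quotient.mk st ⟨s, h⟩))) else 0, ?_⟩
  intro s hs hsj
  have h : s ∈ K ∧ s.card = j := ⟨hs, hsj⟩
  refine ⟨?_, ?_, ?_⟩
  · simp only [dif_pos h]
    exact T.act_mem (hg1 _) (hb1 _)
  · simp only [dif_pos h]
    set r := Quotient.out (Quotient.mk st ⟨s, h⟩)
    have h1 := heq _ (hg1 ⟨s, h⟩) r.1 r.2.1 r.2.2
    rw [hg2] at h1
    have h2 := I.add_mem h1 (T.stable _ (hg1 ⟨s, h⟩) _ (hb2 r))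
    rw [map_add, ← bd_act] at h2
    convert h2 using 1
    rw [add_assoc, ← add_assoc (act (π (g ⟨s, h⟩)) (u r.1)), char_two, zero_add]
  · intro a ha
    have h' : s.image (fun x => a • x) ∈ K ∧ (s.image fun x => a • x).card = j :=
      ⟨hK a ha s hs, by rw [Finset.card_image_of_injective _ (MulAction.injective a), hsj]⟩
    simp only [dif_pos h, dif_pos h']
    have hq : (Quotient.mk st ⟨_, h'⟩) = Quotient.mk st ⟨s, h⟩ := by
      refine Quotient.sound ⟨a⁻¹, H.inv_mem ha, ?_⟩
      rw [← image_mul, inv_mul_cancel, image_one]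
    have e1 := hg2 ⟨_, h'⟩
    have e2 := hg2 ⟨s, h⟩
    simp only [hq] at e1 ⊢
    set r := Quotient.out (Quotient.mk st ⟨s, h⟩)
    set g1 := g ⟨_, h'⟩
    set g2 := g ⟨s, h⟩
    have hm1 : g1 ∈ H := hg1 _
    have hm2 : g2 ∈ H := hg1 _
    have hfix : r.1.image (fun x => ((a * g2)⁻¹ * g1) • x) = r.1 := by
      change _ = s at e2
      rw [image_mul, e1]
      conv_lhs => rw [← e2]
      rw [← image_mul, ← image_mul, mul_assoc, inv_mul_cancel, image_one]
    have hm : (a * g2)⁻¹ * g1 ∈ H := H.mul_mem (H.inv_mem (H.mul_mem ha hm2)) hm1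
    have h3 := hb3 r _ hm hfix
    calc act (π g1) (b r) = act (π (a * g2 * ((a * g2)⁻¹ * g1))) (b r) := by
          rw [mul_inv_cancel_left]
      _ = act (π (a * g2)) (b r) := by
          rw [T.map_mul _ (H.mul_mem ha hm2) _ hm, act_mul, h3]
      _ = act (π a) (act (π g2) (b r)) := by rw [T.map_mul a ha g2 hm2, act_mul]

/-- An equivariant chain map modulo `I`. -/
structure IsMap (H : Subgroup G) (π : G → G') (K : Set (Finset V)) (L : Set (Finset W))
    (I : Submodule (ZMod 2) (Chain W)) (n : ℕ) (f : Chain V →ₗ[ZMod 2] Chain W) : Prop where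
  empty : f (single ∅ 1) = single ∅ 1
  mem : ∀ s ∈ K, s.card ≤ n → f (single s 1) ∈ chainsOf L s.card
  chain : ∀ s ∈ K, s.card ≤ n → bd (f (single s 1)) + f (bd (single s 1)) ∈ I
  equiv : ∀ g ∈ H, ∀ s ∈ K, s.card ≤ n →
    f (single (s.image fun v => g • v) 1) + act (π g) (f (single s 1)) ∈ I

lemma IsMap.map_mem {f : Chain V →ₗ[ZMod 2] Chain W} (hf : IsMap H π K L I n f) {j : ℕ}
    (hj : j ≤ n) {c : Chain V} (hc : c ∈ chainsOf K j) : f c ∈ chainsOf L j :=
  Hom.map_mem (fun s hs hn => hn ▸ hf.mem s hs (hn ▸ hj)) hc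

lemma IsMap.map_chain {f : Chain V →ₗ[ZMod 2] Chain W} (hf : IsMap H π K L I n f) {j : ℕ}
    (hj : j ≤ n) {c : Chain V} (hc : c ∈ chainsOf K j) : bd (f c) + f (bd c) ∈ I :=
  Hom.map_mem (S := I) (f := bd ∘ₗ f + f ∘ₗ bd) (fun s hs hn => hf.chain s hs (hn ▸ hj)) hc

lemma IsMap.map_equiv {f : Chain V →ₗ[ZMod 2] Chain W} (hf : IsMap H π K L I n f) {j : ℕ}
    (hj : j ≤ n) {c : Chain V} (hc : c ∈ chainsOf K j) {g : G} (hg : g ∈ H) :
    f (act g c) + act (π g) (f c) ∈ I :=
  Hom.map_mem (S := I) (f := f ∘ₗ act g + act (π g) ∘ₗ f)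
    (fun s hs hn => by
      simp only [LinearMap.add_apply, LinearMap.comp_apply, act_single]
      exact hf.equiv g hg s hs (hn ▸ hj)) hc

/-- Existence of equivariant chain maps. -/
lemma exists_map (T : Target H π L I n) (hK : IsCx K) (hinv : InvCx H K) (hodd : OddStab H K) :
    ∀ m, m ≤ n + 1 → ∃ f : Chain V →ₗ[ZMod 2] Chain W, IsMap H π K L I m f := by
  intro m
  induction m with
  | zero =>
    intro _
    refine ⟨linearCombination (ZMod 2) fun _ => single ∅ 1, ⟨by simp, ?_, ?_, ?_⟩⟩
    · intro s _ hn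
      rw [Nat.le_zero, Finset.card_eq_zero] at hn
      subst hn
      rw [linearCombination_single, one_smul]
      exact single_mem_chainsOf 1 T.cx.1 rfl
    · intro s _ hn
      rw [Nat.le_zero, Finset.card_eq_zero] at hn
      subst hn
      simp [bd_single]
    · intro g _ s _ hn
      rw [Nat.le_zero, Finset.card_eq_zero] at hn
      subst hn
      simp [act_single, char_two]
  | succ m ih =>
    intro hm
    obtain ⟨f, hf⟩ := ih (by omega)
    have hbd : ∀ s ∈ K, s.card = m + 1 → bd (single s (1 : ZMod 2)) ∈ chainsOf K m :=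
      fun s hs hn => bd_mem hK (single_mem_chainsOf 1 hs hn)
    obtain ⟨v, hv⟩ := lift T hinv hodd (j := m + 1) (k := m) (by omega) (by omega)
      (fun s => f (bd (single s 1)))
      (fun s hs hn => hf.map_mem le_rfl (hbd s hs hn))
      (fun s hs hn => by simpa [bd_bd] using hf.map_chain le_rfl (hbd s hs hn))
      (fun g hg s hs hn => by
        have := hf.map_equiv le_rfl (hbd s hs hn) hg
        rwa [← bd_act, act_single] at this)
    set F : Chain V →ₗ[ZMod 2] Chain W := linearCombination (ZMod 2) fun s =>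
      if s.card = m + 1 then v s else f (single s 1) with hF
    have hlow : ∀ s : Finset V, s.card ≠ m + 1 → F (single s 1) = f (single s 1) :=
      fun s hs => by simp [hF, hs]
    have hlow' : ∀ {j : ℕ} {c : Chain V}, j ≤ m → c ∈ chainsOf K j → F c = f c := by
      intro j c hj hc
      have h0 : (F - f) c ∈ (⊥ : Submodule (ZMod 2) (Chain W)) :=
        Hom.map_mem (fun s _ hn => by simp [hlow s (by omega)]) hc
      simpa [sub_eq_zero] using h0
    refine ⟨F, ⟨?_, ?_, ?_, ?_⟩⟩
    · rw [hlow ∅ (by simp)]; exact hf.empty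
    · intro s hs hn
      rcases Nat.lt_or_ge s.card (m + 1) with h | h
      · rw [hlow s h.ne]; exact hf.mem s hs (by omega)
      · have he : s.card = m + 1 := le_antisymm hn h
        simp only [hF, linearCombination_single, one_smul, if_pos he]
        exact he ▸ (hv s hs he).1
    · intro s hs hn
      rcases Nat.lt_or_ge s.card (m + 1) with h | h
      · rw [hlow s h.ne]
        by_cases h0 : s.card = 0
        · rw [Finset.card_eq_zero] at h0
          subst h0
          simp [bd_single, hf.empty]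
        · obtain ⟨i, hi⟩ : ∃ i, s.card = i + 1 := ⟨s.card - 1, by omega⟩
          rw [hlow' (j := i) (by omega) (bd_mem hK (single_mem_chainsOf 1 hs hi))]
          exact hf.chain s hs (by omega)
      · have he : s.card = m + 1 := le_antisymm hn h
        rw [hlow' le_rfl (hbd s hs he)]
        simp only [hF, linearCombination_single, one_smul, if_pos he]
        rw [add_comm]
        exact (hv s hs he).2.1
    · intro g hg s hs hn
      have hc : (s.image fun v => g • v).card = s.card :=
        Finset.card_image_of_injective _ (MulAction.injective g)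
      rcases Nat.lt_or_ge s.card (m + 1) with h | h
      · rw [hlow s h.ne, hlow _ (hc ▸ h.ne)]; exact hf.equiv g hg s hs (by omega)
      · have he : s.card = m + 1 := le_antisymm hn h
        simp only [hF, linearCombination_single, one_smul, if_pos he, if_pos (hc.trans he)]
        rw [(hv s hs he).2.2 g hg, char_two]
        exact I.zero_mem

/-- A homotopy between two equivariant chain maps modulo `I`. -/
lemma exists_homotopy (T : Target H π L I n) (hK : IsCx K) (hinv : InvCx H K)
    (hodd : OddStab H K) {f f' : Chain V →ₗ[ZMod 2] Chain W}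
    (hf : IsMap H π K L I n f) (hf' : IsMap H π K L I n f') :
    ∀ m, m ≤ n → ∃ h : Chain V →ₗ[ZMod 2] Chain W, ∀ s ∈ K, s.card ≤ m →
      h (single s 1) ∈ chainsOf L (s.card + 1) ∧
      bd (h (single s 1)) + h (bd (single s 1)) + f (single s 1) + f' (single s 1) ∈ I ∧
      ∀ g ∈ H, h (single (s.image fun v => g • v) 1) = act (π g) (h (single s 1)) := by
  intro m
  induction m with
  | zero =>
    intro _
    refine ⟨0, fun s _ hn => ?_⟩
    rw [Nat.le_zero, Finset.card_eq_zero] at hn
    subst hn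
    simp [hf.empty, hf'.empty, char_two]
  | succ m ih =>
    intro hm
    obtain ⟨h, hh⟩ := ih (by omega)
    have hbd : ∀ s ∈ K, s.card = m + 1 → bd (single s (1 : ZMod 2)) ∈ chainsOf K m :=
      fun s hs hn => bd_mem hK (single_mem_chainsOf 1 hs hn)
    have hh1 : ∀ c ∈ chainsOf K m, h c ∈ chainsOf L (m + 1) := fun c hc =>
      Hom.map_mem (fun s hs hn => hn ▸ (hh s hs hn.le).1) hc
    have hh2 : ∀ c ∈ chainsOf K m, bd (h c) + h (bd c) + f c + f' c ∈ I := fun c hc =>
      Hom.map_mem (S := I) (f := bd ∘ₗ h + h ∘ₗ bd + f + f')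
        (fun s hs hn => (hh s hs hn.le).2.1) hc
    have hh3 : ∀ c ∈ chainsOf K m, ∀ g ∈ H, h (act g c) + act (π g) (h c) ∈ I :=
      fun c hc g hg => Hom.map_mem (S := I) (f := h ∘ₗ act g + act (π g) ∘ₗ h)
        (fun s hs hn => by
          simp [act_single, (hh s hs hn.le).2.2 g hg, char_two]) hc
    obtain ⟨v, hv⟩ := lift T hinv hodd (j := m + 1) (k := m + 1) (by omega) hm
      (fun s => f (single s 1) + f' (single s 1) + h (bd (single s 1)))
      (fun s hs hn => Submodule.add_mem _ (Submodule.add_mem _ (hn ▸ hf.mem s hs (by omega))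
        (hn ▸ hf'.mem s hs (by omega))) (hh1 _ (hbd s hs hn)))
      (fun s hs hn => by
        have h2 := hh2 _ (hbd s hs hn)
        rw [bd_bd, map_zero, add_zero] at h2
        have h3 := I.add_mem (I.add_mem (hf.chain s hs (by omega)) (hf'.chain s hs (by omega))) h2
        have e : bd (f (single s 1) + f' (single s 1) + h (bd (single s 1))) =
            bd (f (single s 1)) + f (bd (single s 1)) + (bd (f' (single s 1))
              + f' (bd (single s 1))) + (bd (h (bd (single s 1))) + f (bd (single s 1))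
              + f' (bd (single s 1))) := by
          simp only [map_add]
          generalize bd (f (single s 1)) = A
          generalize bd (f' (single s 1)) = B
          generalize f (bd (single s 1)) = C
          generalize f' (bd (single s 1)) = D
          generalize bd (h (bd (single s 1))) = E
          rw [show A + C + (B + D) + (E + C + D) = A + B + E + (C + C) + (D + D) by abel,
            char_two, char_two, add_zero, add_zero]
        rwa [e])
      (fun g hg s hs hn => by
        have h2 := hh3 _ (hbd s hs hn) g hg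
        rw [← bd_act, act_single] at h2
        have h3 := I.add_mem (I.add_mem (hf.equiv g hg s hs (by omega))
          (hf'.equiv g hg s hs (by omega))) h2
        convert h3 using 1
        simp only [map_add]
        abel)
    set F : Chain V →ₗ[ZMod 2] Chain W := linearCombination (ZMod 2) fun s =>
      if s.card = m + 1 then v s else h (single s 1) with hF
    have hlow : ∀ s : Finset V, s.card ≠ m + 1 → F (single s 1) = h (single s 1) :=
      fun s hs => by simp [hF, hs]
    have hlow' : ∀ {j : ℕ} {c : Chain V}, j ≤ m → c ∈ chainsOf K j → F c = h c := by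
      intro j c hj hc
      have h0 : (F - h) c ∈ (⊥ : Submodule (ZMod 2) (Chain W)) :=
        Hom.map_mem (fun s _ hn => by simp [hlow s (by omega)]) hc
      simpa [sub_eq_zero] using h0
    refine ⟨F, fun s hs hn => ?_⟩
    have hc : ∀ g : G, (s.image fun v => g • v).card = s.card :=
      fun g => Finset.card_image_of_injective _ (MulAction.injective g)
    rcases Nat.lt_or_ge s.card (m + 1) with hlt | hge
    · rw [hlow s hlt.ne]
      refine ⟨(hh s hs (by omega)).1, ?_, fun g hg => ?_⟩
      · by_cases h0 : s.card = 0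
        · rw [Finset.card_eq_zero] at h0
          subst h0
          have := (hh ∅ hs (by simp)).2.1
          simpa [bd_single] using this
        · obtain ⟨i, hi⟩ : ∃ i, s.card = i + 1 := ⟨s.card - 1, by omega⟩
          rw [hlow' (j := i) (by omega) (bd_mem hK (single_mem_chainsOf 1 hs hi))]
          exact (hh s hs (by omega)).2.1
      · rw [hlow _ ((hc g) ▸ hlt.ne)]
        exact (hh s hs (by omega)).2.2 g hg
    · have he : s.card = m + 1 := le_antisymm hn hge
      rw [hlow' le_rfl (hbd s hs he)]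
      simp only [hF, linearCombination_single, one_smul, if_pos he]
      refine ⟨he ▸ (hv s hs he).1, ?_, fun g hg => ?_⟩
      · convert (hv s hs he).2.1 using 1
        abel
      · simp only [if_pos ((hc g).trans he)]
        exact (hv s hs he).2.2 g hg

/-- Two equivariant chain maps agree on cycles modulo boundaries and relations. -/
lemma homotopic_on_cycle (T : Target H π L I n) (hK : IsCx K) (hinv : InvCx H K)
    (hodd : OddStab H K) {f f' : Chain V →ₗ[ZMod 2] Chain W}
    (hf : IsMap H π K L I n f) (hf' : IsMap H π K L I n f')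
    {J : Submodule (ZMod 2) (Chain W)} (hIJ : I ≤ J)
    (hJ : ∀ g ∈ H, ∀ c : Chain W, act (π g) c + c ∈ J)
    (hn : 1 ≤ n) {z : Chain V} (hz : z ∈ chainsOf K n) (hbz : bd z ∈ relI H) :
    ∃ b ∈ chainsOf L (n + 1), f z + f' z + bd b ∈ J := by
  obtain ⟨h, hh⟩ := exists_homotopy T hK hinv hodd hf hf' n le_rfl
  refine ⟨h z, Hom.map_mem (fun s hs he => he ▸ (hh s hs he.le).1) hz, ?_⟩
  obtain ⟨i, rfl⟩ : ∃ i, n = i + 1 := ⟨n - 1, by omega⟩
  have h1 : bd (h z) + h (bd z) + f z + f' z ∈ I :=
    Hom.map_mem (S := I) (f := bd ∘ₗ h + h ∘ₗ bd + f + f')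
      (fun s hs he => (hh s hs he.le).2.1) hz
  have h2 : h (bd z) ∈ J :=
    relI_map_on hinv (fun g hg s hs he => by
      rw [(hh s hs (by omega)).2.2 g hg]
      exact hJ g hg _) (bd_mem hK hz) hbz
  have h3 := J.add_mem (hIJ h1) h2
  convert h3 using 1
  rw [show bd (h z) + h (bd z) + f z + f' z + h (bd z)
    = f z + f' z + bd (h z) + (h (bd z) + h (bd z)) by abel, char_two, add_zero]

end

end Vale.Agent.P067.Hom
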