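import Mathlib
import Vale.Agent.P067.Defs

namespace Vale.Agent.P067

open Finset

/-- Number of nonzero entries. -/
def wt {ι : Type*} [Fintype ι] (f : ι → ZMod 2) : ℕ :=
  (Finset.univ.filter (fun i => f i ≠ 0)).card

section wt

variable {ι κ : Type*} [Fintype ι] [Fintype κ]

lemma wt_zero : wt (0 : ι → ZMod 2) = 0 := by simp [wt]

lemma eq_zero_of_wt {f : ι → ZMod 2} (h : wt f = 0) : f = 0 := by
  funext i
  by_contra hi
  rw [wt, Finset.card_eq_zero, Finset.filter_eq_empty_iff] at h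
  exact h (Finset.mem_univ i) hi

lemma wt_add_le (f g : ι → ZMod 2) : wt (f + g) ≤ wt f + wt g := by
  classical
  refine le_trans (Finset.card_le_card ?_) (Finset.card_union_le _ _)
  intro i hi
  simp only [Finset.mem_filter, Finset.mem_univ, true_and, Finset.mem_union, Pi.add_apply] at hi ⊢
  by_contra h
  simp only [not_or, not_not] at h
  simp [h.1, h.2] at hi

lemma wt_sub_le (f g : ι → ZMod 2) : wt (f - g) ≤ wt f + wt g := by
  have : f - g = f + g := by funext i; simp [CharTwo.sub_eq_add]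
  rw [this]
  exact wt_add_le f g

lemma wt_sum_le {α : Type*} (s : Finset α) (f : α → ι → ZMod 2) :
    wt (∑ a ∈ s, f a) ≤ ∑ a ∈ s, wt (f a) :=
  Finset.le_sum_of_subadditive (wt (ι := ι)) wt_zero.le wt_add_le s f

lemma wt_smul_le (c : ZMod 2) (f : ι → ZMod 2) : wt (c • f) ≤ wt f := by
  refine Finset.card_le_card ?_
  intro i hi
  simp only [Finset.mem_filter, Finset.mem_univ, true_and, Pi.smul_apply, smul_eq_mul] at hi ⊢
  exact fun h => hi (by simp [h])

lemma wt_single [DecidableEq ι] (a : ι) : wt (Pi.single a (1 : ZMod 2)) = 1 := by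
  rw [wt, Finset.card_eq_one]
  exact ⟨a, by ext i; simp [Pi.single_apply]⟩

lemma wt_map_le [DecidableEq ι] (L : (ι → ZMod 2) →ₗ[ZMod 2] (κ → ZMod 2)) (b : ℕ)
    (hb : ∀ a, wt (L (Pi.single a 1)) ≤ b) (f : ι → ZMod 2) : wt (L f) ≤ b * wt f := by
  have hf : f = ∑ a ∈ Finset.univ.filter (fun a => f a ≠ 0), Pi.single a (1 : ZMod 2) := by
    funext i
    rw [Finset.sum_apply]
    simp only [Pi.single_apply, Finset.sum_ite_eq, Finset.mem_filter, Finset.mem_univ, true_and]
    have : ∀ x : ZMod 2, x = if x ≠ 0 then 1 else 0 := by decide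
    exact this (f i)
  calc wt (L f) = wt (∑ a ∈ Finset.univ.filter (fun a => f a ≠ 0), L (Pi.single a 1)) := by
        rw [← map_sum, ← hf]
    _ ≤ ∑ a ∈ Finset.univ.filter (fun a => f a ≠ 0), wt (L (Pi.single a 1)) := wt_sum_le _ _
    _ ≤ ∑ a ∈ Finset.univ.filter (fun a => f a ≠ 0), b := Finset.sum_le_sum (fun a _ => hb a)
    _ = b * wt f := by rw [Finset.sum_const, smul_eq_mul, mul_comm]; rfl

end wt

variable {V : Type} [DecidableEq V] {T : Finset (Finset V)}

/-- The standard basis of cochains. -/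
noncomputable def stdB (T : Finset (Finset V)) (i : ℕ) :
    Module.Basis {s // s ∈ faces T i} (ZMod 2) (Coch T i) :=
  Pi.basisFun (ZMod 2) _

lemma stdB_apply (T : Finset (Finset V)) (i : ℕ) (s : {s // s ∈ faces T i}) :
    stdB T i s = Pi.single s 1 := by
  simp [stdB]

lemma mem_faces {i : ℕ} {s : Finset V} :
    s ∈ faces T i ↔ (∃ t ∈ T, s ⊆ t) ∧ s.card = i + 1 := by
  simp [faces]

lemma card_between {ρ τ : Finset V} {i : ℕ} (hτ : τ ∈ faces T (i + 2)) (hρ : ρ ∈ faces T i)
    (h : ρ ⊆ τ) :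
    ((faces T (i + 1)).filter (fun σ => ρ ⊆ σ ∧ σ ⊆ τ)).card = 2 := by
  have heq : (faces T (i + 1)).filter (fun σ => ρ ⊆ σ ∧ σ ⊆ τ)
      = (τ \ ρ).image (fun x => insert x ρ) := by
    rw [mem_faces] at hτ hρ
    ext σ
    simp only [Finset.mem_filter, Finset.mem_image, Finset.mem_sdiff, mem_faces]
    constructor
    · rintro ⟨⟨-, hσ⟩, h1, h2⟩
      have hc : (σ \ ρ).card = 1 := by rw [Finset.card_sdiff_of_subset h1]; omega
      obtain ⟨x, hx⟩ := Finset.card_eq_one.1 hc
      have hxm : x ∈ σ \ ρ := by rw [hx]; simp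
      rw [Finset.mem_sdiff] at hxm
      refine ⟨x, ⟨h2 hxm.1, hxm.2⟩, ?_⟩
      rw [← Finset.sdiff_union_of_subset h1, hx]
      rfl
    · rintro ⟨x, ⟨hx, hxρ⟩, rfl⟩
      obtain ⟨t, ht, hτt⟩ := hτ.1
      have hsub : insert x ρ ⊆ τ := Finset.insert_subset hx h
      refine ⟨⟨⟨t, ht, hsub.trans hτt⟩, ?_⟩, Finset.subset_insert _ _, hsub⟩
      rw [Finset.card_insert_of_notMem hxρ, hρ.2]
  rw [heq, Finset.card_image_of_injOn, Finset.card_sdiff_of_subset h]
  · rw [mem_faces] at hτ hρ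
    omega
  · intro x hx y hy hxy
    simp only [Finset.mem_coe, Finset.mem_sdiff] at hx hy
    simp only at hxy
    have : x ∈ insert y ρ := by rw [← hxy]; exact Finset.mem_insert_self _ _
    rcases Finset.mem_insert.1 this with h' | h'
    · exact h'
    · exact absurd h' hx.2

lemma cob_cob (i : ℕ) (g : Coch T i) : cob T (i + 1) (cob T i g) = 0 := by
  funext τ
  simp only [cob, LinearMap.coe_mk, AddHom.coe_mk, Pi.zero_apply]
  simp_rw [ite_sum_zero]
  rw [Finset.sum_comm]
  refine Finset.sum_eq_zero (fun ρ _ => ?_)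
  have : ∀ σ : {s // s ∈ faces T (i + 1)},
      (if σ.1 ⊆ τ.1 then (if ρ.1 ⊆ σ.1 then g ρ else 0) else 0)
        = if ρ.1 ⊆ σ.1 ∧ σ.1 ⊆ τ.1 then g ρ else 0 := by
    intro σ; by_cases h1 : σ.1 ⊆ τ.1 <;> by_cases h2 : ρ.1 ⊆ σ.1 <;> simp [h1, h2]
  simp_rw [this]
  rw [Finset.sum_coe_sort (faces T (i + 1))
    (fun σ => if ρ.1 ⊆ σ ∧ σ ⊆ τ.1 then g ρ else 0), ← Finset.sum_filter, Finset.sum_const]
  by_cases h : ρ.1 ⊆ τ.1
  · rw [card_between τ.2 ρ.2 h]
    exact CharTwo.two_nsmul _
  · have : (faces T (i + 1)).filter (fun σ => ρ.1 ⊆ σ ∧ σ ⊆ τ.1) = ∅ := by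
      rw [Finset.filter_eq_empty_iff]
      exact fun σ _ hσ => h (hσ.1.trans hσ.2)
    simp [this]

lemma cob_one : cob T 0 (fun _ => 1) = 0 := by
  funext τ
  simp only [cob, LinearMap.coe_mk, AddHom.coe_mk, Pi.zero_apply]
  rw [Finset.sum_coe_sort (faces T 0) (fun s => if s ⊆ τ.1 then (1 : ZMod 2) else 0),
    Finset.sum_boole]
  have hτ := (mem_faces (T := T)).1 τ.2
  have : (faces T 0).filter (fun s => s ⊆ τ.1) = Finset.powersetCard 1 τ.1 := by
    obtain ⟨t, ht, htt⟩ := hτ.1
    ext s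
    simp only [Finset.mem_filter, mem_faces, Finset.mem_powersetCard]
    exact ⟨fun h => ⟨h.2, h.1.2⟩, fun h => ⟨⟨⟨t, ht, h.1.trans htt⟩, h.2⟩, h.1⟩⟩
  rw [this, Finset.card_powersetCard, hτ.2]
  decide

lemma cob_of_mem_cobs : ∀ (i : ℕ) (a : Coch T i), a ∈ cobs T i → cob T i a = 0
  | 0, a, ha => by
    obtain ⟨c, rfl⟩ := Submodule.mem_span_singleton.1 ha
    rw [map_smul, cob_one, smul_zero]
  | i + 1, a, ha => by
    obtain ⟨g, rfl⟩ := ha
    exact cob_cob i g

variable {d D : ℕ}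

lemma exists_vertex {i : ℕ} (s : {s // s ∈ faces T i}) : ∃ v, v ∈ s.1 := by
  have h := ((mem_faces (T := T)).1 s.2).2
  exact Finset.card_pos.1 (by omega)

lemma wt_cob_single (hT : ∀ t ∈ T, t.card = d + 1)
    (hD : ∀ v : V, (T.filter (fun t => v ∈ t)).card ≤ D) (i : ℕ) (s : {s // s ∈ faces T i}) :
    wt (cob T i (Pi.single s 1)) ≤ D * 2 ^ (d + 1) := by
  obtain ⟨v, hv⟩ := exists_vertex s
  calc wt (cob T i (Pi.single s 1))
      ≤ ((Finset.univ : Finset {u // u ∈ faces T (i + 1)}).filter (fun τ => s.1 ⊆ τ.1)).card := by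
        refine Finset.card_le_card ?_
        intro τ hτ
        simp only [Finset.mem_filter, Finset.mem_univ, true_and] at hτ ⊢
        by_contra h
        apply hτ
        simp only [cob, LinearMap.coe_mk, AddHom.coe_mk]
        refine Finset.sum_eq_zero (fun x _ => ?_)
        by_cases hx : x = s
        · subst hx; simp [h]
        · simp [hx]
    _ ≤ ((T.filter (fun t => v ∈ t)).biUnion Finset.powerset).card := by
        rw [← Finset.card_map (Function.Embedding.subtype _)]
        refine Finset.card_le_card ?_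
        intro u hu
        simp only [Finset.mem_map, Finset.mem_filter, Finset.mem_univ, true_and] at hu
        obtain ⟨⟨u, hu'⟩, hsu, rfl⟩ := hu
        obtain ⟨⟨t, ht, hut⟩, -⟩ := (mem_faces (T := T)).1 hu'
        simp only [Function.Embedding.subtype_apply, Finset.mem_biUnion, Finset.mem_filter,
          Finset.mem_powerset]
        exact ⟨t, ⟨ht, hut (hsu hv)⟩, hut⟩
    _ ≤ ∑ t ∈ T.filter (fun t => v ∈ t), (t.powerset).card := Finset.card_biUnion_le
    _ ≤ ∑ t ∈ T.filter (fun t => v ∈ t), 2 ^ (d + 1) := by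
        refine Finset.sum_le_sum (fun t ht => ?_)
        rw [Finset.card_powerset, hT t (Finset.mem_filter.1 ht).1]
    _ ≤ D * 2 ^ (d + 1) := by
        rw [Finset.sum_const, smul_eq_mul]
        exact Nat.mul_le_mul_right _ (hD v)

lemma unweighted (hD : ∀ v : V, (T.filter (fun t => v ∈ t)).card ≤ D)
    {ε : ℝ} (hε : 0 < ε) (hexp : IsCobExpander T d ε) (K : ℕ)
    (hK : (D : ℝ) * 2 ^ (d + 1) / ε ≤ K) {i : ℕ} (hi : i < d) (f : Coch T i) :
    ∃ a ∈ cobs T i, wt (f - a) ≤ K * wt (cob T i f) := by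
  obtain ⟨⟨a, ha⟩, hmin⟩ := exists_eq_ciInf_of_finite
    (f := fun a : cobs T i => cochNorm T d i (f - a.1))
  refine ⟨a, ha, ?_⟩
  have h : ε * cochNorm T d i (f - a) ≤ cochNorm T d (i + 1) (cob T i f) := by
    have h := hexp i hi f
    rw [distCobs, ← hmin] at h
    exact h
  rcases Nat.eq_zero_or_pos T.card with hT0 | hTpos
  · have hem : faces T i = ∅ := by simp [faces, Finset.card_eq_zero.1 hT0]
    have : IsEmpty {s // s ∈ faces T i} := by rw [hem]; infer_instance
    simp [wt]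
  have hC : ∀ j, j ≤ d → (0 : ℝ) < ((d + 1).choose (j + 1) : ℝ) * (T.card : ℝ) := fun j hj => by
    have := Nat.choose_pos (show j + 1 ≤ d + 1 by omega)
    positivity
  have lo : ∀ g : Coch T i,
      (wt g : ℝ) / (((d + 1).choose (i + 1) : ℝ) * T.card) ≤ cochNorm T d i g := by
    intro g
    rw [wt, Finset.card_filter, Nat.cast_sum, Finset.sum_div]
    refine Finset.sum_le_sum (fun s _ => ?_)
    by_cases hg : g s = 0
    · simp [hg]
    · simp only [hg, if_false, ne_eq, not_false_iff, if_true, faceWeight, Nat.cast_one]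
      gcongr
      obtain ⟨t, ht, hst⟩ := ((mem_faces (T := T)).1 s.2).1
      exact_mod_cast Finset.card_pos.2 ⟨t, Finset.mem_filter.2 ⟨ht, hst⟩⟩
  have hi1 : ∀ g : Coch T (i + 1),
      cochNorm T d (i + 1) g ≤ (D : ℝ) * wt g / (((d + 1).choose (i + 2) : ℝ) * T.card) := by
    intro g
    rw [wt, Finset.card_filter, Nat.cast_sum, Finset.mul_sum, Finset.sum_div]
    refine Finset.sum_le_sum (fun s _ => ?_)
    by_cases hg : g s = 0
    · simp [hg]
    · simp only [hg, if_false, ne_eq, not_false_iff, if_true, faceWeight, Nat.cast_one, mul_one]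
      obtain ⟨v, hv⟩ := exists_vertex s
      gcongr
      exact le_trans (Finset.card_le_card (fun t ht => by
          simp only [Finset.mem_filter] at ht ⊢
          exact ⟨ht.1, ht.2 hv⟩)) (hD v)
  have h2 : ε * ((wt (f - a) : ℝ) / (((d + 1).choose (i + 1) : ℝ) * T.card)) ≤
      (D : ℝ) * wt (cob T i f) / (((d + 1).choose (i + 2) : ℝ) * T.card) :=
    le_trans (mul_le_mul_of_nonneg_left (lo _) hε.le) (h.trans (hi1 _))
  have hA : ((d + 1).choose (i + 1) : ℝ) ≤ 2 ^ (d + 1) := by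
    exact_mod_cast Nat.choose_le_two_pow (d + 1) (i + 1)
  have hB : (1 : ℝ) ≤ ((d + 1).choose (i + 2) : ℝ) := by
    exact_mod_cast Nat.choose_pos (show i + 2 ≤ d + 1 by omega)
  have hN : (0 : ℝ) < T.card := by exact_mod_cast hTpos
  have hA0 : (0 : ℝ) < ((d + 1).choose (i + 1) : ℝ) := by
    exact_mod_cast Nat.choose_pos (show i + 1 ≤ d + 1 by omega)
  have h3 : ε * (wt (f - a) : ℝ) ≤ (D : ℝ) * wt (cob T i f) * 2 ^ (d + 1) := by
    calc ε * (wt (f - a) : ℝ)
        = ε * ((wt (f - a) : ℝ) / (((d + 1).choose (i + 1) : ℝ) * T.card))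
            * (((d + 1).choose (i + 1) : ℝ) * T.card) := by field_simp
      _ ≤ (D : ℝ) * wt (cob T i f) / (((d + 1).choose (i + 2) : ℝ) * T.card)
            * (((d + 1).choose (i + 1) : ℝ) * T.card) := by gcongr
      _ ≤ (D : ℝ) * wt (cob T i f) / (1 * (T.card : ℝ)) * (2 ^ (d + 1) * (T.card : ℝ)) := by
            gcongr
      _ = (D : ℝ) * wt (cob T i f) * 2 ^ (d + 1) := by field_simp
  have h4 : (wt (f - a) : ℝ) ≤ (K : ℝ) * wt (cob T i f) := by
    refine le_trans ?_ (mul_le_mul_of_nonneg_right hK (Nat.cast_nonneg _))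
    rw [div_mul_eq_mul_div, le_div_iff₀ hε]
    linarith
  exact_mod_cast h4

/-- Column bounds of the contraction. -/
def colBound (K M : ℕ) : ℕ → ℕ
  | 0 => K
  | j + 1 => K * (1 + M * colBound K M j)

lemma exists_section (m : ℕ) :
    ∃ sec : (Coch T (m + 1) ⧸ LinearMap.range (cob T m)) →ₗ[ZMod 2] Coch T (m + 1),
      (∀ x, Submodule.Quotient.mk (sec x) = x) ∧ ∀ x, wt (sec x) ≤ topBetti T m := by
  classical
  let q := (LinearMap.range (cob T m)).mkQ
  have hsp : ⊤ ≤ Submodule.span (ZMod 2)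
      (Set.range (fun s : {s // s ∈ faces T (m + 1)} => q (Pi.single s 1))) := by
    have : Set.range (fun s : {s // s ∈ faces T (m + 1)} => q (Pi.single s 1))
        = q '' Set.range (fun s => Pi.basisFun (ZMod 2) _ s) := by
      rw [← Set.range_comp]
      congr 1
      funext s
      simp [Pi.basisFun_apply]
    rw [this, ← Submodule.map_span, (Pi.basisFun (ZMod 2) _).span_eq, Submodule.map_top,
      Submodule.range_mkQ]
  let b0 := Module.Basis.ofSpan hsp
  obtain ⟨e⟩ : Nonempty (_ ≃ Fin (topBetti T m)) :=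
    ⟨b0.indexEquiv (Module.finBasis (ZMod 2) _)⟩
  let b := b0.reindex e
  have hb : ∀ j, ∃ s : {s // s ∈ faces T (m + 1)}, q (Pi.single s 1) = b j := fun j =>
    Module.Basis.ofSpan_subset hsp ⟨e.symm j, (b0.reindex_apply e j).symm⟩
  choose rep hrep using hb
  refine ⟨b.constr (ZMod 2) (fun j => Pi.single (rep j) 1), ?_, ?_⟩
  · have : q ∘ₗ b.constr (ZMod 2) (fun j => Pi.single (rep j) 1) = LinearMap.id :=
      b.ext (fun j => by
        rw [LinearMap.comp_apply, Module.Basis.constr_basis, LinearMap.id_apply]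
        exact hrep j)
    exact fun x => LinearMap.congr_fun this x
  · intro x
    rw [Module.Basis.constr_apply_fintype]
    calc _ ≤ ∑ j, wt (b.equivFun x j • (Pi.single (rep j) 1 : Coch T (m + 1))) := wt_sum_le _ _
      _ ≤ ∑ _j : Fin (topBetti T m), 1 :=
          Finset.sum_le_sum (fun j _ => (wt_smul_le _ _).trans (wt_single _).le)
      _ = topBetti T m := by simp

lemma exists_contraction (m K M : ℕ)
    (hM : ∀ i s, wt (cob T i (Pi.single s 1)) ≤ M)
    (hK : ∀ i, i ≤ m → ∀ f : Coch T i, ∃ a ∈ cobs T i, wt (f - a) ≤ K * wt (cob T i f)) :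
    ∀ j i, i + j = m → ∃ h : Coch T (i + 1) →ₗ[ZMod 2] Coch T i,
      (∀ x, cob T i (h (cob T i x)) = cob T i x) ∧
      ∀ s, wt (h (Pi.single s 1)) ≤ colBound K M j * (topBetti T m + 1) := by
  classical
  intro j
  induction j with
  | zero =>
    intro i hi
    obtain rfl : i = m := by omega
    obtain ⟨sec, hsec, hwt⟩ := exists_section (T := T) i
    let p : Coch T (i + 1) →ₗ[ZMod 2] Coch T (i + 1) :=
      LinearMap.id - sec ∘ₗ (LinearMap.range (cob T i)).mkQ
    have hp : ∀ y, ∃ g, cob T i g = p y ∧ wt g ≤ K * wt (p y) := by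
      intro y
      have : p y ∈ LinearMap.range (cob T i) := by
        rw [← Submodule.Quotient.mk_eq_zero]
        simp only [p, LinearMap.sub_apply, LinearMap.id_apply, LinearMap.coe_comp,
          Function.comp_apply, Submodule.mkQ_apply, Submodule.Quotient.mk_sub, hsec, sub_self]
      obtain ⟨g, hg⟩ := this
      obtain ⟨a, ha, haw⟩ := hK i le_rfl g
      refine ⟨g - a, ?_, ?_⟩
      · rw [map_sub, cob_of_mem_cobs _ _ ha, sub_zero, hg]
      · rw [← hg]; exact haw
    choose G hG hGw using hp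
    let h := (stdB T (i + 1)).constr (ZMod 2)
      (fun s => G (Pi.single s 1))
    have hh : cob T i ∘ₗ h = p := (stdB T (i + 1)).ext (fun s => by
      rw [LinearMap.comp_apply, Module.Basis.constr_basis, hG, stdB_apply])
    refine ⟨h, fun x => ?_, fun s => ?_⟩
    · rw [← LinearMap.comp_apply, hh]
      simp [p, (Submodule.Quotient.mk_eq_zero _).2 (LinearMap.mem_range_self (cob T i) x)]
    · have : h (Pi.single s 1) = G (Pi.single s 1) := by
        simp only [h]
        rw [← stdB_apply T (i + 1) s, Module.Basis.constr_basis, stdB_apply]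
      rw [this]
      refine (hGw _).trans (Nat.mul_le_mul_left _ ?_)
      refine (wt_sub_le _ _).trans ?_
      have h1 : wt (LinearMap.id (R := ZMod 2) (Pi.single s (1 : ZMod 2))) = 1 := wt_single s
      rw [h1]
      have := hwt ((LinearMap.range (cob T i)).mkQ (Pi.single s 1))
      simp only [LinearMap.coe_comp, Function.comp_apply]
      omega
  | succ j ih =>
    intro i hi
    obtain ⟨h', hh', hw'⟩ := ih (i + 1) (by omega)
    let p : Coch T (i + 1) →ₗ[ZMod 2] Coch T (i + 1) :=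
      LinearMap.id - h' ∘ₗ cob T (i + 1)
    have hp : ∀ y, ∃ g, cob T i g = p y ∧ wt g ≤ K * wt (p y) := by
      intro y
      have hz : cob T (i + 1) (p y) = 0 := by
        simp [p, hh']
      obtain ⟨a, ha, haw⟩ := hK (i + 1) (by omega) (p y)
      rw [hz, wt_zero, mul_zero, Nat.le_zero] at haw
      obtain ⟨g, hg⟩ : a ∈ LinearMap.range (cob T i) := ha
      have hg' : cob T i g = p y := by
        rw [hg]; exact (sub_eq_zero.1 (eq_zero_of_wt haw)).symm
      obtain ⟨c, hc, hcw⟩ := hK i (by omega) g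
      refine ⟨g - c, ?_, ?_⟩
      · rw [map_sub, cob_of_mem_cobs _ _ hc, sub_zero, hg']
      · rw [← hg']; exact hcw
    choose G hG hGw using hp
    let h := (stdB T (i + 1)).constr (ZMod 2)
      (fun s => G (Pi.single s 1))
    have hh : cob T i ∘ₗ h = p := (stdB T (i + 1)).ext (fun s => by
      rw [LinearMap.comp_apply, Module.Basis.constr_basis, hG, stdB_apply])
    refine ⟨h, fun x => ?_, fun s => ?_⟩
    · rw [← LinearMap.comp_apply, hh]
      simp [p, cob_cob]
    · have : h (Pi.single s 1) = G (Pi.single s 1) := by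
        simp only [h]
        rw [← stdB_apply T (i + 1) s, Module.Basis.constr_basis, stdB_apply]
      rw [this, colBound]
      refine (hGw _).trans ?_
      rw [mul_assoc K]
      refine Nat.mul_le_mul_left _ ?_
      refine (wt_sub_le _ _).trans ?_
      have h1 : wt (LinearMap.id (R := ZMod 2) (Pi.single s (1 : ZMod 2))) = 1 := wt_single s
      rw [h1]
      simp only [LinearMap.coe_comp, Function.comp_apply]
      have h2 := (wt_map_le h' _ hw' (cob T (i + 1) (Pi.single s 1))).trans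
        (Nat.mul_le_mul_left _ (hM (i + 1) s))
      nlinarith

lemma card_vertices_le (m K M : ℕ)
    (hM : ∀ i s, wt (cob T i (Pi.single s 1)) ≤ M)
    (hK : ∀ i, i ≤ m → ∀ f : Coch T i, ∃ a ∈ cobs T i, wt (f - a) ≤ K * wt (cob T i f)) :
    (faces T 0).card ≤ (1 + M * colBound K M m) * (topBetti T m + 1) := by
  classical
  obtain ⟨h, hh, hw⟩ := exists_contraction m K M hM hK m 0 (by omega)
  by_contra hlt
  rw [not_le] at hlt
  have key : ∀ v, h (cob T 0 (Pi.single v 1)) = Pi.single v 1 := by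
    intro v
    have hz : cob T 0 (Pi.single v 1 - h (cob T 0 (Pi.single v 1))) = 0 := by
      rw [map_sub, hh, sub_self]
    obtain ⟨a, ha, haw⟩ := hK 0 (Nat.zero_le _) (Pi.single v 1 - h (cob T 0 (Pi.single v 1)))
    rw [hz, wt_zero, mul_zero, Nat.le_zero] at haw
    have hza := sub_eq_zero.1 (eq_zero_of_wt haw)
    obtain ⟨c, hc⟩ := Submodule.mem_span_singleton.1 (show a ∈ Submodule.span (ZMod 2)
      {(fun _ => 1 : Coch T 0)} from ha)
    have hsmall : wt (Pi.single v 1 - h (cob T 0 (Pi.single v 1))) < (faces T 0).card := by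
      refine lt_of_le_of_lt ?_ hlt
      refine (wt_sub_le _ _).trans ?_
      rw [wt_single]
      have h2 := (wt_map_le h _ hw (cob T 0 (Pi.single v 1))).trans
        (Nat.mul_le_mul_left _ (hM 0 v))
      nlinarith
    have hc0 : c = 0 := by
      by_contra hne
      rw [hza, ← hc] at hsmall
      refine (lt_irrefl _) (lt_of_le_of_lt ?_ hsmall)
      simp [wt, hne]
    rw [← hc, hc0, zero_smul] at hza
    exact (sub_eq_zero.1 hza).symm
  have hcomp : h ∘ₗ cob T 0 = LinearMap.id := (stdB T 0).ext (fun v => by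
    simp [stdB_apply, key])
  have h10 := LinearMap.congr_fun hcomp (fun _ => 1)
  simp only [LinearMap.coe_comp, Function.comp_apply, cob_one, map_zero, LinearMap.id_apply]
    at h10
  obtain ⟨v, hv⟩ := Finset.card_pos.1 (lt_of_le_of_lt (Nat.zero_le _) hlt)
  exact zero_ne_one (congrFun h10 ⟨v, hv⟩)

/-- Top cohomology of a bounded-degree coboundary expander is linear in the vertex number. -/
theorem top_betti_linear (m D : ℕ) (ε : ℝ) (hε : 0 < ε) :
    ∃ c : ℝ, 0 < c ∧ ∀ (V : Type) [DecidableEq V] (T : Finset (Finset V)),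
      (∀ t ∈ T, t.card = m + 2) → (∀ v : V, (T.filter (fun t => v ∈ t)).card ≤ D) →
      IsCobExpander T (m + 1) ε →
      c * ((faces T 0).card : ℝ) ≤ (topBetti T m : ℝ) + 1 := by
  obtain ⟨K, hKdef⟩ : ∃ K : ℕ, (D : ℝ) * 2 ^ (m + 1 + 1) / ε ≤ K := exists_nat_ge _
  obtain ⟨B, hB⟩ : ∃ B : ℕ, B = 1 + D * 2 ^ (m + 1 + 1) * colBound K (D * 2 ^ (m + 1 + 1)) m :=
    ⟨_, rfl⟩
  have hBpos : (0 : ℝ) < B := by
    have : 0 < B := by omega
    exact_mod_cast this
  refine ⟨1 / (B : ℝ), by positivity, ?_⟩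
  intro V _ T hT hD hexp
  have h := card_vertices_le m K (D * 2 ^ (m + 1 + 1))
    (fun i s => wt_cob_single (d := m + 1) hT hD i s)
    (fun i hi f => unweighted hD hε hexp K hKdef (Nat.lt_succ_of_le hi) f)
  rw [← hB] at h
  rw [one_div, inv_mul_le_iff₀ hBpos]
  exact_mod_cast h

end Vale.Agent.P067
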